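import Vale.Agent.P230.MathlibUsed

set_option linter.all false

section

section

section

namespace Vale.Agent.P230

open Filter Topology

namespace Num1

theorem pow_rho_le {ρ N : ℕ} (h : 100 * ρ ≤ N) {a b : ℝ} (ha : 0 ≤ a) (hb : 1 ≤ b)
    (hab : a ≤ b ^ 100) : a ^ ρ ≤ b ^ N := by
  calc a ^ ρ ≤ (b ^ 100) ^ ρ := pow_le_pow_left₀ ha hab ρ
    _ = b ^ (100 * ρ) := by rw [pow_mul]
    _ ≤ b ^ N := pow_le_pow_right₀ hb h

theorem exp_half_le : Real.exp (1 / 2) ≤ 2 := by
  have h1 : Real.exp (1 / 2) ^ 2 = Real.exp 1 := by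
    rw [← Real.exp_nat_mul]
    (clear * -; norm_num)
  have h2 := Real.exp_one_lt_d9
  have h3 := Real.exp_pos (1 / 2)
  by_contra hlt
  push Not at hlt
  nlinarith only [h1, h2, hlt]

theorem exp_two_le : Real.exp 2 ≤ 8 := by
  have h1 : Real.exp 1 ^ 2 = Real.exp 2 := by
    rw [← Real.exp_nat_mul]
    norm_num
  have h2 := Real.exp_one_lt_d9
  have h3 := Real.exp_pos 1
  rw [← h1]
  nlinarith only [h2, h3]

/-- first term -/
theorem term1 {N ρ : ℕ} (hN : 10000 ≤ N) {lam : ℝ} (hl : (N : ℝ) ^ 5 ≤ lam)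
    (hρ : 100 * ρ ≤ N) :
    3 ^ ρ * ((19/20 : ℝ) ^ N * ((lam + 3 * (N:ℝ)^3) / (lam - (N:ℝ)^3)) ^ (3 * N)) ≤
      2 * (961 / 1000 : ℝ) ^ N := by
  have hNr : (10000 : ℝ) ≤ N := by exact_mod_cast hN
  have hN0 : (0 : ℝ) < N := by linarith only [hNr]
  have hpos : 0 < lam - (N : ℝ) ^ 3 := by
    have : (N : ℝ) ^ 3 < (N : ℝ) ^ 5 := pow_lt_pow_right₀ (by linarith only [hNr]) (by norm_num)
    linarith only [hl, this]
  have hlam : 0 < lam := by
    have : 0 < (N : ℝ) ^ 3 := by positivity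
    linarith only [hpos, this]
  have h1 : (lam + 3 * (N:ℝ)^3) / (lam - (N:ℝ)^3) ≤ 8 / (N : ℝ) ^ 2 + 1 := by
    rw [div_le_iff₀ hpos]
    have h2 : 8 * (N : ℝ) ^ 3 ≤ 8 / (N : ℝ) ^ 2 * lam := by
      have : 8 / (N : ℝ) ^ 2 * (N : ℝ) ^ 5 ≤ 8 / (N : ℝ) ^ 2 * lam :=
        mul_le_mul_of_nonneg_left hl (by positivity)
      have e : 8 / (N : ℝ) ^ 2 * (N : ℝ) ^ 5 = 8 * (N : ℝ) ^ 3 := by
        field_simp
      linarith only [this, e]
    have h3 : 8 / (N : ℝ) ^ 2 * (N : ℝ) ^ 3 = 8 * N := by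
      field_simp
    have h4 : 8 * (N : ℝ) ≤ 4 * (N : ℝ) ^ 3 := by
      have : (N : ℝ) ^ 3 = N * (N * N) := by ring
      have h5 : (10000 : ℝ) * 10000 ≤ N * N := by nlinarith only [hNr]
      nlinarith only [h5]
    linarith
  have h5 : ((lam + 3 * (N:ℝ)^3) / (lam - (N:ℝ)^3)) ^ (3 * N) ≤ 2 := by
    calc ((lam + 3 * (N:ℝ)^3) / (lam - (N:ℝ)^3)) ^ (3 * N)
        ≤ (8 / (N : ℝ) ^ 2 + 1) ^ (3 * N) := pow_le_pow_left₀ (by positivity) h1 _
      _ ≤ (Real.exp (8 / (N : ℝ) ^ 2)) ^ (3 * N) :=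
        pow_le_pow_left₀ (by positivity) (Real.add_one_le_exp _) _
      _ = Real.exp (24 / N) := by
        rw [← Real.exp_nat_mul]
        congr 1
        push_cast
        field_simp
        norm_num
      _ ≤ Real.exp (1 / 2) := by
        apply Real.exp_le_exp.2
        rw [div_le_iff₀ hN0]
        linarith only [hNr]
      _ ≤ 2 := exp_half_le
  have h6 : (3 : ℝ) ^ ρ ≤ (10111 / 10000 : ℝ) ^ N :=
    pow_rho_le hρ (by norm_num) (by norm_num) (by norm_num)
  calc 3 ^ ρ * ((19/20 : ℝ) ^ N * ((lam + 3 * (N:ℝ)^3) / (lam - (N:ℝ)^3)) ^ (3 * N))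
      ≤ (10111 / 10000 : ℝ) ^ N * ((19/20 : ℝ) ^ N * 2) := by
        apply mul_le_mul h6 _ (by (clear * - hlam hN hpos; positivity)) (by positivity)
        exact mul_le_mul_of_nonneg_left h5 (by positivity)
    _ = 2 * ((10111 / 10000 * (19 / 20) : ℝ)) ^ N := by
        rw [mul_pow]
        ring
    _ ≤ 2 * (961 / 1000 : ℝ) ^ N := by
        apply mul_le_mul_of_nonneg_left _ (by norm_num)
        exact pow_le_pow_left₀ (by norm_num) (by norm_num) _

/-- terms of small height -/
theorem term2a {N ρ H : ℕ} (hN : 10000 ≤ N) {lam : ℝ} (hl : (N : ℝ) ^ 5 ≤ lam)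
    (hρ : 100 * ρ ≤ N) (hH2 : 2 ≤ H) (hHN : H ≤ N) :
    ((H * (2 * H + 1) : ℕ) : ℝ) ^ ρ
        * ((lam + H * (N:ℝ)^3) / (H * (lam - (N:ℝ)^3))) ^ N ≤ 8 * (515 / 1000 : ℝ) ^ N := by
  have hNr : (10000 : ℝ) ≤ N := by exact_mod_cast hN
  have hN0 : (0 : ℝ) < N := by linarith only [hNr]
  have hHr : (2 : ℝ) ≤ H := by exact_mod_cast hH2
  have hHNr : (H : ℝ) ≤ N := by exact_mod_cast hHN
  have hH0 : (0 : ℝ) < H := by linarith only [hHr]
  have hpos : 0 < lam - (N : ℝ) ^ 3 := by
    have : (N : ℝ) ^ 3 < (N : ℝ) ^ 5 := pow_lt_pow_right₀ (by linarith only [hNr]) (by norm_num)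
    linarith only [hl, this]
  have hlam : 0 < lam := by
    have : 0 < (N : ℝ) ^ 3 := by positivity
    linarith only [hpos, this]
  have h1 : (lam + H * (N:ℝ)^3) / (H * (lam - (N:ℝ)^3)) ≤ (1 / H) * (2 / N + 1) := by
    rw [div_le_iff₀ (by (clear * - hH2 hpos; positivity))]
    have e : 1 / (H : ℝ) * (2 / N + 1) * (H * (lam - (N : ℝ) ^ 3)) =
        (2 / N + 1) * (lam - (N : ℝ) ^ 3) := by
      field_simp
    rw [e]
    have h2 : 2 * (N : ℝ) ^ 4 ≤ 2 / N * lam := by
      have : 2 / (N : ℝ) * (N : ℝ) ^ 5 ≤ 2 / N * lam :=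
        mul_le_mul_of_nonneg_left hl (by positivity)
      have e : 2 / (N : ℝ) * (N : ℝ) ^ 5 = 2 * (N : ℝ) ^ 4 := by
        field_simp
      linarith only [this, e]
    have h3 : 2 / (N : ℝ) * (N : ℝ) ^ 3 = 2 * (N : ℝ) ^ 2 := by
      field_simp
    have h4 : (H : ℝ) * (N : ℝ) ^ 3 ≤ (N : ℝ) ^ 4 := by
      have : (H : ℝ) * (N : ℝ) ^ 3 ≤ N * (N : ℝ) ^ 3 :=
        mul_le_mul_of_nonneg_right hHNr (by positivity)
      have e : (N : ℝ) * (N : ℝ) ^ 3 = (N : ℝ) ^ 4 := by ring
      linarith only [this]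
    have h5 : (N : ℝ) ^ 3 + 2 * (N : ℝ) ^ 2 ≤ (N : ℝ) ^ 4 := by
      have e1 : (N : ℝ) ^ 4 = (N : ℝ) ^ 2 * ((N : ℝ) * N) := by ring
      have e2 : (N : ℝ) ^ 3 = (N : ℝ) ^ 2 * N := by ring
      rw [e1, e2]
      have : (N : ℝ) + 2 ≤ N * N := by (by_contra nlg; linarith only [nlg, mul_nonneg (sub_nonneg.2 hNr) (sub_nonneg.2 hNr), mul_nonneg (le_of_lt (sub_pos.2 (not_le.1 nlg))) (sub_nonneg.2 hNr), mul_nonneg (mul_self_nonneg (↑N : ℝ)) (sub_nonneg.2 hNr)])
      have h0 : 0 ≤ (N : ℝ) ^ 2 := by positivity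
      linarith only [mul_nonneg (sq_nonneg (↑N : ℝ)) (sub_nonneg.2 this)]
    linarith only [h5, h4, h3, h2]
  have h5 : (2 / (N : ℝ) + 1) ^ N ≤ 8 := by
    calc (2 / (N : ℝ) + 1) ^ N ≤ (Real.exp (2 / N)) ^ N :=
          pow_le_pow_left₀ (by positivity) (Real.add_one_le_exp _) _
      _ = Real.exp 2 := by
        rw [← Real.exp_nat_mul]
        congr 1
        field_simp
      _ ≤ 8 := exp_two_le
  have h6 : ((H * (2 * H + 1) : ℕ) : ℝ) ^ ρ ≤ (H : ℝ) ^ (4 * ρ) := by
    rw [pow_mul]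
    apply pow_le_pow_left₀ (by positivity)
    push_cast
    have e : (H : ℝ) ^ 4 = (H * H) * (H * H) := by ring
    rw [e]
    have : (4 : ℝ) ≤ H * H := by (by_contra nlg; linarith only [nlg, mul_nonneg (sub_nonneg.2 hHr) (sub_nonneg.2 hHr), mul_nonneg (le_of_lt (sub_pos.2 (not_le.1 nlg))) (sub_nonneg.2 hHr), mul_pos (sub_pos.2 (not_le.1 nlg)) (sub_pos.2 (not_le.1 nlg)), mul_nonneg (mul_self_nonneg (↑H : ℝ)) (sub_nonneg.2 hHr), mul_nonneg (mul_self_nonneg (↑H : ℝ)) (le_of_lt (sub_pos.2 (not_le.1 nlg)))])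
    have h7 : (H : ℝ) * (2 * H + 1) ≤ 3 * (H * H) := by nlinarith only [hHr]
    nlinarith only [this, h7]
  have h4ρ : 4 * ρ ≤ N := by (clear * - hρ; omega)
  have h7 : (H : ℝ) ^ (4 * ρ) * (1 / (H : ℝ)) ^ N = (1 / (H : ℝ)) ^ (N - 4 * ρ) := by
    have e : (1 / (H : ℝ)) ^ N = (1 / (H : ℝ)) ^ (4 * ρ) * (1 / (H : ℝ)) ^ (N - 4 * ρ) := by
      rw [← pow_add]
      congr 1
      omega
    rw [e, ← mul_assoc, ← mul_pow, mul_one_div_cancel hH0.ne', one_pow, one_mul]
  have h8 : (1 / (H : ℝ)) ^ (N - 4 * ρ) ≤ (1 / 2 : ℝ) ^ (N - 4 * ρ) := by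
    apply pow_le_pow_left₀ (by positivity)
    exact one_div_le_one_div_of_le (by norm_num) hHr
  have h9 : (1 / 2 : ℝ) ^ (N - 4 * ρ) = (16 : ℝ) ^ ρ * (1 / 2) ^ N := by
    have e : (1 / 2 : ℝ) ^ N = (1 / 2 : ℝ) ^ (4 * ρ) * (1 / 2) ^ (N - 4 * ρ) := by
      rw [← pow_add]
      congr 1
      omega
    rw [e, pow_mul, ← mul_assoc, ← mul_pow]
    (clear * -; norm_num)
  have h10 : (16 : ℝ) ^ ρ ≤ (103 / 100 : ℝ) ^ N :=
    pow_rho_le hρ (by norm_num) (by norm_num) (by norm_num)
  calc ((H * (2 * H + 1) : ℕ) : ℝ) ^ ρ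
        * ((lam + H * (N:ℝ)^3) / (H * (lam - (N:ℝ)^3))) ^ N
      ≤ (H : ℝ) ^ (4 * ρ) * ((1 / H) * (2 / N + 1)) ^ N := by
        apply mul_le_mul h6 _ (by (clear * - hlam hH2 hN hpos; positivity)) (by positivity)
        exact pow_le_pow_left₀ (by positivity) h1 _
    _ = ((H : ℝ) ^ (4 * ρ) * (1 / (H : ℝ)) ^ N) * (2 / (N : ℝ) + 1) ^ N := by
        rw [mul_pow]
        ring
    _ ≤ ((16 : ℝ) ^ ρ * (1 / 2) ^ N) * 8 := by
        rw [h7]
        apply mul_le_mul (by rw [← h9]; exact h8) h5 (by positivity) (by positivity)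
    _ ≤ ((103 / 100 : ℝ) ^ N * (1 / 2) ^ N) * 8 := by
        apply mul_le_mul_of_nonneg_right _ (by norm_num)
        exact mul_le_mul_of_nonneg_right h10 (by positivity)
    _ = 8 * (515 / 1000 : ℝ) ^ N := by
        rw [← mul_pow]
        norm_num [mul_comm]

theorem sqrt_pow_le {N ρ : ℕ} (hN : 10000 ≤ N) (hρ : 100 * ρ ≤ N) :
    ((N : ℝ) ^ 13) ^ ρ ≤ (Real.sqrt N) ^ N := by
  have hNr : (10000 : ℝ) ≤ N := by exact_mod_cast hN
  have h1 : (N : ℝ) ^ 13 = (Real.sqrt N) ^ 26 := by
    have : (Real.sqrt N) ^ 2 = N := Real.sq_sqrt (by linarith only [])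
    calc (N : ℝ) ^ 13 = ((Real.sqrt N) ^ 2) ^ 13 := by rw [this]
      _ = (Real.sqrt N) ^ 26 := by rw [← pow_mul]
  rw [h1, ← pow_mul]
  apply pow_le_pow_right₀
  · rw [Real.one_le_sqrt]
    linarith only [hNr]
  · omega

theorem sqrt_mul_two_div {N : ℕ} (hN : 10000 ≤ N) :
    Real.sqrt N * (2 / N) ≤ 1 / 50 := by
  have hNr : (10000 : ℝ) ≤ N := by exact_mod_cast hN
  have hN0 : (0 : ℝ) < N := by linarith only [hNr]
  have hs : 100 ≤ Real.sqrt N := by
    rw [show (100 : ℝ) = Real.sqrt 10000 by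
      rw [show (10000 : ℝ) = 100 ^ 2 by norm_num, Real.sqrt_sq (by norm_num)]]
    exact Real.sqrt_le_sqrt hNr
  have h1 : (Real.sqrt N) * (Real.sqrt N) = N := Real.mul_self_sqrt hN0.le
  rw [mul_div_assoc', div_le_iff₀ hN0]
  nlinarith only [h1, hs]

/-- terms of large height -/
theorem term2b {N ρ H : ℕ} (hN : 10000 ≤ N) {lam : ℝ} (hl : (N : ℝ) ^ 5 ≤ lam)
    (hρ : 100 * ρ ≤ N) (hHN : N ≤ H) (hH : (H : ℝ) ≤ 4 * (N : ℝ) ^ 6) :
    ((H * (2 * H + 1) : ℕ) : ℝ) ^ ρ
        * ((lam + H * (N:ℝ)^3) / (H * (lam - (N:ℝ)^3))) ^ N ≤ (1 / 50 : ℝ) ^ N := by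
  have hNr : (10000 : ℝ) ≤ N := by exact_mod_cast hN
  have hN0 : (0 : ℝ) < N := by (clear * - hNr; linarith)
  have hHNr : (N : ℝ) ≤ H := by exact_mod_cast hHN
  have hH0 : (0 : ℝ) < H := by linarith only [hNr, hHNr]
  have hpos : 0 < lam - (N : ℝ) ^ 3 := by
    have : (N : ℝ) ^ 3 < (N : ℝ) ^ 5 := pow_lt_pow_right₀ (by linarith only [hNr]) (by norm_num)
    linarith only [hl, this]
  have hlam : 0 < lam := by
    have : 0 < (N : ℝ) ^ 3 := by positivity
    linarith only [hpos, this]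
  have h1 : (lam + H * (N:ℝ)^3) / (H * (lam - (N:ℝ)^3)) ≤ 2 / N := by
    rw [div_le_div_iff₀ (by (clear * - hH0 hpos; positivity)) hN0]
    have h2 : (N : ℝ) ^ 4 * 10000 ≤ lam := by
      have : (N : ℝ) ^ 4 * 10000 ≤ (N : ℝ) ^ 4 * N :=
        mul_le_mul_of_nonneg_left hNr (by positivity)
      have e : (N : ℝ) ^ 4 * N = (N : ℝ) ^ 5 := by ring
      linarith only [hl, this]
    have h3 : lam * N ≤ lam * H := mul_le_mul_of_nonneg_left hHNr hlam.le
    have h4 : (H : ℝ) * (N : ℝ) ^ 4 * 10000 ≤ H * lam := by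
      have := mul_le_mul_of_nonneg_left h2 hH0.le
      linarith only [this]
    have h5 : (H : ℝ) * (N : ℝ) ^ 3 ≤ H * (N : ℝ) ^ 4 := by
      apply mul_le_mul_of_nonneg_left _ hH0.le
      exact pow_le_pow_right₀ (by linarith only [hNr]) (by norm_num)
    have e1 : (lam + H * (N:ℝ)^3) * N = lam * N + H * (N : ℝ) ^ 4 := by ring
    have e2 : 2 * (H * (lam - (N:ℝ)^3)) = 2 * (H * lam) - 2 * (H * (N : ℝ) ^ 3) := by ring
    have h6 : 0 ≤ (H : ℝ) * (N : ℝ) ^ 4 := by (clear * - hH0 hN; positivity)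
    rw [e1, e2]
    linarith only [h6, h5, h4, h3]
  have h2 : ((H * (2 * H + 1) : ℕ) : ℝ) ≤ (N : ℝ) ^ 13 := by
    push_cast
    have a1 : (H : ℝ) * (2 * H + 1) ≤ 3 * (H * H) := by nlinarith only [hNr, hHNr]
    have a2 : (H : ℝ) * H ≤ (4 * (N : ℝ) ^ 6) * (4 * (N : ℝ) ^ 6) :=
      mul_le_mul hH hH hH0.le (by positivity)
    have a3 : 3 * ((4 * (N : ℝ) ^ 6) * (4 * (N : ℝ) ^ 6)) = 48 * (N : ℝ) ^ 12 := by ring
    have a4 : 48 * (N : ℝ) ^ 12 ≤ N * (N : ℝ) ^ 12 :=
      mul_le_mul_of_nonneg_right (by linarith only [hNr]) (by positivity)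
    have a5 : N * (N : ℝ) ^ 12 = (N : ℝ) ^ 13 := by ring
    linarith only [a1, a2, a4]
  calc ((H * (2 * H + 1) : ℕ) : ℝ) ^ ρ
        * ((lam + H * (N:ℝ)^3) / (H * (lam - (N:ℝ)^3))) ^ N
      ≤ ((N : ℝ) ^ 13) ^ ρ * (2 / N) ^ N := by
        apply mul_le_mul (pow_le_pow_left₀ (by (clear * -; positivity)) h2 _) _ (by (clear * - hlam hH0 hN hpos; positivity))
          (by positivity)
        exact pow_le_pow_left₀ (by positivity) h1 _
    _ ≤ (Real.sqrt N) ^ N * (2 / N) ^ N :=
        mul_le_mul_of_nonneg_right (sqrt_pow_le hN hρ) (by positivity)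
    _ = (Real.sqrt N * (2 / N)) ^ N := by rw [mul_pow]
    _ ≤ (1 / 50 : ℝ) ^ N := pow_le_pow_left₀ (by positivity) (sqrt_mul_two_div hN) _

/-- last term -/
theorem term3 {N ρ l : ℕ} (hN : 10000 ≤ N) {lam : ℝ} (hl : (N : ℝ) ^ 5 ≤ lam)
    (hl6 : lam ≤ (N : ℝ) ^ 6)
    (hρ : 100 * ρ ≤ N) (hll : (l : ℝ) ≤ 64 * lam ^ 2) {s : ℝ}
    (hs : ((lam - (N:ℝ)^3) / (N:ℝ)^3)^N ≤ s) :
    (l : ℝ) ^ ρ * (1 / s) ≤ (1 / 50 : ℝ) ^ N := by
  have hNr : (10000 : ℝ) ≤ N := by exact_mod_cast hN
  have hN0 : (0 : ℝ) < N := by linarith only [hNr]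
  have hlam : 0 < lam := lt_of_lt_of_le (by positivity) hl
  have h1 : (N : ℝ) / 2 ≤ (lam - (N:ℝ)^3) / (N:ℝ)^3 := by
    rw [le_div_iff₀ (by positivity)]
    have e : (N : ℝ) / 2 * (N : ℝ) ^ 3 = (N : ℝ) ^ 4 / 2 := by ring
    rw [e]
    have a1 : (N : ℝ) ^ 3 ≤ (N : ℝ) ^ 4 := pow_le_pow_right₀ (by linarith only [hNr]) (by norm_num)
    have a2 : (N : ℝ) ^ 4 * 10000 ≤ (N : ℝ) ^ 4 * N :=
      mul_le_mul_of_nonneg_left hNr (by positivity)
    have a3 : (N : ℝ) ^ 4 * N = (N : ℝ) ^ 5 := by ring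
    have a4 : 0 ≤ (N : ℝ) ^ 4 := by positivity
    linarith only [hl, hlam, a1, a2]
  have h2 : ((N : ℝ) / 2) ^ N ≤ s :=
    (pow_le_pow_left₀ (by positivity) h1 _).trans hs
  have h3 : 1 / s ≤ (2 / (N : ℝ)) ^ N := by
    have : (2 / (N : ℝ)) ^ N = 1 / ((N : ℝ) / 2) ^ N := by
      rw [← one_div_pow]
      congr 1
      field_simp
    rw [this]
    exact one_div_le_one_div_of_le (by positivity) h2
  have h4 : (l : ℝ) ≤ (N : ℝ) ^ 13 := by
    have a2 : lam ^ 2 ≤ ((N : ℝ) ^ 6) ^ 2 := pow_le_pow_left₀ hlam.le hl6 2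
    have a3 : ((N : ℝ) ^ 6) ^ 2 = (N : ℝ) ^ 12 := by ring
    have a4 : 64 * (N : ℝ) ^ 12 ≤ N * (N : ℝ) ^ 12 :=
      mul_le_mul_of_nonneg_right (by linarith only [hNr]) (by positivity)
    have a5 : N * (N : ℝ) ^ 12 = (N : ℝ) ^ 13 := by ring
    linarith only [hll, a2, a4]
  have hs0 : 0 < s := lt_of_lt_of_le (by positivity) h2
  calc (l : ℝ) ^ ρ * (1 / s) ≤ ((N : ℝ) ^ 13) ^ ρ * (2 / N) ^ N := by
        apply mul_le_mul (pow_le_pow_left₀ (by (clear * -; positivity)) h4 _) h3 (by positivity)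
          (by positivity)
    _ ≤ (Real.sqrt N) ^ N * (2 / N) ^ N :=
        mul_le_mul_of_nonneg_right (sqrt_pow_le hN hρ) (by positivity)
    _ = (Real.sqrt N * (2 / N)) ^ N := by rw [mul_pow]
    _ ≤ (1 / 50 : ℝ) ^ N := pow_le_pow_left₀ (by positivity) (sqrt_mul_two_div hN) _

/-- asymptotics -/
theorem eventually_small : ∀ᶠ N : ℕ in atTop,
    2 * (961 / 1000 : ℝ) ^ N + (N * (8 * (515 / 1000 : ℝ) ^ N)
      + (4 * (N : ℝ) ^ 6) * (1 / 50 : ℝ) ^ N) + (1 / 50 : ℝ) ^ N ≤ (99 / 100 : ℝ) ^ N := by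
  have key : ∀ (k : ℕ) (r : ℝ), 0 ≤ r → r < 99 / 100 → ∀ c : ℝ, 0 < c →
      ∀ᶠ N : ℕ in atTop, (N : ℝ) ^ k * r ^ N ≤ c * (99 / 100 : ℝ) ^ N := by
    intro k r hr0 hr c hc
    have h1 : |r / (99 / 100)| < 1 := by
      rw [abs_of_nonneg (by positivity), div_lt_one (by (clear * -; norm_num))]
      exact hr
    have h2 := tendsto_pow_const_mul_const_pow_of_abs_lt_one k h1
    filter_upwards [h2.eventually (gt_mem_nhds hc)] with N hN
    rw [div_pow, mul_div_assoc', div_lt_iff₀ (by positivity)] at hN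
    exact hN.le
  filter_upwards [key 0 (961 / 1000) (by norm_num) (by norm_num) (1 / 8) (by norm_num),
    key 1 (515 / 1000) (by norm_num) (by norm_num) (1 / 32) (by norm_num),
    key 6 (1 / 50) (by norm_num) (by norm_num) (1 / 16) (by norm_num),
    key 0 (1 / 50) (by norm_num) (by norm_num) (1 / 4) (by norm_num)] with N h1 h2 h3 h4
  simp only [pow_zero, pow_one, one_mul] at h1 h2 h3 h4
  linarith only [h4, h2, h1, h3]

end Num1

open Num1 in
theorem num_w : ∃ N₀ : ℕ, ∀ N : ℕ, N₀ ≤ N → ∀ lam : ℝ, (N:ℝ)^5 ≤ lam → lam ≤ (N:ℝ)^6 →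
    ∀ ρ : ℕ, 100 * ρ ≤ N → ∀ l Y' : ℕ, (Y' : ℝ) ≤ 2 * lam → (l : ℝ) ≤ 64 * lam^2 →
    ∀ s : ℝ, ((lam - (N:ℝ)^3) / (N:ℝ)^3)^N ≤ s →
    3 ^ ρ * ((19/20 : ℝ) ^ N * ((lam + 3 * (N:ℝ)^3) / (lam - (N:ℝ)^3)) ^ (3 * N))
    + (∑ H ∈ Finset.Icc 2 (2 * Y'), ((H * (2 * H + 1) : ℕ) : ℝ) ^ ρ
        * ((lam + H * (N:ℝ)^3) / (H * (lam - (N:ℝ)^3))) ^ N)
    + (l : ℝ) ^ ρ * (1 / s) ≤ (99/100 : ℝ) ^ N := by
  obtain ⟨N₁, hN₁⟩ := Filter.eventually_atTop.1 eventually_small
  refine ⟨max N₁ 10000, ?_⟩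
  intro N hN lam hl hl6 ρ hρ l Y' hY hll s hs
  have hN1 : N₁ ≤ N := (le_max_left _ _).trans hN
  have hN2 : 10000 ≤ N := (le_max_right _ _).trans hN
  refine le_trans ?_ (hN₁ N hN1)
  refine add_le_add (add_le_add (term1 hN2 hl hρ) ?_) (term3 hN2 hl hl6 hρ hll hs)
  have hNr : (10000 : ℝ) ≤ N := by exact_mod_cast hN2
  have hsub : Finset.Icc 2 (2 * Y') ⊆ Finset.Icc 2 N ∪ (Finset.Ioc N (2 * Y')) := by
    intro H hH
    rw [Finset.mem_Icc] at hH
    rw [Finset.mem_union, Finset.mem_Icc, Finset.mem_Ioc]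
    omega
  have hpos : 0 < lam - (N : ℝ) ^ 3 := by
    have : (N : ℝ) ^ 3 < (N : ℝ) ^ 5 := pow_lt_pow_right₀ (by linarith only [hNr]) (by norm_num)
    linarith only [hl, this]
  have hlam : 0 < lam := by
    have : 0 < (N : ℝ) ^ 3 := by positivity
    linarith only [hpos, this]
  have hY4 : ((2 * Y' : ℕ) : ℝ) ≤ 4 * (N : ℝ) ^ 6 := by
    push_cast
    linarith only [hl6, hY]
  refine (Finset.sum_le_sum_of_subset_of_nonneg hsub fun H _ _ => by (clear * - hlam hN2 hpos; positivity)).trans ?_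
  have hdisj : Disjoint (Finset.Icc 2 N) (Finset.Ioc N (2 * Y')) := by
    rw [Finset.disjoint_left]
    intro H h1 h2
    rw [Finset.mem_Icc] at h1
    rw [Finset.mem_Ioc] at h2
    (clear * - h1 h2; omega)
  rw [Finset.sum_union hdisj]
  apply add_le_add
  · refine (Finset.sum_le_card_nsmul _ _ _ fun H hH => term2a hN2 hl hρ
      (Finset.mem_Icc.1 hH).1 (Finset.mem_Icc.1 hH).2).trans ?_
    rw [nsmul_eq_mul]
    apply mul_le_mul_of_nonneg_right _ (by (clear * -; positivity))
    rw [Nat.card_Icc]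
    exact_mod_cast (by (clear * - hN2; omega) : N + 1 - 2 ≤ N)
  · refine (Finset.sum_le_card_nsmul _ _ _ fun H hH => term2b hN2 hl hρ
      (Finset.mem_Ioc.1 hH).1.le ?_).trans ?_
    · refine le_trans ?_ hY4
      exact_mod_cast (Finset.mem_Ioc.1 hH).2
    · rw [nsmul_eq_mul]
      apply mul_le_mul_of_nonneg_right _ (by positivity)
      rw [Nat.card_Ioc]
      refine le_trans ?_ hY4
      exact_mod_cast Nat.sub_le _ _

end Vale.Agent.P230
end
end
end

section

section

/-!
# P230 / TL / Prob : finite product of Bernoulli variables (helper602)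

Random subset `S` of a finite set `T`, `t ∈ S` with probability `p t`, independently.
`Ex p f = E f(S)`, `Pr p A = P(A S)`; Harris' inequality, independence, resampling
(= conditioning on `S ∩ I`), exponential moments, second moment method.
-/

open Finset

namespace P230.TL

variable {T : Type*} [Fintype T] [DecidableEq T]

/-- weight of the subset `S` -/
noncomputable def wt (p : T → ℝ) (S : Finset T) : ℝ := ∏ t, if t ∈ S then p t else 1 - p t

/-- expectation -/
noncomputable def Ex (p : T → ℝ) (f : Finset T → ℝ) : ℝ := ∑ S, wt p S * f S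

open Classical in
/-- indicator function -/
noncomputable def ind (A : Finset T → Prop) (S : Finset T) : ℝ := if A S then 1 else 0

/-- probability -/
noncomputable def Pr (p : T → ℝ) (A : Finset T → Prop) : ℝ := Ex p (ind A)

/-- admissible probabilities -/
def IsP (p : T → ℝ) : Prop := ∀ t, 0 ≤ p t ∧ p t ≤ 1

omit [Fintype T] [DecidableEq T] in
theorem ind_nonneg (A : Finset T → Prop) (S : Finset T) : 0 ≤ ind A S := by
  unfold ind; split_ifs <;> norm_num

omit [Fintype T] [DecidableEq T] in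
theorem ind_le_one (A : Finset T → Prop) (S : Finset T) : ind A S ≤ 1 := by
  unfold ind; split_ifs <;> norm_num

omit [Fintype T] [DecidableEq T] in
theorem ind_true {A : Finset T → Prop} {S : Finset T} (h : A S) : ind A S = 1 := by
  simp [ind, h]

omit [Fintype T] [DecidableEq T] in
theorem ind_false {A : Finset T → Prop} {S : Finset T} (h : ¬ A S) : ind A S = 0 := by
  simp [ind, h]

omit [Fintype T] [DecidableEq T] in
theorem ind_and (A B : Finset T → Prop) (S : Finset T) :
    ind (fun S => A S ∧ B S) S = ind A S * ind B S := by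
  by_cases h1 : A S <;> by_cases h2 : B S <;> simp [ind, h1, h2]

omit [Fintype T] [DecidableEq T] in
theorem ind_not (A : Finset T → Prop) (S : Finset T) :
    ind (fun S => ¬ A S) S = 1 - ind A S := by
  by_cases h1 : A S <;> simp [ind, h1]

/-- the product formula -/
theorem sum_prod_ite (a b : T → ℝ) :
    ∑ S : Finset T, ∏ t, (if t ∈ S then a t else b t) = ∏ t, (a t + b t) := by
  rw [Finset.prod_add, Finset.powerset_univ]
  refine Finset.sum_congr rfl fun S _ => ?_
  rw [Finset.prod_ite]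
  congr 1
  · exact Finset.prod_congr (by ext; simp only [subset_univ, filter_mem_eq_of_subset]) fun _ _ => rfl
  · exact Finset.prod_congr (by ext; simp only [mem_filter, mem_univ, true_and, mem_sdiff]) fun _ _ => rfl

variable {p : T → ℝ}

theorem wt_nonneg (hp : IsP p) (S : Finset T) : 0 ≤ wt p S := by
  apply Finset.prod_nonneg
  intro t _
  split_ifs
  · exact (hp t).1
  · linarith only [(hp t).2]

theorem sum_wt (p : T → ℝ) : ∑ S, wt p S = 1 := by
  unfold wt
  rw [sum_prod_ite]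
  simp only [add_sub_cancel, prod_const_one]

theorem Ex_const (c : ℝ) : Ex p (fun _ => c) = c := by
  unfold Ex
  rw [← Finset.sum_mul, sum_wt, one_mul]

theorem Ex_sub (f g : Finset T → ℝ) : Ex p (fun S => f S - g S) = Ex p f - Ex p g := by
  unfold Ex
  rw [← Finset.sum_sub_distrib]
  exact Finset.sum_congr rfl fun S _ => by ring

theorem Ex_mul_left (c : ℝ) (f : Finset T → ℝ) : Ex p (fun S => c * f S) = c * Ex p f := by
  unfold Ex
  rw [Finset.mul_sum]
  exact Finset.sum_congr rfl fun S _ => by ring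

theorem Ex_sum {ι : Type*} (s : Finset ι) (f : ι → Finset T → ℝ) :
    Ex p (fun S => ∑ i ∈ s, f i S) = ∑ i ∈ s, Ex p (f i) := by
  unfold Ex
  simp only [Finset.mul_sum]
  rw [Finset.sum_comm]

theorem Ex_mono (hp : IsP p) {f g : Finset T → ℝ} (h : ∀ S, f S ≤ g S) : Ex p f ≤ Ex p g :=
  Finset.sum_le_sum fun S _ => mul_le_mul_of_nonneg_left (h S) (wt_nonneg hp S)

theorem Ex_nonneg (hp : IsP p) {f : Finset T → ℝ} (h : ∀ S, 0 ≤ f S) : 0 ≤ Ex p f :=
  Finset.sum_nonneg fun S _ => mul_nonneg (wt_nonneg hp S) (h S)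

theorem Pr_nonneg (hp : IsP p) (A : Finset T → Prop) : 0 ≤ Pr p A :=
  Ex_nonneg hp (ind_nonneg A)

theorem Pr_le_one (hp : IsP p) (A : Finset T → Prop) : Pr p A ≤ 1 := by
  have := Ex_mono hp (f := ind A) (g := fun _ => 1) (ind_le_one A)
  rwa [Ex_const] at this

theorem Pr_mono (hp : IsP p) {A B : Finset T → Prop} (h : ∀ S, A S → B S) : Pr p A ≤ Pr p B := by
  refine Ex_mono hp fun S => ?_
  by_cases hA : A S
  · rw [ind_true hA, ind_true (h S hA)]
  · rw [ind_false hA]
    exact ind_nonneg B S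

theorem Pr_congr {A B : Finset T → Prop} (h : ∀ S, A S ↔ B S) : Pr p A = Pr p B := by
  have : A = B := funext fun S => propext (h S)
  rw [this]

theorem Pr_true : Pr p (fun _ => True) = 1 := by
  have : ind (fun _ : Finset T => True) = fun _ => 1 := by
    funext S; simp [ind]
  rw [Pr, this, Ex_const]

theorem Pr_not (A : Finset T → Prop) : Pr p (fun S => ¬ A S) = 1 - Pr p A := by
  have : ind (fun S => ¬ A S) = fun S => (fun _ => (1 : ℝ)) S - ind A S := by
    funext S; rw [ind_not]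
  rw [Pr, this, Ex_sub, Ex_const, Pr]

/-! ### increasing events and Harris' inequality -/

/-- increasing event -/
def Incr (A : Finset T → Prop) : Prop := ∀ ⦃S S' : Finset T⦄, S ⊆ S' → A S → A S'

omit [Fintype T] [DecidableEq T] in
theorem Incr.all {ι : Type*} {s : Finset ι} {A : ι → Finset T → Prop}
    (hA : ∀ i ∈ s, Incr (A i)) : Incr (fun S => ∀ i ∈ s, A i S) :=
  fun _ _ h hS i hi => hA i hi h (hS i hi)

theorem wt_mul_wt (S S' : Finset T) :
    wt p S * wt p S' = wt p (S ⊓ S') * wt p (S ⊔ S') := by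
  unfold wt
  rw [← Finset.prod_mul_distrib, ← Finset.prod_mul_distrib]
  refine Finset.prod_congr rfl fun t _ => ?_
  by_cases h1 : t ∈ S <;> by_cases h2 : t ∈ S' <;>
    simp [Finset.inf_eq_inter, Finset.sup_eq_union, h1, h2, mul_comm]

/-- Harris' inequality -/
theorem harris (hp : IsP p) {A B : Finset T → Prop} (hA : Incr A) (hB : Incr B) :
    Pr p A * Pr p B ≤ Pr p (fun S => A S ∧ B S) := by
  have mono : ∀ {C : Finset T → Prop}, Incr C → Monotone (ind C) := by
    intro C hC S S' h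
    by_cases h1 : C S
    · rw [ind_true h1, ind_true (hC h h1)]
    · rw [ind_false h1]
      exact ind_nonneg C S'
  have key := fkg (ind A) (ind B) (wt p) (fun S => wt_nonneg hp S) (fun S => ind_nonneg A S)
    (fun S => ind_nonneg B S) (mono hA) (mono hB) (fun a b => (wt_mul_wt a b).le)
  rw [sum_wt, one_mul] at key
  unfold Pr Ex
  refine key.trans (le_of_eq ?_)
  exact Finset.sum_congr rfl fun S _ => by rw [ind_and]

/-- Harris' inequality for finite families -/
theorem harris_prod (hp : IsP p) {ι : Type*} (s : Finset ι) (A : ι → Finset T → Prop)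
    (hA : ∀ i ∈ s, Incr (A i)) : ∏ i ∈ s, Pr p (A i) ≤ Pr p (fun S => ∀ i ∈ s, A i S) := by
  classical
  induction s using Finset.induction_on with
  | empty =>
    have : Pr p (fun S : Finset T => ∀ i ∈ (∅ : Finset ι), A i S) = 1 := by
      rw [← Pr_true (p := p)]
      exact Pr_congr fun S => by simp
    rw [Finset.prod_empty]
    exact this.ge
  | insert a s ha ih =>
    rw [Finset.prod_insert ha]
    have h1 : Pr p (fun S => ∀ i ∈ insert a s, A i S)
        = Pr p (fun S => A a S ∧ ∀ i ∈ s, A i S) := Pr_congr fun S => by simp only [mem_insert, forall_eq_or_imp]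
    rw [h1]
    have h2 := ih fun i hi => hA i (Finset.mem_insert_of_mem hi)
    calc Pr p (A a) * ∏ i ∈ s, Pr p (A i)
        ≤ Pr p (A a) * Pr p (fun S => ∀ i ∈ s, A i S) :=
          mul_le_mul_of_nonneg_left h2 (Pr_nonneg hp _)
      _ ≤ _ := harris hp (hA a (Finset.mem_insert_self _ _))
          (Incr.all fun i hi => hA i (Finset.mem_insert_of_mem hi))

/-! ### exact computations -/

/-- expectation of a product -/
theorem Ex_prod (a b : T → ℝ) : Ex p (fun S => ∏ t, if t ∈ S then a t else b t)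
    = ∏ t, (p t * a t + (1 - p t) * b t) := by
  unfold Ex wt
  rw [← sum_prod_ite]
  refine Finset.sum_congr rfl fun S _ => ?_
  rw [← Finset.prod_mul_distrib]
  refine Finset.prod_congr rfl fun t _ => ?_
  split_ifs <;> ring

/-- probability that no element of `R` is chosen -/
theorem Pr_none (R : Finset T) : Pr p (fun S => ∀ t ∈ R, t ∉ S) = ∏ t ∈ R, (1 - p t) := by
  have h1 : ind (fun S : Finset T => ∀ t ∈ R, t ∉ S) =
      fun S => ∏ t, if t ∈ S then (if t ∈ R then 0 else 1) else (1 : ℝ) := by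
    funext S
    by_cases h : ∀ t ∈ R, t ∉ S
    · rw [ind_true h]
      symm
      apply Finset.prod_eq_one
      intro t _
      by_cases hS : t ∈ S
      · have : t ∉ R := fun hR => h t hR hS
        simp [hS, this]
      · simp [hS]
    · rw [ind_false h]
      push Not at h
      obtain ⟨t, hR, hS⟩ := h
      symm
      apply Finset.prod_eq_zero (Finset.mem_univ t)
      simp [hR, hS]
  rw [Pr, h1, Ex_prod]
  rw [← Finset.prod_subset (Finset.subset_univ R)]
  · refine Finset.prod_congr rfl fun t ht => ?_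
    simp [ht]
  · intro t _ ht
    simp [ht]

/-- exponential moment of the number of chosen elements of `I` -/
theorem Ex_pow_card (I : Finset T) (a : ℝ) :
    Ex p (fun S => a ^ (S ∩ I).card) = ∏ t ∈ I, (1 + (a - 1) * p t) := by
  have h1 : (fun S : Finset T => a ^ (S ∩ I).card) =
      fun S => ∏ t, if t ∈ S then (if t ∈ I then a else 1) else (1 : ℝ) := by
    funext S
    rw [← Finset.prod_const, ← Finset.prod_subset (Finset.subset_univ (S ∩ I))]
    · refine Finset.prod_congr rfl fun t ht => ?_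
      rw [Finset.mem_inter] at ht
      simp [ht.1, ht.2]
    · intro t _ ht
      rw [Finset.mem_inter, not_and] at ht
      by_cases hS : t ∈ S
      · simp [hS, ht hS]
      · simp [hS]
  rw [h1, Ex_prod, ← Finset.prod_subset (Finset.subset_univ I)]
  · refine Finset.prod_congr rfl fun t ht => ?_
    simp only [ht, if_true]
    ring
  · intro t _ ht
    simp [ht]

theorem Ex_pow_card_le (hp : IsP p) (I : Finset T) {a : ℝ} (ha : 1 ≤ a) :
    Ex p (fun S => a ^ (S ∩ I).card) ≤ Real.exp ((a - 1) * ∑ t ∈ I, p t) := by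
  rw [Ex_pow_card, Finset.mul_sum, Real.exp_sum]
  refine Finset.prod_le_prod (fun t _ => ?_) fun t _ => ?_
  · have := (hp t).1
    have : 0 ≤ (a - 1) * p t := mul_nonneg (by linarith) this
    linarith
  · have := Real.add_one_le_exp ((a - 1) * p t)
    linarith

/-! ### resampling outside `I` and independence -/

/-- glue `S` on `I` and `S'` off `I` -/
def glue (I S S' : Finset T) : Finset T := (S ∩ I) ∪ (S' \ I)

omit [Fintype T] in
theorem mem_glue {I S S' : Finset T} {t : T} :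
    t ∈ glue I S S' ↔ (t ∈ I ∧ t ∈ S) ∨ (t ∉ I ∧ t ∈ S') := by
  unfold glue
  simp only [Finset.mem_union, Finset.mem_inter, Finset.mem_sdiff]
  tauto

omit [Fintype T] in
theorem glue_inter (I S S' : Finset T) : glue I S S' ∩ I = S ∩ I := by
  ext t; simp only [Finset.mem_inter, mem_glue]; tauto

omit [Fintype T] in
theorem glue_glue (I S S' : Finset T) : glue I (glue I S S') (glue I S' S) = S := by
  ext t; simp only [mem_glue]; tauto

theorem wt_glue (I S S' : Finset T) :
    wt p (glue I S S') * wt p (glue I S' S) = wt p S * wt p S' := by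
  unfold wt
  rw [← Finset.prod_mul_distrib, ← Finset.prod_mul_distrib]
  refine Finset.prod_congr rfl fun t _ => ?_
  by_cases hI : t ∈ I <;> by_cases h1 : t ∈ S <;> by_cases h2 : t ∈ S' <;>
    simp [mem_glue, hI, h1, h2, mul_comm]

/-- resampling identity -/
theorem Ex_resample (I : Finset T) (f : Finset T → ℝ) :
    Ex p (fun S => Ex p (fun S' => f (glue I S S'))) = Ex p f := by
  have h1 : Ex p (fun S => Ex p (fun S' => f (glue I S S'))) =
      ∑ q : Finset T × Finset T, wt p q.1 * wt p q.2 * f (glue I q.1 q.2) := by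
    unfold Ex
    rw [Fintype.sum_prod_type]
    refine Finset.sum_congr rfl fun S _ => ?_
    rw [Finset.mul_sum]
    exact Finset.sum_congr rfl fun S' _ => by ring
  have h2 : Ex p f = ∑ q : Finset T × Finset T, wt p q.1 * wt p q.2 * f q.1 := by
    rw [Fintype.sum_prod_type]
    unfold Ex
    refine Finset.sum_congr rfl fun S _ => ?_
    change _ = ∑ y, wt p S * wt p y * f S
    rw [← Finset.sum_mul, ← Finset.mul_sum, sum_wt, mul_one]
  rw [h1, h2]
  let σ : Finset T × Finset T → Finset T × Finset T := fun q => (glue I q.1 q.2, glue I q.2 q.1)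
  have hσ : Function.Involutive σ := by
    rintro ⟨S, S'⟩
    simp only [σ, glue_glue]
  refine Fintype.sum_equiv hσ.toPerm _ _ ?_
  rintro ⟨S, S'⟩
  simp only [Function.Involutive.coe_toPerm, σ]
  rw [wt_glue]

/-- `A` depends only on `S ∩ J` -/
def DepOn (J : Finset T) (f : Finset T → ℝ) : Prop := ∀ S S', S ∩ J = S' ∩ J → f S = f S'

/-- the event `A` depends only on `S ∩ J` -/
def EvOn (J : Finset T) (A : Finset T → Prop) : Prop := ∀ S S', S ∩ J = S' ∩ J → (A S ↔ A S')

omit [Fintype T] in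
theorem EvOn.dep {J : Finset T} {A : Finset T → Prop} (h : EvOn J A) : DepOn J (ind A) := by
  intro S S' hS
  by_cases hA : A S
  · rw [ind_true hA, ind_true ((h S S' hS).1 hA)]
  · rw [ind_false hA, ind_false fun hA' => hA ((h S S' hS).2 hA')]

/-- independence -/
theorem Ex_mul_of_disjoint {I J : Finset T} (hIJ : Disjoint I J) {f g : Finset T → ℝ}
    (hf : DepOn I f) (hg : DepOn J g) : Ex p (fun S => f S * g S) = Ex p f * Ex p g := by
  rw [← Ex_resample I (fun S => f S * g S)]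
  have h1 : ∀ S S', f (glue I S S') * g (glue I S S') = f S * g S' := by
    intro S S'
    rw [hf _ S (glue_inter I S S'), hg (glue I S S') S']
    ext t
    simp only [Finset.mem_inter, mem_glue]
    constructor
    · rintro ⟨h | h, hJ⟩
      · exact absurd hJ (Finset.disjoint_left.mp hIJ h.1)
      · exact ⟨h.2, hJ⟩
    · rintro ⟨h, hJ⟩
      exact ⟨Or.inr ⟨Finset.disjoint_right.mp hIJ hJ, h⟩, hJ⟩
  simp only [h1, Ex_mul_left]
  unfold Ex
  rw [Finset.sum_mul]
  exact Finset.sum_congr rfl fun S _ => by ring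

theorem Pr_and_of_disjoint {I J : Finset T} (hIJ : Disjoint I J) {A B : Finset T → Prop}
    (hA : EvOn I A) (hB : EvOn J B) : Pr p (fun S => A S ∧ B S) = Pr p A * Pr p B := by
  unfold Pr
  rw [← Ex_mul_of_disjoint hIJ hA.dep hB.dep]
  congr 1
  funext S
  exact ind_and A B S

/-- independence for finite families -/
theorem Pr_all_of_disjoint {ι : Type*} (s : Finset ι) (J : ι → Finset T)
    (hJ : ∀ i ∈ s, ∀ j ∈ s, i ≠ j → Disjoint (J i) (J j)) (A : ι → Finset T → Prop)
    (hA : ∀ i ∈ s, EvOn (J i) (A i)) :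
    Pr p (fun S => ∀ i ∈ s, A i S) = ∏ i ∈ s, Pr p (A i) := by
  classical
  induction s using Finset.induction_on with
  | empty =>
    rw [Finset.prod_empty, ← Pr_true (p := p)]
    exact Pr_congr fun S => by simp
  | insert a s ha ih =>
    rw [Finset.prod_insert ha, ← ih
      (fun i hi j hj => hJ i (Finset.mem_insert_of_mem hi) j (Finset.mem_insert_of_mem hj))
      (fun i hi => hA i (Finset.mem_insert_of_mem hi))]
    have h1 : Pr p (fun S => ∀ i ∈ insert a s, A i S)
        = Pr p (fun S => A a S ∧ ∀ i ∈ s, A i S) := Pr_congr fun S => by simp only [mem_insert, forall_eq_or_imp]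
    rw [h1]
    refine Pr_and_of_disjoint (I := J a) (J := s.biUnion J) ?_
      (hA a (Finset.mem_insert_self _ _)) ?_
    · rw [Finset.disjoint_biUnion_right]
      intro i hi
      exact hJ a (Finset.mem_insert_self _ _) i (Finset.mem_insert_of_mem hi)
        fun h => ha (h ▸ hi)
    · intro S S' hS
      refine forall₂_congr fun i hi => ?_
      refine hA i (Finset.mem_insert_of_mem hi) S S' ?_
      have hsub : J i ⊆ s.biUnion J := Finset.subset_biUnion_of_mem J hi
      ext t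
      have := Finset.ext_iff.mp hS t
      simp only [Finset.mem_inter] at this ⊢
      constructor
      · rintro ⟨h1, h2⟩
        exact ⟨(this.1 ⟨h1, hsub h2⟩).1, h2⟩
      · rintro ⟨h1, h2⟩
        exact ⟨(this.2 ⟨h1, hsub h2⟩).1, h2⟩

/-- conditioning on `S ∩ I`: if for each fixed `S` the probabilities (over `S'`) of
`C (glue I S S')` are at most `h S`, then `P(C) ≤ E h`. -/
theorem Pr_le_of_resample (hp : IsP p) (I : Finset T) (C : Finset T → Prop) (h : Finset T → ℝ)
    (hC : ∀ S, Pr p (fun S' => C (glue I S S')) ≤ h S) : Pr p C ≤ Ex p h := by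
  rw [Pr, ← Ex_resample I (ind C)]
  exact Ex_mono hp hC

/-! ### second moment -/

/-- second moment method -/
theorem sq_Ex_le (hp : IsP p) (f : Finset T → ℝ) :
    Ex p f ^ 2 ≤ Ex p (fun S => f S ^ 2) * Pr p (fun S => f S ≠ 0) := by
  have h := Finset.sum_mul_sq_le_sq_mul_sq (Finset.univ : Finset (Finset T))
    (fun S => √(wt p S) * f S) (fun S => √(wt p S) * ind (fun S => f S ≠ 0) S)
  have e1 : ∀ S, √(wt p S) * f S * (√(wt p S) * ind (fun S => f S ≠ 0) S) = wt p S * f S := by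
    intro S
    have hs : √(wt p S) * √(wt p S) = wt p S := Real.mul_self_sqrt (wt_nonneg hp S)
    by_cases hf : f S = 0
    · rw [hf]; ring
    · rw [ind_true (A := fun S => f S ≠ 0) hf]
      calc _ = √(wt p S) * √(wt p S) * f S := by ring
        _ = _ := by rw [hs]
  have e2 : ∀ S, (√(wt p S) * f S) ^ 2 = wt p S * f S ^ 2 := by
    intro S
    rw [mul_pow, Real.sq_sqrt (wt_nonneg hp S)]
  have e3 : ∀ S, (√(wt p S) * ind (fun S => f S ≠ 0) S) ^ 2
      = wt p S * ind (fun S => f S ≠ 0) S := by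
    intro S
    rw [mul_pow, Real.sq_sqrt (wt_nonneg hp S)]
    by_cases hf : f S = 0
    · rw [ind_false (A := fun S => f S ≠ 0) (by simpa using hf)]; ring
    · rw [ind_true (A := fun S => f S ≠ 0) hf]; ring
  simp only [e1, e2, e3] at h
  exact h

/-- second moment method for counts -/
theorem second_moment (hp : IsP p) {ι : Type*} (s : Finset ι) (A : ι → Finset T → Prop) :
    (∑ i ∈ s, Pr p (A i)) ^ 2 ≤
      (∑ i ∈ s, ∑ j ∈ s, Pr p (fun S => A i S ∧ A j S)) * Pr p (fun S => ∃ i ∈ s, A i S) := by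
  set W : Finset T → ℝ := fun S => ∑ i ∈ s, ind (A i) S with hW
  have h := sq_Ex_le hp W
  have e1 : Ex p W = ∑ i ∈ s, Pr p (A i) := Ex_sum s _
  have e2 : Ex p (fun S => W S ^ 2) = ∑ i ∈ s, ∑ j ∈ s, Pr p (fun S => A i S ∧ A j S) := by
    have : (fun S => W S ^ 2) = fun S => ∑ i ∈ s, ∑ j ∈ s, ind (fun S => A i S ∧ A j S) S := by
      funext S
      rw [hW, sq, Finset.sum_mul_sum]
      simp only [ind_and]
    rw [this, Ex_sum]
    exact Finset.sum_congr rfl fun i _ => Ex_sum s _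
  rw [e1, e2] at h
  refine h.trans (mul_le_mul_of_nonneg_left (Pr_mono hp fun S hS => ?_) ?_)
  · by_contra hcon
    push Not at hcon
    apply hS
    exact Finset.sum_eq_zero fun i hi => ind_false (hcon i hi)
  · exact Finset.sum_nonneg fun i _ => Finset.sum_nonneg fun j _ => Pr_nonneg hp _

end P230.TL
end
end

section

section

/-!
# P230 / TL / Pair : the abstract (PAIR) lemma (helper234)
-/

open Finset

namespace P230.TL

variable {T : Type*} [Fintype T] [DecidableEq T]

/-- all tests `R z`, `z ∈ Z`, are hit by `S` -/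
def AllHit {α : Type*} (Z : Finset α) (R : α → Finset T) (S : Finset T) : Prop :=
  ∀ z ∈ Z, ∃ t ∈ R z, t ∈ S

omit [Fintype T] in
theorem evOn_glue {α : Type*} (I S : Finset T) (W : Finset α) (Q : α → Finset T) :
    EvOn (W.biUnion Q \ I) (fun S' => AllHit W Q (glue I S S')) := by
  intro S₁ S₂ hS
  have key : ∀ t ∈ W.biUnion Q, (t ∈ glue I S S₁ ↔ t ∈ glue I S S₂) := by
    intro t ht
    have h1 := Finset.ext_iff.1 hS t
    rw [Finset.mem_inter, Finset.mem_inter, Finset.mem_sdiff] at h1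
    rw [mem_glue, mem_glue]
    by_cases hI : t ∈ I
    · simp [hI]
    · simp only [hI, false_and, not_false_eq_true, true_and, false_or]
      simpa [ht, hI] using h1
  constructor
  · intro hh z hz
    obtain ⟨t, ht, hts⟩ := hh z hz
    exact ⟨t, ht, (key t (Finset.mem_biUnion.2 ⟨z, hz, ht⟩)).1 hts⟩
  · intro hh z hz
    obtain ⟨t, ht, hts⟩ := hh z hz
    exact ⟨t, ht, (key t (Finset.mem_biUnion.2 ⟨z, hz, ht⟩)).2 hts⟩

end P230.TL
end
end

section

section

/-!
# P230 / TL / Levels : second moment method with levels; clusters; union bound (helper234)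
-/

open Finset

namespace P230.TL

variable {T : Type*} [Fintype T] [DecidableEq T]

/-- pigeonhole over the levels -/
theorem exists_level {μ : ℕ → ℝ} {J : ℕ} (hJ : 0 < J) {a : ℝ} (_h0 : 0 < μ 0)
    (h : μ J ≤ Real.exp (J * a) * μ 0) : ∃ j < J, μ (j + 1) ≤ Real.exp a * μ j := by
  by_contra hcon
  push Not at hcon
  have key : ∀ j ≤ J, 0 < j → Real.exp (j * a) * μ 0 < μ j := by
    intro j
    induction j with
    | zero => intro _ h; exact absurd h (lt_irrefl _)
    | succ j ih =>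
      intro hj _
      rcases Nat.eq_zero_or_pos j with rfl | hpos
      · simpa only [zero_add, Nat.cast_one, one_mul] using hcon 0 hJ
      · have h1 := ih (by omega) hpos
        have h2 := hcon j (by omega)
        refine lt_of_le_of_lt (le_of_eq ?_) (lt_trans (mul_lt_mul_of_pos_left h1 (Real.exp_pos a)) h2)
        push_cast
        rw [← mul_assoc, ← Real.exp_add]
        congr 2
        ring
  exact absurd (key J le_rfl hJ) (not_lt.mpr h)

/-- **second moment method with levels** -/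
theorem levels {p : T → ℝ} (hp : IsP p) {ι : Type*} [DecidableEq ι] (Y : Finset ι)
    (hY : Y.Nonempty) (J : ℕ) (hJ : 0 < J) (A : ι → ℕ → Finset T → Prop)
    (hmono : ∀ y ∈ Y, ∀ j < J, ∀ S, A y j S → A y (j + 1) S)
    (bad : ι → Finset ι) (D H : ℝ) (hbad : ∀ y ∈ Y, ((bad y).card : ℝ) ≤ D)
    (hpair : ∀ y ∈ Y, ∀ y' ∈ Y, y' ∉ bad y → ∀ j < J,
      Pr p (fun S => A y j S ∧ A y' j S) ≤
        Real.exp 1 * (Pr p (A y (j + 1)) * Pr p (A y' (j + 1))))
    (h0 : ∀ y ∈ Y, Real.exp (-H) ≤ Pr p (A y 0))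
    (hD : D ≤ Y.card * Real.exp (-H)) :
    (1 + Real.exp (1 + 2 * (H / J)))⁻¹ ≤ Pr p (fun S => ∃ y ∈ Y, A y J S) := by
  classical
  have hJR : (0 : ℝ) < J := by exact_mod_cast hJ
  have hcard : (0 : ℝ) < Y.card := by exact_mod_cast hY.card_pos
  let μ : ℕ → ℝ := fun j => ∑ y ∈ Y, Pr p (A y j)
  have hμ0 : Y.card * Real.exp (-H) ≤ μ 0 := by
    have := Finset.sum_le_sum h0
    simpa only [ge_iff_le, sum_const, nsmul_eq_mul] using this
  have hμ0pos : 0 < μ 0 := lt_of_lt_of_le (by (clear * - hY; positivity)) hμ0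
  have hμJ : μ J ≤ Y.card := by
    have := Finset.sum_le_sum fun y (_ : y ∈ Y) => Pr_le_one hp (A y J)
    simpa only [ge_iff_le, sum_const, nsmul_eq_mul, mul_one] using this
  have hmonoJ : ∀ j ≤ J, ∀ i ≤ j, ∀ y ∈ Y, ∀ S, A y i S → A y j S := by
    intro j
    induction j with
    | zero => intro _ i hi y _ S h; obtain rfl : i = 0 := by omega
              exact h
    | succ j ih =>
      intro hj i hi y hy S h
      rcases Nat.lt_or_ge i (j + 1) with hlt | hge
      · exact hmono y hy j (by omega) S (ih (by omega) i (by omega) y hy S h)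
      · obtain rfl : i = j + 1 := by omega
        exact h
  obtain ⟨j, hj, hlev⟩ : ∃ j < J, μ (j + 1) ≤ Real.exp (H / J) * μ j := by
    refine exists_level hJ hμ0pos ?_
    rw [mul_div_cancel₀ _ hJR.ne']
    calc μ J ≤ Y.card := hμJ
      _ = Real.exp H * (Y.card * Real.exp (-H)) := by
          rw [mul_left_comm, ← Real.exp_add, add_neg_cancel, Real.exp_zero, mul_one]
      _ ≤ _ := mul_le_mul_of_nonneg_left hμ0 (Real.exp_pos H).le
  have hμj : μ 0 ≤ μ j := Finset.sum_le_sum fun y hy =>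
    Pr_mono hp fun S => hmonoJ j hj.le 0 (Nat.zero_le _) y hy S
  have hμjpos : 0 < μ j := hμ0pos.trans_le hμj
  have hDj : D ≤ μ j := hD.trans (hμ0.trans hμj)
  have hsec := second_moment hp Y (fun y => A y j)
  have hdouble : ∑ i ∈ Y, ∑ k ∈ Y, Pr p (fun S => A i j S ∧ A k j S) ≤
      D * μ j + Real.exp 1 * (μ (j + 1)) ^ 2 := by
    have h1 : ∀ i ∈ Y, ∑ k ∈ Y, Pr p (fun S => A i j S ∧ A k j S) ≤
        D * Pr p (A i j) + Real.exp 1 * (Pr p (A i (j + 1)) * μ (j + 1)) := by
      intro i hi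
      have h2 : ∀ k ∈ Y, Pr p (fun S => A i j S ∧ A k j S) ≤
          (if k ∈ bad i then Pr p (A i j) else 0) +
            Real.exp 1 * (Pr p (A i (j + 1)) * Pr p (A k (j + 1))) := by
        intro k hk
        split_ifs with hb
        · refine (Pr_mono hp fun S h => h.1).trans (le_add_of_nonneg_right ?_)
          exact mul_nonneg (Real.exp_pos 1).le (mul_nonneg (Pr_nonneg hp _) (Pr_nonneg hp _))
        · rw [zero_add]
          exact hpair i hi k hk hb j hj
      refine (Finset.sum_le_sum h2).trans ?_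
      rw [Finset.sum_add_distrib, ← Finset.mul_sum, ← Finset.mul_sum]
      refine add_le_add ?_ le_rfl
      rw [← Finset.sum_filter, Finset.sum_const, nsmul_eq_mul]
      refine mul_le_mul_of_nonneg_right ?_ (Pr_nonneg hp _)
      refine le_trans ?_ (hbad i hi)
      exact_mod_cast Finset.card_le_card fun k hk => (Finset.mem_filter.1 hk).2
    refine (Finset.sum_le_sum h1).trans (le_of_eq ?_)
    rw [Finset.sum_add_distrib, ← Finset.mul_sum, ← Finset.mul_sum, ← Finset.sum_mul]
    ring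
  have hexp : Real.exp 1 * (μ (j + 1)) ^ 2 ≤ Real.exp (1 + 2 * (H / J)) * μ j ^ 2 := by
    have hnn : 0 ≤ μ (j + 1) := Finset.sum_nonneg fun y _ => Pr_nonneg hp _
    calc Real.exp 1 * (μ (j + 1)) ^ 2 ≤ Real.exp 1 * (Real.exp (H / J) * μ j) ^ 2 := by (clear * - hnn hlev; gcongr)
      _ = _ := by
        rw [mul_pow, ← Real.exp_nat_mul, ← mul_assoc, ← Real.exp_add]
        norm_num
  have hfin : (μ j) ^ 2 ≤ ((1 + Real.exp (1 + 2 * (H / J))) * (μ j) ^ 2) *
      Pr p (fun S => ∃ i ∈ Y, A i j S) := by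
    refine hsec.trans (mul_le_mul_of_nonneg_right (hdouble.trans ?_) (Pr_nonneg hp _))
    have : D * μ j ≤ μ j ^ 2 := by rw [sq]; exact mul_le_mul_of_nonneg_right hDj hμjpos.le
    linarith only [hexp, this]
  have hpos : 0 < 1 + Real.exp (1 + 2 * (H / J)) := by positivity
  have hsq : 0 < (μ j) ^ 2 := by (clear * - hμjpos; positivity)
  rw [inv_eq_one_div, div_le_iff₀ hpos]
  have h5 : 1 ≤ (1 + Real.exp (1 + 2 * (H / J))) * Pr p (fun S => ∃ i ∈ Y, A i j S) := by
    by_contra hlt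
    push Not at hlt
    have := mul_lt_mul_of_pos_right hlt hsq
    linarith only [this, hfin]
  refine h5.trans ?_
  rw [mul_comm]
  refine mul_le_mul_of_nonneg_right (Pr_mono hp fun S hS => ?_) hpos.le
  obtain ⟨i, hi, hA⟩ := hS
  exact ⟨i, hi, hmonoJ J le_rfl j hj.le i hi S hA⟩

/-- independent clusters: if the events `A g` depend on disjoint sets of atoms and have
probability at least `q`, then the probability that none of them happens is at most
`(1-q)^M`. -/
theorem clusters {p : T → ℝ} (hp : IsP p) {M : ℕ} (A : Fin M → Finset T → Prop)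
    (U : Fin M → Finset T) (hU : ∀ g g', g ≠ g' → Disjoint (U g) (U g'))
    (hA : ∀ g, EvOn (U g) (A g)) {q : ℝ} (hq : ∀ g, q ≤ Pr p (A g)) :
    Pr p (fun S => ∀ g, ¬ A g S) ≤ (1 - q) ^ M := by
  have h1 := Pr_all_of_disjoint (p := p) (Finset.univ : Finset (Fin M)) U
    (fun i _ j _ hij => hU i j hij) (fun g S => ¬ A g S)
    (fun g _ S S' hS => not_congr (hA g S S' hS))
  have h2 : Pr p (fun S => ∀ g, ¬ A g S) = ∏ g : Fin M, Pr p (fun S => ¬ A g S) := by
    rw [← h1]
    exact Pr_congr fun S => by simp only [mem_univ, forall_const]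
  rw [h2]
  calc ∏ g : Fin M, Pr p (fun S => ¬ A g S) ≤ ∏ _g : Fin M, (1 - q) := by
        refine Finset.prod_le_prod (fun g _ => Pr_nonneg hp _) fun g _ => ?_
        rw [Pr_not]
        linarith only [hq g]
    _ = (1 - q) ^ M := by simp only [prod_const, card_univ, Fintype.card_fin]

end P230.TL
end
end

section

section

section

namespace Vale.Agent.P230

open MeasureTheory

/-- image of a finset of integer points in `(ZMod p)^N` -/
def castSet {N : ℕ} (p : ℕ) (A : Finset (Fin N → ℤ)) : Finset (Fin N → ZMod p) :=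
  A.image (fun y i => (y i : ZMod p))

/-- fractions `s/t` with `1 ≤ t ≤ H`, `|s| ≤ H` in `ZMod p`. -/
noncomputable def fracs (p : ℕ) [NeZero p] (H : ℕ) : Finset (ZMod p) := by
  classical
  exact Finset.univ.filter (fun x => ∃ t s : ℤ, 1 ≤ t ∧ t ≤ H ∧ |s| ≤ H ∧ x * (t : ZMod p) = (s : ZMod p))

/-- integer points of `lam • K`, as a finset (for bounded `K`). -/
noncomputable def intPts {N : ℕ} (K : Set (Fin N → ℝ)) (lam : ℝ) : Finset (Fin N → ℤ) := by
  classical
  exact (Fintype.piFinset (fun _ : Fin N => Finset.Icc (-⌈lam⌉) ⌈lam⌉)).filter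
    (fun z => ∃ k ∈ K, ∀ i, (z i : ℝ) = lam * k i)

end Vale.Agent.P230
end
end
end

section

section

section

namespace Vale.Agent.P230

open MeasureTheory

/-- augmented vector `(1, s)` -/
def aug {N : ℕ} {R : Type*} [One R] (s : Fin N → R) : Fin (N + 1) → R := Fin.cons 1 s

/-- affine independence of a finite set of integer points -/
def AffInd {N : ℕ} (B : Finset (Fin N → ℤ)) : Prop :=
  LinearIndependent ℤ (fun s : B => aug (s : Fin N → ℤ))

/-- affine independence modulo `p` of a finite set of integer points -/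
def AffIndMod {N : ℕ} (p : ℕ) (B : Finset (Fin N → ℤ)) : Prop :=
  LinearIndependent (ZMod p) (fun s : B => aug (fun i => (((s : Fin N → ℤ) i : ℤ) : ZMod p)))

/-- the points `s` of `S` with `h · s = u` modulo `p` -/
def hit {N : ℕ} (p : ℕ) (S : Finset (Fin N → ℤ)) (h : Fin N → ZMod p) (u : ZMod p) :
    Finset (Fin N → ℤ) :=
  S.filter (fun s => ∑ i, h i * (s i : ZMod p) = u)

/-- a compact convex set in standard position, with cube of side `1 / R` -/
structure NormalizedR {N : ℕ} (K : Set (Fin N → ℝ)) (R : ℝ) : Prop where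
  convex : Convex ℝ K
  compact : IsCompact K
  cube : ∀ x : Fin N → ℝ, (∀ i, 0 ≤ x i ∧ x i ≤ 1 / R) → x ∈ K
  bdd : ∀ x ∈ K, ∀ i, |x i| ≤ 1

/-- covering property with rank condition, density at most `D` -/
def Cov (n : ℕ) (c D : ℝ) : Prop :=
  ∀ K : Set (Fin n → ℝ), Convex ℝ K → IsCompact K → (interior K).Nonempty →
    ∃ M : Matrix (Fin n) (Fin n) ℝ, M.det ≠ 0 ∧ volume K ≤ ENNReal.ofReal (D * |M.det|) ∧
      ∀ y : Fin n → ℝ, ∃ z : Fin (⌈c * n⌉₊ + 1) → Fin n → ℤ,
        (∀ i, y + M.mulVec (fun a => (z i a : ℝ)) ∈ K) ∧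
        ∀ p : ℕ, p.Prime → n ^ (20 * n) < p →
          LinearIndependent (ZMod p)
            (fun i : Fin ⌈c * n⌉₊ => fun a => ((z i.succ a - z 0 a : ℤ) : ZMod p))

end Vale.Agent.P230
end
end
end

section

section

section

namespace Vale.Agent.P230

open MeasureTheory

/-- covering property for a single set -/
def CovFor {n : ℕ} (K : Set (Fin n → ℝ)) (c D : ℝ) : Prop :=
  ∃ M : Matrix (Fin n) (Fin n) ℝ, M.det ≠ 0 ∧ volume K ≤ ENNReal.ofReal (D * |M.det|) ∧
    ∀ y : Fin n → ℝ, ∃ z : Fin (⌈c * n⌉₊ + 1) → Fin n → ℤ,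
      (∀ i, y + M.mulVec (fun a => (z i a : ℝ)) ∈ K) ∧
      ∀ p : ℕ, p.Prime → n ^ (20 * n) < p →
        LinearIndependent (ZMod p)
          (fun i : Fin ⌈c * n⌉₊ => fun a => ((z i.succ a - z 0 a : ℤ) : ZMod p))

theorem Cov.mono {n : ℕ} {c D D' : ℝ} (h : Cov n c D) (hD : D ≤ D') : Cov n c D' := by
  intro K h1 h2 h3
  obtain ⟨M, hM, hv, hz⟩ := h K h1 h2 h3
  refine ⟨M, hM, hv.trans (ENNReal.ofReal_le_ofReal ?_), hz⟩
  (clear * - hD hM; gcongr)

theorem volume_affine {n : ℕ} (K : Set (Fin n → ℝ)) (A : Matrix (Fin n) (Fin n) ℝ)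
    (v : Fin n → ℝ) (hA : A.det ≠ 0) :
    volume K = ENNReal.ofReal |A.det| * volume {x : Fin n → ℝ | A.mulVec x + v ∈ K} := by
  have h1 : {x : Fin n → ℝ | A.mulVec x + v ∈ K} =
      (Matrix.toLin' A) ⁻¹' ((fun y => y + v) ⁻¹' K) := by
    ext x
    simp
  have h2 : LinearMap.det (Matrix.toLin' A) ≠ 0 := by
    rw [LinearMap.det_toLin']
    exact hA
  rw [h1, Measure.addHaar_preimage_linearMap _ h2, LinearMap.det_toLin',
    measure_preimage_add_right, ← mul_assoc, ← ENNReal.ofReal_mul (abs_nonneg _), ← abs_mul,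
    mul_inv_cancel₀ hA]
  simp

theorem CovFor.affine {n : ℕ} {K : Set (Fin n → ℝ)} {c D : ℝ} (A : Matrix (Fin n) (Fin n) ℝ)
    (v : Fin n → ℝ) (hA : A.det ≠ 0) (h : CovFor {x : Fin n → ℝ | A.mulVec x + v ∈ K} c D) :
    CovFor K c D := by
  obtain ⟨M, hM, hv, hz⟩ := h
  refine ⟨A * M, ?_, ?_, fun y => ?_⟩
  · rw [Matrix.det_mul]
    exact mul_ne_zero hA hM
  · rw [volume_affine K A v hA, Matrix.det_mul, abs_mul]
    calc ENNReal.ofReal |A.det| * volume {x : Fin n → ℝ | A.mulVec x + v ∈ K}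
        ≤ ENNReal.ofReal |A.det| * ENNReal.ofReal (D * |M.det|) := by (clear * - hv; gcongr)
      _ = ENNReal.ofReal (D * (|A.det| * |M.det|)) := by
        rw [← ENNReal.ofReal_mul (abs_nonneg _)]
        congr 1
        ring
  · have hu : IsUnit A.det := isUnit_iff_ne_zero.2 hA
    obtain ⟨z, hz1, hz2⟩ := hz (A⁻¹.mulVec (y - v))
    refine ⟨z, fun i => ?_, hz2⟩
    have := hz1 i
    simp only [Set.mem_ofPred_eq, Matrix.mulVec_add, Matrix.mulVec_mulVec,
      Matrix.mul_nonsing_inv A hu, Matrix.one_mulVec] at this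
    convert this using 1
    abel

end Vale.Agent.P230
end
end
end

section

section

section

namespace Vale.Agent.P230

open MeasureTheory
open scoped Pointwise

/-- half open cube with integer corner -/
def cell {N : ℕ} (H : ℕ) (z : Fin N → ℤ) : Set (Fin N → ℝ) :=
  Set.pi Set.univ (fun i => Set.Ico (z i : ℝ) ((z i : ℝ) + H))

theorem mem_cell {N : ℕ} {H : ℕ} {z : Fin N → ℤ} {x : Fin N → ℝ} :
    x ∈ cell H z ↔ ∀ i, (z i : ℝ) ≤ x i ∧ x i < (z i : ℝ) + H := by
  simp only [cell, Set.mem_pi, Set.mem_univ, Set.mem_Ico, forall_const]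

theorem volume_cell {N : ℕ} (H : ℕ) (z : Fin N → ℤ) : volume (cell H z) = (H : ENNReal) ^ N := by
  rw [cell, Real.volume_pi_Ico]
  simp only [add_sub_cancel_left, ENNReal.ofReal_natCast, Finset.prod_const, Finset.card_univ, Fintype.card_fin]

theorem measurableSet_cell {N : ℕ} (H : ℕ) (z : Fin N → ℤ) : MeasurableSet (cell H z) :=
  MeasurableSet.univ_pi (fun _ => measurableSet_Ico)

/-- G0 -/
theorem mem_intPts_R {N : ℕ} {K : Set (Fin N → ℝ)} {R : ℝ} (hK : NormalizedR K R) {lam : ℝ} (hl : 0 ≤ lam)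
    (z : Fin N → ℤ) : z ∈ intPts K lam ↔ ∃ k ∈ K, ∀ i, (z i : ℝ) = lam * k i := by
  classical
  unfold intPts
  rw [Finset.mem_filter]
  constructor
  · intro h; exact h.2
  · intro h
    refine ⟨?_, h⟩
    obtain ⟨k, hk, hz⟩ := h
    rw [Fintype.mem_piFinset]
    intro i
    have h1 : |(z i : ℝ)| ≤ lam := by
      rw [hz i, abs_mul, abs_of_nonneg hl]
      have := hK.bdd k hk i
      linarith only [mul_nonneg (sub_nonneg.2 hl) (sub_nonneg.2 this)]
    have h2 : |(z i : ℝ)| ≤ (⌈lam⌉ : ℝ) := h1.trans (Int.le_ceil lam)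
    rw [abs_le] at h2
    rw [Finset.mem_Icc]
    constructor
    · have : ((-⌈lam⌉ : ℤ) : ℝ) ≤ (z i : ℝ) := by push_cast; exact h2.1
      exact_mod_cast this
    · exact_mod_cast h2.2

theorem add_mem_smul {N : ℕ} {K : Set (Fin N → ℝ)} {R : ℝ} (hR : 1 ≤ R) (hK : NormalizedR K R) {lam H : ℝ}
    (hl : 0 ≤ lam) (hH : 0 < H) {k : Fin N → ℝ} (hk : k ∈ K) {x : Fin N → ℝ}
    (hx : ∀ i, 0 ≤ x i - lam * k i ∧ x i - lam * k i ≤ H) :
    x ∈ (lam + H * R) • K := by
  have hR' : (0 : ℝ) < R := by linarith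
  have hHN : 0 < H * R := mul_pos hH hR'
  have hs : 0 < lam + H * R := by linarith only [hl, hHN]
  have hq : (fun i => (x i - lam * k i) / (H * R)) ∈ K := by
    apply hK.cube
    intro i
    refine ⟨div_nonneg (hx i).1 hHN.le, ?_⟩
    rw [div_le_div_iff₀ hHN hR']
    linarith only [mul_nonneg (sub_nonneg.2 hR) (sub_nonneg.2 ((hx i).2)), (hx i).2]
  have hc := hK.convex hk hq (div_nonneg hl hs.le) (div_nonneg hHN.le hs.le)
    (by field_simp)
  rw [Set.mem_smul_set]
  refine ⟨_, hc, ?_⟩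
  funext i
  simp only [Pi.smul_apply, Pi.add_apply, smul_eq_mul]
  field_simp
  ring

theorem cell_subset {N : ℕ} {K : Set (Fin N → ℝ)} {R : ℝ} (hR : 1 ≤ R) (hK : NormalizedR K R) {lam : ℝ}
    (hl : 0 ≤ lam) {H : ℕ} (hH : 1 ≤ H) {z : Fin N → ℤ} (hz : z ∈ intPts K lam) :
    cell H z ⊆ (lam + (H : ℝ) * R) • K := by
  intro x hx
  rw [mem_cell] at hx
  obtain ⟨k, hk, hzk⟩ := (mem_intPts_R hK hl z).1 hz
  have hH' : (0 : ℝ) < H := by exact_mod_cast hH
  apply add_mem_smul hR hK hl hH' hk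
  intro i
  have := hx i
  rw [← hzk i]
  constructor <;> linarith only [this]

theorem volume_smul_toReal {N : ℕ} (K : Set (Fin N → ℝ)) {s : ℝ} (hs : 0 ≤ s) :
    (volume (s • K)).toReal = s ^ N * (volume K).toReal := by
  rw [Measure.addHaar_smul, ENNReal.toReal_mul]
  have h := pow_nonneg hs N
  simp only [Module.finrank_fintype_fun_eq_card, Fintype.card_fin, abs_of_nonneg h, h, ENNReal.toReal_ofReal]

theorem volume_smul_ne_top {N : ℕ} {K : Set (Fin N → ℝ)} (hK : IsCompact K) (s : ℝ) :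
    volume (s • K) ≠ ⊤ :=
  (hK.smul s).measure_lt_top.ne

theorem card_mul_le_of_cells {N : ℕ} (H : ℕ) (A : Finset (Fin N → ℤ)) (T : Set (Fin N → ℝ))
    (hT : volume T ≠ ⊤)
    (hdisj : ∀ y ∈ A, ∀ z ∈ A, y ≠ z → Disjoint (cell H y) (cell H z))
    (hsub : ∀ y ∈ A, cell H y ⊆ T) :
    (A.card : ℝ) * (H : ℝ) ^ N ≤ (volume T).toReal := by
  have h1 : volume (⋃ y ∈ A, cell H y) = ∑ y ∈ A, volume (cell H y) := by
    apply measure_biUnion_finset
    · intro y hy z hz hyz
      exact hdisj y hy z hz hyz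
    · intro y _
      exact measurableSet_cell H y
  have h2 : volume (⋃ y ∈ A, cell H y) ≤ volume T := by
    apply measure_mono
    exact Set.iUnion₂_subset hsub
  rw [h1] at h2
  simp only [volume_cell, Finset.sum_const, nsmul_eq_mul] at h2
  have h3 := (ENNReal.toReal_le_toReal (ne_top_of_le_ne_top hT h2) hT).2 h2
  simpa only [ge_iff_le, ENNReal.toReal_mul, ENNReal.toReal_natCast, ENNReal.toReal_pow] using h3

theorem disjoint_cell_of_modEq {N : ℕ} {H : ℕ} {y z : Fin N → ℤ}
    (h : ∀ i, y i ≡ z i [ZMOD H]) (hyz : y ≠ z) : Disjoint (cell H y) (cell H z) := by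
  rw [Set.disjoint_left]
  intro x hx hx'
  rw [mem_cell] at hx hx'
  apply hyz
  funext i
  have h1 := hx i
  have h2 := hx' i
  have h3 : |((y i - z i : ℤ) : ℝ)| < (H : ℝ) := by
    push_cast
    rw [abs_lt]
    constructor <;> linarith only [h1, h2]
  have h4 : |y i - z i| < (H : ℤ) := by exact_mod_cast h3
  have h5 : (H : ℤ) ∣ y i - z i := (h i).symm.dvd
  have := Int.eq_zero_of_abs_lt_dvd h5 h4
  omega

theorem disjoint_cell_one {N : ℕ} {y z : Fin N → ℤ} (hyz : y ≠ z) :
    Disjoint (cell 1 y) (cell 1 z) :=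
  disjoint_cell_of_modEq (fun i => by simpa using Int.modEq_one) hyz

theorem intPts_card_upper_R {N : ℕ} {K : Set (Fin N → ℝ)} {R : ℝ} (hR : 1 ≤ R) (hK : NormalizedR K R)
    {lam : ℝ} (hl : 0 ≤ lam) :
    ((intPts K lam).card : ℝ) ≤ (lam + R) ^ N * (volume K).toReal := by
  have h := card_mul_le_of_cells 1 (intPts K lam) ((lam + ((1 : ℕ) : ℝ) * R) • K)
    (volume_smul_ne_top hK.compact _) (fun y _ z _ hyz => disjoint_cell_one hyz)
    (fun y hy => cell_subset hR hK hl le_rfl hy)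
  rw [volume_smul_toReal K (by positivity)] at h
  simpa only [ge_iff_le, Nat.cast_one, one_pow, mul_one, one_mul] using h

/-- G2 -/
theorem intPts_class_card_R {N : ℕ} {K : Set (Fin N → ℝ)} {R : ℝ} (hR : 1 ≤ R) (hK : NormalizedR K R)
    {lam : ℝ} (hl : 0 ≤ lam) (H : ℕ) (hH : 1 ≤ H) (u : Fin N → ℤ) :
    (((intPts K lam).filter (fun y => ∀ i, y i ≡ u i [ZMOD H])).card : ℝ) * (H : ℝ) ^ N
      ≤ (lam + H * R) ^ N * (volume K).toReal := by
  have h := card_mul_le_of_cells H
    ((intPts K lam).filter (fun y => ∀ i, y i ≡ u i [ZMOD H])) ((lam + (H : ℝ) * R) • K)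
    (volume_smul_ne_top hK.compact _)
    (fun y hy z hz hyz => disjoint_cell_of_modEq
      (fun i => ((Finset.mem_filter.1 hy).2 i).trans ((Finset.mem_filter.1 hz).2 i).symm) hyz)
    (fun y hy => cell_subset hR hK hl hH (Finset.mem_filter.1 hy).1)
  rw [volume_smul_toReal K (by (clear * - hl hH hR; positivity))] at h
  exact h

/-- G1 -/
theorem intPts_card_lower_R {N : ℕ} {K : Set (Fin N → ℝ)} {R : ℝ} (hR : 1 ≤ R) (hK : NormalizedR K R)
    {lam : ℝ} (hl : R ≤ lam) :
    (lam - R) ^ N * (volume K).toReal ≤ ((intPts K lam).card : ℝ) := by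
  have hl0 : 0 < lam := by linarith
  set T : Set (Fin N → ℝ) := (fun x : Fin N → ℝ => x + fun _ => (-1 : ℝ)) ⁻¹' ((lam - R) • K) with hT
  have hvol : volume T = volume ((lam - R) • K) := measure_preimage_add_right _ _ _
  have hcov : T ⊆ ⋃ z ∈ intPts K lam, cell 1 z := by
    intro x hx
    rw [hT, Set.mem_preimage, Set.mem_smul_set] at hx
    obtain ⟨k, hk, hkx⟩ := hx
    rw [Set.mem_iUnion₂]
    refine ⟨fun i => ⌊x i⌋, ?_, ?_⟩
    · rw [mem_intPts_R hK hl0.le]
      have hmem : (fun i => ((⌊x i⌋ : ℤ) : ℝ)) ∈ ((lam - R) + 1 * R) • K := by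
        apply add_mem_smul hR hK (by linarith only [hl]) one_pos hk
        intro i
        have h1 : (lam - R) * k i = x i + (-1) := by
          have := congrFun hkx i
          simpa using this
        rw [h1]
        have h2 := Int.floor_le (x i)
        have h3 := Int.lt_floor_add_one (x i)
        constructor <;> linarith only [h2, h3]
      rw [Set.mem_smul_set] at hmem
      obtain ⟨k', hk', hkk⟩ := hmem
      refine ⟨k', hk', fun i => ?_⟩
      have := congrFun hkk i
      simp only [Pi.smul_apply, smul_eq_mul] at this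
      rw [← this]
      ring
    · rw [mem_cell]
      intro i
      have h2 := Int.floor_le (x i)
      have h3 := Int.lt_floor_add_one (x i)
      constructor
      · exact h2
      · push_cast; exact h3
  have h1 : volume T ≤ ((intPts K lam).card : ENNReal) := by
    calc volume T ≤ volume (⋃ z ∈ intPts K lam, cell 1 z) := measure_mono hcov
      _ ≤ ∑ z ∈ intPts K lam, volume (cell 1 z) := measure_biUnion_finset_le _ _
      _ = ((intPts K lam).card : ENNReal) := by simp only [volume_cell, Nat.cast_one, one_pow, Finset.sum_const, nsmul_eq_mul, mul_one]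
  have h2 := (ENNReal.toReal_le_toReal (ne_top_of_le_ne_top (by simp) h1) (by simp)).2 h1
  rw [hvol, volume_smul_toReal K (by linarith only [hl])] at h2
  simpa only [ge_iff_le, ENNReal.toReal_natCast] using h2

/-- G3 with a general constant -/
theorem intPts_energy_gen {N : ℕ} {K : Set (Fin N → ℝ)} {R : ℝ} (hR : 1 ≤ R) (hK : NormalizedR K R)
    {lam : ℝ} (hl : 0 ≤ lam) {κ : ℝ} (hκ : 0 ≤ κ)
    (hE : ∀ Q : Set (Fin N → ℝ), MeasurableSet Q →
      ∫⁻ x : Fin N → ℝ, ∫⁻ y : Fin N → ℝ, ∫⁻ z : Fin N → ℝ,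
        Q.indicator (1 : (Fin N → ℝ) → ENNReal) x * Q.indicator 1 y * Q.indicator 1 z
          * Q.indicator 1 (x + y - z) ≤ ENNReal.ofReal κ * (volume Q) ^ 3) :
    ((((intPts K lam) ×ˢ (intPts K lam) ×ˢ (intPts K lam)).filter
      (fun a => a.1 + a.2.1 - a.2.2 ∈ intPts K lam)).card : ℝ)
      ≤ κ * ((lam + 3 * R) ^ N * (volume K).toReal) ^ 3 := by
  classical
  set A := intPts K lam with hA
  set T := ((A ×ˢ A ×ˢ A).filter (fun a => a.1 + a.2.1 - a.2.2 ∈ A)) with hTdef
  set Q : Set (Fin N → ℝ) := (fun x : Fin N → ℝ => x + fun _ => (1 : ℝ)) ⁻¹' ((lam + 3 * R) • K) with hQ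
  have hcomp : IsCompact ((lam + 3 * R) • K) := hK.compact.smul _
  have hvol : volume Q = volume ((lam + 3 * R) • K) := measure_preimage_add_right _ _ _
  have hQmeas : MeasurableSet Q := by
    apply hcomp.measurableSet.preimage
    exact measurable_id.add_const _
  have key : ∀ d ∈ A, ∀ x : Fin N → ℝ, (∀ i, (d i : ℝ) - 1 ≤ x i ∧ x i ≤ (d i : ℝ) + 2) → x ∈ Q := by
    intro d hd x hx
    obtain ⟨k, hk, hdk⟩ := (mem_intPts_R hK hl d).1 hd
    rw [hQ, Set.mem_preimage]
    apply add_mem_smul hR hK hl (by norm_num : (0 : ℝ) < 3) hk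
    intro i
    rw [← hdk i]
    have := hx i
    simp only [Pi.add_apply]
    constructor <;> linarith only [this]
  have hpt : ∀ x y z : Fin N → ℝ,
      ∑ a ∈ T, ((cell 1 a.1).indicator (1 : (Fin N → ℝ) → ENNReal) x
        * (cell 1 a.2.1).indicator (1 : (Fin N → ℝ) → ENNReal) y
        * (cell 1 a.2.2).indicator (1 : (Fin N → ℝ) → ENNReal) z)
      ≤ Q.indicator (1 : (Fin N → ℝ) → ENNReal) x * Q.indicator 1 y * Q.indicator 1 z
          * Q.indicator 1 (x + y - z) := by
    intro x y z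
    have hcell : ∀ (a : Fin N → ℤ) (u : Fin N → ℝ), u ∈ cell 1 a → a = fun i => ⌊u i⌋ := by
      intro a u hu
      rw [mem_cell] at hu
      funext i
      symm
      rw [Int.floor_eq_iff]
      have := hu i
      push_cast at this
      exact this
    set a0 : (Fin N → ℤ) × (Fin N → ℤ) × (Fin N → ℤ) :=
      (fun i => ⌊x i⌋, fun i => ⌊y i⌋, fun i => ⌊z i⌋) with ha0
    have hzero : ∀ a ∈ T, a ≠ a0 → ((cell 1 a.1).indicator (1 : (Fin N → ℝ) → ENNReal) x
        * (cell 1 a.2.1).indicator (1 : (Fin N → ℝ) → ENNReal) y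
        * (cell 1 a.2.2).indicator (1 : (Fin N → ℝ) → ENNReal) z) = 0 := by
      intro a _ hne
      by_contra hcon
      apply hne
      have h1 : x ∈ cell 1 a.1 := by
        by_contra h
        apply hcon
        simp [Set.indicator_of_notMem h]
      have h2 : y ∈ cell 1 a.2.1 := by
        by_contra h
        apply hcon
        simp [Set.indicator_of_notMem h]
      have h3 : z ∈ cell 1 a.2.2 := by
        by_contra h
        apply hcon
        simp [Set.indicator_of_notMem h]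
      rw [ha0]
      ext1
      · exact hcell _ _ h1
      ext1
      · exact hcell _ _ h2
      · exact hcell _ _ h3
    by_cases hmem : a0 ∈ T
    · rw [Finset.sum_eq_single_of_mem a0 hmem hzero]
      have hm := (Finset.mem_filter.1 hmem)
      have hm1 := Finset.mem_product.1 hm.1
      have hm2 := Finset.mem_product.1 hm1.2
      have hx0 := fun i => Int.floor_le (x i)
      have hx1 := fun i => Int.lt_floor_add_one (x i)
      have hy0 := fun i => Int.floor_le (y i)
      have hy1 := fun i => Int.lt_floor_add_one (y i)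
      have hz0 := fun i => Int.floor_le (z i)
      have hz1 := fun i => Int.lt_floor_add_one (z i)
      have e1 : x ∈ Q := key _ hm1.1 x (fun i => by
        simp only [ha0]
        constructor <;> linarith only [hx0 i, hx1 i])
      have e2 : y ∈ Q := key _ hm2.1 y (fun i => by
        simp only [ha0]
        constructor <;> linarith only [hy0 i, hy1 i])
      have e3 : z ∈ Q := key _ hm2.2 z (fun i => by
        simp only [ha0]
        constructor <;> linarith only [hz0 i, hz1 i])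
      have e4 : x + y - z ∈ Q := key _ hm.2 _ (fun i => by
        simp only [ha0, Pi.add_apply, Pi.sub_apply]
        push_cast
        constructor <;> linarith only [hx0 i, hy0 i, hz1 i, hx1 i, hy1 i, hz0 i])
      rw [Set.indicator_of_mem e1, Set.indicator_of_mem e2, Set.indicator_of_mem e3,
        Set.indicator_of_mem e4]
      simp only [Pi.one_apply, mul_one]
      refine le_trans (mul_le_mul' (mul_le_mul' ?_ ?_) ?_) (by simp : (1 : ENNReal) * 1 * 1 ≤ 1)
      · exact Set.indicator_le_self' (by simp) x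
      · exact Set.indicator_le_self' (by simp only [Pi.one_apply, zero_le, implies_true]) y
      · exact Set.indicator_le_self' (by simp) z
    · rw [Finset.sum_eq_zero]
      · exact zero_le
      · intro a ha
        apply hzero a ha
        rintro rfl
        exact hmem ha
  have hind : ∀ (a : Fin N → ℤ), ∫⁻ x : Fin N → ℝ, (cell 1 a).indicator (1 : (Fin N → ℝ) → ENNReal) x = 1 := by
    intro a
    rw [lintegral_indicator_one (measurableSet_cell 1 a), volume_cell]
    simp
  have hmeas : ∀ a : Fin N → ℤ, Measurable ((cell 1 a).indicator (1 : (Fin N → ℝ) → ENNReal)) :=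
    fun a => measurable_one.indicator (measurableSet_cell 1 a)
  have hlow : (T.card : ENNReal) ≤ ∫⁻ x : Fin N → ℝ, ∫⁻ y : Fin N → ℝ, ∫⁻ z : Fin N → ℝ,
        Q.indicator (1 : (Fin N → ℝ) → ENNReal) x * Q.indicator 1 y * Q.indicator 1 z
          * Q.indicator 1 (x + y - z) := by
    calc (T.card : ENNReal) = ∑ a ∈ T, (1 : ENNReal) := by simp
      _ = ∫⁻ x : Fin N → ℝ, ∫⁻ y : Fin N → ℝ, ∫⁻ z : Fin N → ℝ,
          ∑ a ∈ T, ((cell 1 a.1).indicator (1 : (Fin N → ℝ) → ENNReal) x
        * (cell 1 a.2.1).indicator (1 : (Fin N → ℝ) → ENNReal) y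
        * (cell 1 a.2.2).indicator (1 : (Fin N → ℝ) → ENNReal) z) := by
          have h3 : ∀ x y : Fin N → ℝ, ∫⁻ z : Fin N → ℝ,
              ∑ a ∈ T, ((cell 1 a.1).indicator (1 : (Fin N → ℝ) → ENNReal) x
                * (cell 1 a.2.1).indicator (1 : (Fin N → ℝ) → ENNReal) y
                * (cell 1 a.2.2).indicator (1 : (Fin N → ℝ) → ENNReal) z)
              = ∑ a ∈ T, ((cell 1 a.1).indicator (1 : (Fin N → ℝ) → ENNReal) x
                * (cell 1 a.2.1).indicator (1 : (Fin N → ℝ) → ENNReal) y) := by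
            intro x y
            rw [lintegral_finsetSum _ (fun a _ => (hmeas a.2.2).const_mul _)]
            apply Finset.sum_congr rfl
            intro a _
            rw [lintegral_const_mul _ (hmeas a.2.2), hind, mul_one]
          have h2 : ∀ x : Fin N → ℝ, ∫⁻ y : Fin N → ℝ,
              ∑ a ∈ T, ((cell 1 a.1).indicator (1 : (Fin N → ℝ) → ENNReal) x
                * (cell 1 a.2.1).indicator (1 : (Fin N → ℝ) → ENNReal) y)
              = ∑ a ∈ T, ((cell 1 a.1).indicator (1 : (Fin N → ℝ) → ENNReal) x) := by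
            intro x
            rw [lintegral_finsetSum _ (fun a _ => (hmeas a.2.1).const_mul _)]
            apply Finset.sum_congr rfl
            intro a _
            rw [lintegral_const_mul _ (hmeas a.2.1), hind, mul_one]
          simp only [h3, h2]
          rw [lintegral_finsetSum _ (fun a _ => (hmeas a.1))]
          apply Finset.sum_congr rfl
          intro a _
          rw [hind]
      _ ≤ _ := lintegral_mono fun x => lintegral_mono fun y => lintegral_mono fun z => hpt x y z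
  have hfin := hlow.trans (hE Q hQmeas)
  have htop : ENNReal.ofReal κ * (volume Q) ^ 3 ≠ ⊤ := by
    apply ENNReal.mul_ne_top
    · exact ENNReal.ofReal_ne_top
    · rw [hvol]
      exact ENNReal.pow_ne_top hcomp.measure_lt_top.ne
  have h2 := (ENNReal.toReal_le_toReal (ne_top_of_le_ne_top htop hfin) htop).2 hfin
  rw [ENNReal.toReal_mul, ENNReal.toReal_pow, hvol,
    volume_smul_toReal K (by (clear * - hl hR; positivity)), ENNReal.toReal_ofReal hκ] at h2
  simpa only [ge_iff_le, ENNReal.toReal_natCast] using h2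

/-- G3 (uses the energy bound (4)) -/
theorem intPts_energy_R {N : ℕ} {K : Set (Fin N → ℝ)} {R : ℝ} (hR : 1 ≤ R) (hK : NormalizedR K R)
    {lam : ℝ} (hl : 0 ≤ lam)
    (hE : ∀ Q : Set (Fin N → ℝ), MeasurableSet Q →
      ∫⁻ x : Fin N → ℝ, ∫⁻ y : Fin N → ℝ, ∫⁻ z : Fin N → ℝ,
        Q.indicator (1 : (Fin N → ℝ) → ENNReal) x * Q.indicator 1 y * Q.indicator 1 z
          * Q.indicator 1 (x + y - z) ≤ (ENNReal.ofReal (19/20)) ^ N * (volume Q) ^ 3) :
    ((((intPts K lam) ×ˢ (intPts K lam) ×ˢ (intPts K lam)).filter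
      (fun a => a.1 + a.2.1 - a.2.2 ∈ intPts K lam)).card : ℝ)
      ≤ (19/20 : ℝ) ^ N * ((lam + 3 * R) ^ N * (volume K).toReal) ^ 3 := by
  apply intPts_energy_gen hR hK hl (by positivity)
  intro Q hQ
  rw [ENNReal.ofReal_pow (by norm_num)]
  exact hE Q hQ

/-- number of representations as a sum of two elements of a set -/
def repCount {G : Type*} [AddCommGroup G] [DecidableEq G] (A : Finset G) (t : G) : ℕ :=
  (A.filter (fun c => t - c ∈ A)).card

theorem energy_eq_sum_prod {G : Type*} [AddCommGroup G] [DecidableEq G] (A : Finset G) (W : G) :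
    ((A ×ˢ A ×ˢ A).filter (fun a => a.1 + a.2.1 - a.2.2 + W ∈ A)).card
      = ∑ q ∈ A ×ˢ A, repCount A (q.1 + q.2 + W) := by
  classical
  rw [Finset.card_filter, Finset.sum_product, Finset.sum_product]
  apply Finset.sum_congr rfl
  intro a _
  rw [Finset.sum_product]
  apply Finset.sum_congr rfl
  intro b _
  rw [repCount, Finset.card_filter]
  apply Finset.sum_congr rfl
  intro c _
  have : a + b - c + W = a + b + W - c := by abel
  simp only [this]

theorem sum_prod_comp {G : Type*} [AddCommGroup G] [DecidableEq G] (A : Finset G) (f : G → ℕ) :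
    ∑ q ∈ A ×ˢ A, f (q.1 + q.2)
      = ∑ t ∈ (A ×ˢ A).image (fun q => q.1 + q.2), repCount A t * f t := by
  classical
  rw [← Finset.sum_fiberwise_of_maps_to (s := A ×ˢ A) (t := (A ×ˢ A).image (fun q => q.1 + q.2))
    (g := fun q : G × G => q.1 + q.2) (fun q hq => Finset.mem_image_of_mem _ hq)]
  apply Finset.sum_congr rfl
  intro t _
  have h1 : ∀ q ∈ (A ×ˢ A).filter (fun q : G × G => q.1 + q.2 = t), f (q.1 + q.2) = f t := by
    intro q hq
    rw [(Finset.mem_filter.1 hq).2]
  rw [Finset.sum_congr rfl h1, Finset.sum_const, smul_eq_mul]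
  congr 1
  rw [repCount]
  apply Finset.card_bij' (fun q _ => q.1) (fun c _ => (c, t - c))
  · intro q hq
    rw [Finset.mem_filter, Finset.mem_product] at hq
    rw [Finset.mem_filter]
    refine ⟨hq.1.1, ?_⟩
    rw [← hq.2]
    simpa using hq.1.2
  · intro c hc
    rw [Finset.mem_filter] at hc
    rw [Finset.mem_filter, Finset.mem_product]
    exact ⟨⟨hc.1, hc.2⟩, by simp⟩
  · intro q hq
    rw [Finset.mem_filter, Finset.mem_product] at hq
    ext1
    · rfl
    · simp only
      rw [← hq.2]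
      abel
  · intro c _
    rfl

theorem repCount_ne_zero {G : Type*} [AddCommGroup G] [DecidableEq G] {A : Finset G} {t : G}
    (h : repCount A t ≠ 0) : t ∈ (A ×ˢ A).image (fun q => q.1 + q.2) := by
  rw [repCount, Finset.card_ne_zero] at h
  obtain ⟨c, hc⟩ := h
  rw [Finset.mem_filter] at hc
  rw [Finset.mem_image]
  exact ⟨(c, t - c), Finset.mem_product.2 ⟨hc.1, hc.2⟩, by simp⟩

/-- among all shifts the additive energy is the largest count -/
theorem energy_shift_group {G : Type*} [AddCommGroup G] [DecidableEq G] (A : Finset G) (W : G) :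
    ((A ×ˢ A ×ˢ A).filter (fun a => a.1 + a.2.1 - a.2.2 + W ∈ A)).card
      ≤ ((A ×ˢ A ×ˢ A).filter (fun a => a.1 + a.2.1 - a.2.2 ∈ A)).card := by
  classical
  have h0 : ((A ×ˢ A ×ˢ A).filter (fun a => a.1 + a.2.1 - a.2.2 ∈ A)).card
      = ∑ q ∈ A ×ˢ A, repCount A (q.1 + q.2) := by
    have := energy_eq_sum_prod A 0
    simpa only [add_zero] using this
  rw [h0, energy_eq_sum_prod, sum_prod_comp A (fun t => repCount A (t + W)),
    sum_prod_comp A (fun t => repCount A t)]
  set T := (A ×ˢ A).image (fun q => q.1 + q.2) with hT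
  have h1 : ∑ t ∈ T, repCount A (t + W) * repCount A (t + W)
      ≤ ∑ t ∈ T, repCount A t * repCount A t := by
    calc ∑ t ∈ T, repCount A (t + W) * repCount A (t + W)
        = ∑ t ∈ T.filter (fun t => t + W ∈ T), repCount A (t + W) * repCount A (t + W) := by
          rw [Finset.sum_filter]
          apply Finset.sum_congr rfl
          intro t _
          split_ifs with h
          · rfl
          · have : repCount A (t + W) = 0 := by
              by_contra hne
              exact h (repCount_ne_zero hne)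
            rw [this, mul_zero]
      _ = ∑ u ∈ (T.filter (fun t => t + W ∈ T)).image (fun t => t + W), repCount A u * repCount A u := by
          rw [Finset.sum_image]
          intro a _ b _ hab
          exact add_right_cancel hab
      _ ≤ ∑ t ∈ T, repCount A t * repCount A t := by
          apply Finset.sum_le_sum_of_subset
          intro u hu
          rw [Finset.mem_image] at hu
          obtain ⟨t, ht, rfl⟩ := hu
          exact (Finset.mem_filter.1 ht).2
  have h2 : 2 * ∑ t ∈ T, repCount A t * repCount A (t + W)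
      ≤ ∑ t ∈ T, repCount A t * repCount A t + ∑ t ∈ T, repCount A (t + W) * repCount A (t + W) := by
    rw [Finset.mul_sum, ← Finset.sum_add_distrib]
    apply Finset.sum_le_sum
    intro t _
    zify
    linarith only [sq_nonneg ((repCount A t : ℤ) - repCount A (t + W))]
  omega

/-- TASK G4 : from the unshifted energy to all shifts mod p. -/
theorem energy_shift {p N : ℕ} [Fact p.Prime] (A : Finset (Fin N → ℤ)) (Y' : ℕ)
    (hA : ∀ y ∈ A, ∀ i, |y i| ≤ Y') (hp : 8 * Y' < p) (w : Fin N → ZMod p) :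
    (((castSet p A) ×ˢ (castSet p A) ×ˢ (castSet p A)).filter
      (fun a => a.1 + a.2.1 - a.2.2 + w ∈ castSet p A)).card ≤
    ((A ×ˢ A ×ˢ A).filter (fun a => a.1 + a.2.1 - a.2.2 ∈ A)).card := by
  classical
  set F := (((castSet p A) ×ˢ (castSet p A) ×ˢ (castSet p A)).filter
      (fun a => a.1 + a.2.1 - a.2.2 + w ∈ castSet p A)) with hF
  rcases F.eq_empty_or_nonempty with h | ⟨s, hs⟩
  · rw [h]; simp only [Finset.card_empty, zero_le]
  have lift : ∀ s ∈ F, ∃ y1 ∈ A, ∃ y2 ∈ A, ∃ y3 ∈ A, ∃ y4 ∈ A,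
      s = ((fun i => (y1 i : ZMod p)), (fun i => (y2 i : ZMod p)), (fun i => (y3 i : ZMod p))) ∧
      (∀ i, (y1 i : ZMod p) + y2 i - y3 i + w i = y4 i) := by
    intro s hs
    rw [hF, Finset.mem_filter, Finset.mem_product, Finset.mem_product] at hs
    obtain ⟨⟨h1, h2, h3⟩, h4⟩ := hs
    rw [castSet, Finset.mem_image] at h1 h2 h3 h4
    obtain ⟨y1, hy1, e1⟩ := h1
    obtain ⟨y2, hy2, e2⟩ := h2
    obtain ⟨y3, hy3, e3⟩ := h3
    obtain ⟨y4, hy4, e4⟩ := h4
    refine ⟨y1, hy1, y2, hy2, y3, hy3, y4, hy4, ?_, ?_⟩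
    · rw [e1, e2, e3]
    · intro i
      have := congrFun e4 i
      rw [← e1, ← e2, ← e3] at this
      simp only [Pi.add_apply, Pi.sub_apply] at this
      exact this.symm
  obtain ⟨y1, hy1, y2, hy2, y3, hy3, y4, hy4, _, hw⟩ := lift s hs
  set W : Fin N → ℤ := y4 - (y1 + y2 - y3) with hW
  refine le_trans ?_ (energy_shift_group A W)
  have hsub : F ⊆ ((A ×ˢ A ×ˢ A).filter (fun a => a.1 + a.2.1 - a.2.2 + W ∈ A)).image
      (fun a => ((fun i => (a.1 i : ZMod p)), (fun i => (a.2.1 i : ZMod p)),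
        (fun i => (a.2.2 i : ZMod p)))) := by
    intro s' hs'
    obtain ⟨z1, hz1, z2, hz2, z3, hz3, z4, hz4, es, hw'⟩ := lift s' hs'
    rw [Finset.mem_image]
    refine ⟨(z1, z2, z3), ?_, es.symm⟩
    rw [Finset.mem_filter, Finset.mem_product, Finset.mem_product]
    refine ⟨⟨hz1, hz2, hz3⟩, ?_⟩
    have : z1 + z2 - z3 + W = z4 := by
      funext i
      have b1 := abs_le.1 (hA y1 hy1 i)
      have b2 := abs_le.1 (hA y2 hy2 i)
      have b3 := abs_le.1 (hA y3 hy3 i)
      have b4 := abs_le.1 (hA y4 hy4 i)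
      have c1 := abs_le.1 (hA z1 hz1 i)
      have c2 := abs_le.1 (hA z2 hz2 i)
      have c3 := abs_le.1 (hA z3 hz3 i)
      have c4 := abs_le.1 (hA z4 hz4 i)
      have hdvd : (p : ℤ) ∣ (z1 i + z2 i - z3 i + W i) - z4 i := by
        rw [← ZMod.intCast_zmod_eq_zero_iff_dvd]
        have e1 := hw i
        have e2 := hw' i
        simp only [hW, Pi.sub_apply, Pi.add_apply]
        push_cast
        rw [← e1, ← e2]
        ring
      have hlt : |(z1 i + z2 i - z3 i + W i) - z4 i| < (p : ℤ) := by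
        have hWi : W i = y4 i - (y1 i + y2 i - y3 i) := rfl
        rw [hWi, abs_lt]
        constructor <;> omega
      have := Int.eq_zero_of_abs_lt_dvd hdvd hlt
      simp only [Pi.add_apply, Pi.sub_apply]
      omega
    show z1 + z2 - z3 + W ∈ A
    rw [this]
    exact hz4
  exact (Finset.card_le_card hsub).trans Finset.card_image_le

end Vale.Agent.P230
end
end
end

section

section

section

namespace Vale.Agent.P230

theorem indep_modp_of_rat {ι κ : Type*} [Fintype ι] [DecidableEq ι] [Fintype κ] {p : ℕ}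
    [Fact p.Prime] (v : ι → κ → ℤ) (B : ℕ)
    (hB : ∀ i j, |v i j| ≤ B)
    (hp : (Fintype.card ι).factorial * (Fintype.card κ * B ^ 2) ^ (Fintype.card ι) < p)
    (h : LinearIndependent ℚ (fun i j => (v i j : ℚ))) :
    LinearIndependent (ZMod p) (fun i j => (v i j : ZMod p)) := by
  classical
  set G : Matrix ι ι ℤ := Matrix.of v * (Matrix.of v).transpose with hG
  -- the determinant is nonzero
  have hdet : G.det ≠ 0 := by
    intro h0
    have h1 : (G.map (Int.castRingHom ℚ)).det = 0 := by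
      rw [← RingHom.mapMatrix_apply, ← RingHom.map_det, h0, map_zero]
    obtain ⟨c, hc0, hc⟩ := Matrix.exists_vecMul_eq_zero_iff.2 h1
    apply hc0
    have h2 : Matrix.vecMul c (Matrix.of fun i j => (v i j : ℚ)) = 0 := by
      have e : G.map (Int.castRingHom ℚ) = (Matrix.of fun i j => (v i j : ℚ)) *
          (Matrix.of fun i j => (v i j : ℚ)).transpose := by
        ext i j
        simp only [hG, Int.coe_castRingHom, Matrix.map_apply, Matrix.mul_apply, Matrix.of_apply, Matrix.transpose_apply, Int.cast_sum, Int.cast_mul]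
      rw [e] at hc
      have h3 : Matrix.vecMul c ((Matrix.of fun i j => (v i j : ℚ)) *
          (Matrix.of fun i j => (v i j : ℚ)).transpose) ⬝ᵥ c = 0 := by
        rw [hc, zero_dotProduct]
      rw [← Matrix.vecMul_vecMul, Matrix.vecMul_transpose, dotProduct_comm,
        Matrix.dotProduct_mulVec] at h3
      exact dotProduct_self_eq_zero.1 h3
    funext i
    refine (Fintype.linearIndependent_iff.1 h) c ?_ i
    funext j
    have h4 := congrFun h2 j
    rw [Matrix.vecMul_eq_sum] at h4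
    simpa only [Finset.sum_apply, Pi.smul_apply, smul_eq_mul, Pi.zero_apply, Matrix.of_apply] using h4
  -- the determinant is small
  have hsmall : |G.det| ≤ (Fintype.card ι).factorial * (Fintype.card κ * B ^ 2) ^ (Fintype.card ι) := by
    have h1 : ∀ i j, AbsoluteValue.abs (G i j) ≤ ((Fintype.card κ * B ^ 2 : ℕ) : ℤ) := by
      intro i j
      show |G i j| ≤ _
      have e : G i j = ∑ k, v i k * v j k := by
        simp only [hG, Matrix.mul_apply, Matrix.of_apply, Matrix.transpose_apply]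
      rw [e]
      refine (Finset.abs_sum_le_sum_abs _ _).trans ?_
      have h2 : ∀ k ∈ (Finset.univ : Finset κ), |v i k * v j k| ≤ (B : ℤ) ^ 2 := by
        intro k _
        rw [abs_mul, sq]
        exact mul_le_mul (hB i k) (hB j k) (abs_nonneg _) (by (clear * -; positivity))
      refine (Finset.sum_le_card_nsmul _ _ _ h2).trans ?_
      rw [Finset.card_univ, nsmul_eq_mul]
      push_cast
      exact le_rfl
    have h2 := Matrix.det_le h1
    rw [nsmul_eq_mul] at h2
    have h3 : |G.det| ≤ ((Fintype.card ι).factorial : ℤ) *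
        ((Fintype.card κ * B ^ 2 : ℕ) : ℤ) ^ (Fintype.card ι) := h2
    exact_mod_cast h3
  rw [Fintype.linearIndependent_iff]
  intro c hc
  by_contra hne
  have hc0 : c ≠ 0 := by
    intro h0
    apply hne
    intro i
    rw [h0]
    rfl
  have h1 : Matrix.vecMul c (Matrix.of fun i j => (v i j : ZMod p)) = 0 := by
    funext j
    have h4 := congrFun hc j
    rw [Matrix.vecMul_eq_sum]
    simpa only [Finset.sum_apply, Pi.smul_apply, Matrix.of_apply, smul_eq_mul, Pi.zero_apply] using h4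
  have e : G.map (Int.castRingHom (ZMod p)) = (Matrix.of fun i j => (v i j : ZMod p)) *
      (Matrix.of fun i j => (v i j : ZMod p)).transpose := by
    ext i j
    simp only [hG, Int.coe_castRingHom, Matrix.map_apply, Matrix.mul_apply, Matrix.of_apply, Matrix.transpose_apply, Int.cast_sum, Int.cast_mul]
  have h2 : Matrix.vecMul c (G.map (Int.castRingHom (ZMod p))) = 0 := by
    rw [e, ← Matrix.vecMul_vecMul, h1, Matrix.zero_vecMul]
  have h3 : (G.map (Int.castRingHom (ZMod p))).det = 0 :=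
    Matrix.exists_vecMul_eq_zero_iff.1 ⟨c, hc0, h2⟩
  rw [← RingHom.mapMatrix_apply, ← RingHom.map_det] at h3
  have h4 : ((G.det : ℤ) : ZMod p) = 0 := h3
  rw [ZMod.intCast_zmod_eq_zero_iff_dvd] at h4
  refine hdet (Int.eq_zero_of_abs_lt_dvd h4 (lt_of_le_of_lt hsmall ?_))
  exact_mod_cast hp

theorem rat_indep_of_int {ι κ : Type*} (v : ι → κ → ℤ) (h : LinearIndependent ℤ v) :
    LinearIndependent ℚ (fun i j => (v i j : ℚ)) := by
  rw [← LinearIndependent.iff_fractionRing (R := ℤ)]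
  have h1 := h.map' (LinearMap.compLeft (Int.castAddHom ℚ).toIntLinearMap κ) (by
    rw [LinearMap.ker_eq_bot]
    intro x y hxy
    funext j
    have h2 := congrFun hxy j
    have h3 : ((x j : ℤ) : ℚ) = ((y j : ℤ) : ℚ) := h2
    exact_mod_cast h3)
  exact h1

theorem cast_aug {N : ℕ} {p : ℕ} (s : Fin N → ℤ) (j : Fin (N + 1)) :
    ((aug s j : ℤ) : ZMod p) = aug (fun i => ((s i : ℤ) : ZMod p)) j := by
  refine Fin.cases ?_ (fun i => ?_) j
  · simp [aug]
  · simp [aug]

/-- TASK C3 -/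
theorem affInd_mod {N : ℕ} (B : Finset (Fin N → ℤ)) (Y : ℕ) (hY1 : 1 ≤ Y)
    (hY : ∀ s ∈ B, ∀ j, |s j| ≤ (Y : ℤ)) (p : ℕ) [Fact p.Prime]
    (hp : B.card.factorial * ((N + 1) * Y ^ 2) ^ B.card < p) (hB : AffInd B) :
    AffIndMod p B := by
  classical
  have h1 := indep_modp_of_rat (p := p) (fun (s : B) => aug (s : Fin N → ℤ)) Y (by
    intro s j
    refine Fin.cases ?_ (fun i => ?_) j
    · simp only [aug, Fin.cons_zero, abs_one]
      exact_mod_cast hY1
    · simp only [aug, Fin.cons_succ]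
      exact hY s s.2 i) (by
    rw [Fintype.card_coe, Fintype.card_fin]
    exact hp) (rat_indep_of_int _ hB)
  have e : (fun (s : B) (j : Fin (N + 1)) => ((aug (s : Fin N → ℤ) j : ℤ) : ZMod p)) =
      fun s : B => aug (fun i => (((s : Fin N → ℤ) i : ℤ) : ZMod p)) := by
    funext s j
    exact cast_aug _ _
  rw [e] at h1
  exact h1

end Vale.Agent.P230
end
end
end

section

section

section

namespace Vale.Agent.P230

/-- ordered injective `j`-tuples of `S` which are affinely dependent over `ℤ` -/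
noncomputable def depTuples {N : ℕ} (S : Finset (Fin N → ℤ)) (j : ℕ) :
    Finset (Fin j → Fin N → ℤ) := by
  classical
  exact (Fintype.piFinset (fun _ : Fin j => S)).filter
    (fun x => Function.Injective x ∧ ¬ LinearIndependent ℤ (fun i => aug (x i)))

/-- independence modulo a prime implies independence over `ℤ` -/
theorem indep_of_mod_aux {ι : Type*} {d : ℕ} (v : ι → Fin d → ℤ) (l : ℕ) [hl : Fact l.Prime]
    (h : LinearIndependent (ZMod l) (fun i j => ((v i j : ℤ) : ZMod l))) :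
    LinearIndependent ℤ v := by
  classical
  rw [linearIndependent_iff']
  -- descent on the size of the coefficients
  intro s
  have key : ∀ (n : ℕ) (g : ι → ℤ), (∑ i ∈ s, (g i).natAbs ≤ n) → ∑ i ∈ s, g i • v i = 0 →
      ∀ i ∈ s, g i = 0 := by
    intro n
    induction n using Nat.strong_induction_on with
    | _ n ih =>
      intro g hg hsum
      -- all `g i` divisible by `l`
      have hmod : ∀ i ∈ s, ((g i : ℤ) : ZMod l) = 0 := by
        rw [linearIndependent_iff'] at h
        apply h s (fun i => ((g i : ℤ) : ZMod l))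
        funext j
        have := congrFun hsum j
        simp only [Finset.sum_apply, Pi.smul_apply, smul_eq_mul, Pi.zero_apply] at this ⊢
        have h2 := congrArg (fun z : ℤ => (z : ZMod l)) this
        simpa only [Int.cast_sum, Int.cast_mul, Int.cast_zero] using h2
      have hdiv : ∀ i ∈ s, ∃ q, g i = l * q := by
        intro i hi
        have := (ZMod.intCast_zmod_eq_zero_iff_dvd (g i) l).1 (hmod i hi)
        exact this
      by_contra hne
      push Not at hne
      obtain ⟨i₀, hi₀, hi₀'⟩ := hne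
      have hl2 : 2 ≤ l := hl.out.two_le
      let q : ι → ℤ := fun i => g i / l
      have hq : ∀ i ∈ s, g i = l * q i := by
        intro i hi
        obtain ⟨r, hr⟩ := hdiv i hi
        simp only [q]
        rw [hr, Int.mul_ediv_cancel_left _ (by exact_mod_cast (by omega : l ≠ 0))]
      have hlt : ∑ i ∈ s, (q i).natAbs < ∑ i ∈ s, (g i).natAbs := by
        apply Finset.sum_lt_sum
        · intro i hi
          rw [hq i hi, Int.natAbs_mul, Int.natAbs_natCast]
          exact Nat.le_mul_of_pos_left _ (by omega)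
        · refine ⟨i₀, hi₀, ?_⟩
          have hq0 : q i₀ ≠ 0 := by
            intro h0
            apply hi₀'
            rw [hq i₀ hi₀, h0, mul_zero]
          rw [hq i₀ hi₀, Int.natAbs_mul, Int.natAbs_natCast]
          have : 0 < (q i₀).natAbs := Int.natAbs_pos.2 hq0
          nlinarith only [hl2, this]
      have hqs : ∑ i ∈ s, q i • v i = 0 := by
        have h3 : (l : ℤ) • ∑ i ∈ s, q i • v i = 0 := by
          rw [← hsum, Finset.smul_sum]
          apply Finset.sum_congr rfl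
          intro i hi
          rw [hq i hi, mul_smul]
        rcases smul_eq_zero.1 h3 with h4 | h4
        · exfalso
          have : (l : ℤ) ≠ 0 := by exact_mod_cast (by omega : l ≠ 0)
          exact this h4
        · exact h4
      have := ih (∑ i ∈ s, (q i).natAbs) (by omega) q le_rfl hqs i₀ hi₀
      apply hi₀'
      rw [hq i₀ hi₀, this, mul_zero]
  intro g hsum i hi
  exact key _ g le_rfl hsum i hi

/-- a dependent finite sequence has an element in the span of the previous ones -/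
theorem exists_mem_span_prev {K V : Type*} [Field K] [AddCommGroup V] [Module K V] {n : ℕ}
    (v : Fin n → V) (h : ¬ LinearIndependent K v) :
    ∃ i : Fin n, ∃ D : Fin i → K, ∑ a : Fin i, D a • v ⟨a, a.2.trans i.2⟩ = v i := by
  induction n with
  | zero => exact absurd (linearIndependent_empty_type) h
  | succ n ih =>
    by_cases h1 : LinearIndependent K (fun i : Fin n => v i.castSucc)
    · have h2 : v (Fin.last n) ∈ Submodule.span K (Set.range fun i : Fin n => v i.castSucc) := by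
        by_contra h3
        apply h
        rw [linearIndependent_finSucc']
        exact ⟨h1, h3⟩
      rw [Submodule.mem_span_range_iff_exists_fun] at h2
      obtain ⟨c, hc⟩ := h2
      exact ⟨Fin.last n, c, hc⟩
    · obtain ⟨i, D, hD⟩ := ih _ h1
      exact ⟨i.castSucc, D, hD⟩


/-- the tuples satisfying one relation at place `i` -/
noncomputable def relTuples {N : ℕ} (S : Finset (Fin N → ℤ)) (l j : ℕ) (i : Fin (j + 1))
    (D : Fin i → ZMod l) : Finset (Fin (j + 1) → Fin N → ℤ) := by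
  classical
  exact (Fintype.piFinset (fun _ : Fin (j + 1) => S)).filter
    (fun x => ∑ a : Fin i, D a • (fun b => ((x ⟨a, a.2.trans i.2⟩ b : ℤ) : ZMod l))
      = fun b => ((x i b : ℤ) : ZMod l))

theorem relTuples_card {N : ℕ} (S : Finset (Fin N → ℤ)) (l : ℕ)
    (hinj : Set.InjOn (fun (s : Fin N → ℤ) (i : Fin N) => (s i : ZMod l)) S)
    (j : ℕ) (i : Fin (j + 1)) (D : Fin i → ZMod l) :
    (relTuples S l j i D).card ≤
      ((Fintype.piFinset (fun _ : Fin i => castSet l S)).filter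
        (fun y => ∑ j, D j • y j ∈ castSet l S)).card * S.card ^ (j - i) := by
  classical
  have hcard : ((Fintype.piFinset (fun _ : Fin i => castSet l S)).filter
        (fun y => ∑ j, D j • y j ∈ castSet l S)).card * S.card ^ (j - i)
      = (((Fintype.piFinset (fun _ : Fin i => castSet l S)).filter
        (fun y => ∑ j, D j • y j ∈ castSet l S)) ×ˢ
          (Fintype.piFinset (fun _ : Fin (j - i) => S))).card := by
    rw [Finset.card_product, Fintype.card_piFinset_const]
  rw [hcard]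
  have hij : (i : ℕ) ≤ j := Nat.lt_succ_iff.1 i.2
  apply Finset.card_le_card_of_injOn
    (fun x => ((fun (a : Fin i) (b : Fin N) => ((x ⟨a, a.2.trans i.2⟩ b : ℤ) : ZMod l)),
      (fun (b : Fin (j - i)) => x ⟨i + 1 + b, by omega⟩)))
  · intro x hx
    rw [Finset.mem_coe, relTuples, Finset.mem_filter, Fintype.mem_piFinset] at hx
    obtain ⟨hxS, hrel⟩ := hx
    rw [Finset.mem_coe, Finset.mem_product]
    refine ⟨?_, ?_⟩
    · rw [Finset.mem_filter, Fintype.mem_piFinset]
      refine ⟨?_, ?_⟩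
      · intro a
        exact Finset.mem_image_of_mem _ (hxS _)
      · have e : ∑ a : Fin i, D a • (fun b => ((x ⟨a, a.2.trans i.2⟩ b : ℤ) : ZMod l))
            ∈ castSet l S := by
          rw [hrel]
          exact Finset.mem_image_of_mem _ (hxS _)
        exact e
    · rw [Fintype.mem_piFinset]
      intro b
      exact hxS _
  · intro x hx y hy hxy
    rw [Finset.mem_coe, relTuples, Finset.mem_filter, Fintype.mem_piFinset] at hx hy
    obtain ⟨hxS, hxrel⟩ := hx
    obtain ⟨hyS, hyrel⟩ := hy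
    simp only [Prod.mk.injEq] at hxy
    obtain ⟨h1, h2⟩ := hxy
    have h1' : ∀ a : Fin i, (fun b => ((x ⟨a, a.2.trans i.2⟩ b : ℤ) : ZMod l))
        = fun b => ((y ⟨a, a.2.trans i.2⟩ b : ℤ) : ZMod l) := fun a => congrFun h1 a
    funext c
    rcases lt_trichotomy (c : ℕ) (i : ℕ) with hc | hc | hc
    · have := h1' ⟨c, hc⟩
      exact hinj (hxS _) (hyS _) this
    · have hci : c = i := Fin.ext hc
      rw [hci]
      apply hinj (hxS _) (hyS _)
      simp only
      rw [← hxrel, ← hyrel]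
      apply Finset.sum_congr rfl
      intro a _
      rw [h1' a]
    · have h3 := congrFun h2 ⟨(c : ℕ) - (i + 1), by omega⟩
      have h4 : (⟨(i : ℕ) + 1 + ((c : ℕ) - (i + 1)), by omega⟩ : Fin (j + 1)) = c := by
        apply Fin.ext
        simp only
        omega
      rw [h4] at h3
      exact h3

/-- TASK B2 -/
theorem depTuples_bound {N : ℕ} (S : Finset (Fin N → ℤ)) (l : ℕ) [Fact l.Prime]
    (hinj : Set.InjOn (fun (s : Fin N → ℤ) (i : Fin N) => (s i : ZMod l)) S)
    (j : ℕ) (w : ℕ → ℝ) (hw0 : ∀ ρ, 0 ≤ w ρ)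
    (hw : ∀ ρ ≤ j, ∑ D ∈ Finset.univ.filter
        (fun D : Fin ρ → ZMod l => ∑ j, D j = 1 ∧ ∀ j, D ≠ Pi.single j 1),
      ((((Fintype.piFinset (fun _ : Fin ρ => castSet l S)).filter
        (fun y => ∑ j, D j • y j ∈ castSet l S)).card : ℝ)) ≤ w ρ * (S.card : ℝ) ^ ρ) :
    ((depTuples S (j + 1)).card : ℝ) ≤ (∑ i ∈ Finset.range (j + 1), w i) * (S.card : ℝ) ^ j := by
  classical
  have hsub : depTuples S (j + 1) ⊆ (Finset.univ : Finset (Fin (j + 1))).biUnion (fun i =>
      (Finset.univ.filter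
        (fun D : Fin i → ZMod l => ∑ j, D j = 1 ∧ ∀ j, D ≠ Pi.single j 1)).biUnion
          (fun D => relTuples S l j i D)) := by
    intro x hx
    rw [depTuples, Finset.mem_filter, Fintype.mem_piFinset] at hx
    obtain ⟨hxS, hxinj, hxdep⟩ := hx
    have hdep : ¬ LinearIndependent (ZMod l)
        (fun i k => ((aug (x i) k : ℤ) : ZMod l)) := fun h => hxdep (indep_of_mod_aux _ l h)
    obtain ⟨i, D, hD⟩ := exists_mem_span_prev _ hdep
    rw [Finset.mem_biUnion]
    refine ⟨i, Finset.mem_univ _, ?_⟩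
    rw [Finset.mem_biUnion]
    refine ⟨D, ?_, ?_⟩
    · rw [Finset.mem_filter]
      refine ⟨Finset.mem_univ _, ?_, ?_⟩
      · have := congrFun hD 0
        simpa only [aug, Finset.sum_apply, Pi.smul_apply, Fin.cons_zero, Int.cast_one, smul_eq_mul, mul_one] using     this
      · intro a ha
        have h1 : x ⟨a, a.2.trans i.2⟩ = x i := by
          apply hinj (hxS _) (hxS _)
          funext b
          have h2 := congrFun hD b.succ
          rw [ha] at h2
          simp only [aug, Finset.sum_apply, Pi.smul_apply, Fin.cons_succ, smul_eq_mul,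
            Pi.single_apply, ite_mul, one_mul, zero_mul, Finset.sum_ite_eq', Finset.mem_univ,
            if_true] at h2
          exact h2
        have h3 := hxinj h1
        have h4 := congrArg Fin.val h3
        simp only at h4
        have := a.2
        omega
    · rw [relTuples, Finset.mem_filter, Fintype.mem_piFinset]
      refine ⟨hxS, ?_⟩
      funext b
      have h2 := congrFun hD b.succ
      simpa only [Finset.sum_apply, Pi.smul_apply, smul_eq_mul, aug, Fin.cons_succ] using h2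
  calc ((depTuples S (j + 1)).card : ℝ)
      ≤ ((∑ i : Fin (j + 1), ∑ D ∈ Finset.univ.filter
          (fun D : Fin i → ZMod l => ∑ j, D j = 1 ∧ ∀ j, D ≠ Pi.single j 1),
            (relTuples S l j i D).card : ℕ) : ℝ) := by
        exact_mod_cast (Finset.card_le_card hsub).trans
          (Finset.card_biUnion_le.trans (Finset.sum_le_sum fun i _ => Finset.card_biUnion_le))
    _ ≤ ∑ i : Fin (j + 1), w i * (S.card : ℝ) ^ j := by
        push_cast
        apply Finset.sum_le_sum
        intro i _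
        have hij : (i : ℕ) ≤ j := Nat.lt_succ_iff.1 i.2
        calc ∑ D ∈ Finset.univ.filter
              (fun D : Fin i → ZMod l => ∑ j, D j = 1 ∧ ∀ j, D ≠ Pi.single j 1),
                ((relTuples S l j i D).card : ℝ)
            ≤ ∑ D ∈ Finset.univ.filter
              (fun D : Fin i → ZMod l => ∑ j, D j = 1 ∧ ∀ j, D ≠ Pi.single j 1),
                (((Fintype.piFinset (fun _ : Fin i => castSet l S)).filter
                  (fun y => ∑ j, D j • y j ∈ castSet l S)).card : ℝ) *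
                    (S.card : ℝ) ^ (j - i) := by
              apply Finset.sum_le_sum
              intro D _
              exact_mod_cast relTuples_card S l hinj j i D
          _ ≤ (w i * (S.card : ℝ) ^ (i : ℕ)) * (S.card : ℝ) ^ (j - i) := by
              rw [← Finset.sum_mul]
              apply mul_le_mul_of_nonneg_right (hw i hij) (by (clear * -; positivity))
          _ = w i * (S.card : ℝ) ^ j := by
              rw [mul_assoc, ← pow_add]
              congr 2
              omega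
    _ = (∑ i ∈ Finset.range (j + 1), w i) * (S.card : ℝ) ^ j := by
        rw [← Finset.sum_mul, ← Fin.sum_univ_eq_sum_range]

end Vale.Agent.P230
end
end
end

section

section

section

namespace Vale.Agent.P230

open MeasureTheory

/-- the basis given by the columns of an invertible matrix -/
noncomputable def colBasis {n : ℕ} (M : Matrix (Fin n) (Fin n) ℝ) (hM : M.det ≠ 0) :
    Module.Basis (Fin n) ℝ (Fin n → ℝ) :=
  (Pi.basisFun ℝ (Fin n)).map
    (Matrix.toLinearEquiv' M (Matrix.invertibleOfIsUnitDet M (isUnit_iff_ne_zero.2 hM)))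

theorem colBasis_apply {n : ℕ} (M : Matrix (Fin n) (Fin n) ℝ) (hM : M.det ≠ 0) (j : Fin n) :
    colBasis M hM j = M.mulVec (Pi.single j 1) := by
  simp [colBasis, Matrix.toLinearEquiv']

theorem covolume_colBasis {n : ℕ} (M : Matrix (Fin n) (Fin n) ℝ) (hM : M.det ≠ 0) :
    ZLattice.covolume (Submodule.span ℤ (Set.range (colBasis M hM))) volume = |M.det| := by
  rw [ZLattice.covolume_eq_measure_fundamentalDomain _ volume
    (ZSpan.isAddFundamentalDomain (colBasis M hM) volume), Measure.real,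
    ZSpan.volume_fundamentalDomain]
  have : (Matrix.of (colBasis M hM)) = M.transpose := by
    ext i j
    rw [Matrix.of_apply, colBasis_apply]
    simp
  rw [this, Matrix.det_transpose]
  simp only [abs_nonneg, ENNReal.toReal_ofReal]

/-- TASK F1: covering densities in terms of bases -/
theorem covFor_lattice {n : ℕ} (_hn : 1 ≤ n) {K : Set (EuclideanSpace ℝ (Fin n))} {c D : ℝ}
    (h : CovFor ((WithLp.toLp 2 : (Fin n → ℝ) → EuclideanSpace ℝ (Fin n)) ⁻¹' K) c D) :
    ∃ L : Submodule ℤ (EuclideanSpace ℝ (Fin n)), ∃ (_ : DiscreteTopology L)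
      (_ : IsZLattice ℝ L), (∀ x, ∃ l ∈ L, x - l ∈ K) ∧
        volume K ≤ ENNReal.ofReal (D * ZLattice.covolume L volume) := by
  obtain ⟨M, hM, hvol, hcov⟩ := h
  let e : EuclideanSpace ℝ (Fin n) ≃L[ℝ] (Fin n → ℝ) := EuclideanSpace.equiv (Fin n) ℝ
  have he : MeasurePreserving e volume volume := PiLp.volume_preserving_ofLp (Fin n)
  refine ⟨ZLattice.comap ℝ (Submodule.span ℤ (Set.range (colBasis M hM))) e.toLinearMap,
    inferInstance, inferInstance, fun x => ?_, ?_⟩
  · obtain ⟨z, hz, -⟩ := hcov (e x)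
    refine ⟨e.symm (-(M.mulVec (fun a => (z 0 a : ℝ)))), ?_, ?_⟩
    · change e (e.symm (-(M.mulVec (fun a => (z 0 a : ℝ))))) ∈
        Submodule.span ℤ (Set.range (colBasis M hM))
      rw [ContinuousLinearEquiv.apply_symm_apply]
      apply Submodule.neg_mem
      have : M.mulVec (fun a => (z 0 a : ℝ)) = ∑ j, (z 0 j) • colBasis M hM j := by
        simp_rw [colBasis_apply]
        ext i
        simp only [Matrix.mulVec, dotProduct, Matrix.mulVec_single, MulOpposite.op_one, one_smul, zsmul_eq_mul, mul_comm, Finset.sum_apply, Pi.mul_apply, Matrix.col_apply, Pi.intCast_apply]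
      rw [this]
      exact Submodule.sum_mem _ fun j _ =>
        Submodule.smul_mem _ _ (Submodule.subset_span ⟨j, rfl⟩)
    · have h1 := hz 0
      have h2 : x - e.symm (-(M.mulVec (fun a => (z 0 a : ℝ))))
          = WithLp.toLp 2 (e x + M.mulVec (fun a => (z 0 a : ℝ))) := by
        apply e.injective
        rw [map_sub, ContinuousLinearEquiv.apply_symm_apply, sub_neg_eq_add]
        rfl
      rw [h2]
      exact h1
  · rw [ZLattice.covolume_comap _ volume volume he, covolume_colBasis]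
    refine le_trans (le_of_eq ?_) hvol
    exact ((PiLp.volume_preserving_toLp (Fin n)).measure_preimage_equiv
      (f := (MeasurableEquiv.toLp 2 (Fin n → ℝ))) K).symm

end Vale.Agent.P230
end
end
end

section

section

section

namespace Vale.Agent.P230

open MeasureTheory

/-- TASK N -/
theorem exists_normalization {n : ℕ} (K : Set (Fin n → ℝ)) (hc : Convex ℝ K) (hk : IsCompact K)
    (hi : (interior K).Nonempty) :
    ∃ (A : Matrix (Fin n) (Fin n) ℝ) (v : Fin n → ℝ), A.det ≠ 0 ∧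
      (∀ x : Fin n → ℝ, (∀ i, 0 ≤ x i) → ∑ i, x i ≤ 1 → A.mulVec x + v ∈ K) ∧
      (∀ x : Fin n → ℝ, A.mulVec x + v ∈ K → ∀ i, |x i| ≤ 1) := by
  set M : (Fin (n + 1) → Fin n → ℝ) → Matrix (Fin n) (Fin n) ℝ :=
    fun w => Matrix.of fun i j => w j.succ i - w 0 i with hM
  have hcont : Continuous (fun w => |(M w).det|) := by
    apply Continuous.abs
    apply Continuous.matrix_det
    apply continuous_matrix
    intro i j
    simp only [hM, Matrix.of_apply]
    fun_prop
  have hcomp : IsCompact (Set.pi Set.univ (fun _ : Fin (n + 1) => K)) :=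
    isCompact_univ_pi fun _ => hk
  obtain ⟨x0, hx0⟩ := hi
  have hx0K : x0 ∈ K := interior_subset hx0
  obtain ⟨ε, hε, hball⟩ := Metric.isOpen_iff.1 isOpen_interior x0 hx0
  obtain ⟨v, hv, hmax⟩ := hcomp.exists_isMaxOn ⟨fun _ => x0, fun _ _ => hx0K⟩
    hcont.continuousOn
  have hvK : ∀ i, v i ∈ K := fun i => hv i (Set.mem_univ i)
  have hle : ∀ w : Fin (n + 1) → Fin n → ℝ, (∀ i, w i ∈ K) → |(M w).det| ≤ |(M v).det| :=
    fun w hw => hmax (fun i _ => hw i)
  have hpos : 0 < |(M v).det| := by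
    set w : Fin (n + 1) → Fin n → ℝ := Fin.cons x0 (fun j => x0 + Pi.single j (ε / 2)) with hw
    have hwK : ∀ i, w i ∈ K := by
      intro i
      refine Fin.cases ?_ (fun j => ?_) i
      · simpa [hw] using hx0K
      · simp only [hw, Fin.cons_succ]
        apply interior_subset
        apply hball
        rw [Metric.mem_ball, dist_eq_norm, add_sub_cancel_left, Pi.norm_single,
          Real.norm_of_nonneg (by (clear * - hε; positivity))]
        (clear * - hε; linarith)
    have hMw : M w = Matrix.diagonal (fun _ => ε / 2) := by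
      ext i j
      simp only [hM, hw, Matrix.of_apply, Fin.cons_succ, Fin.cons_zero, Pi.add_apply,
        add_sub_cancel_left, Matrix.diagonal_apply, Pi.single_apply]
    have h1 := hle w hwK
    rw [hMw, Matrix.det_diagonal] at h1
    refine lt_of_lt_of_le ?_ h1
    rw [abs_pos]
    simp only [Finset.prod_const]
    positivity
  have hdet : (M v).det ≠ 0 := abs_pos.1 hpos
  have happ : ∀ (x : Fin n → ℝ), (M v).mulVec x + v 0
      = ∑ k : Fin (n + 1), (Fin.cons (1 - ∑ i, x i) x : Fin (n + 1) → ℝ) k • v k := by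
    intro x
    rw [Fin.sum_univ_succ]
    ext i
    simp only [Fin.cons_zero, Fin.cons_succ, Pi.add_apply, Matrix.mulVec, dotProduct, hM,
      Matrix.of_apply, Pi.smul_apply, smul_eq_mul, Finset.sum_apply, sub_mul, one_mul,
      Finset.sum_sub_distrib, Finset.sum_mul]
    have h1 : ∑ j, v j.succ i * x j = ∑ j, x j * v j.succ i :=
      Finset.sum_congr rfl fun j _ => mul_comm _ _
    have h2 : ∑ j, v 0 i * x j = ∑ j, x j * v 0 i :=
      Finset.sum_congr rfl fun j _ => mul_comm _ _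
    rw [h1, h2]
    ring
  refine ⟨M v, v 0, hdet, ?_, ?_⟩
  · intro x hx hsum
    rw [happ]
    apply hc.sum_mem
    · intro k _
      refine Fin.cases ?_ (fun j => ?_) k
      · simp only [Fin.cons_zero]; linarith only [hsum]
      · simp only [Fin.cons_succ]; exact hx j
    · rw [Fin.sum_univ_succ]
      simp only [Fin.cons_zero, Fin.cons_succ, sub_add_cancel]
    · intro k _; exact hvK k
  · intro x hx i
    have h1 := hle (Function.update v i.succ ((M v).mulVec x + v 0)) (by
      intro k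
      by_cases hk : k = i.succ
      · subst hk; rw [Function.update_self]; exact hx
      · rw [Function.update_of_ne hk]; exact hvK k)
    have h2 : M (Function.update v i.succ ((M v).mulVec x + v 0))
        = (M v).updateCol i ((M v).mulVec x) := by
      ext a j
      simp only [hM, Matrix.of_apply]
      rw [Function.update_of_ne (Fin.succ_ne_zero i).symm]
      by_cases hj : j = i
      · subst hj
        simp [Matrix.updateCol_self]
      · rw [Matrix.updateCol_ne hj, Function.update_of_ne (by simpa using hj)]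
        rfl
    have h3 : ((M v).updateCol i ((M v).mulVec x)).det = (M v).det * x i := by
      have h4 := congrFun (Matrix.cramer_eq_adjugate_mulVec (M v) ((M v).mulVec x)) i
      rw [Matrix.cramer_apply, Matrix.mulVec_mulVec, Matrix.adjugate_mul] at h4
      rw [h4]
      simp only [Matrix.smul_mulVec, Matrix.one_mulVec, Pi.smul_apply, smul_eq_mul]
    rw [h2, h3, abs_mul] at h1
    have h5 : |(M v).det| * |x i| ≤ |(M v).det| * 1 := by linarith only [h1]
    exact le_of_mul_le_mul_left h5 hpos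

end Vale.Agent.P230
end
end
end

section

section

section

open MeasureTheory Set
open scoped ENNReal NNReal Pointwise

namespace Vale.Agent.P230.E74

/-- One-dimensional Brunn-Minkowski, compact case, midpoint form. -/
theorem bm_one_compact {K L C : Set ℝ} (hK : IsCompact K) (hL : IsCompact L)
    (nK : K.Nonempty) (nL : L.Nonempty) (h : ∀ a ∈ K, ∀ b ∈ L, (a + b) / 2 ∈ C) :
    volume K + volume L ≤ 2 * volume C := by
  obtain ⟨a, haK, ha⟩ := hK.exists_isGreatest nK
  obtain ⟨b, hbL, hb⟩ := hL.exists_isLeast nL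
  have h1 : (fun x => x + b) '' K ⊆ (2 : ℝ) • C := by
    rintro _ ⟨x, hx, rfl⟩
    refine ⟨(x + b) / 2, h x hx b hbL, ?_⟩
    simp only [smul_eq_mul]
    ring
  have h2 : (fun y => a + y) '' L ⊆ (2 : ℝ) • C := by
    rintro _ ⟨y, hy, rfl⟩
    refine ⟨(a + y) / 2, h a haK y hy, ?_⟩
    simp only [smul_eq_mul]
    ring
  have c1 : IsCompact ((fun x => x + b) '' K) := hK.image (by fun_prop)
  have c2 : IsCompact ((fun y => a + y) '' L) := hL.image (by fun_prop)
  have hdis : AEDisjoint volume ((fun x => x + b) '' K) ((fun y => a + y) '' L) := by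
    have : ((fun x => x + b) '' K) ∩ ((fun y => a + y) '' L) ⊆ {a + b} := by
      rintro _ ⟨⟨x, hx, rfl⟩, ⟨y, hy, hxy⟩⟩
      have hx' := ha hx
      have hy' := hb hy
      simp only at hxy
      simp only [mem_singleton_iff]
      linarith
    exact measure_mono_null this (by simp)
  have v1 : volume ((fun x => x + b) '' K) = volume K := by
    simp only [image_add_right, measure_preimage_add_right]
  have v2 : volume ((fun y => a + y) '' L) = volume L := by
    simp only [image_add_left, measure_preimage_add]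
  have v3 : volume ((2 : ℝ) • C) = 2 * volume C := by
    rw [Measure.addHaar_smul]
    simp
  calc volume K + volume L = volume ((fun x => x + b) '' K) + volume ((fun y => a + y) '' L) := by
        rw [v1, v2]
    _ = volume (((fun x => x + b) '' K) ∪ ((fun y => a + y) '' L)) := by
        rw [measure_union₀ c2.measurableSet.nullMeasurableSet hdis]
    _ ≤ volume ((2 : ℝ) • C) := measure_mono (union_subset h1 h2)
    _ = 2 * volume C := v3

/-- One-dimensional Brunn-Minkowski, midpoint form. -/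
theorem bm_one {A B C : Set ℝ} (hA : MeasurableSet A) (hB : MeasurableSet B)
    (nA : A.Nonempty) (nB : B.Nonempty) (h : ∀ a ∈ A, ∀ b ∈ B, (a + b) / 2 ∈ C) :
    volume A + volume B ≤ 2 * volume C := by
  have key : ∀ K L : Set ℝ, IsCompact K → IsCompact L → K ⊆ A → L ⊆ B →
      volume K + volume L ≤ 2 * volume C := by
    intro K L hK hL hKA hLB
    obtain ⟨a0, ha0⟩ := nA
    obtain ⟨b0, hb0⟩ := nB
    have hK' : IsCompact (K ∪ {a0}) := hK.union isCompact_singleton
    have hL' : IsCompact (L ∪ {b0}) := hL.union isCompact_singleton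
    have := bm_one_compact hK' hL' ⟨a0, by simp⟩ ⟨b0, by simp⟩ (C := C) (by
      intro a ha b hb
      apply h
      · rcases ha with ha | ha
        · exact hKA ha
        · rw [mem_singleton_iff.mp ha]; exact ha0
      · rcases hb with hb | hb
        · exact hLB hb
        · rw [mem_singleton_iff.mp hb]; exact hb0)
    refine le_trans (add_le_add (measure_mono subset_union_left)
      (measure_mono subset_union_left)) this
  have key2 : ∀ K : Set ℝ, IsCompact K → K ⊆ A → volume K + volume B ≤ 2 * volume C := by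
    intro K hK hKA
    have hKfin : volume K ≠ ∞ := hK.measure_lt_top.ne
    have : volume B ≤ 2 * volume C - volume K := by
      refine le_of_forall_lt fun s hs => ?_
      obtain ⟨L, hLB, hL, hsL⟩ := hB.exists_lt_isCompact hs
      refine lt_of_lt_of_le hsL ?_
      exact ENNReal.le_sub_of_add_le_left hKfin (key K L hK hL hKA hLB)
    calc volume K + volume B ≤ volume K + (2 * volume C - volume K) := by gcongr
      _ = 2 * volume C := by
        rw [add_tsub_cancel_of_le]
        exact le_trans (by simp) (key K ∅ hK isCompact_empty hKA (empty_subset _))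
  by_cases hBfin : volume B = ∞
  · have := key2 ∅ isCompact_empty (empty_subset _)
    rw [hBfin] at this
    have h3 : 2 * volume C = ∞ := by
      simpa only [measure_empty, add_top, top_le_iff] using this
    rw [h3]
    exact le_top
  · have : volume A ≤ 2 * volume C - volume B := by
      refine le_of_forall_lt fun s hs => ?_
      obtain ⟨K, hKA, hK, hsK⟩ := hA.exists_lt_isCompact hs
      refine lt_of_lt_of_le hsK ?_
      exact ENNReal.le_sub_of_add_le_right hBfin (key2 K hK hKA)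
    calc volume A + volume B ≤ (2 * volume C - volume B) + volume B := by (clear * - this; gcongr)
      _ = 2 * volume C := by
        rw [tsub_add_cancel_of_le]
        simpa only [measure_empty, zero_add] using key2 ∅ isCompact_empty (empty_subset _)

theorem four_mul_le_sq (x y : ℝ≥0∞) : 4 * (x * y) ≤ (x + y) ^ 2 := by
  by_cases hx : x = ∞
  · subst hx; simp
  by_cases hy : y = ∞
  · subst hy; simp
  lift x to ℝ≥0 using hx
  lift y to ℝ≥0 using hy
  norm_cast
  rw [← NNReal.coe_le_coe]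
  push_cast
  linarith only [sq_nonneg ((x : ℝ) - y)]

/-- Normalised one-dimensional Prekopa-Leindler. -/
theorem pl_one_normalized (f g h : ℝ → ℝ≥0∞) (hf : Measurable f) (hg : Measurable g)
    (hh : Measurable h) (hf1 : ⨆ x, f x = 1) (hg1 : ⨆ x, g x = 1)
    (hfg : ∀ x y, f x * g y ≤ h ((x + y) / 2) ^ 2) :
    (∫⁻ x, f x) + (∫⁻ x, g x) ≤ 2 * ∫⁻ x, h x := by
  have hfle : ∀ x, f x ≤ 1 := fun x => hf1 ▸ le_iSup f x
  have hgle : ∀ x, g x ≤ 1 := fun x => hg1 ▸ le_iSup g x
  set k : ℝ → ℝ≥0∞ := fun x => min (h x) 1 with hk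
  have hkm : Measurable k := hh.min measurable_const
  have hk1 : ∀ x, k x ≤ 1 := fun x => min_le_right _ _
  have hfgk : ∀ x y, f x * g y ≤ k ((x + y) / 2) ^ 2 := by
    intro x y
    have h1 : f x * g y ≤ 1 := by
      calc f x * g y ≤ 1 * 1 := mul_le_mul' (hfle x) (hgle y)
        _ = 1 := by simp
    simp only [hk]
    rcases le_total (h ((x + y) / 2)) 1 with h2 | h2
    · rw [min_eq_left h2]; exact hfg x y
    · rw [min_eq_right h2]; simpa only [one_pow, ge_iff_le] using h1
  have hcake : ∀ u : ℝ → ℝ≥0∞, Measurable u → (∀ x, u x ≤ 1) →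
      ∫⁻ x, u x = ∫⁻ t in Ioi (0 : ℝ), volume {x | t < (u x).toReal} := by
    intro u hu hu1
    rw [← lintegral_eq_lintegral_meas_lt volume (Filter.Eventually.of_forall fun x => by
      simp) hu.ennreal_toReal.aemeasurable]
    apply lintegral_congr
    intro x
    rw [ENNReal.ofReal_toReal (ne_top_of_le_ne_top ENNReal.one_ne_top (hu1 x))]
  have hkh : ∫⁻ x, k x ≤ ∫⁻ x, h x := lintegral_mono fun x => min_le_left _ _
  refine le_trans ?_ (mul_le_mul_right hkh 2)
  rw [hcake f hf hfle, hcake g hg hgle, hcake k hkm hk1]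
  have hmeas : ∀ u : ℝ → ℝ≥0∞, Measurable (fun t : ℝ => volume {x | t < (u x).toReal}) := by
    intro u
    apply Antitone.measurable
    intro s t hst
    exact measure_mono fun x hx => lt_of_le_of_lt hst hx
  rw [← lintegral_add_left (hmeas f), ← lintegral_const_mul _ (hmeas k)]
  refine setLIntegral_mono' measurableSet_Ioi ?_
  intro t ht
  have ht0 : 0 < t := ht
  rcases lt_or_ge t 1 with ht1 | ht1
  · apply bm_one
    · exact measurableSet_lt measurable_const hf.ennreal_toReal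
    · exact measurableSet_lt measurable_const hg.ennreal_toReal
    · have : ENNReal.ofReal t < ⨆ x, f x := by
        rw [hf1]
        rw [← ENNReal.ofReal_one]
        exact (ENNReal.ofReal_lt_ofReal_iff one_pos).2 ht1
      obtain ⟨x, hx⟩ := lt_iSup_iff.1 this
      refine ⟨x, ?_⟩
      exact (ENNReal.ofReal_lt_iff_lt_toReal ht0.le
        (ne_top_of_le_ne_top ENNReal.one_ne_top (hfle x))).1 hx
    · have : ENNReal.ofReal t < ⨆ x, g x := by
        rw [hg1]
        rw [← ENNReal.ofReal_one]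
        exact (ENNReal.ofReal_lt_ofReal_iff one_pos).2 ht1
      obtain ⟨x, hx⟩ := lt_iSup_iff.1 this
      refine ⟨x, ?_⟩
      exact (ENNReal.ofReal_lt_iff_lt_toReal ht0.le
        (ne_top_of_le_ne_top ENNReal.one_ne_top (hgle x))).1 hx
    · intro a ha b hb
      simp only [mem_ofPred_eq] at ha hb ⊢
      have h3 := ENNReal.toReal_mono (by
        exact ENNReal.pow_ne_top (ne_top_of_le_ne_top ENNReal.one_ne_top (hk1 _))) (hfgk a b)
      rw [ENNReal.toReal_mul, ENNReal.toReal_pow] at h3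
      have h4 : t ^ 2 < (k ((a + b) / 2)).toReal ^ 2 := by
        calc t ^ 2 = t * t := by ring
          _ < (f a).toReal * (g b).toReal := by
            exact mul_lt_mul'' ha hb ht0.le ht0.le
          _ ≤ _ := h3
      exact lt_of_pow_lt_pow_left₀ 2 ENNReal.toReal_nonneg h4
  · have e1 : {x | t < (f x).toReal} = ∅ := by
      ext x
      simp only [mem_ofPred_eq, mem_empty_iff_false, iff_false, not_lt]
      refine le_trans ?_ ht1
      have := ENNReal.toReal_mono ENNReal.one_ne_top (hfle x)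
      simpa only [ge_iff_le, ENNReal.toReal_one] using this
    have e2 : {x | t < (g x).toReal} = ∅ := by
      ext x
      simp only [mem_ofPred_eq, mem_empty_iff_false, iff_false, not_lt]
      refine le_trans ?_ ht1
      have := ENNReal.toReal_mono ENNReal.one_ne_top (hgle x)
      simpa only [ge_iff_le, ENNReal.toReal_one] using this
    rw [e1, e2]
    simp only [measure_empty, add_zero, zero_le]

theorem pl_one_bdd (f g h : ℝ → ℝ≥0∞) (hf : Measurable f) (hg : Measurable g)
    (hh : Measurable h) (hf1 : ⨆ x, f x ≠ ∞) (hg1 : ⨆ x, g x ≠ ∞)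
    (hfg : ∀ x y, f x * g y ≤ h ((x + y) / 2) ^ 2) :
    (∫⁻ x, f x) * (∫⁻ x, g x) ≤ (∫⁻ x, h x) ^ 2 := by
  by_cases hf0 : ⨆ x, f x = 0
  · have : f = fun _ => 0 := by
      funext x
      have := le_iSup f x
      rw [hf0] at this
      simpa using this
    rw [this]
    simp only [lintegral_const, measure_univ_of_isAddLeftInvariant, zero_mul, zero_le]
  by_cases hg0 : ⨆ x, g x = 0
  · have : g = fun _ => 0 := by
      funext x
      have := le_iSup g x
      rw [hg0] at this
      simpa using this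
    rw [this]
    simp
  obtain ⟨a, ha⟩ : ∃ a : ℝ≥0, (a : ℝ≥0∞) = ⨆ x, f x := ⟨_, ENNReal.coe_toNNReal hf1⟩
  obtain ⟨b, hb⟩ : ∃ b : ℝ≥0, (b : ℝ≥0∞) = ⨆ x, g x := ⟨_, ENNReal.coe_toNNReal hg1⟩
  have ha0 : (a : ℝ≥0∞) ≠ 0 := by rw [ha]; exact hf0
  have hb0 : (b : ℝ≥0∞) ≠ 0 := by rw [hb]; exact hg0
  have ha0' : a ≠ 0 := by exact_mod_cast ha0
  have hb0' : b ≠ 0 := by exact_mod_cast hb0
  set c : ℝ≥0 := NNReal.sqrt (a * b) with hc
  have hcsq : c ^ 2 = a * b := by rw [hc]; exact NNReal.sq_sqrt _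
  have hc0' : c ≠ 0 := by
    intro h0
    rw [h0] at hcsq
    have : a * b = 0 := by rw [← hcsq]; simp
    rcases mul_eq_zero.1 this with h1 | h1
    · exact ha0' h1
    · exact hb0' h1
  have hc0 : (c : ℝ≥0∞) ≠ 0 := by exact_mod_cast hc0'
  have hcsq' : (c : ℝ≥0∞) ^ 2 = a * b := by exact_mod_cast hcsq
  have key := pl_one_normalized (fun x => (a : ℝ≥0∞)⁻¹ * f x) (fun x => (b : ℝ≥0∞)⁻¹ * g x)
    (fun x => (c : ℝ≥0∞)⁻¹ * h x) (hf.const_mul _) (hg.const_mul _) (hh.const_mul _)
    (by rw [← ENNReal.mul_iSup, ← ha]; exact ENNReal.inv_mul_cancel ha0 ENNReal.coe_ne_top)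
    (by rw [← ENNReal.mul_iSup, ← hb]; exact ENNReal.inv_mul_cancel hb0 ENNReal.coe_ne_top)
    (by
      intro x y
      have h1 : ((c : ℝ≥0∞)⁻¹) ^ 2 = (a : ℝ≥0∞)⁻¹ * (b : ℝ≥0∞)⁻¹ := by
        rw [← ENNReal.inv_pow, hcsq', ENNReal.mul_inv (Or.inl ha0) (Or.inl ENNReal.coe_ne_top)]
      calc (a : ℝ≥0∞)⁻¹ * f x * ((b : ℝ≥0∞)⁻¹ * g y)
          = ((a : ℝ≥0∞)⁻¹ * (b : ℝ≥0∞)⁻¹) * (f x * g y) := by ring
        _ ≤ ((a : ℝ≥0∞)⁻¹ * (b : ℝ≥0∞)⁻¹) * h ((x + y) / 2) ^ 2 := by
          exact mul_le_mul_right (hfg x y) _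
        _ = ((c : ℝ≥0∞)⁻¹ * h ((x + y) / 2)) ^ 2 := by
          rw [mul_pow, h1])
  rw [lintegral_const_mul _ hf, lintegral_const_mul _ hg, lintegral_const_mul _ hh] at key
  set F := ∫⁻ x, f x
  set G := ∫⁻ x, g x
  set H := ∫⁻ x, h x
  have h5 : 4 * ((a : ℝ≥0∞)⁻¹ * F * ((b : ℝ≥0∞)⁻¹ * G)) ≤ (2 * ((c : ℝ≥0∞)⁻¹ * H)) ^ 2 :=
    le_trans (four_mul_le_sq _ _) (by (clear * - key; gcongr))
  have h6 : (a * b : ℝ≥0∞) * (4 * ((a : ℝ≥0∞)⁻¹ * F * ((b : ℝ≥0∞)⁻¹ * G))) ≤
      (a * b : ℝ≥0∞) * (2 * ((c : ℝ≥0∞)⁻¹ * H)) ^ 2 := by (clear * - h5; gcongr)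
  have h7 : (a * b : ℝ≥0∞) * (4 * ((a : ℝ≥0∞)⁻¹ * F * ((b : ℝ≥0∞)⁻¹ * G))) = 4 * (F * G) := by
    calc (a * b : ℝ≥0∞) * (4 * ((a : ℝ≥0∞)⁻¹ * F * ((b : ℝ≥0∞)⁻¹ * G)))
        = 4 * ((a : ℝ≥0∞) * (a : ℝ≥0∞)⁻¹ * F * ((b : ℝ≥0∞) * (b : ℝ≥0∞)⁻¹ * G)) := by ring
      _ = 4 * (F * G) := by
        rw [ENNReal.mul_inv_cancel ha0 ENNReal.coe_ne_top,
          ENNReal.mul_inv_cancel hb0 ENNReal.coe_ne_top]
        simp
  have h8 : (a * b : ℝ≥0∞) * (2 * ((c : ℝ≥0∞)⁻¹ * H)) ^ 2 = 4 * H ^ 2 := by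
    rw [← hcsq']
    calc (c : ℝ≥0∞) ^ 2 * (2 * ((c : ℝ≥0∞)⁻¹ * H)) ^ 2
        = 2 ^ 2 * (((c : ℝ≥0∞) * (c : ℝ≥0∞)⁻¹) ^ 2 * H ^ 2) := by ring
      _ = 4 * H ^ 2 := by
        rw [ENNReal.mul_inv_cancel hc0 ENNReal.coe_ne_top]
        norm_num
  rw [h7, h8] at h6
  exact (ENNReal.mul_le_mul_iff_right (by norm_num) (by norm_num)).1 h6

theorem pl_one (f g h : ℝ → ℝ≥0∞) (hf : Measurable f) (hg : Measurable g)
    (hh : Measurable h) (hfg : ∀ x y, f x * g y ≤ h ((x + y) / 2) ^ 2) :
    (∫⁻ x, f x) * (∫⁻ x, g x) ≤ (∫⁻ x, h x) ^ 2 := by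
  have hcut : ∀ u : ℝ → ℝ≥0∞, Measurable u →
      ∫⁻ x, u x = ⨆ n : ℕ, ∫⁻ x, min (u x) n := by
    intro u hu
    rw [← lintegral_iSup (fun n => hu.min measurable_const)
      (fun m n hmn x => min_le_min_left _ (by exact_mod_cast hmn))]
    apply lintegral_congr
    intro x
    apply le_antisymm
    · by_cases hx : u x = ∞
      · rw [hx]
        simp only [top_le_iff, le_top, inf_of_le_right]
        exact ENNReal.iSup_natCast
      · obtain ⟨n, hn⟩ := ENNReal.exists_nat_gt hx
        refine le_trans ?_ (le_iSup _ n)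
        rw [min_eq_left hn.le]
    · exact iSup_le fun n => min_le_left _ _
  have hsup : ∀ (u : ℝ → ℝ≥0∞) (n : ℕ), ⨆ x, min (u x) (n : ℝ≥0∞) ≠ ∞ := by
    intro u n
    refine ne_top_of_le_ne_top (ENNReal.natCast_ne_top n) (iSup_le fun x => min_le_right _ _)
  rw [hcut f hf, hcut g hg, ENNReal.iSup_mul]
  refine iSup_le fun n => ?_
  rw [ENNReal.mul_iSup]
  refine iSup_le fun m => ?_
  refine pl_one_bdd _ _ h (hf.min measurable_const) (hg.min measurable_const) hh
    (hsup f n) (hsup g m) ?_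
  intro x y
  exact le_trans (mul_le_mul' (min_le_left _ _) (min_le_left _ _)) (hfg x y)

theorem pl_pi (n : ℕ) : ∀ (f g h : (Fin n → ℝ) → ℝ≥0∞), Measurable f → Measurable g →
    Measurable h → (∀ x y, f x * g y ≤ h (fun i => (x i + y i) / 2) ^ 2) →
    (∫⁻ x, f x) * (∫⁻ x, g x) ≤ (∫⁻ x, h x) ^ 2 := by
  induction n with
  | zero =>
    intro f g h hf hg hh hfg
    have hv : (volume : Measure (Fin 0 → ℝ)) univ = 1 := by
      simp only [volume_pi, Measure.pi_empty_univ]
    rw [lintegral_unique, lintegral_unique, lintegral_unique, hv]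
    simp only [mul_one]
    have hall : ∀ z w : Fin 0 → ℝ, z = w := fun z w => funext fun i => i.elim0
    obtain ⟨o, ho⟩ : ∃ o : Fin 0 → ℝ, ∀ z, z = o := ⟨fun _ => 0, fun z => hall z _⟩
    have h1 := hfg o o
    rw [ho fun i => (o i + o i) / 2] at h1
    have hgen : ∀ z : Fin 0 → ℝ, f z * g z ≤ h z ^ 2 := by
      intro z
      rw [ho z]
      exact h1
    exact hgen _
  | succ n ih =>
    intro f g h hf hg hh hfg
    set e := MeasurableEquiv.piFinSuccAbove (fun _ : Fin (n + 1) => ℝ) 0 with he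
    have hvp : MeasurePreserving e volume volume :=
      volume_preserving_piFinSuccAbove (fun _ : Fin (n + 1) => ℝ) 0
    have hsplit : ∀ u : (Fin (n + 1) → ℝ) → ℝ≥0∞, Measurable u →
        ∫⁻ x, u x = ∫⁻ a : ℝ, ∫⁻ x : Fin n → ℝ, u (e.symm (a, x)) := by
      intro u hu
      rw [← hvp.symm.lintegral_comp hu]
      exact lintegral_prod _ (hu.comp e.symm.measurable).aemeasurable
    have hmid : ∀ (a b : ℝ) (x y : Fin n → ℝ),
        (fun i => (e.symm (a, x) i + e.symm (b, y) i) / 2) =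
          e.symm ((a + b) / 2, fun i => (x i + y i) / 2) := by
      intro a b x y
      have hes : ∀ (c : ℝ) (z : Fin n → ℝ),
          e.symm (c, z) = (Fin.cons c z : Fin (n + 1) → ℝ) := by
        intro c z
        have h1 : e.symm (c, z) = (0 : Fin (n + 1)).insertNth (α := fun _ => ℝ) c z := rfl
        rw [h1]
        exact Fin.insertNth_zero' c z
      rw [hes, hes, hes]
      funext i
      refine Fin.cases ?_ (fun j => ?_) i
      · simp only [Fin.cons_zero]
      · simp only [Fin.cons_succ]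
    have hm2 : ∀ u : (Fin (n + 1) → ℝ) → ℝ≥0∞, Measurable u →
        Measurable fun a : ℝ => ∫⁻ x : Fin n → ℝ, u (e.symm (a, x)) := by
      intro u hu
      exact (hu.comp e.symm.measurable).lintegral_prod_right'
    rw [hsplit f hf, hsplit g hg, hsplit h hh]
    apply pl_one _ _ _ (hm2 f hf) (hm2 g hg) (hm2 h hh)
    intro a b
    have hsec : ∀ (u : (Fin (n + 1) → ℝ) → ℝ≥0∞) (c : ℝ), Measurable u →
        Measurable fun x : Fin n → ℝ => u (e.symm (c, x)) := by
      intro u c hu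
      exact hu.comp (e.symm.measurable.comp measurable_prodMk_left)
    apply ih _ _ _ (hsec f a hf) (hsec g b hg) (hsec h _ hh)
    intro x y
    have := hfg (e.symm (a, x)) (e.symm (b, y))
    rwa [hmid] at this

end Vale.Agent.P230.E74
end
end
end

section

section

section

open MeasureTheory Set Filter Topology
open scoped ENNReal

namespace Vale.Agent.P230

/-- volume of a slice -/
noncomputable def slc {N t : ℕ} (K : Set ((Fin N → ℝ) × (Fin t → ℝ))) (b : Fin t → ℝ) : ℝ≥0∞ :=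
  volume {x : Fin N → ℝ | (x, b) ∈ K}

variable {N t : ℕ} {K : Set ((Fin N → ℝ) × (Fin t → ℝ))}

lemma slc_open (hk : IsCompact K) (c : ℝ≥0∞) : IsOpen {b | slc K b < c} := by
  rw [isOpen_iff_mem_nhds]
  intro b hb
  obtain ⟨U, hU1, hU2, hU3⟩ := Set.exists_isOpen_lt_of_lt _ c hb
  have hL : IsCompact (K ∩ (Uᶜ ×ˢ (Set.univ : Set (Fin t → ℝ)))) :=
    hk.inter_right (hU2.isClosed_compl.prod isClosed_univ)
  have hC : IsClosed (Prod.snd '' (K ∩ (Uᶜ ×ˢ (Set.univ : Set (Fin t → ℝ))))) :=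
    (hL.image continuous_snd).isClosed
  have hb' : b ∈ (Prod.snd '' (K ∩ (Uᶜ ×ˢ (Set.univ : Set (Fin t → ℝ)))))ᶜ := by
    rintro ⟨⟨x, b1⟩, ⟨hxK, hxU, _⟩, rfl⟩
    exact hxU (hU1 hxK)
  filter_upwards [hC.isOpen_compl.mem_nhds hb'] with b1 hb1
  refine lt_of_le_of_lt (measure_mono ?_) hU3
  intro x hx
  by_contra hxU
  exact hb1 ⟨(x, b1), ⟨hx, hxU, Set.mem_univ _⟩, rfl⟩

lemma slc_closed (hk : IsCompact K) (c : ℝ≥0∞) : IsClosed {b | c ≤ slc K b} := by
  have : {b | c ≤ slc K b} = {b | slc K b < c}ᶜ := by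
    ext b; simp only [mem_ofPred_eq, mem_compl_iff, not_lt]
  rw [this]
  exact (slc_open hk c).isClosed_compl

lemma slc_mul_le (hc : Convex ℝ K) (hk : IsCompact K) (b b' : Fin t → ℝ) :
    slc K b * slc K b' ≤ slc K (fun i => (b i + b' i) / 2) ^ 2 := by
  have hmeas : ∀ b : Fin t → ℝ, MeasurableSet {x : Fin N → ℝ | (x, b) ∈ K} := by
    intro b
    exact (hk.isClosed.preimage (Continuous.prodMk_left b)).measurableSet
  have h := E74.pl_pi N
    ({x : Fin N → ℝ | (x, b) ∈ K}.indicator 1) ({x : Fin N → ℝ | (x, b') ∈ K}.indicator 1)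
    ({x : Fin N → ℝ | (x, fun i => (b i + b' i) / 2) ∈ K}.indicator 1)
    (measurable_one.indicator (hmeas b)) (measurable_one.indicator (hmeas b'))
    (measurable_one.indicator (hmeas _)) (by
      intro x y
      by_cases hx : x ∈ {x : Fin N → ℝ | (x, b) ∈ K}
      · by_cases hy : y ∈ {x : Fin N → ℝ | (x, b') ∈ K}
        · have hm : (fun i => (x i + y i) / 2) ∈
              {x : Fin N → ℝ | (x, fun i => (b i + b' i) / 2) ∈ K} := by
            have := hc hx hy (by norm_num : (0 : ℝ) ≤ 1 / 2) (by norm_num : (0 : ℝ) ≤ 1 / 2)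
              (by norm_num)
            have e : (1 / 2 : ℝ) • (x, b) + (1 / 2 : ℝ) • (y, b')
                = (fun i => (x i + y i) / 2, fun i => (b i + b' i) / 2) := by
              ext i
              · simp only [one_div, Prod.smul_mk, Prod.mk_add_mk, Pi.add_apply, Pi.smul_apply, smul_eq_mul]; ring
              · simp only [one_div, Prod.smul_mk, Prod.mk_add_mk, Pi.add_apply, Pi.smul_apply, smul_eq_mul]; ring
            rw [e] at this
            exact this
          rw [indicator_of_mem hx, indicator_of_mem hy, indicator_of_mem hm]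
          simp
        · rw [indicator_of_notMem hy]; simp only [mul_zero, zero_le]
      · rw [indicator_of_notMem hx]; simp only [zero_mul, zero_le])
  rw [lintegral_indicator_one (hmeas b), lintegral_indicator_one (hmeas b'),
    lintegral_indicator_one (hmeas _)] at h
  exact h

lemma convex_of_closed_midpoint {E : Type*} [NormedAddCommGroup E] [NormedSpace ℝ E] {A : Set E}
    (hA : IsClosed A) (hm : ∀ x ∈ A, ∀ y ∈ A, (1 / 2 : ℝ) • (x + y) ∈ A) : Convex ℝ A := by
  rw [convex_iff_forall_pos]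
  intro x hx y hy a b ha hb hab
  set φ : ℝ → E := fun s => (1 - s) • x + s • y with hφ
  have hφc : Continuous φ := by fun_prop
  have hφm : ∀ s s', φ ((s + s') / 2) = (1 / 2 : ℝ) • (φ s + φ s') := by
    intro s s'
    simp only [hφ]
    rw [← sub_eq_zero]
    module
  set S : Set ℝ := {s | s ∈ Icc (0 : ℝ) 1 ∧ φ s ∈ A} with hS
  have hSc : IsClosed S := isClosed_Icc.inter (hA.preimage hφc)
  have h0 : (0 : ℝ) ∈ S := ⟨by simp only [mem_Icc, Std.le_refl, zero_le_one, and_self], by simpa only [hφ, sub_zero, one_smul, zero_smul, add_zero] using hx⟩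
  have h1 : (1 : ℝ) ∈ S := ⟨by simp only [mem_Icc, zero_le_one, Std.le_refl, and_self], by simpa only [hφ, sub_self, zero_smul, one_smul, zero_add] using hy⟩
  have hmS : ∀ s ∈ S, ∀ s' ∈ S, (s + s') / 2 ∈ S := by
    intro s hs s' hs'
    refine ⟨⟨by linarith only [hs.1.1, hs'.1.1], by linarith only [hs.1.2, hs'.1.2]⟩, ?_⟩
    rw [hφm]
    exact hm _ hs.2 _ hs'.2
  have hbS : b ∈ S := by
    by_contra hbS
    have hl : sSup (S ∩ Iic b) ∈ S ∩ Iic b :=
      (hSc.inter isClosed_Iic).csSup_mem ⟨0, h0, hb.le⟩ ⟨b, fun s hs => hs.2⟩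
    have hr : sInf (S ∩ Ici b) ∈ S ∩ Ici b :=
      (hSc.inter isClosed_Ici).csInf_mem ⟨1, h1, by simp only [mem_Ici]; linarith only [ha, hab]⟩
        ⟨b, fun s hs => hs.2⟩
    set l := sSup (S ∩ Iic b)
    set r := sInf (S ∩ Ici b)
    have hlb : l < b := lt_of_le_of_ne hl.2 (fun h => hbS (h ▸ hl.1))
    have hrb : b < r := lt_of_le_of_ne hr.2 (fun h => hbS (h ▸ hr.1))
    have hmm := hmS l hl.1 r hr.1
    rcases le_total ((l + r) / 2) b with h | h
    · have : (l + r) / 2 ≤ l := le_csSup ⟨b, fun s hs => hs.2⟩ ⟨hmm, h⟩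
      linarith only [hlb, hrb, this]
    · have : r ≤ (l + r) / 2 := csInf_le ⟨b, fun s hs => hs.2⟩ ⟨hmm, h⟩
      linarith
  have := hbS.2
  simp only [hφ] at this
  have e : 1 - b = a := by linarith only [hab]
  rwa [e] at this

end Vale.Agent.P230
end
end
end

section

section

section

namespace Vale.Agent.P230

open MeasureTheory
open scoped Pointwise

theorem one_add_pow_le {n m : ℕ} (hn : 1 ≤ n) (hm : m ≤ n) : (1 + 1 / (n : ℝ)) ^ m ≤ 3 := by
  have hn0 : (1 : ℝ) ≤ n := by exact_mod_cast hn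
  have h1 : (1 : ℝ) ≤ 1 + 1 / (n : ℝ) := by
    have : 0 ≤ 1 / (n : ℝ) := by positivity
    linarith only [this]
  refine (pow_le_pow_right₀ h1 hm).trans ?_
  have h2 : 1 + 1 / (n : ℝ) ≤ Real.exp (1 / n) := by
    have := Real.add_one_le_exp (1 / (n : ℝ))
    linarith only [this]
  calc (1 + 1 / (n : ℝ)) ^ n ≤ (Real.exp (1 / n)) ^ n := by gcongr
    _ = Real.exp 1 := by
      rw [← Real.exp_nat_mul]
      congr 1
      field_simp
    _ ≤ 3 := by
      have := Real.exp_one_lt_d9
      linarith only [this]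

end Vale.Agent.P230
end
end
end

section

section

section

namespace Vale.Agent.P230

open MeasureTheory
open scoped Pointwise

end Vale.Agent.P230
end
end
end

section

section

section

namespace Vale.Agent.P230

/-- Fibre bound: freeze the coordinates outside `T`. -/
theorem rel_fiber_bound {p N ρ : ℕ} (S : Finset (Fin N → ZMod p)) (D : Fin ρ → ZMod p)
    (T : Finset (Fin ρ)) (M : ℝ)
    (hM : ∀ z : Fin ρ → Fin N → ZMod p,
      ((((Fintype.piFinset (fun _ : Fin ρ => S)).filter (fun y => ∑ j, D j • y j ∈ S)).filter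
        (fun y => (fun j => if j ∈ T then 0 else y j) = z)).card : ℝ) ≤ M) :
    ((((Fintype.piFinset (fun _ : Fin ρ => S)).filter (fun y => ∑ j, D j • y j ∈ S)).card : ℝ))
      ≤ M * (S.card : ℝ) ^ (ρ - T.card) := by
  classical
  set A := ((Fintype.piFinset (fun _ : Fin ρ => S)).filter (fun y => ∑ j, D j • y j ∈ S)) with hA
  set B : Finset (Fin ρ → Fin N → ZMod p) :=
    Fintype.piFinset (fun j => if j ∈ T then {0} else S) with hB
  have hmaps : ∀ y ∈ A, (fun j => if j ∈ T then 0 else y j) ∈ B := by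
    intro y hy
    rw [hB, Fintype.mem_piFinset]
    intro j
    rw [hA, Finset.mem_filter, Fintype.mem_piFinset] at hy
    by_cases hj : j ∈ T
    · simp only [hj, ↓reduceIte, Finset.mem_singleton]
    · simp [hj, hy.1 j]
  have hcardB : B.card = S.card ^ (ρ - T.card) := by
    rw [hB, Fintype.card_piFinset]
    have : ∀ j, ((if j ∈ T then ({0} : Finset (Fin N → ZMod p)) else S)).card
        = if j ∈ T then 1 else S.card := by
      intro j; split_ifs <;> simp
    simp_rw [this]
    rw [Finset.prod_ite]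
    simp only [Finset.prod_const_one, Finset.prod_const, one_mul]
    congr 1
    have h1 : (Finset.univ.filter (fun x => x ∉ T)) = Tᶜ := by
      ext x; simp only [Finset.mem_filter, Finset.mem_univ, true_and, Finset.mem_compl]
    rw [h1, Finset.card_compl, Fintype.card_fin]
  have hmaps' : Set.MapsTo (fun (y : Fin ρ → Fin N → ZMod p) (j : Fin ρ) =>
      if j ∈ T then (0 : Fin N → ZMod p) else y j) (A : Set (Fin ρ → Fin N → ZMod p))
      (B : Set (Fin ρ → Fin N → ZMod p)) := fun y hy => hmaps y hy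
  rw [Finset.card_eq_sum_card_fiberwise hmaps']
  push_cast
  calc _ ≤ ∑ _z ∈ B, M := Finset.sum_le_sum (fun z _ => hM z)
    _ = B.card * M := by rw [Finset.sum_const, nsmul_eq_mul]
    _ = M * (S.card : ℝ) ^ (ρ - T.card) := by rw [hcardB]; push_cast; ring

theorem rel_one_coord {p N ρ : ℕ} (S : Finset (Fin N → ZMod p)) (D : Fin ρ → ZMod p)
    (j0 : Fin ρ) (b : ℝ)
    (hb : ∀ w : Fin N → ZMod p,
      (((S.filter (fun a => D j0 • a + w ∈ S)).card : ℝ) ≤ b * S.card)) :
    ((((Fintype.piFinset (fun _ : Fin ρ => S)).filter (fun y => ∑ j, D j • y j ∈ S)).card : ℝ))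
      ≤ b * (S.card : ℝ) ^ ρ := by
  classical
  have hρ : 1 ≤ ρ := by
    rcases Nat.eq_zero_or_pos ρ with h | h
    · subst h; exact j0.elim0
    · exact h
  have key := rel_fiber_bound S D {j0} (b * S.card) ?_
  · rw [Finset.card_singleton] at key
    refine key.trans (le_of_eq ?_)
    rw [mul_assoc, ← pow_succ', Nat.sub_add_cancel hρ]
  · intro z
    refine le_trans ?_ (hb (∑ j, D j • z j))
    norm_cast
    refine Finset.card_le_card_of_injOn (fun y => y j0) ?_ ?_
    · intro y hy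
      simp only [Finset.coe_filter, Set.mem_ofPred_eq, Finset.mem_filter, Fintype.mem_piFinset,
        Finset.mem_singleton] at hy ⊢
      obtain ⟨⟨h1, h2⟩, h3⟩ := hy
      refine ⟨h1 j0, ?_⟩
      have e : D j0 • y j0 + ∑ j, D j • z j = ∑ j, D j • y j := by
        rw [← h3, ← Finset.add_sum_erase Finset.univ (fun j => D j • y j) (Finset.mem_univ j0),
          ← Finset.add_sum_erase Finset.univ
            (fun j => D j • (if j = j0 then (0 : Fin N → ZMod p) else y j)) (Finset.mem_univ j0)]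
        congr 1
        simp only [if_true, smul_zero, zero_add]
        refine Finset.sum_congr rfl (fun j hj => ?_)
        rw [if_neg (Finset.ne_of_mem_erase hj)]
      rw [e]; exact h2
    · intro y hy y' hy' heq
      simp only [Finset.mem_singleton, Finset.coe_filter, Finset.mem_filter, Fintype.mem_piFinset, Set.mem_ofPred_eq] at hy hy'
      have h3 := hy.2.trans hy'.2.symm
      funext j
      by_cases hj : j = j0
      · rw [hj]; exact heq
      · have := congrFun h3 j
        simpa [hj] using this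

theorem rel_three_coord {p N ρ : ℕ} (S : Finset (Fin N → ZMod p)) (D : Fin ρ → ZMod p)
    (a b c : Fin ρ) (hab : a ≠ b) (hac : a ≠ c) (hbc : b ≠ c) (ha : D a = 1) (hb : D b = 1)
    (hc : D c = -1) (γ : ℝ) (hγ : ∀ w : Fin N → ZMod p,
      ((((S ×ˢ S ×ˢ S).filter (fun a => a.1 + a.2.1 - a.2.2 + w ∈ S)).card : ℝ)
        ≤ γ * (S.card : ℝ) ^ 3)) :
    ((((Fintype.piFinset (fun _ : Fin ρ => S)).filter (fun y => ∑ j, D j • y j ∈ S)).card : ℝ))
      ≤ γ * (S.card : ℝ) ^ ρ := by
  classical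
  have hT : ({a, b, c} : Finset (Fin ρ)).card = 3 := by
    rw [Finset.card_insert_of_notMem, Finset.card_insert_of_notMem, Finset.card_singleton]
    · simpa using hbc
    · simp [hab, hac]
  have hρ : 3 ≤ ρ := by
    calc 3 = ({a, b, c} : Finset (Fin ρ)).card := hT.symm
      _ ≤ (Finset.univ : Finset (Fin ρ)).card := Finset.card_le_card (Finset.subset_univ _)
      _ = ρ := by simp only [Finset.card_univ, Fintype.card_fin]
  have key := rel_fiber_bound S D {a, b, c} (γ * (S.card : ℝ) ^ 3) ?_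
  · rw [hT] at key
    refine key.trans (le_of_eq ?_)
    rw [mul_assoc, ← pow_add]
    congr 2
    omega
  · intro z
    refine le_trans ?_ (hγ (∑ j, D j • z j))
    norm_cast
    refine Finset.card_le_card_of_injOn (fun y => (y a, y b, y c)) ?_ ?_
    · intro y hy
      simp only [Finset.mem_insert, Finset.mem_singleton, Finset.coe_filter, Finset.mem_filter, Fintype.mem_piFinset, Set.mem_ofPred_eq, Finset.mem_product] at hy ⊢
      obtain ⟨⟨h1, h2⟩, h3⟩ := hy
      refine ⟨⟨h1 a, h1 b, h1 c⟩, ?_⟩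
      have e : y a + y b - y c + ∑ j, D j • z j = ∑ j, D j • y j := by
        rw [← h3]
        have hsplit : ∀ f : Fin ρ → (Fin N → ZMod p),
            ∑ j, f j = f a + (f b + (f c + ∑ j ∈ ((Finset.univ.erase a).erase b).erase c, f j)) := by
          intro f
          rw [Finset.add_sum_erase _ _ (by simp only [Finset.mem_erase, ne_eq, hbc.symm, not_false_eq_true, hac.symm, Finset.mem_univ, and_self]),
            Finset.add_sum_erase _ _ (by simp only [Finset.mem_erase, ne_eq, hab.symm, not_false_eq_true, Finset.mem_univ, and_self]),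
            Finset.add_sum_erase _ _ (by simp only [Finset.mem_univ])]
        rw [hsplit (fun j => D j • y j), hsplit (fun j => D j • _)]
        have hrest : ∑ j ∈ ((Finset.univ.erase a).erase b).erase c,
            D j • (if j = a ∨ j = b ∨ j = c then (0 : Fin N → ZMod p) else y j)
            = ∑ j ∈ ((Finset.univ.erase a).erase b).erase c, D j • y j := by
          refine Finset.sum_congr rfl (fun j hj => ?_)
          simp only [Finset.mem_erase] at hj
          rw [if_neg]
          rintro (h | h | h)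
          · exact hj.2.2.1 h
          · exact hj.2.1 h
          · exact hj.1 h
        rw [hrest]
        simp only [true_or, or_true, if_true, smul_zero, zero_add, ha, hb, hc, one_smul, neg_smul]
        abel
      rw [e]; exact h2
    · intro y hy y' hy' heq
      simp only [Finset.mem_insert, Finset.mem_singleton, Finset.coe_filter, Finset.mem_filter, Fintype.mem_piFinset, Set.mem_ofPred_eq] at hy hy'
      have h3 := hy.2.trans hy'.2.symm
      simp only [Prod.mk.injEq] at heq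
      funext j
      by_cases hj : j = a ∨ j = b ∨ j = c
      · rcases hj with h | h | h
        · rw [h]; exact heq.1
        · rw [h]; exact heq.2.1
        · rw [h]; exact heq.2.2
      · have := congrFun h3 j
        simpa [hj] using this

/-- a `{0,1,-1}` vector with sum `1` mod `p` which is not a unit vector has two `1`s and
a `-1`. -/
theorem rel_signs {p ρ : ℕ} [Fact p.Prime] (hρ : ρ + 1 < p) (hp : 2 < p) (D : Fin ρ → ZMod p)
    (hD : ∀ j, D j = 0 ∨ D j = 1 ∨ D j = -1) (hsum : ∑ j, D j = 1)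
    (hne : ∀ j, D ≠ Pi.single j 1) :
    ∃ a b c : Fin ρ, a ≠ b ∧ a ≠ c ∧ b ≠ c ∧ D a = 1 ∧ D b = 1 ∧ D c = -1 := by
  classical
  have h1ne0 : (1 : ZMod p) ≠ 0 := one_ne_zero
  have h1nem1 : (1 : ZMod p) ≠ -1 := by
    intro h
    have h2 : ((2 : ℕ) : ZMod p) = 0 := by
      push_cast
      have : (1 : ZMod p) + 1 = 0 := by nth_rewrite 1 [h]; ring
      linear_combination this
    rw [ZMod.natCast_eq_zero_iff] at h2
    exact absurd (Nat.le_of_dvd (by norm_num) h2) (by omega)
  have hm1ne0 : (-1 : ZMod p) ≠ 0 := neg_ne_zero.mpr h1ne0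
  set P := Finset.univ.filter (fun j => D j = 1) with hP
  set M := Finset.univ.filter (fun j => D j = -1) with hM
  have hdisj : Disjoint P M := by
    rw [Finset.disjoint_left]
    intro j hj hj'
    rw [hP, Finset.mem_filter] at hj
    rw [hM, Finset.mem_filter] at hj'
    exact h1nem1 (hj.2.symm.trans hj'.2)
  have hcard : P.card + M.card ≤ ρ := by
    rw [← Finset.card_union_of_disjoint hdisj]
    calc _ ≤ (Finset.univ : Finset (Fin ρ)).card := Finset.card_le_card (Finset.subset_univ _)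
      _ = ρ := by simp only [Finset.card_univ, Fintype.card_fin]
  have hs : ∑ j, D j = (P.card : ZMod p) - (M.card : ZMod p) := by
    have : ∀ j, D j = (if D j = 1 then (1 : ZMod p) else 0) - (if D j = -1 then (1 : ZMod p) else 0) := by
      intro j
      rcases hD j with h | h | h
      · rw [h, if_neg h1ne0.symm, if_neg hm1ne0.symm]; ring
      · rw [h, if_pos rfl, if_neg h1nem1]; ring
      · rw [h, if_neg h1nem1.symm, if_pos rfl]; ring
    rw [Finset.sum_congr rfl (fun j _ => this j), Finset.sum_sub_distrib, hP, hM]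
    simp only [Finset.sum_boole]
  have hint : (P.card : ℤ) - (M.card : ℤ) = 1 := by
    have h1 : (((P.card : ℤ) - (M.card : ℤ) - 1 : ℤ) : ZMod p) = 0 := by
      push_cast
      rw [← hs, hsum]; ring
    rw [ZMod.intCast_zmod_eq_zero_iff_dvd] at h1
    have h2 : |(P.card : ℤ) - (M.card : ℤ) - 1| < p := by
      rw [abs_lt]
      constructor <;> omega
    have h3 := Int.eq_zero_of_abs_lt_dvd h1 h2
    omega
  have hM1 : 1 ≤ M.card := by
    by_contra hcon
    have hM0 : M.card = 0 := by omega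
    have hP1 : P.card = 1 := by omega
    obtain ⟨j, hj⟩ := Finset.card_eq_one.mp hP1
    apply hne j
    funext i
    by_cases hij : i = j
    · subst hij
      rw [Pi.single_eq_same]
      have : i ∈ P := by rw [hj]; simp
      rw [hP, Finset.mem_filter] at this
      exact this.2
    · rw [Pi.single_eq_of_ne hij]
      rcases hD i with h | h | h
      · exact h
      · exfalso
        have : i ∈ P := by rw [hP, Finset.mem_filter]; exact ⟨Finset.mem_univ _, h⟩
        rw [hj, Finset.mem_singleton] at this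
        exact hij this
      · exfalso
        have : i ∈ M := by rw [hM, Finset.mem_filter]; exact ⟨Finset.mem_univ _, h⟩
        rw [Finset.card_eq_zero] at hM0
        rw [hM0] at this
        simp at this
  have hP2 : 1 < P.card := by omega
  obtain ⟨a, ha, b, hb, hab⟩ := Finset.one_lt_card.mp hP2
  obtain ⟨c, hc⟩ := Finset.card_pos.mp hM1
  have hac : a ≠ c := fun h => Finset.disjoint_left.mp hdisj ha (h ▸ hc)
  have hbc : b ≠ c := fun h => Finset.disjoint_left.mp hdisj hb (h ▸ hc)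
  rw [hP, Finset.mem_filter] at ha hb
  rw [hM, Finset.mem_filter] at hc
  exact ⟨a, b, c, hab, hac, hbc, ha.2, hb.2, hc.2⟩

/-- TASK R1 -/
theorem rel_bound {p N ρ : ℕ} [Fact p.Prime] (hρ : ρ + 1 < p) (hp : 2 < p) (S : Finset (Fin N → ZMod p))
    (γ : ℝ) (hγ0 : 0 ≤ γ) (hγ : ∀ w : Fin N → ZMod p,
      ((((S ×ˢ S ×ˢ S).filter (fun a => a.1 + a.2.1 - a.2.2 + w ∈ S)).card : ℝ) ≤ γ * (S.card : ℝ) ^ 3))
    (Y : ℕ) (hY : 1 ≤ Y) (Q : ℕ → Finset (ZMod p)) (hQ1 : Q 1 = {0, 1, -1}) (hQ : Monotone Q)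
    (β : ℕ → ℝ) (hβ0 : ∀ H, 0 ≤ β H) (hβ : ∀ H, 2 ≤ H → H ≤ Y → ∀ x ∈ Q H, x ∉ Q (H - 1) → ∀ w : Fin N → ZMod p,
      (((S.filter (fun a => x • a + w ∈ S)).card : ℝ) ≤ β H * S.card))
    (β' : ℝ) (hβ'0 : 0 ≤ β') (hβ' : ∀ x, x ∉ Q Y → ∀ w : Fin N → ZMod p,
      (((S.filter (fun a => x • a + w ∈ S)).card : ℝ) ≤ β' * S.card)) :
    ∑ D ∈ Finset.univ.filter (fun D : Fin ρ → ZMod p => ∑ j, D j = 1 ∧ ∀ j, D ≠ Pi.single j 1),
      ((((Fintype.piFinset (fun _ : Fin ρ => S)).filter (fun y => ∑ j, D j • y j ∈ S)).card : ℝ))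
    ≤ (3 ^ ρ * γ + (∑ H ∈ Finset.Icc 2 Y, ((Q H).card : ℝ) ^ ρ * β H) + (p : ℝ) ^ ρ * β') * (S.card : ℝ) ^ ρ := by
  classical
  set c : (Fin ρ → ZMod p) → ℝ := fun D =>
    (if D ∈ Fintype.piFinset (fun _ : Fin ρ => Q 1) then γ else 0)
      + (∑ H ∈ Finset.Icc 2 Y, if D ∈ Fintype.piFinset (fun _ : Fin ρ => Q H) then β H else 0)
      + β' with hc
  have hSρ : (0 : ℝ) ≤ (S.card : ℝ) ^ ρ := by (clear * -; positivity)
  have hpart1 : ∀ D : Fin ρ → ZMod p,
      0 ≤ (if D ∈ Fintype.piFinset (fun _ : Fin ρ => Q 1) then γ else 0) := by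
    intro D; split_ifs
    · exact hγ0
    · exact le_rfl
  have hpart2' : ∀ (D : Fin ρ → ZMod p) (H : ℕ),
      0 ≤ (if D ∈ Fintype.piFinset (fun _ : Fin ρ => Q H) then β H else 0) := by
    intro D H; split_ifs
    · exact hβ0 H
    · exact le_rfl
  have hpart2 : ∀ D : Fin ρ → ZMod p, 0 ≤ (∑ H ∈ Finset.Icc 2 Y,
      if D ∈ Fintype.piFinset (fun _ : Fin ρ => Q H) then β H else 0) := by
    intro D
    exact Finset.sum_nonneg (fun H _ => hpart2' D H)
  have hc0 : ∀ D, 0 ≤ c D := by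
    intro D
    have h1 := hpart1 D
    have h2 := hpart2 D
    simp only [hc]
    linarith only [hβ'0, h1, h2]
  have hterm : ∀ D ∈ Finset.univ.filter
      (fun D : Fin ρ → ZMod p => ∑ j, D j = 1 ∧ ∀ j, D ≠ Pi.single j 1),
      ((((Fintype.piFinset (fun _ : Fin ρ => S)).filter
        (fun y => ∑ j, D j • y j ∈ S)).card : ℝ)) ≤ c D * (S.card : ℝ) ^ ρ := by
    intro D hD
    rw [Finset.mem_filter] at hD
    obtain ⟨-, hsum, hne⟩ := hD
    by_cases hY' : ∀ j, D j ∈ Q Y
    · -- minimal H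
      have hex : ∃ H, 1 ≤ H ∧ ∀ j, D j ∈ Q H := ⟨Y, hY, hY'⟩
      set H := Nat.find hex with hHdef
      obtain ⟨hH1, hHmem⟩ := Nat.find_spec hex
      have hHY : H ≤ Y := Nat.find_min' hex ⟨hY, hY'⟩
      rcases Nat.lt_or_ge H 2 with hlt | hge
      · have hHone : H = 1 := by omega
        rw [← hHdef, hHone] at hHmem
        have hsigns : ∀ j, D j = 0 ∨ D j = 1 ∨ D j = -1 := by
          intro j
          have := hHmem j
          rw [hQ1] at this
          simpa only [Finset.mem_insert, Finset.mem_singleton] using this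
        obtain ⟨a, b, c', hab, hac, hbc, ha, hb, hc'⟩ := rel_signs hρ hp D hsigns hsum hne
        refine (rel_three_coord S D a b c' hab hac hbc ha hb hc' γ hγ).trans ?_
        refine mul_le_mul_of_nonneg_right ?_ hSρ
        have hmem : D ∈ Fintype.piFinset (fun _ : Fin ρ => Q 1) := by
          rw [Fintype.mem_piFinset]; exact hHmem
        have h2 := hpart2 D
        simp only [hc]
        rw [if_pos hmem]
        linarith only [hβ'0, h2]
      · have hnot : ¬ (1 ≤ H - 1 ∧ ∀ j, D j ∈ Q (H - 1)) := Nat.find_min hex (by omega)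
        have hex2 : ∃ j, D j ∉ Q (H - 1) := by
          by_contra hcon
          push Not at hcon
          exact hnot ⟨by omega, hcon⟩
        obtain ⟨j0, hj0⟩ := hex2
        refine (rel_one_coord S D j0 (β H)
          (fun w => hβ H hge hHY (D j0) (hHmem j0) hj0 w)).trans ?_
        refine mul_le_mul_of_nonneg_right ?_ hSρ
        have hmem : D ∈ Fintype.piFinset (fun _ : Fin ρ => Q H) := by
          rw [Fintype.mem_piFinset]; exact hHmem
        have h1 := hpart1 D
        have h2 : β H ≤ ∑ H ∈ Finset.Icc 2 Y,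
            (if D ∈ Fintype.piFinset (fun _ : Fin ρ => Q H) then β H else 0) := by
          have := Finset.single_le_sum (f := fun H =>
            (if D ∈ Fintype.piFinset (fun _ : Fin ρ => Q H) then β H else 0))
            (fun H _ => hpart2' D H) (Finset.mem_Icc.mpr ⟨hge, hHY⟩)
          simpa only [Fintype.mem_piFinset, ge_iff_le, hmem, ↓reduceIte] using this
        simp only [hc]
        linarith only [hβ'0, h1, h2]
    · push Not at hY'
      obtain ⟨j0, hj0⟩ := hY'
      refine (rel_one_coord S D j0 β' (fun w => hβ' (D j0) hj0 w)).trans ?_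
      refine mul_le_mul_of_nonneg_right ?_ hSρ
      have h1 := hpart1 D
      have h2 := hpart2 D
      simp only [hc]
      linarith only [h1, h2]
  have hsumc : ∑ D : Fin ρ → ZMod p, c D ≤
      3 ^ ρ * γ + (∑ H ∈ Finset.Icc 2 Y, ((Q H).card : ℝ) ^ ρ * β H) + (p : ℝ) ^ ρ * β' := by
    simp only [hc]
    rw [Finset.sum_add_distrib, Finset.sum_add_distrib]
    refine add_le_add (add_le_add ?_ ?_) ?_
    · rw [← Finset.sum_filter, Finset.sum_const, nsmul_eq_mul]
      refine mul_le_mul_of_nonneg_right ?_ hγ0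
      have : (Finset.univ.filter (fun D : Fin ρ → ZMod p =>
          D ∈ Fintype.piFinset (fun _ : Fin ρ => Q 1))).card ≤ 3 ^ ρ := by
        rw [Finset.filter_univ_mem, Fintype.card_piFinset_const]
        refine Nat.pow_le_pow_left ?_ _
        rw [hQ1]
        exact Finset.card_le_three
      exact_mod_cast this
    · rw [Finset.sum_comm]
      refine Finset.sum_le_sum (fun H _ => ?_)
      rw [← Finset.sum_filter, Finset.sum_const, nsmul_eq_mul, Finset.filter_univ_mem,
        Fintype.card_piFinset_const]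
      push_cast
      exact le_rfl
    · rw [Finset.sum_const, nsmul_eq_mul, Finset.card_univ, Fintype.card_fun, ZMod.card,
        Fintype.card_fin]
      push_cast
      exact le_rfl
  calc _ ≤ ∑ D ∈ Finset.univ.filter
        (fun D : Fin ρ → ZMod p => ∑ j, D j = 1 ∧ ∀ j, D ≠ Pi.single j 1),
        c D * (S.card : ℝ) ^ ρ := Finset.sum_le_sum hterm
    _ ≤ ∑ D : Fin ρ → ZMod p, c D * (S.card : ℝ) ^ ρ :=
        Finset.sum_le_sum_of_subset_of_nonneg (Finset.filter_subset _ _)
          (fun D _ _ => mul_nonneg (hc0 D) hSρ)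
    _ = (∑ D : Fin ρ → ZMod p, c D) * (S.card : ℝ) ^ ρ := by rw [Finset.sum_mul]
    _ ≤ _ := mul_le_mul_of_nonneg_right hsumc hSρ

end Vale.Agent.P230
end
end
end

section

section

section

/-!
# P230: the additive energy inequality

`energy_bound`: for a measurable `K ⊆ ℝ^N`,
`∫∫∫ 1_K(x) 1_K(y) 1_K(z) 1_K(x+y-z) ≤ (19/20)^N |K|^3`.
-/

open MeasureTheory Set
open scoped ENNReal

set_option linter.unusedSectionVars false
set_option linter.unusedSimpArgs false

namespace Vale.Agent.P230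

section Swap

variable {α β γ : Type*} [MeasurableSpace α] [MeasurableSpace β] [MeasurableSpace γ]
  {μ : Measure α} {ν : Measure β} {ρ : Measure γ} [SFinite μ] [SFinite ν] [SFinite ρ]

theorem lswap12 {F : α → β → γ → ℝ≥0∞}
    (hF : Measurable fun p : α × β × γ => F p.1 p.2.1 p.2.2) :
    ∫⁻ x, ∫⁻ y, ∫⁻ z, F x y z ∂ρ ∂ν ∂μ = ∫⁻ y, ∫⁻ x, ∫⁻ z, F x y z ∂ρ ∂μ ∂ν := by
  apply lintegral_lintegral_swap
  apply Measurable.aemeasurable
  have h : Measurable fun q : (α × β) × γ => F q.1.1 q.1.2 q.2 :=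
    hF.comp (by fun_prop : Measurable fun q : (α × β) × γ => (q.1.1, q.1.2, q.2))
  exact h.lintegral_prod_right'

theorem lswap23 {F : α → β → γ → ℝ≥0∞}
    (hF : Measurable fun p : α × β × γ => F p.1 p.2.1 p.2.2) :
    ∫⁻ x, ∫⁻ y, ∫⁻ z, F x y z ∂ρ ∂ν ∂μ = ∫⁻ x, ∫⁻ z, ∫⁻ y, F x y z ∂ν ∂ρ ∂μ := by
  apply lintegral_congr
  intro x
  apply lintegral_lintegral_swap
  apply Measurable.aemeasurable
  exact hF.comp (by fun_prop : Measurable fun q : β × γ => (x, q.1, q.2))

theorem lswap13 {F : α → β → γ → ℝ≥0∞}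
    (hF : Measurable fun p : α × β × γ => F p.1 p.2.1 p.2.2) :
    ∫⁻ x, ∫⁻ y, ∫⁻ z, F x y z ∂ρ ∂ν ∂μ = ∫⁻ z, ∫⁻ y, ∫⁻ x, F x y z ∂μ ∂ν ∂ρ := by
  rw [lswap12 hF]
  rw [lswap23 (F := fun y x z => F x y z)
    (hF.comp (by fun_prop : Measurable fun q : β × α × γ => (q.2.1, q.1, q.2.2)))]
  rw [lswap12 (F := fun y z x => F x y z)
    (hF.comp (by fun_prop : Measurable fun q : β × γ × α => (q.2.2, q.1, q.2.1)))]

/-- `x y z → z x y` -/
theorem lrot {F : α → β → γ → ℝ≥0∞}
    (hF : Measurable fun p : α × β × γ => F p.1 p.2.1 p.2.2) :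
    ∫⁻ x, ∫⁻ y, ∫⁻ z, F x y z ∂ρ ∂ν ∂μ = ∫⁻ z, ∫⁻ x, ∫⁻ y, F x y z ∂ν ∂μ ∂ρ := by
  rw [lswap23 hF]
  rw [lswap12 (F := fun x z y => F x y z)
    (hF.comp (by fun_prop : Measurable fun q : α × γ × β => (q.1, q.2.2, q.2.1)))]

/-- Cauchy–Schwarz. -/
theorem lintegral_mul_le_sqrt {f g : α → ℝ≥0∞} (hf : Measurable f) (hg : Measurable g) :
    ∫⁻ x, f x * g x ∂μ ≤ (∫⁻ x, f x ^ 2 ∂μ) ^ (1/2 : ℝ) * (∫⁻ x, g x ^ 2 ∂μ) ^ (1/2 : ℝ) := by
  have h := ENNReal.lintegral_mul_le_Lp_mul_Lq μ Real.HolderConjugate.two_two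
    hf.aemeasurable hg.aemeasurable
  simpa only [one_div, ge_iff_le, Pi.mul_apply, ENNReal.rpow_ofNat] using h

/-- Minkowski's integral inequality in `L²`. -/
theorem mink2 {X : α → β → ℝ≥0∞} (hX : Measurable fun p : α × β => X p.1 p.2) :
    ∫⁻ s, (∫⁻ z, X z s ∂μ) ^ 2 ∂ν ≤ (∫⁻ z, (∫⁻ s, X z s ^ 2 ∂ν) ^ (1/2 : ℝ) ∂μ) ^ 2 := by
  have hXz : ∀ z, Measurable (X z) := fun z =>
    hX.comp (by fun_prop : Measurable fun s : β => (z, s))
  have hXs : ∀ s, Measurable fun z => X z s := fun s =>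
    hX.comp (by fun_prop : Measurable fun z : α => (z, s))
  have hn : Measurable fun z => (∫⁻ s, X z s ^ 2 ∂ν) ^ (1/2 : ℝ) := by
    apply Measurable.pow_const
    exact (hX.pow_const 2).lintegral_prod_right'
  calc ∫⁻ s, (∫⁻ z, X z s ∂μ) ^ 2 ∂ν
      = ∫⁻ s, ∫⁻ z, ∫⁻ w, X z s * X w s ∂μ ∂μ ∂ν := by
        apply lintegral_congr
        intro s
        rw [sq, ← lintegral_mul_const _ (hXs s)]
        apply lintegral_congr
        intro z
        rw [lintegral_const_mul _ (hXs s)]
    _ = ∫⁻ z, ∫⁻ w, ∫⁻ s, X z s * X w s ∂ν ∂μ ∂μ := by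
        symm
        apply lrot (F := fun z w s => X z s * X w s)
        apply Measurable.mul
        · exact hX.comp (by fun_prop : Measurable fun q : α × α × β => (q.1, q.2.2))
        · exact hX.comp (by fun_prop : Measurable fun q : α × α × β => (q.2.1, q.2.2))
    _ ≤ ∫⁻ z, ∫⁻ w, (∫⁻ s, X z s ^ 2 ∂ν) ^ (1/2 : ℝ) * (∫⁻ s, X w s ^ 2 ∂ν) ^ (1/2 : ℝ)
          ∂μ ∂μ := by
        gcongr with z w
        exact lintegral_mul_le_sqrt (hXz z) (hXz w)
    _ = (∫⁻ z, (∫⁻ s, X z s ^ 2 ∂ν) ^ (1/2 : ℝ) ∂μ) ^ 2 := by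
        rw [sq, ← lintegral_mul_const _ hn]
        apply lintegral_congr
        intro z
        rw [lintegral_const_mul _ hn]

theorem lint3 {F : α → β → γ → ℝ≥0∞}
    (hF : Measurable fun p : α × β × γ => F p.1 p.2.1 p.2.2) :
    ∫⁻ x, ∫⁻ y, ∫⁻ z, F x y z ∂ρ ∂ν ∂μ = ∫⁻ q, F q.1 q.2.1 q.2.2 ∂(μ.prod (ν.prod ρ)) := by
  rw [lintegral_prod _ hF.aemeasurable]
  apply lintegral_congr
  intro x
  rw [lintegral_prod]
  exact (hF.comp (by fun_prop : Measurable fun q : β × γ => (x, q.1, q.2))).aemeasurable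

end Swap

section Gen

variable {G : Type*} [AddCommGroup G] [MeasurableSpace G] [MeasurableAdd₂ G]
  (μ : Measure G)

/-- correlation of `f` and `g` at shift `t` -/
noncomputable def corr (f g : G → ℝ≥0∞) (t : G) : ℝ≥0∞ := ∫⁻ z, f (z + t) * g z ∂μ

/-- the energy in correlation form -/
noncomputable def en (f : G → ℝ≥0∞) : ℝ≥0∞ := ∫⁻ t, corr μ f f t ^ 2 ∂μ

variable {μ} [SFinite μ] [μ.IsAddLeftInvariant]

theorem measurable_corr {f g : G → ℝ≥0∞} (hf : Measurable f) (hg : Measurable g) :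
    Measurable (corr μ f g) := by
  unfold corr
  have h : Measurable fun p : G × G => f (p.2 + p.1) * g p.2 := by fun_prop
  exact h.lintegral_prod_right'

theorem lintegral_corr_mul_corr {f g h k : G → ℝ≥0∞} (hf : Measurable f) (hg : Measurable g)
    (hh : Measurable h) (hk : Measurable k) :
    ∫⁻ t, corr μ f g t * corr μ h k t ∂μ =
      ∫⁻ t, ∫⁻ z, ∫⁻ w, f (z + t) * g z * (h (w + t) * k w) ∂μ ∂μ ∂μ := by
  apply lintegral_congr
  intro t
  unfold corr
  rw [← lintegral_mul_const _ (by (clear h k hh hk; fun_prop))]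
  apply lintegral_congr
  intro z
  rw [lintegral_const_mul _ (by (clear f g hf hg z; fun_prop))]

theorem lintegral_corr_mul_corr_swap {f g h k : G → ℝ≥0∞} (hf : Measurable f)
    (hg : Measurable g) (hh : Measurable h) (hk : Measurable k) :
    ∫⁻ t, corr μ f g t * corr μ h k t ∂μ = ∫⁻ t, corr μ f h t * corr μ g k t ∂μ := by
  rw [lintegral_corr_mul_corr hf hg hh hk, lintegral_corr_mul_corr hf hh hg hk]
  -- LHS: t, z, w: f (z+t) g z h (w+t) k w
  -- substitute z = w + u
  calc ∫⁻ t, ∫⁻ z, ∫⁻ w, f (z + t) * g z * (h (w + t) * k w) ∂μ ∂μ ∂μ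
      = ∫⁻ t, ∫⁻ w, ∫⁻ z, f (z + t) * g z * (h (w + t) * k w) ∂μ ∂μ ∂μ := by
        apply lswap23 (F := fun t z w => f (z + t) * g z * (h (w + t) * k w))
        fun_prop
    _ = ∫⁻ t, ∫⁻ w, ∫⁻ u, f (w + u + t) * g (w + u) * (h (w + t) * k w) ∂μ ∂μ ∂μ := by
        apply lintegral_congr
        intro t
        apply lintegral_congr
        intro w
        exact (lintegral_add_left_eq_self
          (fun z => f (z + t) * g z * (h (w + t) * k w)) w).symm
    _ = ∫⁻ u, ∫⁻ w, ∫⁻ t, f (w + u + t) * g (w + u) * (h (w + t) * k w) ∂μ ∂μ ∂μ := by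
        apply lswap13 (F := fun t w u => f (w + u + t) * g (w + u) * (h (w + t) * k w))
        fun_prop
    _ = ∫⁻ u, ∫⁻ w, ∫⁻ s, f (s + u) * h s * (g (w + u) * k w) ∂μ ∂μ ∂μ := by
        apply lintegral_congr
        intro u
        apply lintegral_congr
        intro w
        rw [← lintegral_add_left_eq_self
          (fun s => f (s + u) * h s * (g (w + u) * k w)) w]
        apply lintegral_congr
        intro t
        have e : w + u + t = w + t + u := by abel
        rw [e]
        ring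
    _ = ∫⁻ u, ∫⁻ s, ∫⁻ w, f (s + u) * h s * (g (w + u) * k w) ∂μ ∂μ ∂μ := by
        apply lswap23 (F := fun u w s => f (s + u) * h s * (g (w + u) * k w))
        fun_prop

/-- half of the Gowers–Cauchy–Schwarz inequality -/
theorem lintegral_corr_sq_le {f g : G → ℝ≥0∞} (hf : Measurable f) (hg : Measurable g) :
    ∫⁻ t, corr μ f g t ^ 2 ∂μ ≤ en μ f ^ (1/2 : ℝ) * en μ g ^ (1/2 : ℝ) := by
  calc ∫⁻ t, corr μ f g t ^ 2 ∂μ = ∫⁻ t, corr μ f g t * corr μ f g t ∂μ := by
        simp_rw [sq]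
    _ = ∫⁻ t, corr μ f f t * corr μ g g t ∂μ := lintegral_corr_mul_corr_swap hf hg hf hg
    _ ≤ _ := lintegral_mul_le_sqrt (measurable_corr hf hf) (measurable_corr hg hg)

end Gen


section Gen2

variable {G : Type*} [AddCommGroup G] [MeasurableSpace G] [MeasurableAdd₂ G] [MeasurableNeg G]
  {μ : Measure G} [SFinite μ] [μ.IsAddLeftInvariant]

/-- The energy integral equals the correlation form. -/
theorem energy_eq_en {f : G → ℝ≥0∞} (hf : Measurable f) :
    ∫⁻ x, ∫⁻ y, ∫⁻ z, f x * f y * f z * f (x + y - z) ∂μ ∂μ ∂μ = en μ f := by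
  have hen : en μ f = ∫⁻ t, ∫⁻ z, ∫⁻ w, f (z + t) * f z * (f (w + t) * f w) ∂μ ∂μ ∂μ := by
    rw [← lintegral_corr_mul_corr hf hf hf hf]
    unfold en
    simp_rw [sq]
  rw [hen]
  calc ∫⁻ x, ∫⁻ y, ∫⁻ z, f x * f y * f z * f (x + y - z) ∂μ ∂μ ∂μ
      = ∫⁻ z, ∫⁻ y, ∫⁻ x, f x * f y * f z * f (x + y - z) ∂μ ∂μ ∂μ := by
        apply lswap13 (F := fun x y z => f x * f y * f z * f (x + y - z))
        fun_prop
    _ = ∫⁻ z, ∫⁻ y, ∫⁻ t, f (z + t) * f y * f z * f (z + t + y - z) ∂μ ∂μ ∂μ := by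
        apply lintegral_congr
        intro z
        apply lintegral_congr
        intro y
        exact (lintegral_add_left_eq_self
          (fun x => f x * f y * f z * f (x + y - z)) z).symm
    _ = ∫⁻ z, ∫⁻ y, ∫⁻ t, f (z + t) * f z * (f (y + t) * f y) ∂μ ∂μ ∂μ := by
        apply lintegral_congr
        intro z
        apply lintegral_congr
        intro y
        apply lintegral_congr
        intro t
        have e : z + t + y - z = y + t := by abel
        rw [e]
        ring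
    _ = ∫⁻ t, ∫⁻ z, ∫⁻ y, f (z + t) * f z * (f (y + t) * f y) ∂μ ∂μ ∂μ := by
        apply lrot (F := fun z y t => f (z + t) * f z * (f (y + t) * f y))
        fun_prop

end Gen2

section Prod

variable {G H : Type*} [AddCommGroup G] [MeasurableSpace G] [MeasurableAdd₂ G]
  [AddCommGroup H] [MeasurableSpace H] [MeasurableAdd₂ H]
  {μ : Measure G} [SFinite μ] [μ.IsAddLeftInvariant]
  {ν : Measure H} [SFinite ν] [ν.IsAddLeftInvariant]

theorem measurableAdd₂_prod : MeasurableAdd₂ (G × H) := by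
  constructor
  have h1 : Measurable fun p : (G × H) × (G × H) => p.1.1 + p.2.1 := by fun_prop
  have h2 : Measurable fun p : (G × H) × (G × H) => p.1.2 + p.2.2 := by fun_prop
  exact h1.prodMk h2

/-- the energy bound with constant `κ` for a group with a measure. -/
def EBound (μ : Measure G) (κ : ℝ≥0∞) : Prop :=
  ∀ f : G → ℝ≥0∞, Measurable f → en μ f ≤ κ * (∫⁻ x, f x ^ (4/3 : ℝ) ∂μ) ^ 3

theorem measurable_corr₂ {α : Type*} [MeasurableSpace α] {f g : α → H → ℝ≥0∞}
    (hf : Measurable fun p : α × H => f p.1 p.2) (hg : Measurable fun p : α × H => g p.1 p.2) :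
    Measurable fun p : α × H => corr ν (f p.1) (g p.1) p.2 := by
  unfold corr
  have h : Measurable fun q : (α × H) × H => f q.1.1 (q.2 + q.1.2) * g q.1.1 q.2 := by
    apply Measurable.mul
    · exact hf.comp (by fun_prop : Measurable fun q : (α × H) × H => (q.1.1, q.2 + q.1.2))
    · exact hg.comp (by fun_prop : Measurable fun q : (α × H) × H => (q.1.1, q.2))
  exact h.lintegral_prod_right'

theorem en_prod_le {f : G × H → ℝ≥0∞} (hf : Measurable f) {κ : ℝ≥0∞} (hκ : EBound ν κ) :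
    en (μ.prod ν) f ≤ κ * en μ (fun a => (∫⁻ u, f (a, u) ^ (4/3 : ℝ) ∂ν) ^ (3/4 : ℝ)) := by
  set φ : G → ℝ≥0∞ := fun a => (∫⁻ u, f (a, u) ^ (4/3 : ℝ) ∂ν) ^ (3/4 : ℝ) with hφ
  have hφm : Measurable φ := by
    apply Measurable.pow_const
    exact (hf.pow_const _).lintegral_prod_right'
  have hfa : ∀ a, Measurable fun u => f (a, u) := fun a =>
    hf.comp (by fun_prop : Measurable fun u : H => (a, u))
  -- the inner function
  have hX : Measurable fun q : (G × G) × H =>
      corr ν (fun u => f (q.1.2 + q.1.1, u)) (fun u => f (q.1.2, u)) q.2 := by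
    apply measurable_corr₂ (α := G × G) (f := fun q u => f (q.2 + q.1, u))
      (g := fun q u => f (q.2, u))
    · exact hf.comp (by fun_prop : Measurable fun p : (G × G) × H => (p.1.2 + p.1.1, p.2))
    · exact hf.comp (by fun_prop : Measurable fun p : (G × G) × H => (p.1.2, p.2))
  have key : ∀ t z : G, (∫⁻ s, corr ν (fun u => f (z + t, u)) (fun u => f (z, u)) s ^ 2 ∂ν)
      ^ (1/2 : ℝ) ≤ κ ^ (1/2 : ℝ) * (φ (z + t) * φ z) := by
    intro t z
    have h1 := lintegral_corr_sq_le (μ := ν) (hfa (z + t)) (hfa z)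
    have h2 := hκ _ (hfa (z + t))
    have h3 := hκ _ (hfa z)
    calc (∫⁻ s, corr ν (fun u => f (z + t, u)) (fun u => f (z, u)) s ^ 2 ∂ν) ^ (1/2 : ℝ)
        ≤ (en ν (fun u => f (z + t, u)) ^ (1/2 : ℝ) * en ν (fun u => f (z, u)) ^ (1/2 : ℝ))
            ^ (1/2 : ℝ) := by gcongr
      _ ≤ ((κ * (∫⁻ u, f (z + t, u) ^ (4/3 : ℝ) ∂ν) ^ 3) ^ (1/2 : ℝ) *
            (κ * (∫⁻ u, f (z, u) ^ (4/3 : ℝ) ∂ν) ^ 3) ^ (1/2 : ℝ)) ^ (1/2 : ℝ) := by gcongr
      _ = κ ^ (1/2 : ℝ) * (φ (z + t) * φ z) := by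
          rw [hφ]
          simp only
          generalize (∫⁻ u, f (z + t, u) ^ (4/3 : ℝ) ∂ν) = A
          generalize (∫⁻ u, f (z, u) ^ (4/3 : ℝ) ∂ν) = B
          have e : ∀ A : ℝ≥0∞, ((A ^ 3) ^ (1/2 : ℝ)) ^ (1/2 : ℝ) = A ^ (3/4 : ℝ) := by
            intro A
            rw [← ENNReal.rpow_natCast, ← ENNReal.rpow_mul, ← ENNReal.rpow_mul]
            norm_num
          have e2 : ((κ ^ (1/2 : ℝ)) ^ (1/2 : ℝ)) * ((κ ^ (1/2 : ℝ)) ^ (1/2 : ℝ))
              = κ ^ (1/2 : ℝ) := by
            rw [← sq, ← ENNReal.rpow_natCast, ← ENNReal.rpow_mul]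
            norm_num
          rw [ENNReal.mul_rpow_of_nonneg _ _ (by norm_num : (0:ℝ) ≤ 1/2),
            ENNReal.mul_rpow_of_nonneg _ _ (by norm_num : (0:ℝ) ≤ 1/2),
            ENNReal.mul_rpow_of_nonneg _ _ (by norm_num : (0:ℝ) ≤ 1/2),
            ENNReal.mul_rpow_of_nonneg _ _ (by norm_num : (0:ℝ) ≤ 1/2),
            ENNReal.mul_rpow_of_nonneg _ _ (by norm_num : (0:ℝ) ≤ 1/2), e, e]
          calc _ = ((κ ^ (1/2 : ℝ)) ^ (1/2 : ℝ)) * ((κ ^ (1/2 : ℝ)) ^ (1/2 : ℝ)) *
                (A ^ (3/4 : ℝ) * B ^ (3/4 : ℝ)) := by ring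
            _ = _ := by rw [e2]
  have hadd : MeasurableAdd₂ (G × H) := measurableAdd₂_prod
  have hshift : ∀ p : G × H, Measurable fun q : G × H => f (q + p) * f q := by
    intro p
    have h1 : Measurable fun q : G × H => q + p := measurable_add_const p
    exact (hf.comp h1).mul hf
  calc en (μ.prod ν) f
      = ∫⁻ t, ∫⁻ s, (∫⁻ z, corr ν (fun u => f (z + t, u)) (fun u => f (z, u)) s ∂μ) ^ 2
          ∂ν ∂μ := by
        unfold en
        rw [lintegral_prod _ ((measurable_corr hf hf).pow_const 2).aemeasurable]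
        apply lintegral_congr
        intro t
        apply lintegral_congr
        intro s
        have h := lintegral_prod (μ := μ) (ν := ν) _ (hshift (t, s)).aemeasurable
        have h' : corr (μ.prod ν) f f (t, s)
            = ∫⁻ z, corr ν (fun u => f (z + t, u)) (fun u => f (z, u)) s ∂μ := h
        rw [h']
    _ ≤ ∫⁻ t, (∫⁻ z, (∫⁻ s, corr ν (fun u => f (z + t, u)) (fun u => f (z, u)) s ^ 2 ∂ν)
          ^ (1/2 : ℝ) ∂μ) ^ 2 ∂μ := by
        gcongr with t
        apply mink2
        exact hX.comp (by fun_prop : Measurable fun p : G × H => ((t, p.1), p.2))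
    _ ≤ ∫⁻ t, (∫⁻ z, κ ^ (1/2 : ℝ) * (φ (z + t) * φ z) ∂μ) ^ 2 ∂μ := by
        gcongr with t z
        exact key t z
    _ = ∫⁻ t, κ * corr μ φ φ t ^ 2 ∂μ := by
        apply lintegral_congr
        intro t
        rw [lintegral_const_mul _ (by (clear κ hκ hφ hfa hX key hshift; fun_prop)), mul_pow]
        congr 1
        rw [← ENNReal.rpow_natCast, ← ENNReal.rpow_mul]
        norm_num
    _ = κ * en μ φ := by
        rw [lintegral_const_mul _ ((measurable_corr hφm hφm).pow_const 2)]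
        rfl

theorem EBound.prod {κ κ' : ℝ≥0∞} (h' : EBound μ κ') (h : EBound ν κ) :
    EBound (μ.prod ν) (κ * κ') := by
  intro f hf
  refine (en_prod_le hf h).trans ?_
  rw [mul_assoc]
  gcongr
  have hm : Measurable fun a => (∫⁻ u, f (a, u) ^ (4/3 : ℝ) ∂ν) ^ (3/4 : ℝ) := by
    apply Measurable.pow_const
    exact (hf.pow_const _).lintegral_prod_right'
  refine (h' _ hm).trans ?_
  apply le_of_eq
  congr 2
  rw [lintegral_prod _ (by (clear * - hf; exact Measurable.aemeasurable (by fun_prop)))]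
  apply lintegral_congr
  intro a
  rw [← ENNReal.rpow_mul]
  norm_num

end Prod

section OneD

theorem lint_cube {g : ℝ → ℝ≥0∞} (hg : Measurable g) :
    (∫⁻ x, g x) ^ 3 = ∫⁻ a, ∫⁻ b, ∫⁻ c, g a * g b * g c := by
  have e1 : ∀ a b : ℝ, ∫⁻ c, g a * g b * g c = g a * (g b * ∫⁻ c, g c) := by
    intro a b
    rw [lintegral_const_mul _ hg, mul_assoc]
  have e2 : ∀ a : ℝ, ∫⁻ b, g a * (g b * ∫⁻ c, g c) = g a * ((∫⁻ b, g b) * ∫⁻ c, g c) := by
    intro a
    rw [lintegral_const_mul _ (by (clear * - hg; fun_prop)), lintegral_mul_const _ hg]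
  simp_rw [e1, e2]
  rw [lintegral_mul_const _ hg]
  ring

/-- indicator-type weight `1[a<b] 1[a<c]` -/
theorem lint_min3 {g : ℝ → ℝ≥0∞} (hg : Measurable g) :
    3 * ∫⁻ a, ∫⁻ b, ∫⁻ c, (if a < b ∧ a < c then g a * g b * g c else 0) ≤ (∫⁻ x, g x) ^ 3 := by
  set p : ℝ → ℝ → ℝ → ℝ≥0∞ := fun a b c => if a < b ∧ a < c then g a * g b * g c else 0 with hp
  have hpm : Measurable fun q : ℝ × ℝ × ℝ => p q.1 q.2.1 q.2.2 := by
    apply Measurable.ite
    · exact (measurableSet_lt measurable_fst measurable_snd.fst).inter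
        (measurableSet_lt measurable_fst measurable_snd.snd)
    · (clear * - hg; fun_prop)
    · fun_prop
  have h12 : ∫⁻ a, ∫⁻ b, ∫⁻ c, p a b c = ∫⁻ a, ∫⁻ b, ∫⁻ c, p b a c := lswap12 hpm
  have h13 : ∫⁻ a, ∫⁻ b, ∫⁻ c, p a b c = ∫⁻ a, ∫⁻ b, ∫⁻ c, p c b a := lswap13 hpm
  have hpm1 : Measurable fun q : ℝ × ℝ × ℝ => p q.2.1 q.1 q.2.2 :=
    hpm.comp (by fun_prop : Measurable fun q : ℝ × ℝ × ℝ => (q.2.1, q.1, q.2.2))
  have hpm2 : Measurable fun q : ℝ × ℝ × ℝ => p q.2.2 q.2.1 q.1 :=
    hpm.comp (by fun_prop : Measurable fun q : ℝ × ℝ × ℝ => (q.2.2, q.2.1, q.1))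
  have hsum : ∀ a b c : ℝ, p a b c + p b a c + p c b a ≤ g a * g b * g c := by
    intro a b c
    simp only [hp]
    by_cases h1 : a < b ∧ a < c
    · have h2 : ¬ (b < a ∧ b < c) := fun h => by linarith only [h1, h]
      have h3 : ¬ (c < b ∧ c < a) := fun h => by linarith only [h1, h]
      simp [h1, h2, h3]
    · by_cases h2 : b < a ∧ b < c
      · have h3 : ¬ (c < b ∧ c < a) := fun h => by linarith only [h2, h]
        rw [if_neg h1, if_pos h2, if_neg h3]
        apply le_of_eq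
        ring
      · rw [if_neg h1, if_neg h2]
        by_cases h3 : c < b ∧ c < a
        · rw [if_pos h3]
          apply le_of_eq
          ring
        · rw [if_neg h3]
          simp only [add_zero, zero_le]
  rw [lint_cube hg]
  calc 3 * ∫⁻ a, ∫⁻ b, ∫⁻ c, p a b c
      = (∫⁻ a, ∫⁻ b, ∫⁻ c, p a b c) + (∫⁻ a, ∫⁻ b, ∫⁻ c, p b a c)
          + ∫⁻ a, ∫⁻ b, ∫⁻ c, p c b a := by
        rw [← h12, ← h13]; ring
    _ = ∫⁻ q : ℝ × ℝ × ℝ, p q.1 q.2.1 q.2.2 + p q.2.1 q.1 q.2.2 + p q.2.2 q.2.1 q.1 := by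
        rw [lintegral_add_right _ hpm2, lintegral_add_right _ hpm1, lint3 hpm,
          lint3 (F := fun a b c => p b a c) hpm1, lint3 (F := fun a b c => p c b a) hpm2]
        rfl
    _ ≤ ∫⁻ q : ℝ × ℝ × ℝ, g q.1 * g q.2.1 * g q.2.2 :=
        lintegral_mono fun q => hsum q.1 q.2.1 q.2.2
    _ = _ := by
        rw [lint3 (F := fun a b c => g a * g b * g c) (by fun_prop)]
        rfl

theorem lint_ord3 {g : ℝ → ℝ≥0∞} (hg : Measurable g) :
    6 * ∫⁻ a, ∫⁻ b, ∫⁻ c, (if a < b ∧ b < c then g a * g b * g c else 0) ≤ (∫⁻ x, g x) ^ 3 := by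
  set p : ℝ → ℝ → ℝ → ℝ≥0∞ := fun a b c => if a < b ∧ b < c then g a * g b * g c else 0 with hp
  have hpm : Measurable fun q : ℝ × ℝ × ℝ => p q.1 q.2.1 q.2.2 := by
    apply Measurable.ite
    · exact (measurableSet_lt measurable_fst measurable_snd.fst).inter
        (measurableSet_lt measurable_snd.fst measurable_snd.snd)
    · fun_prop
    · fun_prop
  have h12 : ∫⁻ a, ∫⁻ b, ∫⁻ c, p a b c = ∫⁻ a, ∫⁻ b, ∫⁻ c, p b a c := lswap12 hpm
  have h13 : ∫⁻ a, ∫⁻ b, ∫⁻ c, p a b c = ∫⁻ a, ∫⁻ b, ∫⁻ c, p c b a := lswap13 hpm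
  have h23 : ∫⁻ a, ∫⁻ b, ∫⁻ c, p a b c = ∫⁻ a, ∫⁻ b, ∫⁻ c, p a c b := lswap23 hpm
  have hr : ∫⁻ a, ∫⁻ b, ∫⁻ c, p a b c = ∫⁻ a, ∫⁻ b, ∫⁻ c, p b c a := lrot hpm
  have hpm1 : Measurable fun q : ℝ × ℝ × ℝ => p q.2.1 q.1 q.2.2 :=
    hpm.comp (by fun_prop : Measurable fun q : ℝ × ℝ × ℝ => (q.2.1, q.1, q.2.2))
  have hpm2 : Measurable fun q : ℝ × ℝ × ℝ => p q.2.2 q.2.1 q.1 :=
    hpm.comp (by fun_prop : Measurable fun q : ℝ × ℝ × ℝ => (q.2.2, q.2.1, q.1))
  have hpm3 : Measurable fun q : ℝ × ℝ × ℝ => p q.1 q.2.2 q.2.1 :=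
    hpm.comp (by fun_prop : Measurable fun q : ℝ × ℝ × ℝ => (q.1, q.2.2, q.2.1))
  have hpm4 : Measurable fun q : ℝ × ℝ × ℝ => p q.2.1 q.2.2 q.1 :=
    hpm.comp (by fun_prop : Measurable fun q : ℝ × ℝ × ℝ => (q.2.1, q.2.2, q.1))
  have hpm5 : Measurable fun q : ℝ × ℝ × ℝ => p q.2.2 q.1 q.2.1 :=
    hpm.comp (by fun_prop : Measurable fun q : ℝ × ℝ × ℝ => (q.2.2, q.1, q.2.1))
  have hr2 : ∫⁻ a, ∫⁻ b, ∫⁻ c, p a b c = ∫⁻ a, ∫⁻ b, ∫⁻ c, p c a b := by
    rw [hr]
    exact lrot (F := fun a b c => p b c a) hpm4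
  have hsum : ∀ a b c : ℝ, p a b c + p b a c + p c b a + p a c b + p b c a + p c a b
      ≤ g a * g b * g c := by
    intro a b c
    simp only [hp]
    by_cases h1 : a < b <;> by_cases h2 : b < a <;> by_cases h3 : a < c <;>
      by_cases h4 : c < a <;> by_cases h5 : b < c <;> by_cases h6 : c < b <;>
      first
      | (exfalso; linarith only [h1, h2, h3, h5, h6, h4])
      | (simp only [h1, h2, h3, h4, h5, h6, and_true, and_false, true_and, false_and,
          if_true, if_false, add_zero, zero_add, le_refl, zero_le]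
         try (apply le_of_eq; ring))
  rw [lint_cube hg]
  calc 6 * ∫⁻ a, ∫⁻ b, ∫⁻ c, p a b c
      = (∫⁻ a, ∫⁻ b, ∫⁻ c, p a b c) + (∫⁻ a, ∫⁻ b, ∫⁻ c, p b a c)
          + (∫⁻ a, ∫⁻ b, ∫⁻ c, p c b a) + (∫⁻ a, ∫⁻ b, ∫⁻ c, p a c b)
          + (∫⁻ a, ∫⁻ b, ∫⁻ c, p b c a) + (∫⁻ a, ∫⁻ b, ∫⁻ c, p c a b) := by
        rw [← h12, ← h13, ← h23, ← hr, ← hr2]; ring
    _ = ∫⁻ q : ℝ × ℝ × ℝ, p q.1 q.2.1 q.2.2 + p q.2.1 q.1 q.2.2 + p q.2.2 q.2.1 q.1
          + p q.1 q.2.2 q.2.1 + p q.2.1 q.2.2 q.1 + p q.2.2 q.1 q.2.1 := by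
        rw [lintegral_add_right _ hpm5, lintegral_add_right _ hpm4, lintegral_add_right _ hpm3,
          lintegral_add_right _ hpm2, lintegral_add_right _ hpm1, lint3 hpm,
          lint3 (F := fun a b c => p b a c) hpm1, lint3 (F := fun a b c => p c b a) hpm2,
          lint3 (F := fun a b c => p a c b) hpm3, lint3 (F := fun a b c => p b c a) hpm4,
          lint3 (F := fun a b c => p c a b) hpm5]
        rfl
    _ ≤ ∫⁻ q : ℝ × ℝ × ℝ, g q.1 * g q.2.1 * g q.2.2 :=
        lintegral_mono fun q => hsum q.1 q.2.1 q.2.2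
    _ = _ := by
        rw [lint3 (F := fun a b c => g a * g b * g c) (by fun_prop)]
        rfl

end OneD


section OneD2

theorem lint_even {h : ℝ → ℝ≥0∞} (he : ∀ t, h (-t) = h t) :
    ∫⁻ t, h t = 2 * ∫⁻ t in Ioi (0:ℝ), h t := by
  have h1 := lintegral_add_compl (μ := volume) h (measurableSet_Ioi (a := (0:ℝ)))
  have h2 : ∫⁻ t in (Ioi (0:ℝ))ᶜ, h t = ∫⁻ t in Ioi (0:ℝ), h t := by
    rw [compl_Ioi, ← setLIntegral_congr (Iio_ae_eq_Iic (a := (0:ℝ)) (μ := volume))]
    rw [← lintegral_indicator measurableSet_Iio, ← lintegral_indicator measurableSet_Ioi,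
      ← lintegral_neg_eq_self]
    apply lintegral_congr
    intro x
    by_cases hx : 0 < x
    · rw [indicator_of_mem (by simpa only [mem_Iio, Left.neg_neg_iff] using hx), indicator_of_mem (by simpa using hx), he]
    · rw [indicator_of_notMem (by simpa only [mem_Iio, Left.neg_neg_iff, not_lt] using hx), indicator_of_notMem (by simpa only [mem_Ioi, not_lt] using hx)]
  rw [← h1, h2, two_mul]

theorem shift_Ioi (h : ℝ → ℝ≥0∞) (a : ℝ) :
    ∫⁻ t in Ioi (0:ℝ), h (a + t) = ∫⁻ b, (Ioi a).indicator h b := by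
  rw [← lintegral_indicator measurableSet_Ioi,
    ← lintegral_add_left_eq_self (fun b => (Ioi a).indicator h b) a]
  apply lintegral_congr
  intro t
  by_cases ht : 0 < t
  · rw [indicator_of_mem (by simpa only [mem_Ioi] using ht), indicator_of_mem (by simpa only [mem_Ioi, lt_add_iff_pos_right] using ht)]
  · rw [indicator_of_notMem (by simpa only [mem_Ioi, not_lt] using ht), indicator_of_notMem (by simpa only [mem_Ioi, lt_add_iff_pos_right, not_lt] using ht)]

theorem J1_bound {g : ℝ → ℝ≥0∞} (hg : Measurable g) :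
    3 * ∫⁻ t in Ioi (0:ℝ), ∫⁻ s in Ioi (0:ℝ), ∫⁻ a, g a * g (a + s) * g (a + t)
      ≤ (∫⁻ x, g x) ^ 3 := by
  refine le_trans (le_of_eq ?_) (lint_min3 hg)
  congr 1
  rw [lrot (F := fun t s a => g a * g (a + s) * g (a + t)) (by fun_prop)]
  apply lintegral_congr
  intro a
  have e1 : ∀ t : ℝ, ∫⁻ s in Ioi (0:ℝ), g a * g (a + s) * g (a + t)
      = ∫⁻ c, (Ioi a).indicator (fun c => g a * g c * g (a + t)) c := fun t =>
    shift_Ioi (fun c => g a * g c * g (a + t)) a
  simp_rw [e1]
  rw [shift_Ioi (fun b => ∫⁻ c, (Ioi a).indicator (fun c => g a * g c * g b) c) a]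
  apply lintegral_congr
  intro b
  by_cases hb : a < b
  · rw [indicator_of_mem (by simpa using hb)]
    apply lintegral_congr
    intro c
    by_cases hc : a < c
    · rw [indicator_of_mem (by simpa using hc), if_pos ⟨hb, hc⟩]
      ring
    · rw [indicator_of_notMem (by simpa only [mem_Ioi, not_lt] using hc), if_neg (fun h => hc h.2)]
  · rw [indicator_of_notMem (by simpa using hb)]
    simp only [hb, false_and, ↓reduceIte, lintegral_const, measure_univ_of_isAddLeftInvariant, zero_mul]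

theorem J3_bound {g : ℝ → ℝ≥0∞} (hg : Measurable g) :
    6 * ∫⁻ t in Ioi (0:ℝ), ∫⁻ s in Ioi (0:ℝ), ∫⁻ a, g a * g (a + t) * g (a + s + t)
      ≤ (∫⁻ x, g x) ^ 3 := by
  refine le_trans (le_of_eq ?_) (lint_ord3 hg)
  congr 1
  rw [lrot (F := fun t s a => g a * g (a + t) * g (a + s + t)) (by (clear * - hg; fun_prop))]
  apply lintegral_congr
  intro a
  have e1 : ∀ t : ℝ, ∫⁻ s in Ioi (0:ℝ), g a * g (a + t) * g (a + s + t)
      = ∫⁻ c, (Ioi (a + t)).indicator (fun c => g a * g (a + t) * g c) c := by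
    intro t
    rw [← shift_Ioi (fun c => g a * g (a + t) * g c) (a + t)]
    apply lintegral_congr
    intro s
    rw [add_right_comm]
  simp_rw [e1]
  rw [shift_Ioi (fun b => ∫⁻ c, (Ioi b).indicator (fun c => g a * g b * g c) c) a]
  apply lintegral_congr
  intro b
  by_cases hb : a < b
  · rw [indicator_of_mem (by simpa using hb)]
    apply lintegral_congr
    intro c
    by_cases hc : b < c
    · rw [indicator_of_mem (by simpa using hc), if_pos ⟨hb, hc⟩]
    · rw [indicator_of_notMem (by simpa only [mem_Ioi, not_lt] using hc), if_neg (fun h => hc h.2)]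
  · rw [indicator_of_notMem (by simpa only [mem_Ioi, not_lt] using hb)]
    simp only [hb, false_and, ↓reduceIte, lintegral_const, measure_univ_of_isAddLeftInvariant, zero_mul]

theorem J4_bound {g : ℝ → ℝ≥0∞} (hg : Measurable g) :
    6 * ∫⁻ t in Ioi (0:ℝ), ∫⁻ s in Ioi (0:ℝ), ∫⁻ a, g a * g (a + s) * g (a + s + t)
      ≤ (∫⁻ x, g x) ^ 3 := by
  refine le_trans (le_of_eq ?_) (J3_bound hg)
  congr 1
  rw [lswap12 (F := fun t s a => g a * g (a + s) * g (a + s + t)) (by fun_prop)]
  apply lintegral_congr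
  intro t
  apply lintegral_congr
  intro s
  apply lintegral_congr
  intro a
  rw [add_right_comm]

theorem J2_bound {g : ℝ → ℝ≥0∞} (hg : Measurable g) :
    3 * ∫⁻ t in Ioi (0:ℝ), ∫⁻ s in Ioi (0:ℝ), ∫⁻ a, g (a + s) * g (a + t) * g (a + s + t)
      ≤ (∫⁻ x, g x) ^ 3 := by
  have hg' : Measurable fun x => g (-x) := by fun_prop
  have h := J1_bound hg'
  rw [lintegral_neg_eq_self] at h
  refine le_trans (le_of_eq ?_) h
  congr 1
  apply lintegral_congr
  intro t
  apply lintegral_congr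
  intro s
  rw [← lintegral_sub_left_eq_self
    (fun a => g (a + s) * g (a + t) * g (a + s + t)) (-(s + t))]
  apply lintegral_congr
  intro a
  have e1 : -(s + t) - a + s = -(a + t) := by ring
  have e2 : -(s + t) - a + t = -(a + s) := by ring
  have e3 : -(s + t) - a + s + t = -a := by ring
  rw [e3, e1, e2]
  ring

/-- four-fold Hölder -/
theorem holder4 {α : Type*} [MeasurableSpace α] {μ : Measure α} {T1 T2 T3 T4 : α → ℝ≥0∞}
    (h1 : Measurable T1) (h2 : Measurable T2) (h3 : Measurable T3) (h4 : Measurable T4) :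
    ∫⁻ x, T1 x ^ (1/4:ℝ) * T2 x ^ (1/4:ℝ) * T3 x ^ (1/4:ℝ) * T4 x ^ (1/4:ℝ) ∂μ ≤
      ((∫⁻ x, T1 x ∂μ) * (∫⁻ x, T2 x ∂μ) * (∫⁻ x, T3 x ∂μ) * (∫⁻ x, T4 x ∂μ)) ^ (1/4:ℝ) := by
  have h := ENNReal.lintegral_prod_norm_pow_le (μ := μ) (Finset.univ : Finset (Fin 4))
    (f := ![T1, T2, T3, T4]) (p := fun _ => (1/4:ℝ)) (by
      intro i _
      fin_cases i
      · exact h1.aemeasurable
      · exact h2.aemeasurable
      · exact h3.aemeasurable
      · exact h4.aemeasurable) (by simp only [one_div, Finset.sum_const, Finset.card_univ, Fintype.card_fin, nsmul_eq_mul, Nat.cast_ofNat, ne_eq, OfNat.ofNat_ne_zero, not_false_eq_true, mul_inv_cancel₀]) (by intro i _; norm_num)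
  simp only [Fin.prod_univ_four] at h
  rw [ENNReal.mul_rpow_of_nonneg _ _ (by norm_num), ENNReal.mul_rpow_of_nonneg _ _ (by norm_num),
    ENNReal.mul_rpow_of_nonneg _ _ (by norm_num)]
  exact h

theorem final_const {A1 A2 A3 A4 X : ℝ≥0∞} (h1 : 3 * A1 ≤ X) (h2 : 3 * A2 ≤ X) (h3 : 6 * A3 ≤ X)
    (h4 : 6 * A4 ≤ X) : 4 * (A1 * A2 * A3 * A4) ^ (1/4:ℝ) ≤ ENNReal.ofReal (19/20) * X := by
  have h324 : 324 * (A1 * A2 * A3 * A4) ≤ X ^ 4 := by
    calc 324 * (A1 * A2 * A3 * A4) = (3 * A1) * (3 * A2) * (6 * A3) * (6 * A4) := by ring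
      _ ≤ X * X * X * X := by (clear * - h1 h2 h3 h4; gcongr)
      _ = X ^ 4 := by ring
  have hA : A1 * A2 * A3 * A4 ≤ (ENNReal.ofReal (19/80) * X) ^ 4 := by
    have e : A1 * A2 * A3 * A4 = (324 : ℝ≥0∞)⁻¹ * (324 * (A1 * A2 * A3 * A4)) := by
      rw [← mul_assoc, ENNReal.inv_mul_cancel (by norm_num) (by norm_num), one_mul]
    rw [e, mul_pow]
    gcongr
    rw [← ENNReal.ofReal_pow (by norm_num)]
    have : (324 : ℝ≥0∞)⁻¹ = ENNReal.ofReal (1/324) := by
      rw [one_div, ENNReal.ofReal_inv_of_pos (by norm_num)]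
      norm_num
    rw [this]
    apply ENNReal.ofReal_le_ofReal
    norm_num
  calc 4 * (A1 * A2 * A3 * A4) ^ (1/4:ℝ)
      ≤ 4 * ((ENNReal.ofReal (19/80) * X) ^ 4) ^ (1/4:ℝ) := by gcongr
    _ = 4 * (ENNReal.ofReal (19/80) * X) := by
        rw [← ENNReal.rpow_natCast, ← ENNReal.rpow_mul]
        norm_num
    _ = ENNReal.ofReal (19/20) * X := by
        rw [← mul_assoc]
        congr 1
        have : (4 : ℝ≥0∞) = ENNReal.ofReal 4 := by norm_num
        rw [this, ← ENNReal.ofReal_mul (by norm_num)]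
        norm_num

theorem ebound_real : EBound (volume : Measure ℝ) (ENNReal.ofReal (19/20)) := by
  intro f hf
  set g : ℝ → ℝ≥0∞ := fun x => f x ^ (4/3 : ℝ) with hgdef
  have hg : Measurable g := by fun_prop
  set W : ℝ → ℝ → ℝ≥0∞ := fun t s => ∫⁻ a, f a * f (a + t) * f (a + s) * f (a + s + t) with hW
  have hen : en volume f = ∫⁻ t, ∫⁻ s, W t s := by
    have hen' : en volume f = ∫⁻ t, ∫⁻ z, ∫⁻ w, f (z + t) * f z * (f (w + t) * f w) := by
      rw [← lintegral_corr_mul_corr hf hf hf hf]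
      unfold en
      simp_rw [sq]
    rw [hen']
    apply lintegral_congr
    intro t
    calc ∫⁻ z, ∫⁻ w, f (z + t) * f z * (f (w + t) * f w)
        = ∫⁻ z, ∫⁻ s, f (z + t) * f z * (f (z + s + t) * f (z + s)) := by
          apply lintegral_congr
          intro z
          exact (lintegral_add_left_eq_self
            (fun w => f (z + t) * f z * (f (w + t) * f w)) z).symm
      _ = ∫⁻ s, ∫⁻ z, f (z + t) * f z * (f (z + s + t) * f (z + s)) := by
          apply lintegral_lintegral_swap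
          apply Measurable.aemeasurable
          fun_prop
      _ = ∫⁻ s, W t s := by
          apply lintegral_congr
          intro s
          apply lintegral_congr
          intro z
          ring
  have hWs : ∀ t s, W t (-s) = W t s := by
    intro t s
    simp only [hW]
    rw [← lintegral_add_right_eq_self (fun a => f a * f (a + t) * f (a + -s) * f (a + -s + t)) s]
    apply lintegral_congr
    intro a
    have e1 : a + s + -s = a := by ring
    rw [e1]
    ring
  have hWt : ∀ t s, W (-t) s = W t s := by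
    intro t s
    simp only [hW]
    rw [← lintegral_add_right_eq_self (fun a => f a * f (a + -t) * f (a + s) * f (a + s + -t)) t]
    apply lintegral_congr
    intro a
    have e1 : a + t + -t = a := by ring
    have e2 : a + t + s + -t = a + s := by ring
    have e3 : a + t + s = a + s + t := by ring
    rw [e1, e2, e3]
    ring
  have h4 : en volume f = 4 * ∫⁻ t in Ioi (0:ℝ), ∫⁻ s in Ioi (0:ℝ), W t s := by
    rw [hen, lint_even (h := fun t => ∫⁻ s, W t s) (fun t => by simp_rw [hWt])]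
    have : ∀ t, ∫⁻ s, W t s = 2 * ∫⁻ s in Ioi (0:ℝ), W t s := fun t =>
      lint_even (h := fun s => W t s) (hWs t)
    simp_rw [this]
    have hWm : Measurable fun t => ∫⁻ s in Ioi (0:ℝ), W t s := by
      have hWm2 : Measurable fun p : ℝ × ℝ => W p.1 p.2 := by
        have : Measurable fun q : (ℝ × ℝ) × ℝ =>
            f q.2 * f (q.2 + q.1.1) * f (q.2 + q.1.2) * f (q.2 + q.1.2 + q.1.1) := by fun_prop
        exact this.lintegral_prod_right'
      exact hWm2.lintegral_prod_right'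
    rw [lintegral_const_mul _ hWm, ← mul_assoc]
    norm_num
  set M : Measure (ℝ × ℝ × ℝ) := (volume.restrict (Ioi (0:ℝ))).prod
    ((volume.restrict (Ioi (0:ℝ))).prod (volume : Measure ℝ)) with hM
  have hfg : ∀ x, f x = (g x ^ (1/4:ℝ)) * (g x ^ (1/4:ℝ)) * (g x ^ (1/4:ℝ)) := by
    intro x
    simp only [hgdef]
    rw [← ENNReal.rpow_mul]
    norm_num
    rw [← ENNReal.rpow_add_of_nonneg _ _ (by norm_num) (by norm_num),
      ← ENNReal.rpow_add_of_nonneg _ _ (by norm_num) (by norm_num)]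
    norm_num
  have hint : ∫⁻ t in Ioi (0:ℝ), ∫⁻ s in Ioi (0:ℝ), W t s =
      ∫⁻ q, (g q.2.2 * g (q.2.2 + q.2.1) * g (q.2.2 + q.1)) ^ (1/4:ℝ) *
        (g (q.2.2 + q.2.1) * g (q.2.2 + q.1) * g (q.2.2 + q.2.1 + q.1)) ^ (1/4:ℝ) *
        (g q.2.2 * g (q.2.2 + q.1) * g (q.2.2 + q.2.1 + q.1)) ^ (1/4:ℝ) *
        (g q.2.2 * g (q.2.2 + q.2.1) * g (q.2.2 + q.2.1 + q.1)) ^ (1/4:ℝ) ∂M := by
    simp only [hW]
    rw [lint3 (F := fun t s a => f a * f (a + t) * f (a + s) * f (a + s + t)) (by fun_prop)]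
    apply lintegral_congr
    intro q
    rw [hfg (q.2.2), hfg (q.2.2 + q.1), hfg (q.2.2 + q.2.1), hfg (q.2.2 + q.2.1 + q.1)]
    simp only [ENNReal.mul_rpow_of_nonneg _ _ (by norm_num : (0 : ℝ) ≤ 1 / 4)]
    ring
  rw [h4, hint]
  refine le_trans (mul_le_mul_right (holder4 (by fun_prop) (by fun_prop) (by fun_prop)
    (by fun_prop)) 4) ?_
  have i1 := J1_bound hg
  have i2 := J2_bound hg
  have i3 := J3_bound hg
  have i4 := J4_bound hg
  rw [lint3 (F := fun t s a => g a * g (a + s) * g (a + t)) (by fun_prop)] at i1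
  rw [lint3 (F := fun t s a => g (a + s) * g (a + t) * g (a + s + t)) (by fun_prop)] at i2
  rw [lint3 (F := fun t s a => g a * g (a + t) * g (a + s + t)) (by fun_prop)] at i3
  rw [lint3 (F := fun t s a => g a * g (a + s) * g (a + s + t)) (by fun_prop)] at i4
  exact final_const i1 i2 i3 i4

end OneD2

section Pi

theorem EBound.of_equiv {G H : Type*} [AddCommGroup G] [MeasurableSpace G]
    [AddCommGroup H] [MeasurableSpace H] {μ : Measure G} {ν : Measure H}
    (e : G ≃ᵐ H) (he : MeasurePreserving e μ ν) (hadd : ∀ x y, e (x + y) = e x + e y)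
    {κ : ℝ≥0∞} (h : EBound ν κ) : EBound μ κ := by
  intro f hf
  have h1 := h (fun y => f (e.symm y)) (hf.comp e.symm.measurable)
  have e1 : (∫⁻ y, f (e.symm y) ^ (4/3 : ℝ) ∂ν) = ∫⁻ x, f x ^ (4/3 : ℝ) ∂μ := by
    rw [← he.lintegral_comp_emb e.measurableEmbedding]
    simp only [MeasurableEquiv.symm_apply_apply]
  have e2 : en ν (fun y => f (e.symm y)) = en μ f := by
    unfold en corr
    rw [← he.lintegral_comp_emb e.measurableEmbedding]
    apply lintegral_congr
    intro t
    congr 1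
    rw [← he.lintegral_comp_emb e.measurableEmbedding]
    apply lintegral_congr
    intro z
    rw [← hadd]
    simp only [MeasurableEquiv.symm_apply_apply]
  rw [e1, e2] at h1
  exact h1

theorem ebound_pi (N : ℕ) :
    EBound (volume : Measure (Fin N → ℝ)) ((ENNReal.ofReal (19/20)) ^ N) := by
  induction N with
  | zero =>
    intro f hf
    unfold en corr
    simp only [lintegral_unique, pow_zero, one_mul]
    have hv : (volume : Measure (Fin 0 → ℝ)) univ = 1 := by
      simp only [volume_pi, Measure.pi_empty_univ]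
    rw [hv]
    simp only [mul_one]
    obtain ⟨c, hc⟩ : ∃ c, ∀ a : Fin 0 → ℝ, f a = c :=
      ⟨f 0, fun a => congrArg f (Subsingleton.elim _ _)⟩
    simp only [hc]
    rw [← sq, ← pow_mul, ← ENNReal.rpow_natCast, ← ENNReal.rpow_natCast, ← ENNReal.rpow_mul]
    norm_num
  | succ n ih =>
    have hp : EBound ((volume : Measure ℝ).prod (volume : Measure (Fin n → ℝ)))
        ((ENNReal.ofReal (19/20)) ^ n * ENNReal.ofReal (19/20)) := ebound_real.prod ih
    rw [pow_succ]
    refine EBound.of_equiv (MeasurableEquiv.piFinSuccAbove (fun _ => ℝ) 0)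
      (volume_preserving_piFinSuccAbove (fun _ => ℝ) 0) ?_ hp
    intro x y
    rfl

/-- **Energy bound.** -/
theorem energy_bound (N : ℕ) (K : Set (Fin N → ℝ)) (hK : MeasurableSet K) :
    ∫⁻ x : Fin N → ℝ, ∫⁻ y : Fin N → ℝ, ∫⁻ z : Fin N → ℝ,
      K.indicator (1 : (Fin N → ℝ) → ENNReal) x * K.indicator 1 y * K.indicator 1 z *
        K.indicator 1 (x + y - z) ≤ (ENNReal.ofReal (19/20)) ^ N * (volume K) ^ 3 := by
  have hm : Measurable (K.indicator (1 : (Fin N → ℝ) → ENNReal)) :=
    measurable_one.indicator hK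
  rw [energy_eq_en hm]
  refine (ebound_pi N _ hm).trans (le_of_eq ?_)
  congr 2
  have : ∀ x, K.indicator (1 : (Fin N → ℝ) → ENNReal) x ^ (4/3 : ℝ)
      = K.indicator (1 : (Fin N → ℝ) → ENNReal) x := by
    intro x
    by_cases hx : x ∈ K <;> simp [hx]
  simp_rw [this]
  exact lintegral_indicator_one hK

end Pi

end Vale.Agent.P230
end
end
end

section

section

section

open MeasureTheory Set
open scoped ENNReal NNReal Pointwise

namespace Vale.Agent.P230.E227

/-- One-dimensional Brunn-Minkowski, compact case. -/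
theorem bm_one_compact {A B C : Set ℝ} {s t : ℝ} (hs : 0 < s) (ht : 0 < t)
    (hA : IsCompact A) (hB : IsCompact B)
    (nA : A.Nonempty) (nB : B.Nonempty) (h : ∀ a ∈ A, ∀ b ∈ B, s * a + t * b ∈ C) :
    ENNReal.ofReal s * volume A + ENNReal.ofReal t * volume B ≤ volume C := by
  obtain ⟨a, haA, ha⟩ := hA.exists_isGreatest nA
  obtain ⟨b, hbB, hb⟩ := hB.exists_isLeast nB
  have h1 : (fun x => x + t * b) '' (s • A) ⊆ C := by
    rintro _ ⟨_, ⟨x, hx, rfl⟩, rfl⟩
    exact h x hx b hbB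
  have h2 : (fun y => s * a + y) '' (t • B) ⊆ C := by
    rintro _ ⟨_, ⟨y, hy, rfl⟩, rfl⟩
    exact h a haA y hy
  have c1 : IsCompact ((fun x => x + t * b) '' (s • A)) := (hA.smul s).image (by fun_prop)
  have c2 : IsCompact ((fun y => s * a + y) '' (t • B)) := (hB.smul t).image (by fun_prop)
  have hdis : AEDisjoint volume ((fun x => x + t * b) '' (s • A))
      ((fun y => s * a + y) '' (t • B)) := by
    have : ((fun x => x + t * b) '' (s • A)) ∩ ((fun y => s * a + y) '' (t • B)) ⊆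
        {s * a + t * b} := by
      rintro _ ⟨⟨_, ⟨x, hx, rfl⟩, rfl⟩, ⟨_, ⟨y, hy, rfl⟩, hxy⟩⟩
      have hx' := ha hx
      have hy' := hb hy
      simp only [smul_eq_mul] at hxy
      simp only [mem_singleton_iff, smul_eq_mul]
      have e1 : s * x ≤ s * a := by (clear * - hx' hs; gcongr)
      have e2 : t * b ≤ t * y := by (clear * - hy' ht; gcongr)
      linarith only [hxy, e2, e1]
    exact measure_mono_null this (by simp)
  have v1 : volume ((fun x => x + t * b) '' (s • A)) = ENNReal.ofReal s * volume A := by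
    rw [image_add_right, measure_preimage_add_right, Measure.addHaar_smul]
    simp [abs_of_pos hs]
  have v2 : volume ((fun y => s * a + y) '' (t • B)) = ENNReal.ofReal t * volume B := by
    rw [image_add_left, measure_preimage_add, Measure.addHaar_smul]
    simp only [Module.finrank_self, pow_one, abs_of_pos ht]
  calc ENNReal.ofReal s * volume A + ENNReal.ofReal t * volume B
      = volume ((fun x => x + t * b) '' (s • A)) + volume ((fun y => s * a + y) '' (t • B)) := by
        rw [v1, v2]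
    _ = volume (((fun x => x + t * b) '' (s • A)) ∪ ((fun y => s * a + y) '' (t • B))) := by
        rw [measure_union₀ c2.measurableSet.nullMeasurableSet hdis]
    _ ≤ volume C := measure_mono (union_subset h1 h2)

/-- One-dimensional Brunn-Minkowski. -/
theorem bm_one {A B C : Set ℝ} {s t : ℝ} (hs : 0 < s) (ht : 0 < t)
    (hA : MeasurableSet A) (hB : MeasurableSet B)
    (nA : A.Nonempty) (nB : B.Nonempty) (h : ∀ a ∈ A, ∀ b ∈ B, s * a + t * b ∈ C) :
    ENNReal.ofReal s * volume A + ENNReal.ofReal t * volume B ≤ volume C := by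
  have hs0 : ENNReal.ofReal s ≠ 0 := by simpa only [ne_eq, ENNReal.ofReal_eq_zero, not_le] using hs
  have ht0 : ENNReal.ofReal t ≠ 0 := by simpa only [ne_eq, ENNReal.ofReal_eq_zero, not_le] using ht
  have key : ∀ K L : Set ℝ, IsCompact K → IsCompact L → K ⊆ A → L ⊆ B →
      ENNReal.ofReal s * volume K + ENNReal.ofReal t * volume L ≤ volume C := by
    intro K L hK hL hKA hLB
    obtain ⟨a0, ha0⟩ := nA
    obtain ⟨b0, hb0⟩ := nB
    have hK' : IsCompact (K ∪ {a0}) := hK.union isCompact_singleton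
    have hL' : IsCompact (L ∪ {b0}) := hL.union isCompact_singleton
    have := bm_one_compact hs ht hK' hL' ⟨a0, by simp⟩ ⟨b0, by simp⟩ (C := C) (by
      intro a ha b hb
      apply h
      · rcases ha with ha | ha
        · exact hKA ha
        · rw [mem_singleton_iff.mp ha]; exact ha0
      · rcases hb with hb | hb
        · exact hLB hb
        · rw [mem_singleton_iff.mp hb]; exact hb0)
    refine le_trans (add_le_add ?_ ?_) this
    · gcongr; exact subset_union_left
    · gcongr; exact subset_union_left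
  have key1 : ∀ K : Set ℝ, IsCompact K → K ⊆ A →
      ENNReal.ofReal s * volume K + ENNReal.ofReal t * volume B ≤ volume C := by
    intro K hK hKA
    have : volume B = ⨆ (L) (_ : L ⊆ B) (_ : IsCompact L), volume L := hB.measure_eq_iSup_isCompact _
    rw [this]
    simp_rw [ENNReal.mul_iSup]
    by_cases htop : volume C = ∞
    · rw [htop]; exact le_top
    have hKfin : ENNReal.ofReal s * volume K ≠ ∞ :=
      ENNReal.mul_ne_top ENNReal.ofReal_ne_top hK.measure_lt_top.ne
    have h0 : ENNReal.ofReal s * volume K ≤ volume C := by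
      simpa only [measure_empty, mul_zero, add_zero] using key K ∅ hK isCompact_empty hKA (empty_subset _)
    refine le_trans (add_le_add_right (?_ : _ ≤ volume C - ENNReal.ofReal s * volume K) _) ?_
    · refine iSup_le fun L => iSup_le fun hL => iSup_le fun hLc => ?_
      exact ENNReal.le_sub_of_add_le_left hKfin (key K L hK hLc hKA hL)
    · rw [add_tsub_cancel_of_le h0]
  by_cases htop : volume C = ∞
  · rw [htop]; exact le_top
  have h0 : ENNReal.ofReal t * volume B ≤ volume C := by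
    simpa only [measure_empty, mul_zero, zero_add] using key1 ∅ isCompact_empty (empty_subset _)
  have hBfin : ENNReal.ofReal t * volume B ≠ ∞ := ne_top_of_le_ne_top htop h0
  have : volume A = ⨆ (L) (_ : L ⊆ A) (_ : IsCompact L), volume L := hA.measure_eq_iSup_isCompact _
  rw [this]
  simp_rw [ENNReal.mul_iSup]
  refine le_trans (add_le_add_left (?_ : _ ≤ volume C - ENNReal.ofReal t * volume B) _) ?_
  · refine iSup_le fun L => iSup_le fun hL => iSup_le fun hLc => ?_
    exact ENNReal.le_sub_of_add_le_right hBfin (key1 L hLc hL)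
  · rw [tsub_add_cancel_of_le h0]


/-- Normalised one-dimensional Prekopa-Leindler. -/
theorem pl_one_normalized {s t : ℝ} (hs : 0 < s) (ht : 0 < t) (hst : s + t = 1)
    (f g h : ℝ → ℝ≥0∞) (hf : Measurable f) (hg : Measurable g)
    (hh : Measurable h) (hf1 : ⨆ x, f x = 1) (hg1 : ⨆ x, g x = 1)
    (hfg : ∀ x y, f x ^ s * g y ^ t ≤ h (s * x + t * y)) :
    ENNReal.ofReal s * (∫⁻ x, f x) + ENNReal.ofReal t * (∫⁻ x, g x) ≤ ∫⁻ x, h x := by
  have hfle : ∀ x, f x ≤ 1 := fun x => hf1 ▸ le_iSup f x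
  have hgle : ∀ x, g x ≤ 1 := fun x => hg1 ▸ le_iSup g x
  set k : ℝ → ℝ≥0∞ := fun x => min (h x) 1 with hk
  have hkm : Measurable k := hh.min measurable_const
  have hk1 : ∀ x, k x ≤ 1 := fun x => min_le_right _ _
  have hfgk : ∀ x y, f x ^ s * g y ^ t ≤ k (s * x + t * y) := by
    intro x y
    have h1 : f x ^ s * g y ^ t ≤ 1 := by
      calc f x ^ s * g y ^ t ≤ 1 * 1 :=
            mul_le_mul' (ENNReal.rpow_le_one (hfle x) hs.le) (ENNReal.rpow_le_one (hgle y) ht.le)
        _ = 1 := by simp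
    simp only [hk]
    exact le_min (hfg x y) h1
  have hcake : ∀ u : ℝ → ℝ≥0∞, Measurable u → (∀ x, u x ≤ 1) →
      ∫⁻ x, u x = ∫⁻ r in Ioi (0 : ℝ), volume {x | r < (u x).toReal} := by
    intro u hu hu1
    rw [← lintegral_eq_lintegral_meas_lt volume (Filter.Eventually.of_forall fun x => by
      simp only [Pi.zero_apply, ENNReal.toReal_nonneg]) hu.ennreal_toReal.aemeasurable]
    apply lintegral_congr
    intro x
    rw [ENNReal.ofReal_toReal (ne_top_of_le_ne_top ENNReal.one_ne_top (hu1 x))]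
  have hkh : ∫⁻ x, k x ≤ ∫⁻ x, h x := lintegral_mono fun x => min_le_left _ _
  refine le_trans ?_ hkh
  rw [hcake f hf hfle, hcake g hg hgle, hcake k hkm hk1]
  have hmeas : ∀ u : ℝ → ℝ≥0∞, Measurable (fun r : ℝ => volume {x | r < (u x).toReal}) := by
    intro u
    apply Antitone.measurable
    intro a b hab
    exact measure_mono fun x hx => lt_of_le_of_lt hab hx
  rw [← lintegral_const_mul _ (hmeas f), ← lintegral_const_mul _ (hmeas g),
    ← lintegral_add_left ((hmeas f).const_mul _)]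
  refine setLIntegral_mono' measurableSet_Ioi ?_
  intro r hr
  have hr0 : 0 < r := hr
  rcases lt_or_ge r 1 with hr1 | hr1
  · apply bm_one hs ht
    · exact measurableSet_lt measurable_const hf.ennreal_toReal
    · exact measurableSet_lt measurable_const hg.ennreal_toReal
    · have : ENNReal.ofReal r < ⨆ x, f x := by
        rw [hf1]
        rw [← ENNReal.ofReal_one]
        exact (ENNReal.ofReal_lt_ofReal_iff one_pos).2 hr1
      obtain ⟨x, hx⟩ := lt_iSup_iff.1 this
      refine ⟨x, ?_⟩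
      exact (ENNReal.ofReal_lt_iff_lt_toReal hr0.le
        (ne_top_of_le_ne_top ENNReal.one_ne_top (hfle x))).1 hx
    · have : ENNReal.ofReal r < ⨆ x, g x := by
        rw [hg1]
        rw [← ENNReal.ofReal_one]
        exact (ENNReal.ofReal_lt_ofReal_iff one_pos).2 hr1
      obtain ⟨x, hx⟩ := lt_iSup_iff.1 this
      refine ⟨x, ?_⟩
      exact (ENNReal.ofReal_lt_iff_lt_toReal hr0.le
        (ne_top_of_le_ne_top ENNReal.one_ne_top (hgle x))).1 hx
    · intro a ha b hb
      simp only [mem_ofPred_eq] at ha hb ⊢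
      have h3 := ENNReal.toReal_mono (ne_top_of_le_ne_top ENNReal.one_ne_top (hk1 _)) (hfgk a b)
      rw [ENNReal.toReal_mul, ← ENNReal.toReal_rpow, ← ENNReal.toReal_rpow] at h3
      have h4 : r < (k (s * a + t * b)).toReal := by
        calc r = r ^ s * r ^ t := by
              rw [← Real.rpow_add hr0, hst, Real.rpow_one]
          _ < (f a).toReal ^ s * (g b).toReal ^ t := by
            apply mul_lt_mul''
            · exact Real.rpow_lt_rpow hr0.le ha hs
            · exact Real.rpow_lt_rpow hr0.le hb ht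
            · (clear * - hr0; positivity)
            · (clear * - hr0; positivity)
          _ ≤ _ := h3
      exact h4
  · have e1 : {x | r < (f x).toReal} = ∅ := by
      ext x
      simp only [mem_ofPred_eq, mem_empty_iff_false, iff_false, not_lt]
      refine le_trans ?_ hr1
      have := ENNReal.toReal_mono ENNReal.one_ne_top (hfle x)
      simpa only [ge_iff_le, ENNReal.toReal_one] using this
    have e2 : {x | r < (g x).toReal} = ∅ := by
      ext x
      simp only [mem_ofPred_eq, mem_empty_iff_false, iff_false, not_lt]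
      refine le_trans ?_ hr1
      have := ENNReal.toReal_mono ENNReal.one_ne_top (hgle x)
      simpa only [ge_iff_le, ENNReal.toReal_one] using this
    rw [e1, e2]
    simp only [measure_empty, mul_zero, add_zero, zero_le]

theorem ennreal_amgm {s t : ℝ} (hs : 0 < s) (ht : 0 < t) (hst : s + t = 1) (x y : ℝ≥0∞) :
    x ^ s * y ^ t ≤ ENNReal.ofReal s * x + ENNReal.ofReal t * y := by
  have hs0 : ENNReal.ofReal s ≠ 0 := by simpa only [ne_eq, ENNReal.ofReal_eq_zero, not_le] using hs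
  have ht0 : ENNReal.ofReal t ≠ 0 := by simpa only [ne_eq, ENNReal.ofReal_eq_zero, not_le] using ht
  by_cases hx : x = ∞
  · subst hx; simp only [ENNReal.mul_top hs0, top_add, le_top]
  by_cases hy : y = ∞
  · subst hy; simp only [ENNReal.mul_top ht0, add_top, le_top]
  lift x to ℝ≥0 using hx
  lift y to ℝ≥0 using hy
  have := NNReal.geom_mean_le_arith_mean2_weighted s.toNNReal t.toNNReal x y (by
    rw [← Real.toNNReal_add hs.le ht.le, hst, Real.toNNReal_one])
  rw [Real.coe_toNNReal s hs.le, Real.coe_toNNReal t ht.le] at this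
  rw [ENNReal.ofReal, ENNReal.ofReal, ← ENNReal.coe_rpow_of_nonneg _ hs.le,
    ← ENNReal.coe_rpow_of_nonneg _ ht.le]
  exact_mod_cast this

theorem pl_one_bdd {s t : ℝ} (hs : 0 < s) (ht : 0 < t) (hst : s + t = 1)
    (f g h : ℝ → ℝ≥0∞) (hf : Measurable f) (hg : Measurable g)
    (hh : Measurable h) (hf1 : ⨆ x, f x ≠ ∞) (hg1 : ⨆ x, g x ≠ ∞)
    (hfg : ∀ x y, f x ^ s * g y ^ t ≤ h (s * x + t * y)) :
    (∫⁻ x, f x) ^ s * (∫⁻ x, g x) ^ t ≤ ∫⁻ x, h x := by
  by_cases hf0 : ⨆ x, f x = 0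
  · have : f = fun _ => 0 := by
      funext x
      have := le_iSup f x
      rw [hf0] at this
      simpa only [nonpos_iff_eq_zero] using this
    rw [this]
    simp only [lintegral_const, measure_univ_of_isAddLeftInvariant, zero_mul, hs, ENNReal.zero_rpow_of_pos, zero_le]
  by_cases hg0 : ⨆ x, g x = 0
  · have : g = fun _ => 0 := by
      funext x
      have := le_iSup g x
      rw [hg0] at this
      simpa only [nonpos_iff_eq_zero] using this
    rw [this]
    simp only [lintegral_const, measure_univ_of_isAddLeftInvariant, zero_mul, ht, ENNReal.zero_rpow_of_pos, mul_zero, zero_le]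
  set a := ⨆ x, f x with ha
  set b := ⨆ x, g x with hb
  have has : a ^ s ≠ 0 := by simp only [ne_eq, ENNReal.rpow_eq_zero_iff, hf0, false_and, hf1, or_self, not_false_eq_true]
  have has' : a ^ s ≠ ∞ := ENNReal.rpow_ne_top_of_nonneg hs.le hf1
  have hbt : b ^ t ≠ 0 := by simp only [ne_eq, ENNReal.rpow_eq_zero_iff, hg0, false_and, hg1, or_self, not_false_eq_true]
  have hbt' : b ^ t ≠ ∞ := ENNReal.rpow_ne_top_of_nonneg ht.le hg1
  set c := a ^ s * b ^ t with hc
  have hc0 : c ≠ 0 := mul_ne_zero has hbt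
  have hc1 : c ≠ ∞ := ENNReal.mul_ne_top has' hbt'
  have key := pl_one_normalized hs ht hst (fun x => a⁻¹ * f x) (fun x => b⁻¹ * g x)
    (fun x => c⁻¹ * h x) (hf.const_mul _) (hg.const_mul _) (hh.const_mul _)
    (by rw [← ENNReal.mul_iSup, ← ha]; exact ENNReal.inv_mul_cancel hf0 hf1)
    (by rw [← ENNReal.mul_iSup, ← hb]; exact ENNReal.inv_mul_cancel hg0 hg1)
    (by
      intro x y
      rw [ENNReal.mul_rpow_of_nonneg _ _ hs.le, ENNReal.mul_rpow_of_nonneg _ _ ht.le,
        ENNReal.inv_rpow, ENNReal.inv_rpow, hc, ENNReal.mul_inv (Or.inl has) (Or.inl has')]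
      calc (a ^ s)⁻¹ * f x ^ s * ((b ^ t)⁻¹ * g y ^ t)
          = ((a ^ s)⁻¹ * (b ^ t)⁻¹) * (f x ^ s * g y ^ t) := by ring
        _ ≤ _ := by gcongr; exact hfg x y)
  rw [lintegral_const_mul _ hf, lintegral_const_mul _ hg, lintegral_const_mul _ hh] at key
  set F := ∫⁻ x, f x
  set G := ∫⁻ x, g x
  set H := ∫⁻ x, h x
  have h5 := le_trans (ennreal_amgm hs ht hst _ _) key
  rw [ENNReal.mul_rpow_of_nonneg _ _ hs.le, ENNReal.mul_rpow_of_nonneg _ _ ht.le,
        ENNReal.inv_rpow, ENNReal.inv_rpow] at h5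
  have h6 : c * ((a ^ s)⁻¹ * F ^ s * ((b ^ t)⁻¹ * G ^ t)) ≤ c * (c⁻¹ * H) := by (clear * - h5; gcongr)
  have h7 : c * ((a ^ s)⁻¹ * F ^ s * ((b ^ t)⁻¹ * G ^ t)) = F ^ s * G ^ t := by
    rw [hc]
    calc a ^ s * b ^ t * ((a ^ s)⁻¹ * F ^ s * ((b ^ t)⁻¹ * G ^ t))
        = (a ^ s * (a ^ s)⁻¹) * (b ^ t * (b ^ t)⁻¹) * (F ^ s * G ^ t) := by ring
      _ = _ := by
        rw [ENNReal.mul_inv_cancel has has', ENNReal.mul_inv_cancel hbt hbt']; simp
  rw [h7, ← mul_assoc, ENNReal.mul_inv_cancel hc0 hc1, one_mul] at h6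
  exact h6

theorem pl_one {s t : ℝ} (hs : 0 < s) (ht : 0 < t) (hst : s + t = 1)
    (f g h : ℝ → ℝ≥0∞) (hf : Measurable f) (hg : Measurable g)
    (hh : Measurable h) (hfg : ∀ x y, f x ^ s * g y ^ t ≤ h (s * x + t * y)) :
    (∫⁻ x, f x) ^ s * (∫⁻ x, g x) ^ t ≤ ∫⁻ x, h x := by
  have hcut : ∀ u : ℝ → ℝ≥0∞, Measurable u →
      ∫⁻ x, u x = ⨆ n : ℕ, ∫⁻ x, min (u x) n := by
    intro u hu
    rw [← lintegral_iSup (fun n => hu.min measurable_const)
      (fun m n hmn x => min_le_min_left _ (by exact_mod_cast hmn))]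
    apply lintegral_congr
    intro x
    apply le_antisymm
    · by_cases hx : u x = ∞
      · rw [hx]
        simp only [top_le_iff, le_top, inf_of_le_right]
        exact ENNReal.iSup_natCast
      · obtain ⟨n, hn⟩ := ENNReal.exists_nat_gt hx
        refine le_trans ?_ (le_iSup _ n)
        rw [min_eq_left hn.le]
    · exact iSup_le fun n => min_le_left _ _
  have hsup : ∀ (u : ℝ → ℝ≥0∞) (n : ℕ), ⨆ x, min (u x) (n : ℝ≥0∞) ≠ ∞ := by
    intro u n
    refine ne_top_of_le_ne_top (ENNReal.natCast_ne_top n) (iSup_le fun x => min_le_right _ _)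
  have hpow : ∀ (r : ℝ) (_ : 0 < r) (u : ℕ → ℝ≥0∞), (⨆ n, u n) ^ r = ⨆ n, u n ^ r := by
    intro r hr u
    exact (ENNReal.orderIsoRpow r hr).map_iSup u
  rw [hcut f hf, hcut g hg, hpow s hs, hpow t ht, ENNReal.iSup_mul]
  refine iSup_le fun n => ?_
  rw [ENNReal.mul_iSup]
  refine iSup_le fun m => ?_
  refine pl_one_bdd hs ht hst _ _ h (hf.min measurable_const) (hg.min measurable_const) hh
    (hsup f n) (hsup g m) ?_
  intro x y
  exact le_trans (mul_le_mul' (ENNReal.rpow_le_rpow (min_le_left _ _) hs.le)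
    (ENNReal.rpow_le_rpow (min_le_left _ _) ht.le)) (hfg x y)

/-- Prekopa-Leindler inequality on `Fin n → ℝ`. -/
theorem pl_pi {s t : ℝ} (hs : 0 < s) (ht : 0 < t) (hst : s + t = 1) (n : ℕ) :
    ∀ (f g h : (Fin n → ℝ) → ℝ≥0∞), Measurable f → Measurable g →
    Measurable h → (∀ x y, f x ^ s * g y ^ t ≤ h (s • x + t • y)) →
    (∫⁻ x, f x) ^ s * (∫⁻ x, g x) ^ t ≤ ∫⁻ x, h x := by
  induction n with
  | zero =>
    intro f g h hf hg hh hfg
    have hv : (volume : Measure (Fin 0 → ℝ)) univ = 1 := by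
      simp only [volume_pi, Measure.pi_empty_univ]
    rw [lintegral_unique, lintegral_unique, lintegral_unique, hv]
    simp only [mul_one]
    exact (hfg _ _).trans (le_of_eq (congrArg h (Subsingleton.elim _ _)))
  | succ n ih =>
    intro f g h hf hg hh hfg
    set e := MeasurableEquiv.piFinSuccAbove (fun _ : Fin (n + 1) => ℝ) 0 with he
    have hvp : MeasurePreserving e volume volume :=
      volume_preserving_piFinSuccAbove (fun _ : Fin (n + 1) => ℝ) 0
    have hsplit : ∀ u : (Fin (n + 1) → ℝ) → ℝ≥0∞, Measurable u →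
        ∫⁻ x, u x = ∫⁻ a : ℝ, ∫⁻ x : Fin n → ℝ, u (e.symm (a, x)) := by
      intro u hu
      rw [← hvp.symm.lintegral_comp hu]
      exact lintegral_prod _ (hu.comp e.symm.measurable).aemeasurable
    have hmid : ∀ (a b : ℝ) (x y : Fin n → ℝ),
        s • e.symm (a, x) + t • e.symm (b, y) = e.symm (s * a + t * b, s • x + t • y) := by
      intro a b x y
      funext i
      refine Fin.cases ?_ (fun j => ?_) i
      · simp only [he, MeasurableEquiv.piFinSuccAbove, Fin.zero_succAbove, Fin.insertNthEquiv_zero, MeasurableEquiv.symm_mk, Equiv.symm_symm, MeasurableEquiv.coe_mk, Pi.add_apply, Pi.smul_apply, Fin.consEquiv_apply, Fin.cons_zero, smul_eq_mul]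
      · simp only [he, MeasurableEquiv.piFinSuccAbove, Fin.zero_succAbove, Fin.insertNthEquiv_zero, MeasurableEquiv.symm_mk, Equiv.symm_symm, MeasurableEquiv.coe_mk, Pi.add_apply, Pi.smul_apply, Fin.consEquiv_apply, Fin.cons_succ, smul_eq_mul]
    have hm2 : ∀ u : (Fin (n + 1) → ℝ) → ℝ≥0∞, Measurable u →
        Measurable fun a : ℝ => ∫⁻ x : Fin n → ℝ, u (e.symm (a, x)) := by
      intro u hu
      exact (hu.comp e.symm.measurable).lintegral_prod_right'
    rw [hsplit f hf, hsplit g hg, hsplit h hh]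
    apply pl_one hs ht hst _ _ _ (hm2 f hf) (hm2 g hg) (hm2 h hh)
    intro a b
    have hsec : ∀ (u : (Fin (n + 1) → ℝ) → ℝ≥0∞) (c : ℝ), Measurable u →
        Measurable fun x : Fin n → ℝ => u (e.symm (c, x)) := by
      intro u c hu
      exact hu.comp (e.symm.measurable.comp measurable_prodMk_left)
    apply ih _ _ _ (hsec f a hf) (hsec g b hg) (hsec h _ hh)
    intro x y
    have := hfg (e.symm (a, x)) (e.symm (b, y))
    rwa [hmid] at this

/-- Multiplicative Brunn-Minkowski inequality for measurable sets in `Fin n → ℝ`. -/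
theorem bm_mul {s t : ℝ} (hs : 0 < s) (ht : 0 < t) (hst : s + t = 1) {n : ℕ}
    {A B C : Set (Fin n → ℝ)} (hA : MeasurableSet A) (hB : MeasurableSet B)
    (hC : MeasurableSet C) (h : ∀ a ∈ A, ∀ b ∈ B, s • a + t • b ∈ C) :
    volume A ^ s * volume B ^ t ≤ volume C := by
  have := pl_pi hs ht hst n (A.indicator 1) (B.indicator 1) (C.indicator 1)
    (measurable_one.indicator hA) (measurable_one.indicator hB) (measurable_one.indicator hC)
    (by
      intro x y
      by_cases hx : x ∈ A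
      · by_cases hy : y ∈ B
        · simp only [indicator_of_mem hx, Pi.one_apply, ENNReal.one_rpow, indicator_of_mem hy, mul_one, indicator_of_mem (h x hx y hy), Std.le_refl]
        · simp only [indicator_of_notMem hy, ht, ENNReal.zero_rpow_of_pos, mul_zero, zero_le]
      · simp only [indicator_of_notMem hx, hs, ENNReal.zero_rpow_of_pos, zero_mul, zero_le])
  rwa [lintegral_indicator_one hA, lintegral_indicator_one hB, lintegral_indicator_one hC] at this

end Vale.Agent.P230.E227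
end
end
end

section

section

section

/-!
# Fourth moment of a convex body with bounded second moments (Borell)
-/

open MeasureTheory Set
open scoped ENNReal

namespace Vale.Agent.P230

namespace Mom

/-- squared Euclidean length -/
def sqn {n : ℕ} (x : Fin n → ℝ) : ℝ := ∑ i, x i ^ 2

theorem sqn_nonneg {n : ℕ} (x : Fin n → ℝ) : 0 ≤ sqn x :=
  Finset.sum_nonneg fun i _ => sq_nonneg (x i)

theorem continuous_sqn {n : ℕ} : Continuous (sqn (n := n)) := by
  unfold sqn; fun_prop

theorem sqn_mid {n : ℕ} {s : ℝ} (hs : 0 ≤ s) {x y : Fin n → ℝ} (hx : (3 * s) ^ 2 ≤ sqn x)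
    (hy : sqn y ≤ s ^ 2) : s ^ 2 ≤ sqn ((1 / 2 : ℝ) • x + (1 / 2 : ℝ) • y) := by
  set a := Real.sqrt (sqn x) with ha
  set b := Real.sqrt (sqn y) with hb
  have ha2 : a ^ 2 = sqn x := Real.sq_sqrt (sqn_nonneg x)
  have hb2 : b ^ 2 = sqn y := Real.sq_sqrt (sqn_nonneg y)
  have ha0 : 0 ≤ a := Real.sqrt_nonneg _
  have hb0 : 0 ≤ b := Real.sqrt_nonneg _
  have h1 : 3 * s ≤ a := by
    refine (pow_le_pow_iff_left₀ (by (clear * - hs; positivity)) ha0 two_ne_zero).1 ?_
    rw [ha2]; exact hx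
  have h2 : b ≤ s := by
    refine (pow_le_pow_iff_left₀ hb0 hs two_ne_zero).1 ?_
    rw [hb2]; exact hy
  have cs : (∑ i, x i * y i) ^ 2 ≤ (a * b) ^ 2 := by
    rw [mul_pow, ha2, hb2]
    exact Finset.sum_mul_sq_le_sq_mul_sq _ _ _
  have cs' : -(a * b) ≤ ∑ i, x i * y i := (abs_le_of_sq_le_sq' cs (by (clear * -; positivity))).1
  have e : sqn ((1 / 2 : ℝ) • x + (1 / 2 : ℝ) • y) =
      (sqn x + 2 * (∑ i, x i * y i) + sqn y) / 4 := by
    unfold sqn
    rw [Finset.mul_sum, ← Finset.sum_add_distrib, ← Finset.sum_add_distrib, Finset.sum_div]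
    refine Finset.sum_congr rfl fun i _ => ?_
    simp only [Pi.add_apply, Pi.smul_apply, smul_eq_mul]
    ring
  rw [e, ← ha2, ← hb2]
  linarith only [mul_nonneg (sub_nonneg.2 h2) (sub_nonneg.2 h2), mul_nonneg (sub_nonneg.2 h1) (sub_nonneg.2 h2), mul_nonneg (sub_nonneg.2 ha0) (sub_nonneg.2 h2), mul_nonneg (sub_nonneg.2 ha0) (sub_nonneg.2 h1), cs', ha2, hx]

/-- the part of `K` outside a ball -/
def out {n : ℕ} (K : Set (Fin n → ℝ)) (s : ℝ) : Set (Fin n → ℝ) := {x ∈ K | s ^ 2 ≤ sqn x}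

theorem isCompact_out {n : ℕ} {K : Set (Fin n → ℝ)} (hk : IsCompact K) (s : ℝ) :
    IsCompact (out K s) := by
  have : out K s = K ∩ {x | s ^ 2 ≤ sqn x} := rfl
  rw [this]
  exact hk.inter_right (isClosed_le continuous_const continuous_sqn)

theorem step {n : ℕ} {K : Set (Fin n → ℝ)} (hc : Convex ℝ K) (hk : IsCompact K) {s : ℝ}
    (hs : 0 ≤ s) :
    (volume (out K (3 * s))).toReal * ((volume K).toReal - (volume (out K s)).toReal) ≤
      (volume (out K s)).toReal ^ 2 := by
  set B : Set (Fin n → ℝ) := {x ∈ K | sqn x ≤ s ^ 2} with hB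
  have cB : IsCompact B := by
    have : B = K ∩ {x | sqn x ≤ s ^ 2} := rfl
    rw [this]
    exact hk.inter_right (isClosed_le continuous_sqn continuous_const)
  have cA := isCompact_out hk (3 * s)
  have cC := isCompact_out hk s
  have bm := E227.bm_mul (s := 1 / 2) (t := 1 / 2) (by norm_num) (by norm_num) (by norm_num)
    cA.measurableSet cB.measurableSet cC.measurableSet (by
      rintro a ⟨haK, ha⟩ b ⟨hbK, hb⟩
      exact ⟨hc haK hbK (by norm_num) (by norm_num) (by norm_num), sqn_mid hs ha hb⟩)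
  have bm2 := ENNReal.toReal_mono cC.measure_lt_top.ne bm
  rw [ENNReal.toReal_mul, ← ENNReal.toReal_rpow, ← ENNReal.toReal_rpow] at bm2
  set α := (volume (out K (3 * s))).toReal with hα
  set β := (volume B).toReal with hβ
  set γ := (volume (out K s)).toReal with hγ
  have α0 : 0 ≤ α := ENNReal.toReal_nonneg
  have β0 : 0 ≤ β := ENNReal.toReal_nonneg
  have γ0 : 0 ≤ γ := ENNReal.toReal_nonneg
  have h1 : α * β ≤ γ ^ 2 := by
    rw [← Real.sqrt_eq_rpow, ← Real.sqrt_eq_rpow, ← Real.sqrt_mul α0] at bm2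
    exact (Real.sqrt_le_left γ0).1 bm2
  have h2 : (volume K).toReal - γ ≤ β := by
    have hK : K ⊆ B ∪ out K s := by
      intro x hx
      rcases le_total (sqn x) (s ^ 2) with h | h
      · exact Or.inl ⟨hx, h⟩
      · exact Or.inr ⟨hx, h⟩
    have : volume K ≤ volume B + volume (out K s) :=
      (measure_mono hK).trans (measure_union_le B (out K s))
    have h3 := ENNReal.toReal_mono (by
      rw [ENNReal.add_ne_top]; exact ⟨cB.measure_lt_top.ne, cC.measure_lt_top.ne⟩) this
    rw [ENNReal.toReal_add cB.measure_lt_top.ne cC.measure_lt_top.ne] at h3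
    linarith only [h3]
  exact (mul_le_mul_of_nonneg_left h2 α0).trans h1

theorem pointwise {R : ℝ} (q : ℝ) (hq : 0 ≤ q) (m : ℕ)
    (h : q ≤ (3 ^ m * R) ^ 2) :
    q ^ 2 ≤ R ^ 4 + ∑ k ∈ Finset.range m,
      if (3 ^ k * R) ^ 2 ≤ q then (3 ^ (k + 1) * R) ^ 4 else 0 := by
  induction m with
  | zero =>
    simp only [pow_zero, one_mul] at h
    simp only [Finset.range_zero, Finset.sum_empty, add_zero]
    calc q ^ 2 ≤ (R ^ 2) ^ 2 := pow_le_pow_left₀ hq h 2
      _ = R ^ 4 := by ring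
  | succ m ih =>
    rw [Finset.sum_range_succ]
    have nn : ∀ k, (0 : ℝ) ≤ if (3 ^ k * R) ^ 2 ≤ q then (3 ^ (k + 1) * R) ^ 4 else 0 := by
      intro k; split_ifs <;> positivity
    by_cases h' : q ≤ (3 ^ m * R) ^ 2
    · have := ih h'
      have := nn m
      (clear hq h; linarith)
    · rw [if_pos (le_of_not_ge h')]
      have h2 : q ^ 2 ≤ (3 ^ (m + 1) * R) ^ 4 := by
        calc q ^ 2 ≤ ((3 ^ (m + 1) * R) ^ 2) ^ 2 := pow_le_pow_left₀ hq h 2
          _ = _ := by ring
      have h3 : 0 ≤ ∑ k ∈ Finset.range m,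
        if (3 ^ k * R) ^ 2 ≤ q then (3 ^ (k + 1) * R) ^ 4 else 0 := Finset.sum_nonneg fun k _ => nn k
      have h4 : 0 ≤ R ^ 4 := by (clear * -; positivity)
      linarith only [h2, h3, h4]

theorem expo (k : ℕ) : 5 * (k + 1) ≤ 12 + 2 ^ k := by
  by_cases hk : k ≤ 3
  · interval_cases k <;> norm_num
  · have hk : 4 ≤ k := by omega
    induction k, hk using Nat.le_induction with
    | base => norm_num
    | succ k hk ih =>
      have := ih (by omega)
      rw [pow_succ]; omega

theorem term_le (k : ℕ) : (81 : ℝ) ^ (k + 1) * (1 / 3) ^ (2 ^ k) ≤ 3 ^ 12 * (1 / 3) ^ (k + 1) := by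
  have h : (3 : ℝ) ^ (5 * (k + 1)) ≤ 3 ^ (12 + 2 ^ k) := pow_le_pow_right₀ (by norm_num) (expo k)
  have e1 : (81 : ℝ) ^ (k + 1) = 3 ^ (4 * (k + 1)) := by
    rw [pow_mul]; (clear * -; norm_num)
  have e2 : (3 : ℝ) ^ (5 * (k + 1)) = 3 ^ (4 * (k + 1)) * 3 ^ (k + 1) := by
    rw [← pow_add]; congr 1; ring
  rw [e2, pow_add 3 12] at h
  rw [e1, one_div_pow, one_div_pow, mul_one_div, mul_one_div, div_le_div_iff₀ (by positivity)
    (by positivity)]
  exact h

theorem sum_third (m : ℕ) : ∑ k ∈ Finset.range m, (1 / 3 : ℝ) ^ (k + 1) ≤ 1 := by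
  have : ∑ k ∈ Finset.range m, (1 / 3 : ℝ) ^ (k + 1) = (1 - (1 / 3) ^ m) / 2 := by
    induction m with
    | zero => simp only [Finset.range_zero, one_div, inv_pow, Finset.sum_empty, pow_zero, sub_self, zero_div]
    | succ m ih => rw [Finset.sum_range_succ, ih]; ring
  rw [this]
  have : (0 : ℝ) ≤ (1 / 3) ^ m := by positivity
  linarith only [this]

end Mom

open Mom

/-- TASK V2: fourth moment -/
theorem fourth_moment : ∃ C : ℝ, 0 < C ∧ ∀ (n : ℕ) (_ : 1 ≤ n) (K : Set (Fin n → ℝ)),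
    Convex ℝ K → IsCompact K → (∀ i, ∫ x in K, x i ^ 2 ≤ (volume K).toReal) →
    ∫ x in K, (∑ i, x i ^ 2) ^ 2 ≤ C * n ^ 2 * (volume K).toReal := by
  refine ⟨16 * (1 + 3 ^ 12), by norm_num, ?_⟩
  intro n hn K hc hk hmom
  set V := (volume K).toReal with hV
  have V0 : 0 ≤ V := ENNReal.toReal_nonneg
  have hfin : volume K ≠ ∞ := hk.measure_lt_top.ne
  rcases V0.eq_or_lt with h0 | hVpos
  · have hz : volume K = 0 := by
      rcases (ENNReal.toReal_eq_zero_iff _).1 h0.symm with h | h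
      · exact h
      · exact absurd h hfin
    rw [Measure.restrict_eq_zero.2 hz, integral_zero_measure, ← h0]
    simp only [mul_zero, Std.le_refl]
  have hnR : (1 : ℝ) ≤ n := by exact_mod_cast hn
  set R := 2 * Real.sqrt n with hRdef
  have hR0 : 0 ≤ R := by positivity
  have hR2 : R ^ 2 = 4 * n := by
    rw [hRdef, mul_pow, Real.sq_sqrt (by positivity)]; norm_num
  have hR4 : R ^ 4 = 16 * n ^ 2 := by
    have : R ^ 4 = (R ^ 2) ^ 2 := by ring
    rw [this, hR2]; ring
  -- second moment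
  have int1 : ∀ i, IntegrableOn (fun x : Fin n → ℝ => x i ^ 2) K := fun i =>
    (Continuous.continuousOn (by fun_prop)).integrableOn_compact hk
  have intq : IntegrableOn (fun x : Fin n → ℝ => sqn x) K :=
    (continuous_sqn.continuousOn).integrableOn_compact hk
  have sec : ∫ x in K, sqn x ≤ n * V := by
    unfold sqn
    rw [integral_finsetSum _ fun i _ => int1 i]
    calc ∑ i : Fin n, ∫ x in K, x i ^ 2 ≤ ∑ _i : Fin n, V := Finset.sum_le_sum fun i _ => hmom i
      _ = n * V := by simp only [Finset.sum_const, Finset.card_univ, Fintype.card_fin, nsmul_eq_mul]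
  -- masses
  set a : ℕ → ℝ := fun k => (volume (out K (3 ^ k * R))).toReal with ha
  have a_nn : ∀ k, 0 ≤ a k := fun k => ENNReal.toReal_nonneg
  have cO : ∀ k, IsCompact (out K (3 ^ k * R)) := fun k => isCompact_out hk _
  have a0 : a 0 ≤ V / 4 := by
    have h1 : R ^ 2 * a 0 ≤ ∫ x in K, sqn x := by
      have h2 : ∫ x in out K (3 ^ 0 * R), sqn x ≤ ∫ x in K, sqn x :=
        setIntegral_mono_set intq (Filter.Eventually.of_forall fun x => sqn_nonneg x)
          (Filter.Eventually.of_forall fun x hx => hx.1)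
      refine le_trans ?_ h2
      have h3 : ∫ _x in out K (3 ^ 0 * R), R ^ 2 ≤ ∫ x in out K (3 ^ 0 * R), sqn x := by
        refine setIntegral_mono_on ?_ (intq.mono_set fun x hx => hx.1) (cO 0).measurableSet ?_
        · exact integrableOn_const (cO 0).measure_lt_top.ne
        · intro x hx
          have := hx.2
          rwa [pow_zero, one_mul] at this
      rw [setIntegral_const, smul_eq_mul, mul_comm] at h3
      exact h3
    rw [hR2] at h1
    have h4 : 4 * n * a 0 ≤ n * V := h1.trans sec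
    have h5 : (n : ℝ) * (4 * a 0) ≤ n * V := by linarith only [sec, h1]
    have h6 := le_of_mul_le_mul_left h5 (by linarith only [hnR])
    linarith only [h6]
  have rec1 : ∀ k, a (k + 1) * (V - a k) ≤ a k ^ 2 := by
    intro k
    have := step hc hk (s := 3 ^ k * R) (by positivity)
    have e : 3 * (3 ^ k * R) = 3 ^ (k + 1) * R := by ring
    rw [e] at this
    exact this
  have ak : ∀ k, a k ≤ 3 / 4 * V * (1 / 3) ^ (2 ^ k) := by
    intro k
    induction k with
    | zero =>
      simp only [pow_zero, pow_one]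
      linarith only [a0]
    | succ k ih =>
      have h1 : (1 / 3 : ℝ) ^ (2 ^ k) ≤ 1 / 3 := by
        calc (1 / 3 : ℝ) ^ (2 ^ k) ≤ (1 / 3) ^ 1 :=
              pow_le_pow_of_le_one (by norm_num) (by norm_num) Nat.one_le_two_pow
          _ = 1 / 3 := pow_one _
      have h2 : a k ≤ V / 4 := by nlinarith only [ih, V0, h1]
      have h3 := rec1 k
      have h4 : a (k + 1) * (3 / 4 * V) ≤ a (k + 1) * (V - a k) :=
        mul_le_mul_of_nonneg_left (by linarith only [h2]) (a_nn _)
      have h5 : a k ^ 2 ≤ (3 / 4 * V * (1 / 3) ^ (2 ^ k)) ^ 2 := pow_le_pow_left₀ (a_nn k) ih 2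
      have h6 : (3 / 4 * V * (1 / 3) ^ (2 ^ k)) ^ 2 =
          (3 / 4 * V * (1 / 3) ^ (2 ^ (k + 1))) * (3 / 4 * V) := by
        rw [pow_succ 2 k, pow_mul]; ring
      have h7 : a (k + 1) * (3 / 4 * V) ≤
          (3 / 4 * V * (1 / 3) ^ (2 ^ (k + 1))) * (3 / 4 * V) := by
        rw [← h6]; linarith only [h3, h4, h5]
      exact le_of_mul_le_mul_right h7 (by positivity)
  -- K is bounded
  obtain ⟨m, hm⟩ : ∃ m : ℕ, ∀ x ∈ K, sqn x ≤ (3 ^ m * R) ^ 2 := by
    obtain ⟨M, hM⟩ := hk.bddAbove_image continuous_sqn.continuousOn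
    obtain ⟨m, hm⟩ := pow_unbounded_of_one_lt M (y := (3 : ℝ)) (by (clear * -; norm_num))
    refine ⟨m, fun x hx => (hM (mem_image_of_mem _ hx)).trans (hm.le.trans ?_)⟩
    rw [mul_pow, hR2]
    have h1 : (1 : ℝ) ≤ 3 ^ m := one_le_pow₀ (by norm_num)
    linarith only [mul_nonneg (sub_nonneg.2 h1) (sub_nonneg.2 h1), mul_nonneg (sq_nonneg (3 ^ m : ℝ)) (sub_nonneg.2 hnR), h1]
  -- integrate
  have ind : ∀ k, ∀ x ∈ K, (if (3 ^ k * R) ^ 2 ≤ sqn x then (3 ^ (k + 1) * R) ^ 4 else 0) =
      (out K (3 ^ k * R)).indicator (fun _ => (3 ^ (k + 1) * R) ^ 4) x := by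
    intro k x hx
    by_cases h : (3 ^ k * R) ^ 2 ≤ sqn x
    · rw [if_pos h, indicator_of_mem]
      exact ⟨hx, h⟩
    · rw [if_neg h, indicator_of_notMem]
      exact fun h' => h h'.2
  have intI : ∀ k, IntegrableOn ((out K (3 ^ k * R)).indicator
      (fun _ => ((3 : ℝ) ^ (k + 1) * R) ^ 4)) K := by
    intro k
    exact (integrableOn_const hfin).indicator (cO k).measurableSet
  have fin1 : ∫ x in K, (∑ i, x i ^ 2) ^ 2 ≤ ∫ x in K, (R ^ 4 + ∑ k ∈ Finset.range m,
      (out K (3 ^ k * R)).indicator (fun _ => ((3 : ℝ) ^ (k + 1) * R) ^ 4) x) := by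
    refine setIntegral_mono_on ?_ ?_ hk.measurableSet ?_
    · exact (Continuous.continuousOn (by fun_prop)).integrableOn_compact hk
    · refine (integrableOn_const hfin).add ?_
      exact integrable_finsetSum _ fun k _ => intI k
    · intro x hx
      have := pointwise (sqn x) (sqn_nonneg x) m (hm x hx)
      rw [Finset.sum_congr rfl fun k _ => ind k x hx] at this
      exact this
  have fin2 : ∫ x in K, (R ^ 4 + ∑ k ∈ Finset.range m,
      (out K (3 ^ k * R)).indicator (fun _ => ((3 : ℝ) ^ (k + 1) * R) ^ 4) x) =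
      R ^ 4 * V + ∑ k ∈ Finset.range m, (3 ^ (k + 1) * R) ^ 4 * a k := by
    have ic : Integrable (fun _ : Fin n → ℝ => R ^ 4) (volume.restrict K) :=
      integrableOn_const hfin
    rw [integral_add ic (integrable_finsetSum _ fun k _ => intI k),
      integral_finsetSum _ fun k _ => intI k, setIntegral_const, smul_eq_mul]
    congr 1
    · rw [mul_comm]; rfl
    · refine Finset.sum_congr rfl fun k _ => ?_
      rw [setIntegral_indicator (cO k).measurableSet, setIntegral_const, smul_eq_mul, mul_comm]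
      congr 2
      have : K ∩ out K (3 ^ k * R) = out K (3 ^ k * R) :=
        inter_eq_right.2 fun x hx => hx.1
      rw [this]
  have fin3 : ∑ k ∈ Finset.range m, (3 ^ (k + 1) * R) ^ 4 * a k ≤ R ^ 4 * V * 3 ^ 12 := by
    calc ∑ k ∈ Finset.range m, (3 ^ (k + 1) * R) ^ 4 * a k
        ≤ ∑ k ∈ Finset.range m, R ^ 4 * V * (3 ^ 12 * (1 / 3) ^ (k + 1)) := by
          refine Finset.sum_le_sum fun k _ => ?_
          have e : ((3 : ℝ) ^ (k + 1) * R) ^ 4 = R ^ 4 * 81 ^ (k + 1) := by
            rw [mul_pow, ← pow_mul, mul_comm (k + 1) 4, pow_mul]; norm_num; ring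
          rw [e]
          have h1 := term_le k
          have h2 := ak k
          have h3 : (0 : ℝ) ≤ R ^ 4 * 81 ^ (k + 1) := by positivity
          have h4 : (0 : ℝ) ≤ (1 / 3) ^ (2 ^ k) := by positivity
          have h5 : a k ≤ V * (1 / 3) ^ (2 ^ k) := by linarith only [mul_nonneg (sub_nonneg.2 V0) (sub_nonneg.2 h4), h2]
          calc R ^ 4 * 81 ^ (k + 1) * a k ≤ R ^ 4 * 81 ^ (k + 1) * (V * (1 / 3) ^ (2 ^ k)) :=
                mul_le_mul_of_nonneg_left h5 h3
            _ = R ^ 4 * V * (81 ^ (k + 1) * (1 / 3) ^ (2 ^ k)) := by ring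
            _ ≤ _ := mul_le_mul_of_nonneg_left h1 (by positivity)
      _ = R ^ 4 * V * 3 ^ 12 * ∑ k ∈ Finset.range m, (1 / 3 : ℝ) ^ (k + 1) := by
          rw [Finset.mul_sum]
          exact Finset.sum_congr rfl fun k _ => by ring
      _ ≤ R ^ 4 * V * 3 ^ 12 * 1 := mul_le_mul_of_nonneg_left (sum_third m) (by positivity)
      _ = _ := mul_one _
  calc ∫ x in K, (∑ i, x i ^ 2) ^ 2 ≤ R ^ 4 * V + ∑ k ∈ Finset.range m, (3 ^ (k + 1) * R) ^ 4 * a k :=
        fin1.trans fin2.le
    _ ≤ R ^ 4 * V + R ^ 4 * V * 3 ^ 12 := by linarith only [fin3]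
    _ = 16 * (1 + 3 ^ 12) * n ^ 2 * V := by rw [hR4]; ring

end Vale.Agent.P230
end
end
end

section

section

section

namespace Vale.Agent.P230

open MeasureTheory Finset

end Vale.Agent.P230
end
end
end

section

section

section

namespace Vale.Agent.P230

open Filter

theorem num_final : ∃ N₀ : ℕ, ∀ N : ℕ, N₀ ≤ N → ∀ V : ℝ, (N:ℝ) / 4000 ≤ V → V ≤ (N:ℝ) / 1000 →
    2 ^ ⌈(N:ℝ) / 20000⌉₊ * (Real.exp (-V / 2) + (V / 2) ^ (2 * (N / 200) + 1) / ((2 * (N / 200) + 1).factorial : ℝ)
      + (2 + Real.exp (V / 2)) * (Real.exp V * (N * (99/100 : ℝ) ^ N))) ≤ Real.exp (-(1/20000 : ℝ) * N) := by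
  have ev1 : ∀ᶠ x : ℝ in atTop, (6 : ℝ) ≤ Real.exp ((1 / 25000) * x) := by
    have h := Real.tendsto_exp_atTop.comp (tendsto_id.const_mul_atTop (by norm_num : (0 : ℝ) < 1 / 25000))
    exact h.eventually_ge_atTop 6
  have ev2 : ∀ᶠ x : ℝ in atTop, 3 * x ≤ Real.exp ((1 / 1000) * x) := by
    have h := (Real.tendsto_exp_div_pow_atTop 1).comp
      (tendsto_id.const_mul_atTop (by norm_num : (0 : ℝ) < 1 / 1000))
    have h2 := h.eventually_ge_atTop 3000
    filter_upwards [h2, eventually_gt_atTop 0] with x hx hx0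
    simp only [Function.comp, id, pow_one] at hx
    rw [le_div_iff₀ (by positivity)] at hx
    linarith only [hx]
  have ev3 : ∀ᶠ x : ℝ in atTop, (1 : ℝ) ≤ (1 / 1000) * x := by
    filter_upwards [eventually_ge_atTop 1000] with x hx
    linarith
  obtain ⟨x₀, hx₀⟩ := eventually_atTop.1 (ev1.and (ev2.and ev3))
  refine ⟨⌈x₀⌉₊, fun N hN V hV1 hV2 => ?_⟩
  set x : ℝ := (N : ℝ) with hx
  have hxx : x₀ ≤ x := (Nat.le_ceil x₀).trans (by rw [hx]; exact_mod_cast hN)
  obtain ⟨h1, h2, h3⟩ := hx₀ x hxx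
  have hxpos : 0 < x := by linarith only [h3]
  have hV0 : 0 < V := by linarith only [h3, hV1]
  -- the power of two
  have hA : (2 : ℝ) ^ ⌈x / 20000⌉₊ ≤ 2 * Real.exp ((7 / 200000) * x) := by
    have hc : ((⌈x / 20000⌉₊ : ℕ) : ℝ) ≤ x / 20000 + 1 := (Nat.ceil_lt_add_one (by (clear * - hxpos; positivity))).le
    have hl2 := Real.log_two_lt_d9
    have hl0 := (Real.log_pos (by norm_num : (1 : ℝ) < 2)).le
    calc (2 : ℝ) ^ ⌈x / 20000⌉₊ = Real.exp (Real.log 2 * (⌈x / 20000⌉₊ : ℕ)) := by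
          rw [← Real.rpow_natCast, Real.rpow_def_of_pos (by norm_num)]
      _ ≤ Real.exp (Real.log 2 + (7 / 200000) * x) := by
          apply Real.exp_le_exp.2
          have e1 : Real.log 2 * (⌈x / 20000⌉₊ : ℕ) ≤ Real.log 2 * (x / 20000 + 1) :=
            mul_le_mul_of_nonneg_left hc hl0
          have e2 : Real.log 2 * (x / 20000) ≤ 0.7 * (x / 20000) := by
            apply mul_le_mul_of_nonneg_right _ (by (clear * - hxpos; positivity))
            linarith only [hl2]
          linarith only [e1, e2]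
      _ = 2 * Real.exp ((7 / 200000) * x) := by
          rw [Real.exp_add, Real.exp_log (by norm_num)]
  -- first term
  have hB1 : Real.exp (-V / 2) ≤ Real.exp (-(1 / 8000) * x) := by
    apply Real.exp_le_exp.2
    linarith only [hV1]
  -- second term
  set j := 2 * (N / 200) + 1 with hj
  have hjx : x / 100 - 1 ≤ (j : ℝ) := by
    have : N ≤ 200 * (N / 200) + 199 := by (clear * -; omega)
    have h' : x ≤ 200 * ((N / 200 : ℕ) : ℝ) + 199 := by rw [hx]; exact_mod_cast this
    rw [hj]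
    push_cast
    linarith only [h']
  have hB2 : (V / 2) ^ j / (j.factorial : ℝ) ≤ Real.exp (-(1 / 8000) * x) := by
    have e1 : (V / 2) ^ j / (j.factorial : ℝ)
        = Real.exp (-(j : ℝ)) * ((Real.exp 1 * (V / 2)) ^ j / (j.factorial : ℝ)) := by
      rw [mul_pow, ← Real.exp_nat_mul, mul_one, Real.exp_neg]
      field_simp
    have e2 : (Real.exp 1 * (V / 2)) ^ j / (j.factorial : ℝ) ≤ Real.exp (Real.exp 1 * (V / 2)) :=
      Real.pow_div_factorial_le_exp _ (by (clear * - hV0; positivity)) j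
    rw [e1]
    calc Real.exp (-(j : ℝ)) * ((Real.exp 1 * (V / 2)) ^ j / (j.factorial : ℝ))
        ≤ Real.exp (-(j : ℝ)) * Real.exp (Real.exp 1 * (V / 2)) := by (clear * - e2; gcongr)
      _ = Real.exp (-(j : ℝ) + Real.exp 1 * (V / 2)) := by rw [Real.exp_add]
      _ ≤ Real.exp (-(1 / 8000) * x) := by
          apply Real.exp_le_exp.2
          have e3 : Real.exp 1 ≤ 3 := by
            have := Real.exp_one_lt_d9
            linarith only [this]
          have e4 : Real.exp 1 * (V / 2) ≤ 3 * (x / 1000 / 2) := by (clear * - e3 hV2 hV0; gcongr)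
          linarith only [h3, hjx, e4]
  -- third term
  have hB3 : (2 + Real.exp (V / 2)) * (Real.exp V * (x * (99/100 : ℝ) ^ N))
      ≤ Real.exp (-(1 / 8000) * x) := by
    have e1 : (2 : ℝ) ≤ 2 * Real.exp (V / 2) := by
      have := Real.one_le_exp (show 0 ≤ V / 2 by (clear * - hV0; positivity))
      linarith only [this]
    have e2 : (99/100 : ℝ) ^ N ≤ Real.exp (-(1/100) * x) := by
      have h4 : (99/100 : ℝ) ≤ Real.exp (-(1/100)) := by
        have := Real.add_one_le_exp (-(1/100) : ℝ)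
        linarith only [this]
      calc (99/100 : ℝ) ^ N ≤ (Real.exp (-(1/100))) ^ N := by (clear * - h4; gcongr)
        _ = Real.exp (-(1/100) * x) := by
            rw [← Real.exp_nat_mul]
            congr 1
            rw [hx]; ring
    calc (2 + Real.exp (V / 2)) * (Real.exp V * (x * (99/100 : ℝ) ^ N))
        ≤ (2 * Real.exp (V / 2) + Real.exp (V / 2)) * (Real.exp V * (x * Real.exp (-(1/100) * x))) := by
          (clear * - e1 e2 hxpos; gcongr)
      _ = (3 * x) * Real.exp (V / 2 + V + -(1/100) * x) := by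
          rw [Real.exp_add, Real.exp_add]
          ring
      _ ≤ Real.exp ((1 / 1000) * x) * Real.exp (V / 2 + V + -(1/100) * x) := by (clear * - h2; gcongr)
      _ = Real.exp ((1 / 1000) * x + (V / 2 + V + -(1/100) * x)) := by rw [← Real.exp_add]
      _ ≤ Real.exp (-(1 / 8000) * x) := by
          apply Real.exp_le_exp.2
          linarith only [hV2, h3]
  calc 2 ^ ⌈x / 20000⌉₊ * (Real.exp (-V / 2) + (V / 2) ^ j / (j.factorial : ℝ)
      + (2 + Real.exp (V / 2)) * (Real.exp V * (x * (99/100 : ℝ) ^ N)))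
      ≤ (2 * Real.exp ((7 / 200000) * x)) * (Real.exp (-(1 / 8000) * x) + Real.exp (-(1 / 8000) * x)
        + Real.exp (-(1 / 8000) * x)) := by (clear * - hA hB1 hB2 hB3 hV0 hxpos; gcongr)
    _ = 6 * (Real.exp ((7 / 200000) * x) * Real.exp (-(1 / 8000) * x)) := by ring
    _ = 6 * Real.exp (-(9 / 100000) * x) := by
        rw [← Real.exp_add]
        congr 2
        ring
    _ ≤ Real.exp ((1 / 25000) * x) * Real.exp (-(9 / 100000) * x) := by (clear * - h1; gcongr)
    _ = Real.exp (-(1/20000 : ℝ) * x) := by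
        rw [← Real.exp_add]
        congr 1
        ring

end Vale.Agent.P230
end
end
end

section

section

section

namespace Vale.Agent.P230

open MeasureTheory Finset
open scoped Pointwise ENNReal

/-- `K` is the set `K₀` in affine coordinates -/
def AffEq {N t : ℕ} (K₀ : Set (Fin (N + t) → ℝ)) (K : Set ((Fin N → ℝ) × (Fin t → ℝ))) : Prop :=
  ∃ (A₀ : Matrix (Fin (N + t)) (Fin (N + t)) ℝ) (v₀ : Fin (N + t) → ℝ), A₀.det ≠ 0 ∧
    K = {q | A₀.mulVec (Fin.append q.1 q.2) + v₀ ∈ K₀}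

/-- block triangular matrix -/
noncomputable def triMat {N t : ℕ} (B : Matrix (Fin N) (Fin N) ℝ) (S : Matrix (Fin N) (Fin t) ℝ) :
    Matrix (Fin (N + t)) (Fin (N + t)) ℝ :=
  (Matrix.fromBlocks B S 0 1).submatrix finSumFinEquiv.symm finSumFinEquiv.symm

theorem det_triMat {N t : ℕ} (B : Matrix (Fin N) (Fin N) ℝ) (S : Matrix (Fin N) (Fin t) ℝ) :
    (triMat B S).det = B.det := by
  unfold triMat
  rw [Matrix.det_submatrix_equiv_self, Matrix.det_fromBlocks_zero₂₁]
  simp only [Matrix.det_one, mul_one]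

theorem triMat_mulVec {N t : ℕ} (B : Matrix (Fin N) (Fin N) ℝ) (S : Matrix (Fin N) (Fin t) ℝ)
    (x : Fin N → ℝ) (b : Fin t → ℝ) :
    (triMat B S).mulVec (Fin.append x b) = Fin.append (B.mulVec x + S.mulVec b) b := by
  funext i
  refine Fin.addCases (fun a => ?_) (fun a => ?_) i
  · rw [Fin.append_left, Matrix.mulVec, dotProduct, Fin.sum_univ_add]
    simp only [triMat, Matrix.submatrix_apply, finSumFinEquiv_symm_apply_castAdd, Matrix.fromBlocks_apply₁₁, Fin.append_left, finSumFinEquiv_symm_apply_natAdd, Matrix.fromBlocks_apply₁₂, Fin.append_right]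
    rfl
  · rw [Fin.append_right, Matrix.mulVec, dotProduct, Fin.sum_univ_add]
    simp only [triMat, Matrix.submatrix_apply, finSumFinEquiv_symm_apply_castAdd,
      finSumFinEquiv_symm_apply_natAdd, Matrix.fromBlocks_apply₂₁, Matrix.fromBlocks_apply₂₂,
      Fin.append_left, Fin.append_right, Matrix.zero_apply, zero_mul,
      Finset.sum_const_zero, zero_add, Matrix.one_apply, ite_mul, one_mul, Finset.sum_ite_eq,
      Finset.mem_univ, if_true]

theorem AffEq.fiber {N t : ℕ} {K₀ : Set (Fin (N + t) → ℝ)} {K : Set ((Fin N → ℝ) × (Fin t → ℝ))}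
    (h : AffEq K₀ K) (B : Matrix (Fin N) (Fin N) ℝ) (hB : B.det ≠ 0)
    (S : Matrix (Fin N) (Fin t) ℝ) (w : Fin N → ℝ) :
    AffEq K₀ {q | (B.mulVec q.1 + S.mulVec q.2 + w, q.2) ∈ K} := by
  obtain ⟨A₀, v₀, hA₀, rfl⟩ := h
  refine ⟨A₀ * triMat B S, A₀.mulVec (Fin.append w 0) + v₀, ?_, ?_⟩
  · rw [Matrix.det_mul, det_triMat]
    exact mul_ne_zero hA₀ hB
  · ext q
    simp only [Set.mem_ofPred_eq]
    have e : Fin.append (B.mulVec q.1 + S.mulVec q.2 + w) q.2 =
        (triMat B S).mulVec (Fin.append q.1 q.2) + Fin.append w 0 := by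
      rw [triMat_mulVec]
      funext i
      refine Fin.addCases (fun i => ?_) (fun i => ?_) i
      · simp [Fin.append_left]
      · simp [Fin.append_right]
    rw [e, Matrix.mulVec_add, ← Matrix.mulVec_mulVec, add_assoc]

theorem AffEq.convex {N t : ℕ} {K₀ : Set (Fin (N + t) → ℝ)}
    {K : Set ((Fin N → ℝ) × (Fin t → ℝ))} (h : AffEq K₀ K) (hK₀ : Convex ℝ K₀) : Convex ℝ K := by
  obtain ⟨A₀, v₀, hA₀, rfl⟩ := h
  intro x hx y hy a b ha hb hab
  have h1 := hK₀ hx hy ha hb hab
  rw [Set.mem_ofPred_eq]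
  convert h1 using 1
  have e : Fin.append (a • x + b • y).1 (a • x + b • y).2 =
      a • Fin.append x.1 x.2 + b • Fin.append y.1 y.2 := by
    funext i
    refine Fin.addCases (fun i => ?_) (fun i => ?_) i
    · simp only [Prod.fst_add, Prod.smul_fst, Prod.snd_add, Prod.smul_snd, Fin.append_left, Pi.add_apply, Pi.smul_apply, smul_eq_mul]
    · simp only [Prod.fst_add, Prod.smul_fst, Prod.snd_add, Prod.smul_snd, Fin.append_right, Pi.add_apply, Pi.smul_apply, smul_eq_mul]
  rw [e, Matrix.mulVec_add, Matrix.mulVec_smul, Matrix.mulVec_smul, smul_add, smul_add]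
  have : v₀ = a • v₀ + b • v₀ := by rw [← add_smul, hab, one_smul]
  nth_rewrite 1 [this]
  abel

theorem AffEq.compact {N t : ℕ} {K₀ : Set (Fin (N + t) → ℝ)}
    {K : Set ((Fin N → ℝ) × (Fin t → ℝ))} (h : AffEq K₀ K) (hK₀ : IsCompact K₀) :
    IsCompact K := by
  obtain ⟨A₀, v₀, hA₀, rfl⟩ := h
  have hu : IsUnit A₀.det := isUnit_iff_ne_zero.2 hA₀
  have e : {q : (Fin N → ℝ) × (Fin t → ℝ) | A₀.mulVec (Fin.append q.1 q.2) + v₀ ∈ K₀} =
      (fun y : Fin (N + t) → ℝ => ((fun i => (A₀⁻¹.mulVec (y - v₀)) (Fin.castAdd t i)),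
        (fun i => (A₀⁻¹.mulVec (y - v₀)) (Fin.natAdd N i)))) '' K₀ := by
    ext q
    constructor
    · intro hq
      refine ⟨_, hq, ?_⟩
      have h1 : A₀⁻¹.mulVec (A₀.mulVec (Fin.append q.1 q.2) + v₀ - v₀) = Fin.append q.1 q.2 := by
        rw [add_sub_cancel_right, Matrix.mulVec_mulVec, Matrix.nonsing_inv_mul A₀ hu,
          Matrix.one_mulVec]
      ext i
      · simp only
        rw [h1, Fin.append_left]
      · simp only
        rw [h1, Fin.append_right]
    · rintro ⟨y, hy, rfl⟩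
      simp only [Set.mem_ofPred_eq]
      have h1 : Fin.append (fun i => (A₀⁻¹.mulVec (y - v₀)) (Fin.castAdd t i))
          (fun i => (A₀⁻¹.mulVec (y - v₀)) (Fin.natAdd N i)) = A₀⁻¹.mulVec (y - v₀) := by
        funext i
        refine Fin.addCases (fun i => ?_) (fun i => ?_) i
        · rw [Fin.append_left]
        · rw [Fin.append_right]
      rw [h1, Matrix.mulVec_mulVec, Matrix.mul_nonsing_inv A₀ hu, Matrix.one_mulVec]
      simpa using hy
  rw [e]
  apply hK₀.image
  have hc : Continuous fun y : Fin (N + t) → ℝ => A₀⁻¹.mulVec (y - v₀) :=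
    Continuous.matrix_mulVec continuous_const (continuous_id.sub continuous_const)
  apply Continuous.prodMk
  · exact continuous_pi fun i => (continuous_apply _).comp hc
  · exact continuous_pi fun i => (continuous_apply _).comp hc

/-- a convex compact set of positive volume has interior points -/
theorem interior_nonempty_of_volume {N : ℕ} {S : Set (Fin N → ℝ)} (hc : Convex ℝ S)
    (hk : IsCompact S) (hv : 0 < volume S) : (interior S).Nonempty := by
  by_contra h
  rw [Set.not_nonempty_iff_eq_empty] at h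
  have h1 := hc.addHaar_frontier volume
  have h2 : S ⊆ frontier S := by
    rw [frontier, h, hk.isClosed.closure_eq]
    simp
  have h3 := measure_mono_null h2 h1
  rw [h3] at hv
  exact lt_irrefl _ hv

/-- normalisation of all slices over a ball -/
theorem normalize_slices {N t : ℕ} (ht : 1 ≤ t) (K : Set ((Fin N → ℝ) × (Fin t → ℝ)))
    (hc : Convex ℝ K) (hk : IsCompact K) (R : ℝ) (hR : 0 < R)
    (hpos : ∀ b : Fin t → ℝ, ∑ i, b i ^ 2 ≤ R ^ 2 → 0 < volume {x : Fin N → ℝ | (x, b) ∈ K}) :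
    ∃ (B : Matrix (Fin N) (Fin N) ℝ) (S : Matrix (Fin N) (Fin t) ℝ) (w : Fin N → ℝ),
      B.det ≠ 0 ∧
      (∀ (x : Fin N → ℝ) (b : Fin t → ℝ), ∑ i, b i ^ 2 ≤ R ^ 2 →
        (B.mulVec x + S.mulVec b + w, b) ∈ K → ∀ i, |x i| ≤ 1) ∧
      (∀ x : Fin N → ℝ, (∀ i, 0 ≤ x i) → ∑ i, x i ≤ 1 / (4 * Real.sqrt t) →
        (B.mulVec x + S.mulVec 0 + w, (0 : Fin t → ℝ)) ∈ K) := by
  classical
  have ht0 : (1 : ℝ) ≤ t := by exact_mod_cast ht
  have hst : 1 ≤ Real.sqrt t := by
    rw [Real.one_le_sqrt]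
    exact ht0
  set S₀ : Set (Fin N → ℝ) := {x | (x, (0 : Fin t → ℝ)) ∈ K} with hS₀
  have hS₀c : Convex ℝ S₀ := by
    intro x hx y hy a b ha hb hab
    have := hc hx hy ha hb hab
    simpa only [hS₀, Set.mem_ofPred_eq, Prod.smul_mk, smul_zero, Prod.mk_add_mk, add_zero] using this
  have hS₀k : IsCompact S₀ := by
    refine IsCompact.of_isClosed_subset (hk.image continuous_fst) ?_ ?_
    · exact hk.isClosed.preimage (by (clear * -; fun_prop) : Continuous fun x : Fin N → ℝ =>
        (x, (0 : Fin t → ℝ)))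
    · intro x hx
      exact ⟨_, hx, rfl⟩
  have hS₀i : (interior S₀).Nonempty :=
    interior_nonempty_of_volume hS₀c hS₀k (hpos 0 (by simp only [Pi.zero_apply, ne_eq, OfNat.ofNat_ne_zero, not_false_eq_true, zero_pow, sum_const_zero]; (clear * - hR; positivity)))
  obtain ⟨A, v, hA, hsimp, hbd⟩ := exists_normalization S₀ hS₀c hS₀k hS₀i
  have hAu : IsUnit A.det := isUnit_iff_ne_zero.2 hA
  -- points over `R e_i` and `- R e_i`
  have hsq : ∀ (i : Fin t) (s : ℝ), s ^ 2 = R ^ 2 →
      ∑ j, (Pi.single (M := fun _ => ℝ) i s) j ^ 2 ≤ R ^ 2 := by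
    intro i s hs
    rw [Finset.sum_eq_single i]
    · simp [hs]
    · intro j _ hj
      simp [hj]
    · simp only [mem_univ, not_true_eq_false, Pi.single_eq_same, ne_eq, OfNat.ofNat_ne_zero, not_false_eq_true, pow_eq_zero_iff, IsEmpty.forall_iff]
  have hpt : ∀ (i : Fin t) (s : ℝ), s ^ 2 = R ^ 2 →
      ∃ x : Fin N → ℝ, (x, (Pi.single i s : Fin t → ℝ)) ∈ K := by
    intro i s hs
    have h1 := hpos _ (hsq i s hs)
    by_contra hcon
    push Not at hcon
    have h2 : {x : Fin N → ℝ | (x, (Pi.single i s : Fin t → ℝ)) ∈ K} = ∅ := by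
      ext x
      simp [hcon x]
    rw [h2] at h1
    simp at h1
  choose pp hpp using fun i => hpt i R rfl
  choose pm hpm using fun i => hpt i (-R) (by ring)
  set S : Matrix (Fin N) (Fin t) ℝ := fun j i => (pp i j - v j) / R with hS
  have hSb : ∀ b : Fin t → ℝ, S.mulVec b = ∑ i, (b i / R) • (pp i - v) := by
    intro b
    funext j
    simp only [Matrix.mulVec, dotProduct, hS, Finset.sum_apply, Pi.smul_apply, Pi.sub_apply,
      smul_eq_mul]
    refine Finset.sum_congr rfl fun i _ => ?_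
    ring
  -- the sheared body
  set K₃ : Set ((Fin N → ℝ) × (Fin t → ℝ)) :=
    {q | (A.mulVec q.1 + S.mulVec q.2 + v, q.2) ∈ K} with hK₃
  have hK₃c : Convex ℝ K₃ := by
    intro x hx y hy a b ha hb hab
    have h1 := hc hx hy ha hb hab
    rw [hK₃, Set.mem_ofPred_eq]
    convert h1 using 1
    ext j
    · simp only [Prod.fst_add, Prod.smul_fst, Prod.snd_add, Prod.smul_snd, Matrix.mulVec_add,
        Matrix.mulVec_smul, Pi.add_apply, Pi.smul_apply, smul_eq_mul]
      have : v j = a * v j + b * v j := by rw [← add_mul, hab, one_mul]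
      nth_rewrite 1 [this]
      ring
    · simp only [Prod.snd_add, Prod.smul_snd, Pi.add_apply, Pi.smul_apply, smul_eq_mul, Prod.smul_mk, smul_add, Prod.mk_add_mk]
  have hK₃0 : ∀ x : Fin N → ℝ, (x, (0 : Fin t → ℝ)) ∈ K₃ → ∀ j, |x j| ≤ 1 := by
    intro x hx
    rw [hK₃, Set.mem_ofPred_eq] at hx
    simp only [Matrix.mulVec_zero, add_zero] at hx
    exact hbd x hx
  have hK₃p : ∀ i, ((0 : Fin N → ℝ), (Pi.single i R : Fin t → ℝ)) ∈ K₃ := by
    intro i
    rw [hK₃, Set.mem_ofPred_eq]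
    have e : S.mulVec (Pi.single i R) = pp i - v := by
      rw [hSb, Finset.sum_eq_single i]
      · simp [hR.ne']
      · intro j _ hj
        simp only [ne_eq, hj, not_false_eq_true, Pi.single_eq_of_ne, zero_div, zero_smul]
      · simp only [mem_univ, not_true_eq_false, Pi.single_eq_same, smul_eq_zero, div_eq_zero_iff, or_self, IsEmpty.forall_iff]
    simp only [Matrix.mulVec_zero, zero_add]
    rw [e, sub_add_cancel]
    exact hpp i
  have hK₃m : ∀ i, ∃ x : Fin N → ℝ, (x, (Pi.single i (-R) : Fin t → ℝ)) ∈ K₃ ∧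
      ∀ j, |x j| ≤ 2 := by
    intro i
    refine ⟨A⁻¹.mulVec (pm i - S.mulVec (Pi.single i (-R)) - v), ?_⟩
    have h1 : (A⁻¹.mulVec (pm i - S.mulVec (Pi.single i (-R)) - v),
        (Pi.single i (-R) : Fin t → ℝ)) ∈ K₃ := by
      rw [hK₃, Set.mem_ofPred_eq]
      simp only
      rw [Matrix.mulVec_mulVec, Matrix.mul_nonsing_inv A hAu, Matrix.one_mulVec]
      convert hpm i using 2
      abel
    refine ⟨h1, fun j => ?_⟩
    have h2 := hK₃c h1 (hK₃p i) (a := 1 / 2) (b := 1 / 2) (by norm_num) (by norm_num)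
      (by norm_num)
    have e : (1 / 2 : ℝ) • (A⁻¹.mulVec (pm i - S.mulVec (Pi.single i (-R)) - v),
        (Pi.single i (-R) : Fin t → ℝ)) + (1 / 2 : ℝ) • ((0 : Fin N → ℝ),
        (Pi.single i R : Fin t → ℝ)) =
        ((1 / 2 : ℝ) • A⁻¹.mulVec (pm i - S.mulVec (Pi.single i (-R)) - v), 0) := by
      ext k
      · simp only [one_div, Matrix.mulVec_single, MulOpposite.op_neg, neg_smul, op_smul_eq_smul, sub_neg_eq_add, Prod.smul_mk, smul_zero, Prod.mk_add_mk, add_zero, Pi.smul_apply, smul_eq_mul]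
      · by_cases hk : k = i
        · subst hk
          simp only [one_div, Matrix.mulVec_single, MulOpposite.op_neg, neg_smul, op_smul_eq_smul, sub_neg_eq_add, Prod.smul_mk, smul_zero, Prod.mk_add_mk, add_zero, Pi.add_apply, Pi.smul_apply, Pi.single_eq_same, smul_eq_mul, mul_neg, neg_add_cancel, Pi.zero_apply]
        · simp only [one_div, Matrix.mulVec_single, MulOpposite.op_neg, neg_smul, op_smul_eq_smul, sub_neg_eq_add, Prod.smul_mk, smul_zero, Prod.mk_add_mk, add_zero, Pi.add_apply, Pi.smul_apply, ne_eq, hk, not_false_eq_true, Pi.single_eq_of_ne, smul_eq_mul, mul_zero, Pi.zero_apply]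
    rw [e] at h2
    have h3 := hK₃0 _ h2 j
    rw [Pi.smul_apply, smul_eq_mul, abs_mul, abs_of_pos (by norm_num : (0 : ℝ) < 1 / 2)] at h3
    linarith only [h3]
  choose qm hqm hqm2 using hK₃m
  -- the bound over the ball
  have hmain : ∀ (X : Fin N → ℝ) (b : Fin t → ℝ), ∑ i, b i ^ 2 ≤ R ^ 2 → (X, b) ∈ K₃ →
      ∀ j, |X j| ≤ 4 * Real.sqrt t := by
    intro X b hb hX j
    set β : Fin t → ℝ := fun i => b i / R with hβ
    set s : ℝ := ∑ i, |β i| with hs
    have hs0 : 0 ≤ s := Finset.sum_nonneg fun i _ => abs_nonneg _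
    have hs1 : s ≤ Real.sqrt t := by
      apply Real.le_sqrt_of_sq_le
      have h1 : s ^ 2 ≤ (Finset.univ : Finset (Fin t)).card * ∑ i, |β i| ^ 2 :=
        sq_sum_le_card_mul_sum_sq
      have h2 : ∑ i, |β i| ^ 2 ≤ 1 := by
        have : ∑ i, |β i| ^ 2 = (∑ i, b i ^ 2) / R ^ 2 := by
          rw [Finset.sum_div]
          refine Finset.sum_congr rfl fun i _ => ?_
          rw [sq_abs, hβ]
          simp only
          rw [div_pow]
        rw [this, div_le_one (by positivity)]
        exact hb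
      rw [Finset.card_univ, Fintype.card_fin] at h1
      nlinarith only [h1, h2]
    set r : Fin t → Fin N → ℝ := fun i => if 0 ≤ β i then qm i else 0 with hr
    set e : Fin t → Fin t → ℝ := fun i => if 0 ≤ β i then Pi.single i (-R) else Pi.single i R
      with he
    have hre : ∀ i, (r i, e i) ∈ K₃ := by
      intro i
      by_cases h : 0 ≤ β i
      · simp only [hr, he, if_pos h]
        exact hqm i
      · simp only [hr, he, if_neg h]
        exact hK₃p i
    have hr2 : ∀ i k, |r i k| ≤ 2 := by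
      intro i k
      by_cases h : 0 ≤ β i
      · simp only [hr, if_pos h]
        exact hqm2 i k
      · simp only [hr, if_neg h, Pi.zero_apply, abs_zero, Nat.ofNat_nonneg]
    -- convex combination
    have hcomb : (1 / (1 + s)) • (X, b) + ∑ i, (|β i| / (1 + s)) • (r i, e i) ∈ K₃ := by
      have h1 := hK₃c.sum_mem (t := (Finset.univ : Finset (Option (Fin t))))
        (w := fun o => match o with
          | none => 1 / (1 + s)
          | some i => |β i| / (1 + s))
        (z := fun o => match o with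
          | none => (X, b)
          | some i => (r i, e i)) (by
            intro o _
            rcases o with _ | i
            · simp only
              (clear * -; (clear * -; positivity))
            · simp only
              (clear * -; positivity)) (by
            rw [Fintype.sum_option]
            simp only
            rw [← Finset.sum_div, ← hs, ← add_div, div_self (by linarith only [hs0])]) (by
            intro o _
            rcases o with _ | i
            · exact hX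
            · exact hre i)
      rw [Fintype.sum_option] at h1
      exact h1
    have hsnd : ((1 / (1 + s)) • (X, b) + ∑ i, (|β i| / (1 + s)) • (r i, e i)).2 = 0 := by
      rw [Prod.snd_add, Prod.snd_sum]
      funext k
      simp only [Prod.smul_snd, Pi.add_apply, Pi.smul_apply, Finset.sum_apply, smul_eq_mul,
        Pi.zero_apply]
      rw [Finset.sum_eq_single k]
      · by_cases h : 0 ≤ β k
        · simp only [he, if_pos h, Pi.single_eq_same, abs_of_nonneg h]
          simp only [hβ]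
          field_simp
          ring
        · simp only [abs_of_neg (not_le.1 h), he, if_neg h, Pi.single_eq_same]
          simp only [hβ]
          field_simp
          ring
      · intro i _ hik
        by_cases h : 0 ≤ β i
        · simp only [he, if_pos h, ne_eq, hik.symm, not_false_eq_true, Pi.single_eq_of_ne, mul_zero]
        · simp only [he, if_neg h, ne_eq, hik.symm, not_false_eq_true, Pi.single_eq_of_ne, mul_zero]
      · simp only [mem_univ, not_true_eq_false, mul_eq_zero, div_eq_zero_iff, abs_eq_zero, IsEmpty.forall_iff]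
    have hfst := hK₃0 ((1 / (1 + s)) • (X, b) + ∑ i, (|β i| / (1 + s)) • (r i, e i)).1 (by
      rw [← hsnd]
      exact hcomb) j
    rw [Prod.fst_add, Prod.fst_sum] at hfst
    simp only [Prod.smul_fst, Pi.add_apply, Pi.smul_apply, Finset.sum_apply, smul_eq_mul] at hfst
    have h4 : |∑ i, |β i| / (1 + s) * r i j| ≤ 2 * s / (1 + s) := by
      refine (Finset.abs_sum_le_sum_abs _ _).trans ?_
      have : 2 * s / (1 + s) = ∑ i, |β i| / (1 + s) * 2 := by
        rw [← Finset.sum_mul, ← Finset.sum_div, ← hs]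
        ring
      rw [this]
      apply Finset.sum_le_sum
      intro i _
      rw [abs_mul, abs_of_nonneg (by (clear * -; positivity) : 0 ≤ |β i| / (1 + s))]
      gcongr
      exact hr2 i j
    have h5 : |1 / (1 + s) * X j| ≤ 1 + 2 * s / (1 + s) := by
      have h6 : 1 / (1 + s) * X j = (1 / (1 + s) * X j + ∑ i, |β i| / (1 + s) * r i j) -
          ∑ i, |β i| / (1 + s) * r i j := by ring
      rw [h6]
      exact (abs_sub _ _).trans (by linarith only [hfst, h4])
    rw [abs_mul, abs_of_pos (by (clear * -; positivity) : (0 : ℝ) < 1 / (1 + s))] at h5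
    have h7 : |X j| ≤ 1 + s + 2 * s := by
      have h8 : (1 + s) * (1 / (1 + s) * |X j|) ≤ (1 + s) * (1 + 2 * s / (1 + s)) := by (clear * - h5; gcongr)
      have h9 : (1 + s) * (1 / (1 + s) * |X j|) = |X j| := by (clear * - hs0; field_simp)
      have h10 : (1 + s) * (1 + 2 * s / (1 + s)) = 1 + s + 2 * s := by (clear * - hs0; field_simp)
      linarith only [h8, h9, h10]
    linarith only [hst, hs1, h7]
  -- conclusion
  refine ⟨(4 * Real.sqrt t) • A, S, v, ?_, ?_, ?_⟩
  · rw [Matrix.det_smul]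
    exact mul_ne_zero (by positivity) hA
  · intro x b hb hx i
    have h1 : ((4 * Real.sqrt t) • x, b) ∈ K₃ := by
      rw [hK₃, Set.mem_ofPred_eq]
      simp only
      rw [Matrix.mulVec_smul, ← Matrix.smul_mulVec]
      exact hx
    have h2 := hmain _ b hb h1 i
    rw [Pi.smul_apply, smul_eq_mul, abs_mul, abs_of_pos (by positivity)] at h2
    have h3 : 0 < 4 * Real.sqrt t := by positivity
    have h4 : (4 * Real.sqrt t) * |x i| ≤ (4 * Real.sqrt t) * 1 := by linarith only [h2]
    exact le_of_mul_le_mul_left h4 h3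
  · intro x hx hsum
    have h1 := hsimp ((4 * Real.sqrt t) • x) (fun i => by
      rw [Pi.smul_apply, smul_eq_mul]
      exact mul_nonneg (by positivity) (hx i)) (by
      simp only [Pi.smul_apply, smul_eq_mul]
      rw [← Finset.mul_sum]
      calc 4 * Real.sqrt t * ∑ i, x i ≤ 4 * Real.sqrt t * (1 / (4 * Real.sqrt t)) := by (clear * - hsum ht; gcongr)
        _ = 1 := by field_simp)
    rw [Matrix.mulVec_zero, add_zero, Matrix.smul_mulVec, ← Matrix.mulVec_smul]
    exact h1

end Vale.Agent.P230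
end
end
end

section

section

section

namespace Vale.Agent.P230

open Finset

section bonf

variable {α : Type*} [DecidableEq α]

/-- truncated Bonferroni inequality for a simplicial complex -/
theorem bonf (Ind : Finset α → Prop) [DecidablePred Ind]
    (hmono : ∀ A B : Finset α, A ⊆ B → Ind B → Ind A) (h0 : Ind ∅) (X : Finset α) (k : ℕ) :
    (if X = ∅ then (1 : ℝ) else 0) ≤
      ∑ T ∈ X.powerset.filter (fun T => T.card ≤ 2 * k ∧ Ind T), (-1 : ℝ) ^ T.card
      + ∑ T ∈ X.powerset.filter (fun T => T.card < 2 * k ∧ Ind T),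
        ((X.filter (fun e => e ∉ T ∧ ¬ Ind (insert e T))).card : ℝ) := by
  classical
  by_cases hX : X = ∅
  · subst hX
    simp only [↓reduceIte, powerset_empty, filter_singleton, card_empty, zero_le, h0, and_self, sum_singleton, pow_zero, Order.lt_two_iff, mul_pos_iff_of_pos_left, and_true, filter_empty, CharP.cast_eq_zero, sum_const_zero, add_zero, Std.le_refl]
  · rw [if_neg hX]
    obtain ⟨e, he⟩ := Finset.nonempty_iff_ne_empty.mpr hX
    set P := X.powerset.filter (fun T => T.card ≤ 2 * k ∧ Ind T) with hP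
    set A := X.powerset.filter (fun T => (T.card < 2 * k ∧ Ind T) ∧ e ∉ T ∧ Ind (insert e T)) with hA
    set B := X.powerset.filter (fun T => (T.card < 2 * k ∧ Ind T) ∧ e ∉ T ∧ ¬ Ind (insert e T)) with hB
    set C := X.powerset.filter (fun T => (T.card = 2 * k ∧ Ind T) ∧ e ∉ T) with hC
    set D := X.powerset.filter (fun T => (T.card ≤ 2 * k ∧ Ind T) ∧ e ∈ T) with hD
    have hPu : P = (A ∪ B ∪ C) ∪ D := by
      ext T
      simp only [hP, hA, hB, hC, hD, mem_union, mem_filter, mem_powerset]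
      constructor
      · rintro ⟨h1, h2, h3⟩
        by_cases heT : e ∈ T
        · right; exact ⟨h1, ⟨h2, h3⟩, heT⟩
        · left
          rcases Nat.lt_or_eq_of_le h2 with h4 | h4
          · left
            by_cases h5 : Ind (insert e T)
            · left; exact ⟨h1, ⟨h4, h3⟩, heT, h5⟩
            · right; exact ⟨h1, ⟨h4, h3⟩, heT, h5⟩
          · right; exact ⟨h1, ⟨h4, h3⟩, heT⟩
      · rintro (((⟨h1, ⟨h2, h3⟩, h4, h5⟩ | ⟨h1, ⟨h2, h3⟩, h4, h5⟩) | ⟨h1, ⟨h2, h3⟩, h4⟩) | ⟨h1, ⟨h2, h3⟩, h4⟩)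
        · exact ⟨h1, h2.le, h3⟩
        · exact ⟨h1, h2.le, h3⟩
        · exact ⟨h1, h2.le, h3⟩
        · exact ⟨h1, h2, h3⟩
    have d1 : Disjoint (A ∪ B ∪ C) D := by
      rw [Finset.disjoint_left]
      intro T
      simp only [hA, hB, hC, hD, mem_union, mem_filter, mem_powerset]
      (clear * -; tauto)
    have d2 : Disjoint (A ∪ B) C := by
      rw [Finset.disjoint_left]
      intro T
      simp only [hA, hB, hC, mem_union, mem_filter, mem_powerset]
      rintro (⟨h1, ⟨h2, h3⟩, h4, h5⟩ | ⟨h1, ⟨h2, h3⟩, h4, h5⟩) ⟨h6, ⟨h7, h8⟩, h9⟩ <;> omega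
    have d3 : Disjoint A B := by
      rw [Finset.disjoint_left]
      intro T
      simp only [hA, hB, mem_filter, mem_powerset]
      (clear * -; tauto)
    have hDA : ∑ T ∈ D, (-1 : ℝ) ^ T.card = - ∑ T ∈ A, (-1 : ℝ) ^ T.card := by
      rw [← Finset.sum_neg_distrib]
      refine Finset.sum_nbij' (fun T => T.erase e) (fun T => insert e T) ?_ ?_ ?_ ?_ ?_
      · intro T hT
        simp only [hD, mem_filter, mem_powerset] at hT
        simp only [hA, mem_filter, mem_powerset]
        obtain ⟨h1, ⟨h2, h3⟩, h4⟩ := hT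
        refine ⟨(erase_subset _ _).trans h1, ⟨?_, hmono _ _ (erase_subset _ _) h3⟩, notMem_erase _ _, ?_⟩
        · have := card_erase_of_mem h4
          have h5 : 0 < T.card := card_pos.mpr ⟨e, h4⟩
          omega
        · rwa [insert_erase h4]
      · intro T hT
        simp only [hA, mem_filter, mem_powerset] at hT
        simp only [hD, mem_filter, mem_powerset]
        obtain ⟨h1, ⟨h2, h3⟩, h4, h5⟩ := hT
        refine ⟨insert_subset he h1, ⟨?_, h5⟩, mem_insert_self _ _⟩
        rw [card_insert_of_notMem h4]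
        omega
      · intro T hT
        simp only [hD, mem_filter, mem_powerset] at hT
        exact insert_erase hT.2.2
      · intro T hT
        simp only [hA, mem_filter, mem_powerset] at hT
        exact erase_insert hT.2.2.1
      · intro T hT
        simp only [hD, mem_filter, mem_powerset] at hT
        have h4 := hT.2.2
        have h5 : 0 < T.card := card_pos.mpr ⟨e, h4⟩
        have h6 := card_erase_of_mem h4
        have h7 : T.card = (T.erase e).card + 1 := by omega
        rw [h7, pow_succ]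
        ring
    have hCsum : 0 ≤ ∑ T ∈ C, (-1 : ℝ) ^ T.card := by
      apply Finset.sum_nonneg
      intro T hT
      simp only [hC, mem_filter, mem_powerset] at hT
      rw [hT.2.1.1, pow_mul]
      simp only [even_two, Even.neg_pow, one_pow, zero_le_one]
    have hBsum : -(B.card : ℝ) ≤ ∑ T ∈ B, (-1 : ℝ) ^ T.card := by
      have : ∑ T ∈ B, (-1 : ℝ) ≤ ∑ T ∈ B, (-1 : ℝ) ^ T.card := by
        apply Finset.sum_le_sum
        intro T _
        rcases neg_one_pow_eq_or ℝ T.card with h | h <;> rw [h]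
        norm_num
      simpa only [ge_iff_le, sum_neg_distrib, sum_const, nsmul_eq_mul, mul_one] using this
    have hBcard : (B.card : ℝ) ≤ ∑ T ∈ X.powerset.filter (fun T => T.card < 2 * k ∧ Ind T),
        ((X.filter (fun e => e ∉ T ∧ ¬ Ind (insert e T))).card : ℝ) := by
      have h1 : B ⊆ X.powerset.filter (fun T => T.card < 2 * k ∧ Ind T) := by
        intro T
        simp only [hB, mem_filter, mem_powerset]
        (clear * -; tauto)
      calc (B.card : ℝ) = ∑ T ∈ B, (1 : ℝ) := by simp only [sum_const, nsmul_eq_mul, mul_one]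
        _ ≤ ∑ T ∈ B, ((X.filter (fun e => e ∉ T ∧ ¬ Ind (insert e T))).card : ℝ) := by
            apply Finset.sum_le_sum
            intro T hT
            simp only [hB, mem_filter, mem_powerset] at hT
            have : 0 < (X.filter (fun e => e ∉ T ∧ ¬ Ind (insert e T))).card := by
              rw [card_pos]
              exact ⟨e, by simp only [mem_filter]; exact ⟨he, hT.2.2.1, hT.2.2.2⟩⟩
            exact_mod_cast this
        _ ≤ _ := Finset.sum_le_sum_of_subset_of_nonneg h1 (fun _ _ _ => by (clear * -; positivity))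
    have hsum : ∑ T ∈ P, (-1 : ℝ) ^ T.card = ∑ T ∈ B, (-1 : ℝ) ^ T.card + ∑ T ∈ C, (-1 : ℝ) ^ T.card := by
      rw [hPu, sum_union d1, sum_union d2, sum_union d3, hDA]
      ring
    rw [hsum]
    linarith only [hCsum, hBsum, hBcard]

theorem sum_interval_weights (X T : Finset α) (hT : T ⊆ X) (th : ℝ) :
    ∑ Y ∈ X.powerset.filter (fun Y => T ⊆ Y), th ^ Y.card * (1 - th) ^ (X.card - Y.card) = th ^ T.card := by
  have h1 : ∑ Y ∈ X.powerset.filter (fun Y => T ⊆ Y), th ^ Y.card * (1 - th) ^ (X.card - Y.card)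
      = ∑ B ∈ (X \ T).powerset, th ^ T.card * (th ^ B.card * (1 - th) ^ ((X \ T).card - B.card)) := by
    refine Finset.sum_nbij' (fun Y => Y \ T) (fun B => B ∪ T) ?_ ?_ ?_ ?_ ?_
    · intro Y hY
      simp only [mem_filter, mem_powerset] at hY ⊢
      exact sdiff_subset_sdiff hY.1 (le_refl _)
    · intro B hB
      simp only [mem_filter, mem_powerset] at hB ⊢
      exact ⟨union_subset (hB.trans sdiff_subset) hT, subset_union_right⟩
    · intro Y hY
      simp only [mem_filter, mem_powerset] at hY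
      exact sdiff_union_of_subset hY.2
    · intro B hB
      simp only [mem_powerset] at hB
      rw [union_sdiff_right, Finset.sdiff_eq_self_iff_disjoint]
      exact (disjoint_of_subset_left hB sdiff_disjoint)
    · intro Y hY
      simp only [mem_filter, mem_powerset] at hY
      have e1 : Y.card = (Y \ T).card + T.card := (card_sdiff_add_card_eq_card hY.2).symm
      have e2 : X.card = (X \ T).card + T.card := (card_sdiff_add_card_eq_card hT).symm
      have e3 : X.card - Y.card = (X \ T).card - (Y \ T).card := by omega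
      rw [e3, e1, pow_add]
      ring
  rw [h1, ← Finset.mul_sum, Finset.sum_pow_mul_eq_add_pow]
  simp only [add_sub_cancel, one_pow, mul_one]

/-- thinned form -/
theorem bonf_thin (Ind : Finset α → Prop) [DecidablePred Ind]
    (hmono : ∀ A B : Finset α, A ⊆ B → Ind B → Ind A) (h0 : Ind ∅) (X : Finset α) (k : ℕ)
    (th : ℝ) (h0t : 0 ≤ th) (h1t : th ≤ 1) :
    (1 - th) ^ X.card ≤
      ∑ T ∈ X.powerset.filter (fun T => T.card ≤ 2 * k ∧ Ind T), (-th) ^ T.card
      + ∑ T ∈ X.powerset.filter (fun T => T.card < 2 * k ∧ Ind T),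
        ((X.filter (fun e => e ∉ T ∧ ¬ Ind (insert e T))).card : ℝ) := by
  classical
  set pairs : Finset α → ℝ := fun Y => ∑ T ∈ Y.powerset.filter (fun T => T.card < 2 * k ∧ Ind T),
        ((Y.filter (fun e => e ∉ T ∧ ¬ Ind (insert e T))).card : ℝ) with hpairs
  set w : Finset α → ℝ := fun Y => th ^ Y.card * (1 - th) ^ (X.card - Y.card) with hw
  have hw0 : ∀ Y, 0 ≤ w Y := fun Y => mul_nonneg (pow_nonneg h0t _) (pow_nonneg (by linarith) _)
  have hwsum : ∑ Y ∈ X.powerset, w Y = 1 := by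
    rw [hw, Finset.sum_pow_mul_eq_add_pow]; simp
  have hpm : ∀ Y ∈ X.powerset, pairs Y ≤ pairs X := by
    intro Y hY
    rw [mem_powerset] at hY
    simp only [hpairs]
    calc ∑ T ∈ Y.powerset.filter (fun T => T.card < 2 * k ∧ Ind T),
          ((Y.filter (fun e => e ∉ T ∧ ¬ Ind (insert e T))).card : ℝ)
        ≤ ∑ T ∈ Y.powerset.filter (fun T => T.card < 2 * k ∧ Ind T),
          ((X.filter (fun e => e ∉ T ∧ ¬ Ind (insert e T))).card : ℝ) := by
          apply Finset.sum_le_sum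
          intro T _
          exact_mod_cast Finset.card_le_card (Finset.filter_subset_filter _ hY)
      _ ≤ _ := Finset.sum_le_sum_of_subset_of_nonneg
            (Finset.filter_subset_filter _ (powerset_mono.mpr hY)) (fun _ _ _ => by (clear * -; positivity))
  have hb : ∀ Y ∈ X.powerset, w Y * (if Y = ∅ then (1 : ℝ) else 0) ≤
      w Y * (∑ T ∈ Y.powerset.filter (fun T => T.card ≤ 2 * k ∧ Ind T), (-1 : ℝ) ^ T.card) + w Y * pairs X := by
    intro Y hY
    rw [← mul_add]
    apply mul_le_mul_of_nonneg_left _ (hw0 Y)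
    have := bonf Ind hmono h0 Y k
    have h2 := hpm Y hY
    simp only [hpairs] at h2 ⊢
    linarith only [this, h2]
  have hsum := Finset.sum_le_sum hb
  rw [Finset.sum_add_distrib, ← Finset.sum_mul, hwsum, one_mul] at hsum
  have e1 : ∑ Y ∈ X.powerset, w Y * (if Y = ∅ then (1 : ℝ) else 0) = (1 - th) ^ X.card := by
    rw [Finset.sum_eq_single ∅]
    · simp only [hw, card_empty, pow_zero, tsub_zero, one_mul, ↓reduceIte, mul_one]
    · intro Y _ hY; simp [hY]
    · intro h; exact absurd (empty_mem_powerset X) h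
  have e2 : ∑ Y ∈ X.powerset, w Y * (∑ T ∈ Y.powerset.filter (fun T => T.card ≤ 2 * k ∧ Ind T), (-1 : ℝ) ^ T.card)
      = ∑ T ∈ X.powerset.filter (fun T => T.card ≤ 2 * k ∧ Ind T), (-th) ^ T.card := by
    have h1 : ∀ Y ∈ X.powerset, w Y * (∑ T ∈ Y.powerset.filter (fun T => T.card ≤ 2 * k ∧ Ind T), (-1 : ℝ) ^ T.card)
        = ∑ T ∈ X.powerset.filter (fun T => T.card ≤ 2 * k ∧ Ind T), if T ⊆ Y then w Y * (-1 : ℝ) ^ T.card else 0 := by
      intro Y hY
      rw [mem_powerset] at hY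
      rw [← Finset.sum_filter, Finset.mul_sum]
      apply Finset.sum_congr _ (fun _ _ => rfl)
      ext T
      simp only [mem_filter, mem_powerset]
      constructor
      · rintro ⟨h1, h2⟩; exact ⟨⟨h1.trans hY, h2⟩, h1⟩
      · rintro ⟨⟨_, h2⟩, h3⟩; exact ⟨h3, h2⟩
    rw [Finset.sum_congr rfl h1, Finset.sum_comm]
    apply Finset.sum_congr rfl
    intro T hT
    rw [mem_filter, mem_powerset] at hT
    rw [← Finset.sum_filter, ← Finset.sum_mul]
    have := sum_interval_weights X T hT.1 th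
    simp only [hw]
    rw [this, neg_pow th]
    ring
  rw [e1, e2] at hsum
  exact hsum

/-- rank form -/
theorem bonf_rank (Ind : Finset α → Prop) [DecidablePred Ind]
    (hmono : ∀ A B : Finset α, A ⊆ B → Ind B → Ind A) (h0 : Ind ∅) (X : Finset α) (k : ℕ)
    (th : ℝ) (h0t : 0 ≤ th) (h1t : th ≤ 1) (d : ℕ) (hd : d < 2 * k) :
    (if (∀ T ∈ X.powerset, Ind T → T.card ≤ d) then (1 - th) ^ d else 0) ≤
      ∑ T ∈ X.powerset.filter (fun T => T.card ≤ 2 * k ∧ Ind T), (-th) ^ T.card
      + 2 * ∑ T ∈ X.powerset.filter (fun T => T.card < 2 * k ∧ Ind T),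
        ((X.filter (fun e => e ∉ T ∧ ¬ Ind (insert e T))).card : ℝ) := by
  classical
  have hthin := bonf_thin Ind hmono h0 X k th h0t h1t
  set pn : ℕ := ∑ T ∈ X.powerset.filter (fun T => T.card < 2 * k ∧ Ind T),
        (X.filter (fun e => e ∉ T ∧ ¬ Ind (insert e T))).card with hpn
  have hcast : ∑ T ∈ X.powerset.filter (fun T => T.card < 2 * k ∧ Ind T),
        ((X.filter (fun e => e ∉ T ∧ ¬ Ind (insert e T))).card : ℝ) = (pn : ℝ) := by
    rw [hpn, Nat.cast_sum]
  rw [hcast] at hthin ⊢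
  clear hcast
  generalize hSg : ∑ T ∈ X.powerset.filter (fun T => T.card ≤ 2 * k ∧ Ind T), (-th) ^ T.card = Sg at hthin ⊢
  have hpos : (0 : ℝ) ≤ (1 - th) ^ X.card := pow_nonneg (by linarith only [h1t]) _
  have hle1 : (1 - th) ^ d ≤ 1 := pow_le_one₀ (by linarith only [h1t]) (by linarith only [h0t])
  by_cases hrank : ∀ T ∈ X.powerset, Ind T → T.card ≤ d
  · rw [if_pos hrank]
    rcases Nat.eq_zero_or_pos pn with h | h
    · have hind : ∀ n : ℕ, ∀ T ⊆ X, T.card = n → n ≤ 2 * k → Ind T := by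
        intro n
        induction n with
        | zero => intro T _ hT _; rw [card_eq_zero.mp hT]; exact h0
        | succ n ih =>
          intro T hTX hT hn
          obtain ⟨e, he⟩ : T.Nonempty := card_pos.mp (by (clear * - hT; omega))
          have h3 : (T.erase e).card = n := by rw [card_erase_of_mem he]; (clear * - hT; omega)
          have h4 := ih (T.erase e) ((erase_subset _ _).trans hTX) h3 (by omega)
          by_contra hcon
          rw [hpn, Finset.sum_eq_zero_iff] at h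
          have h5 := h (T.erase e) (by
            simp only [mem_filter, mem_powerset]
            exact ⟨(erase_subset _ _).trans hTX, by omega, h4⟩)
          rw [card_eq_zero, Finset.filter_eq_empty_iff] at h5
          exact h5 (hTX he) ⟨notMem_erase _ _, by rwa [insert_erase he]⟩
      have hXd : X.card ≤ d := by
        by_contra hcon
        obtain ⟨T, hTX, hT⟩ := Finset.exists_subset_card_eq (show d + 1 ≤ X.card by (clear * - hcon; omega))
        have := hrank T (mem_powerset.mpr hTX) (hind _ T hTX hT (by omega))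
        omega
      have h6 : (1 - th) ^ d ≤ (1 - th) ^ X.card :=
        pow_le_pow_of_le_one (by linarith only [h1t]) (by linarith only [h0t]) hXd
      rw [h] at hthin ⊢
      push_cast at hthin ⊢
      linarith only [h6, hthin]
    · have : (1 : ℝ) ≤ pn := by exact_mod_cast h
      linarith only [hthin, hpos, hle1, this]
  · rw [if_neg hrank]
    have : (0 : ℝ) ≤ pn := Nat.cast_nonneg _
    linarith only [hthin, hpos]

end bonf

/-- alternating truncated binomial sum -/
theorem alt_binom (q : ℝ) (hq0 : 0 ≤ q) (hq1 : q ≤ 1) (M : ℕ) : ∀ j : ℕ,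
    |∑ i ∈ range (j + 1), (M.choose i : ℝ) * (-q) ^ i - (1 - q) ^ M| ≤ (M.choose (j + 1) : ℝ) * q ^ (j + 1) := by
  induction M with
  | zero =>
    intro j
    rw [Finset.sum_range_succ']
    simp only [Nat.choose_zero_succ, CharP.cast_eq_zero, zero_mul, sum_const_zero, Nat.choose_self, Nat.cast_one, pow_zero, mul_one, zero_add, sub_self, abs_zero, Std.le_refl]
  | succ M ih =>
    intro j
    have key : ∀ j : ℕ, ∑ i ∈ range (j + 1), ((M + 1).choose i : ℝ) * (-q) ^ i
        = ∑ i ∈ range (j + 1), (M.choose i : ℝ) * (-q) ^ i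
          - q * ∑ i ∈ range j, (M.choose i : ℝ) * (-q) ^ i := by
      intro j
      rw [Finset.sum_range_succ', Finset.sum_range_succ' (fun i => (M.choose i : ℝ) * (-q) ^ i)]
      simp only [Nat.choose_succ_succ, Nat.cast_add, add_mul, Finset.sum_add_distrib, Finset.mul_sum]
      have : ∑ i ∈ range j, (M.choose i : ℝ) * (-q) ^ (i + 1) = - ∑ i ∈ range j, q * ((M.choose i : ℝ) * (-q) ^ i) := by
        rw [← Finset.sum_neg_distrib]
        apply Finset.sum_congr rfl
        intro i _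
        rw [pow_succ]; ring
      rw [this]
      simp only [Nat.succ_eq_add_one, Nat.choose_zero_right, Nat.cast_one, pow_zero, mul_one]
      ring
    rw [key j]
    rcases j with _ | j
    · simp only [range_zero, sum_empty, mul_zero, sub_zero, zero_add, pow_one, Nat.choose_one_right,
        Nat.cast_add, Nat.cast_one]
      have h0 := ih 0
      simp only [zero_add, range_one, sum_singleton, Nat.choose_zero_right, Nat.cast_one, pow_zero, mul_one, Nat.choose_one_right, pow_one] at h0 ⊢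
      have h1 : (1 - q) ^ (M + 1) = (1 - q) ^ M - q * (1 - q) ^ M := by ring
      rw [h1]
      have h2 : (1 - q) ^ M ≤ 1 := pow_le_one₀ (by linarith only [hq1]) (by linarith only [hq0])
      have h3 : 0 ≤ (1 - q) ^ M := pow_nonneg (by linarith only [hq1]) _
      rw [abs_le] at h0 ⊢
      constructor <;> nlinarith only [h0, hq0, h2, h3]
    · have h1 := ih (j + 1)
      have h2 := ih j
      have h3 : (1 - q) ^ (M + 1) = (1 - q) ^ M - q * (1 - q) ^ M := by ring
      rw [h3]
      have h4 : ((M + 1).choose (j + 1 + 1) : ℝ) = M.choose (j + 1) + M.choose (j + 2) := by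
        rw [Nat.choose_succ_succ]; push_cast; ring
      rw [h4]
      have h5 : (∑ i ∈ range (j + 1 + 1), (M.choose i : ℝ) * (-q) ^ i
          - q * ∑ i ∈ range (j + 1), (M.choose i : ℝ) * (-q) ^ i) - ((1 - q) ^ M - q * (1 - q) ^ M)
          = (∑ i ∈ range (j + 1 + 1), (M.choose i : ℝ) * (-q) ^ i - (1 - q) ^ M)
            - q * (∑ i ∈ range (j + 1), (M.choose i : ℝ) * (-q) ^ i - (1 - q) ^ M) := by ring
      rw [h5]
      refine (abs_sub _ _).trans ?_
      rw [abs_mul, abs_of_nonneg hq0]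
      have h6 : q * |∑ i ∈ range (j + 1), (M.choose i : ℝ) * (-q) ^ i - (1 - q) ^ M| ≤ q * ((M.choose (j + 1) : ℝ) * q ^ (j + 1)) := by
        gcongr
      have h7 : ((M.choose (j + 1) : ℝ) + M.choose (j + 2)) * q ^ (j + 1 + 1)
        = q * ((M.choose (j + 1) : ℝ) * q ^ (j + 1)) + M.choose (j + 1 + 1) * q ^ (j + 1 + 1) := by ring
      rw [h7]
      linarith only [h6, h1]

end Vale.Agent.P230
end
end
end

section

section

section

namespace Vale.Agent.P230

open Finset

section absFC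

variable {Ω α : Type*} [Fintype Ω] [DecidableEq α]

/-- weighted count of (independent set, dependent extension) pairs -/
noncomputable def Ew (S : Finset α) (Ind : Finset α → Prop) [DecidablePred Ind] (k : ℕ) (q : ℝ) : ℝ :=
  ∑ T ∈ S.powerset.filter (fun T => T.card < 2 * k ∧ Ind T),
    ((S.filter (fun e => e ∉ T ∧ ¬ Ind (insert e T))).card : ℝ) * q ^ T.card

theorem sum_biUnion_le_sum_of_nonneg' {ι β : Type*} [DecidableEq β] [DecidableEq ι] (s : Finset ι) (t : ι → Finset β)
    (f : β → ℝ) (hf : ∀ b, 0 ≤ f b) : ∑ b ∈ s.biUnion t, f b ≤ ∑ i ∈ s, ∑ b ∈ t i, f b := by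
  induction s using Finset.induction_on with
  | empty => simp
  | insert a s ha ih =>
    rw [biUnion_insert, Finset.sum_insert ha]
    have h1 : ∑ b ∈ t a ∪ s.biUnion t, f b ≤ ∑ b ∈ t a, f b + ∑ b ∈ s.biUnion t, f b := by
      rw [← Finset.sum_union_inter]
      have : 0 ≤ ∑ b ∈ t a ∩ s.biUnion t, f b := Finset.sum_nonneg (fun b _ => hf b)
      linarith only [this]
    linarith only [ih, h1]

theorem sum_superset_le (S A : Finset α) (q : ℝ) (hq : 0 ≤ q) :
    ∑ T ∈ S.powerset.filter (fun T => A ⊆ T), q ^ T.card ≤ q ^ A.card * (1 + q) ^ S.card := by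
  have h1 : (1 + q) ^ S.card = ∑ B ∈ S.powerset, q ^ B.card := by
    rw [add_comm, ← Finset.sum_pow_mul_eq_add_pow]
    simp only [one_pow, mul_one]
  rw [h1, Finset.mul_sum]
  have h2 : ∑ T ∈ S.powerset.filter (fun T => A ⊆ T), q ^ T.card
      = ∑ B ∈ (S.powerset.filter (fun T => A ⊆ T)).image (fun T => T \ A), q ^ A.card * q ^ B.card := by
    rw [Finset.sum_image]
    · apply Finset.sum_congr rfl
      intro T hT
      simp only [mem_filter, mem_powerset] at hT
      rw [← pow_add, add_comm, card_sdiff_add_card_eq_card hT.2]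
    · intro T hT T' hT' h
      simp only [coe_filter, mem_powerset, Set.mem_ofPred_eq] at hT hT'
      have : T = (T \ A) ∪ A := by rw [sdiff_union_of_subset hT.2]
      rw [this, show T \ A = T' \ A from h, sdiff_union_of_subset hT'.2]
  rw [h2]
  apply Finset.sum_le_sum_of_subset_of_nonneg
  · intro B hB
    simp only [mem_image, mem_filter, mem_powerset] at hB ⊢
    obtain ⟨T, ⟨h3, _⟩, rfl⟩ := hB
    exact sdiff_subset.trans h3
  · intro _ _ _
    (clear * - hq; positivity)

theorem dep_sum_le (S : Finset α) (Ind : Finset α → Prop) [DecidablePred Ind] (h0 : Ind ∅)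
    (k : ℕ) (q : ℝ) (hq : 0 ≤ q) :
    ∑ T ∈ S.powerset.filter (fun T => T.card ≤ 2 * k ∧ ¬ Ind T), q ^ T.card
      ≤ q * (1 + q) ^ S.card * Ew S Ind k q := by
  classical
  have hex : ∀ T : Finset α, ¬ Ind T → ∃ T' e, T' ⊆ T ∧ Ind T' ∧ e ∈ T ∧ e ∉ T' ∧ ¬ Ind (insert e T') := by
    intro T hT
    obtain ⟨T', hT', hmax⟩ := Finset.exists_max_image (T.powerset.filter Ind) Finset.card
      ⟨∅, by simp [h0]⟩
    simp only [mem_filter, mem_powerset] at hT' hmax
    have hne : T' ≠ T := by rintro rfl; exact hT hT'.2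
    obtain ⟨e, he, he'⟩ := Finset.exists_of_ssubset (Finset.ssubset_iff_subset_ne.mpr ⟨hT'.1, hne⟩)
    refine ⟨T', e, hT'.1, hT'.2, he, he', fun h => ?_⟩
    have := hmax (insert e T') ⟨insert_subset he hT'.1, h⟩
    rw [card_insert_of_notMem he'] at this
    omega
  have hsub : S.powerset.filter (fun T => T.card ≤ 2 * k ∧ ¬ Ind T) ⊆
      (S.powerset.filter (fun T => T.card < 2 * k ∧ Ind T)).biUnion (fun T' =>
        (S.filter (fun e => e ∉ T' ∧ ¬ Ind (insert e T'))).biUnion (fun e =>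
          S.powerset.filter (fun T => insert e T' ⊆ T))) := by
    intro T hT
    simp only [mem_filter, mem_powerset] at hT
    obtain ⟨hTS, hTk, hTd⟩ := hT
    obtain ⟨T', e, h1, h2, h3, h4, h5⟩ := hex T hTd
    simp only [mem_biUnion, mem_filter, mem_powerset]
    refine ⟨T', ⟨h1.trans hTS, ?_, h2⟩, e, ⟨hTS h3, h4, h5⟩, hTS, insert_subset h3 h1⟩
    have : T'.card < T.card := card_lt_card (Finset.ssubset_iff_of_subset h1 |>.mpr ⟨e, h3, h4⟩)
    omega
  calc ∑ T ∈ S.powerset.filter (fun T => T.card ≤ 2 * k ∧ ¬ Ind T), q ^ T.card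
      ≤ ∑ T ∈ (S.powerset.filter (fun T => T.card < 2 * k ∧ Ind T)).biUnion (fun T' =>
        (S.filter (fun e => e ∉ T' ∧ ¬ Ind (insert e T'))).biUnion (fun e =>
          S.powerset.filter (fun T => insert e T' ⊆ T))), q ^ T.card :=
        Finset.sum_le_sum_of_subset_of_nonneg hsub (fun _ _ _ => by (clear * - hq; positivity))
    _ ≤ ∑ T' ∈ S.powerset.filter (fun T => T.card < 2 * k ∧ Ind T),
          ∑ T ∈ (S.filter (fun e => e ∉ T' ∧ ¬ Ind (insert e T'))).biUnion (fun e =>
          S.powerset.filter (fun T => insert e T' ⊆ T)), q ^ T.card :=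
        sum_biUnion_le_sum_of_nonneg' _ _ _ (fun _ => by positivity)
    _ ≤ ∑ T' ∈ S.powerset.filter (fun T => T.card < 2 * k ∧ Ind T),
          ∑ e ∈ S.filter (fun e => e ∉ T' ∧ ¬ Ind (insert e T')),
            ∑ T ∈ S.powerset.filter (fun T => insert e T' ⊆ T), q ^ T.card := by
        apply Finset.sum_le_sum
        intro T' _
        exact sum_biUnion_le_sum_of_nonneg' _ _ _ (fun _ => by positivity)
    _ ≤ ∑ T' ∈ S.powerset.filter (fun T => T.card < 2 * k ∧ Ind T),
          ∑ e ∈ S.filter (fun e => e ∉ T' ∧ ¬ Ind (insert e T')),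
            q ^ (T'.card + 1) * (1 + q) ^ S.card := by
        apply Finset.sum_le_sum
        intro T' _
        apply Finset.sum_le_sum
        intro e he
        simp only [mem_filter] at he
        have := sum_superset_le S (insert e T') q hq
        rwa [card_insert_of_notMem he.2.1] at this
    _ = q * (1 + q) ^ S.card * Ew S Ind k q := by
        rw [Ew, Finset.mul_sum]
        apply Finset.sum_congr rfl
        intro T' _
        rw [Finset.sum_const, nsmul_eq_mul]
        ring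

theorem trunc_sum_powerset (S : Finset α) (j : ℕ) (x : ℝ) :
    ∑ T ∈ S.powerset.filter (fun T => T.card ≤ j), x ^ T.card
      = ∑ i ∈ range (j + 1), (S.card.choose i : ℝ) * x ^ i := by
  rw [Finset.sum_filter]
  have h1 := Finset.sum_powerset_apply_card (fun i => if i ≤ j then x ^ i else 0) (x := S)
  rw [h1]
  have h2 : ∀ n : ℕ, S.card ≤ n → ∑ m ∈ range (S.card + 1), S.card.choose m • (if m ≤ j then x ^ m else 0)
      = ∑ m ∈ range (n + 1), S.card.choose m • (if m ≤ j then x ^ m else 0) := by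
    intro n hn
    apply Finset.sum_subset
    · intro m; simp only [mem_range]; omega
    · intro m _ hm
      simp only [mem_range, not_lt] at hm
      rw [Nat.choose_eq_zero_of_lt (by omega)]
      simp only [zero_nsmul]
  rw [h2 (max S.card j) (le_max_left _ _)]
  have h3 : ∑ i ∈ range (j + 1), (S.card.choose i : ℝ) * x ^ i
      = ∑ i ∈ range (j + 1), S.card.choose i • (if i ≤ j then x ^ i else 0) := by
    apply Finset.sum_congr rfl
    intro i hi
    simp only [mem_range] at hi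
    rw [if_pos (by omega), nsmul_eq_mul]
  rw [h3]
  symm
  apply Finset.sum_subset
  · intro m; simp only [mem_range]; have := le_max_right S.card j; omega
  · intro m _ hm
    simp only [mem_range, not_lt] at hm
    rw [if_neg (by omega)]
    simp

theorem Ew_nonneg (S : Finset α) (Ind : Finset α → Prop) [DecidablePred Ind] (k : ℕ) (q : ℝ) (hq : 0 ≤ q) :
    0 ≤ Ew S Ind k q := Finset.sum_nonneg (fun _ _ => by (clear * - hq; positivity))

theorem Ew_mono (S : Finset α) (Ind : Finset α → Prop) [DecidablePred Ind] (k : ℕ) {q q' : ℝ} (hq : 0 ≤ q)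
    (hqq : q ≤ q') : Ew S Ind k q ≤ Ew S Ind k q' := by
  unfold Ew
  apply Finset.sum_le_sum
  intro T _
  gcongr

/-- abstract form of the hitting lemma, with rank condition -/
theorem FC_abs (hit : Ω → α → Prop) [∀ L, DecidablePred (hit L)] (S : Finset α)
    (Ind : Finset α → Prop) [DecidablePred Ind]
    (hmono : ∀ A B : Finset α, A ⊆ B → Ind B → Ind A) (h0 : Ind ∅)
    (q : ℝ) (hq0 : 0 ≤ q) (hq1 : q ≤ 1) (k : ℕ)
    (hcount : ∀ T, T ⊆ S → Ind T → T.card ≤ 2 * k →
      ((Finset.univ.filter (fun L => ∀ y ∈ T, hit L y)).card : ℝ) = q ^ T.card * Fintype.card Ω)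
    (th : ℝ) (h0t : 0 ≤ th) (h1t : th ≤ 1) (d : ℕ) (hd : d < 2 * k) :
    (1 - th) ^ d * ((Finset.univ.filter (fun L => ∀ T ∈ (S.filter (hit L)).powerset, Ind T → T.card ≤ d)).card : ℝ) ≤
      Fintype.card Ω * ((1 - th * q) ^ S.card + (S.card.choose (2 * k + 1) : ℝ) * (th * q) ^ (2 * k + 1)
        + (2 + th * q * (1 + th * q) ^ S.card) * Ew S Ind k q) := by
  classical
  set X : Ω → Finset α := fun L => S.filter (hit L) with hX
  have hsubX : ∀ L T, T ∈ S.powerset → (T ⊆ X L ↔ ∀ y ∈ T, hit L y) := by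
    intro L T hT
    rw [mem_powerset] at hT
    constructor
    · intro h y hy
      have := h hy
      rw [hX, mem_filter] at this
      exact this.2
    · intro h y hy
      rw [hX, mem_filter]
      exact ⟨hT hy, h y hy⟩
  have hpow : ∀ (L : Ω) (P : Finset α → Prop) [DecidablePred P] (g : Finset α → ℝ),
      ∑ T ∈ (X L).powerset.filter P, g T
        = ∑ T ∈ S.powerset.filter P, if (∀ y ∈ T, hit L y) then g T else 0 := by
    intro L P _ g
    rw [← Finset.sum_filter, Finset.filter_filter]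
    apply Finset.sum_congr _ (fun _ _ => rfl)
    ext T
    simp only [mem_filter, mem_powerset]
    constructor
    · rintro ⟨h1, h2⟩
      have h3 : T ⊆ S := h1.trans (filter_subset _ _)
      exact ⟨h3, h2, (hsubX L T (mem_powerset.mpr h3)).1 h1⟩
    · rintro ⟨h1, h2, h3⟩
      exact ⟨(hsubX L T (mem_powerset.mpr h1)).2 h3, h2⟩
  have hswap : ∀ (P : Finset α → Prop) [DecidablePred P] (g : Finset α → ℝ), (∀ T, P T → Ind T ∧ T.card ≤ 2 * k) →
      ∑ L : Ω, ∑ T ∈ S.powerset.filter P, (if (∀ y ∈ T, hit L y) then g T else 0)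
        = ∑ T ∈ S.powerset.filter P, g T * (q ^ T.card * Fintype.card Ω) := by
    intro P _ g hP
    rw [Finset.sum_comm]
    apply Finset.sum_congr rfl
    intro T hT
    rw [mem_filter, mem_powerset] at hT
    rw [← hcount T hT.1 (hP T hT.2).1 (hP T hT.2).2, ← Finset.sum_filter, Finset.sum_const, nsmul_eq_mul]
    ring
  have hLHS : (1 - th) ^ d * ((Finset.univ.filter (fun L => ∀ T ∈ (X L).powerset, Ind T → T.card ≤ d)).card : ℝ)
      = ∑ L : Ω, (if (∀ T ∈ (X L).powerset, Ind T → T.card ≤ d) then (1 - th) ^ d else 0) := by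
    rw [← Finset.sum_filter, Finset.sum_const, nsmul_eq_mul]
    ring
  have hb := fun L : Ω => bonf_rank Ind hmono h0 (X L) k th h0t h1t d hd
  have step1 : (1 - th) ^ d * ((Finset.univ.filter (fun L => ∀ T ∈ (X L).powerset, Ind T → T.card ≤ d)).card : ℝ) ≤
      ∑ L : Ω, (∑ T ∈ (X L).powerset.filter (fun T => T.card ≤ 2 * k ∧ Ind T), (-th) ^ T.card
      + 2 * ∑ T ∈ (X L).powerset.filter (fun T => T.card < 2 * k ∧ Ind T),
        (((X L).filter (fun e => e ∉ T ∧ ¬ Ind (insert e T))).card : ℝ)) := by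
    rw [hLHS]
    exact Finset.sum_le_sum (fun L _ => hb L)
  rw [Finset.sum_add_distrib, ← Finset.mul_sum] at step1
  have e1 : ∑ L : Ω, ∑ T ∈ (X L).powerset.filter (fun T => T.card ≤ 2 * k ∧ Ind T), (-th) ^ T.card
      = (∑ T ∈ S.powerset.filter (fun T => T.card ≤ 2 * k ∧ Ind T), (-(th * q)) ^ T.card) * Fintype.card Ω := by
    simp only [hpow]
    rw [hswap _ _ (fun T hT => ⟨hT.2, hT.1⟩), Finset.sum_mul]
    apply Finset.sum_congr rfl
    intro T _
    have : (-(th * q)) = (-th) * q := by ring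
    rw [this, mul_pow]
    ring
  have e2 : ∑ L : Ω, ∑ T ∈ (X L).powerset.filter (fun T => T.card < 2 * k ∧ Ind T),
        (((X L).filter (fun e => e ∉ T ∧ ¬ Ind (insert e T))).card : ℝ)
      ≤ Ew S Ind k q * Fintype.card Ω := by
    have h1 : ∀ L : Ω, ∑ T ∈ (X L).powerset.filter (fun T => T.card < 2 * k ∧ Ind T),
        (((X L).filter (fun e => e ∉ T ∧ ¬ Ind (insert e T))).card : ℝ)
        ≤ ∑ T ∈ (X L).powerset.filter (fun T => T.card < 2 * k ∧ Ind T),
        ((S.filter (fun e => e ∉ T ∧ ¬ Ind (insert e T))).card : ℝ) := by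
      intro L
      apply Finset.sum_le_sum
      intro T _
      have : (X L).filter (fun e => e ∉ T ∧ ¬ Ind (insert e T)) ⊆ S.filter (fun e => e ∉ T ∧ ¬ Ind (insert e T)) :=
        Finset.filter_subset_filter _ (Finset.filter_subset _ _)
      exact_mod_cast Finset.card_le_card this
    refine (Finset.sum_le_sum (fun L _ => h1 L)).trans (le_of_eq ?_)
    simp only [hpow]
    rw [hswap _ _ (fun T hT => ⟨hT.2, hT.1.le⟩), Ew, Finset.sum_mul]
    apply Finset.sum_congr rfl
    intro T _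
    ring
  have hEw0 : 0 ≤ Ew S Ind k q := Ew_nonneg S Ind k q hq0
  have htq0 : 0 ≤ th * q := mul_nonneg h0t hq0
  have htq1 : th * q ≤ 1 := mul_le_one₀ h1t hq0 hq1
  have htq : th * q ≤ q := by linarith only [mul_nonneg (sub_nonneg.2 hq0) (sub_nonneg.2 h1t)]
  have e3 : ∑ T ∈ S.powerset.filter (fun T => T.card ≤ 2 * k ∧ Ind T), (-(th * q)) ^ T.card
      ≤ (1 - th * q) ^ S.card + (S.card.choose (2 * k + 1) : ℝ) * (th * q) ^ (2 * k + 1)
        + th * q * (1 + th * q) ^ S.card * Ew S Ind k q := by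
    have h1 : ∑ T ∈ S.powerset.filter (fun T => T.card ≤ 2 * k), (-(th * q)) ^ T.card
        = ∑ T ∈ S.powerset.filter (fun T => T.card ≤ 2 * k ∧ Ind T), (-(th * q)) ^ T.card
          + ∑ T ∈ S.powerset.filter (fun T => T.card ≤ 2 * k ∧ ¬ Ind T), (-(th * q)) ^ T.card := by
      rw [← Finset.sum_filter_add_sum_filter_not (S.powerset.filter (fun T => T.card ≤ 2 * k)) Ind,
        Finset.filter_filter, Finset.filter_filter]
    have h2 : -(∑ T ∈ S.powerset.filter (fun T => T.card ≤ 2 * k ∧ ¬ Ind T), (th * q) ^ T.card) ≤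
        ∑ T ∈ S.powerset.filter (fun T => T.card ≤ 2 * k ∧ ¬ Ind T), (-(th * q)) ^ T.card := by
      rw [← Finset.sum_neg_distrib]
      apply Finset.sum_le_sum
      intro T _
      have h3 : 0 ≤ (th * q) ^ T.card := pow_nonneg htq0 _
      rcases neg_one_pow_eq_or ℝ T.card with h | h
      · rw [neg_pow, h]; linarith only [h3]
      · rw [neg_pow, h]; linarith only []
    have h3 := dep_sum_le S Ind h0 k (th * q) htq0
    have h4 := trunc_sum_powerset S (2 * k) (-(th * q))
    have h5 := (abs_le.mp (alt_binom (th * q) htq0 htq1 S.card (2 * k))).2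
    have h6 : th * q * (1 + th * q) ^ S.card * Ew S Ind k (th * q)
        ≤ th * q * (1 + th * q) ^ S.card * Ew S Ind k q := by
      apply mul_le_mul_of_nonneg_left (Ew_mono S Ind k htq0 htq)
      (clear * - h0t hq0; positivity)
    linarith only [h1, h2, h3, h4, h5, h6]
  have hcard : (0 : ℝ) ≤ Fintype.card Ω := by (clear * -; (clear * -; positivity))
  calc (1 - th) ^ d * ((Finset.univ.filter (fun L => ∀ T ∈ (X L).powerset, Ind T → T.card ≤ d)).card : ℝ)
      ≤ (∑ T ∈ S.powerset.filter (fun T => T.card ≤ 2 * k ∧ Ind T), (-(th * q)) ^ T.card) * Fintype.card Ω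
        + 2 * (Ew S Ind k q * Fintype.card Ω) := by
          rw [e1] at step1
          linarith only [step1, e2]
    _ ≤ ((1 - th * q) ^ S.card + (S.card.choose (2 * k + 1) : ℝ) * (th * q) ^ (2 * k + 1)
        + th * q * (1 + th * q) ^ S.card * Ew S Ind k q) * Fintype.card Ω + 2 * (Ew S Ind k q * Fintype.card Ω) := by
          (clear * - e3; gcongr)
    _ = _ := by ring

end absFC

end Vale.Agent.P230
end
end
end

section

section

section

namespace Vale.Agent.P230

open MeasureTheory Finset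

end Vale.Agent.P230
end
end
end

section

section

section

namespace Vale.Agent.P230

theorem intCast_ne_zero_of_lt {p : ℕ} {a : ℤ} (h1 : a ≠ 0) (h2 : |a| < p) :
    (a : ZMod p) ≠ 0 := by
  intro h
  rw [ZMod.intCast_zmod_eq_zero_iff_dvd] at h
  have := Int.eq_zero_of_abs_lt_dvd h h2
  exact h1 this

theorem eq_of_cast_eq {p : ℕ} {a b : ℤ} (h : (a : ZMod p) = b) (h2 : |a - b| < p) : a = b := by
  by_contra hne
  apply intCast_ne_zero_of_lt (sub_ne_zero.2 hne) h2
  push_cast
  rw [h, sub_self]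

theorem mem_fracs {p : ℕ} [NeZero p] {H : ℕ} {x : ZMod p} : x ∈ fracs p H ↔
    ∃ t s : ℤ, 1 ≤ t ∧ t ≤ H ∧ |s| ≤ H ∧ x * (t : ZMod p) = (s : ZMod p) := by
  classical
  rw [fracs, Finset.mem_filter]
  simp only [Finset.mem_univ, exists_and_left, true_and]

theorem mem_castSet {N p : ℕ} {A : Finset (Fin N → ℤ)} {a : Fin N → ZMod p} :
    a ∈ castSet p A ↔ ∃ y ∈ A, ∀ i, (y i : ZMod p) = a i := by
  rw [castSet, Finset.mem_image]
  constructor
  · rintro ⟨y, hy, rfl⟩
    exact ⟨y, hy, fun i => rfl⟩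
  · rintro ⟨y, hy, h⟩
    exact ⟨y, hy, funext h⟩

theorem fracs_card (p : ℕ) [Fact p.Prime] (H : ℕ) (hH : H < p) :
    (fracs p H).card ≤ H * (2 * H + 1) := by
  classical
  have hsub : fracs p H ⊆ ((Finset.Icc (1 : ℤ) H) ×ˢ (Finset.Icc (-(H : ℤ)) H)).image
      (fun q : ℤ × ℤ => (q.2 : ZMod p) * ((q.1 : ZMod p))⁻¹) := by
    intro x hx
    obtain ⟨t, s, h1, h2, h3, h4⟩ := mem_fracs.1 hx
    rw [Finset.mem_image]
    refine ⟨(t, s), ?_, ?_⟩
    · rw [Finset.mem_product, Finset.mem_Icc, Finset.mem_Icc]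
      exact ⟨⟨h1, h2⟩, abs_le.1 h3⟩
    · have ht : (t : ZMod p) ≠ 0 := by
        apply intCast_ne_zero_of_lt (by omega)
        rw [abs_of_pos (by omega)]
        omega
      show (s : ZMod p) * (t : ZMod p)⁻¹ = x
      rw [← h4, mul_assoc, mul_inv_cancel₀ ht, mul_one]
  refine (Finset.card_le_card hsub).trans (Finset.card_image_le.trans ?_)
  rw [Finset.card_product, Int.card_Icc, Int.card_Icc]
  apply Nat.mul_le_mul
  · omega
  · omega

/-- The common computation: solutions of `x • a + w ∈ castSet p A`. -/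
theorem solutions_rel {p N : ℕ} [Fact p.Prime] {Y' : ℕ} {y y0 z z0 : Fin N → ℤ}
    (hy : ∀ i, |y i| ≤ Y') (hy0 : ∀ i, |y0 i| ≤ Y') (hz : ∀ i, |z i| ≤ Y')
    (hz0 : ∀ i, |z0 i| ≤ Y') (hp : 8 * Y' ^ 2 < p) {H : ℕ} (hHY : H ≤ 2 * Y')
    {x : ZMod p} {t s : ℤ} (ht1 : 1 ≤ t) (ht : t ≤ H) (hs : |s| ≤ H)
    (hx : x * (t : ZMod p) = (s : ZMod p)) {w : Fin N → ZMod p}
    (h : ∀ i, (z i : ZMod p) = x * (y i : ZMod p) + w i)
    (h0 : ∀ i, (z0 i : ZMod p) = x * (y0 i : ZMod p) + w i) (i : Fin N) :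
    s * (y i - y0 i) = t * (z i - z0 i) := by
  apply eq_of_cast_eq (p := p)
  · push_cast
    rw [h i, h0 i, ← hx]
    ring
  · have a1 := hy i
    have a2 := hy0 i
    have a3 := hz i
    have a4 := hz0 i
    have b1 : |y i - y0 i| ≤ 2 * Y' := (abs_sub _ _).trans (by linarith only [a1, a2])
    have b2 : |z i - z0 i| ≤ 2 * Y' := (abs_sub _ _).trans (by linarith only [a3, a4])
    have hH' : (H : ℤ) ≤ 2 * Y' := by exact_mod_cast hHY
    have ht' : |t| ≤ 2 * Y' := by rw [abs_of_pos (by omega)]; omega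
    have hs' : |s| ≤ 2 * Y' := hs.trans hH'
    have c1 : |s * (y i - y0 i)| ≤ (2 * Y') * (2 * Y') := by
      rw [abs_mul]
      exact mul_le_mul hs' b1 (abs_nonneg _) (by (clear * -; positivity))
    have c2 : |t * (z i - z0 i)| ≤ (2 * Y') * (2 * Y') := by
      rw [abs_mul]
      exact mul_le_mul ht' b2 (abs_nonneg _) (by (clear * -; positivity))
    have c3 : |s * (y i - y0 i) - t * (z i - z0 i)| ≤ 8 * (Y' : ℤ) ^ 2 := by
      refine (abs_sub _ _).trans ?_
      linarith only [c2, c1]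
    have hp' : 8 * (Y' : ℤ) ^ 2 < p := by exact_mod_cast hp
    exact lt_of_le_of_lt c3 hp'

theorem height_count {p N : ℕ} [Fact p.Prime] (A : Finset (Fin N → ℤ)) (Y' : ℕ)
    (hA : ∀ y ∈ A, ∀ i, |y i| ≤ Y') (hp : 8 * Y' ^ 2 < p) (H : ℕ) (hH2 : 2 ≤ H) (hHY : H ≤ 2 * Y')
    (B : ℕ) (hB : ∀ u : Fin N → ℤ, (A.filter (fun y => ∀ i, y i ≡ u i [ZMOD H])).card ≤ B)
    (x : ZMod p) (hx : x ∈ fracs p H) (hx' : x ∉ fracs p (H - 1)) (w : Fin N → ZMod p) :
    ((castSet p A).filter (fun a => x • a + w ∈ castSet p A)).card ≤ B := by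
  classical
  obtain ⟨t, s, ht1, ht, hs, hxt⟩ := mem_fracs.1 hx
  have hY : 1 ≤ Y' := by omega
  have hHp : H < p := by
    have : 2 * Y' ≤ 8 * Y' ^ 2 := by nlinarith only []
    omega
  -- the fraction is reduced
  have hcop : IsCoprime s t := by
    rw [Int.isCoprime_iff_gcd_eq_one]
    by_contra hg
    have hg0 : Int.gcd s t ≠ 0 := by
      intro h0
      rw [Int.gcd_eq_zero_iff] at h0
      omega
    have hg2 : 2 ≤ Int.gcd s t := by (clear * - hg hg0; omega)
    obtain ⟨s', hs'⟩ : (Int.gcd s t : ℤ) ∣ s := Int.gcd_dvd_left ..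
    obtain ⟨t', ht'⟩ : (Int.gcd s t : ℤ) ∣ t := Int.gcd_dvd_right ..
    set g : ℤ := (Int.gcd s t : ℤ) with hgdef
    have hg2' : 2 ≤ g := by rw [hgdef]; exact_mod_cast hg2
    have ht'1 : 1 ≤ t' := by
      by_contra hneg
      have : t' ≤ 0 := by omega
      have : g * t' ≤ 0 := mul_nonpos_of_nonneg_of_nonpos (by omega) this
      omega
    have htH : t' ≤ ((H - 1 : ℕ) : ℤ) := by
      have h1 : 2 * t' ≤ g * t' := by nlinarith only [hg2, ht', ht1]
      have h2 : 2 * t' ≤ H := by omega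
      (clear * - hH2 h2; omega)
    have hsH : |s'| ≤ ((H - 1 : ℕ) : ℤ) := by
      have h1 : |s| = g * |s'| := by
        rw [hs', abs_mul, abs_of_pos (by omega : (0:ℤ) < g)]
      have h2 : 2 * |s'| ≤ g * |s'| := by
        have := abs_nonneg s'
        nlinarith only [hg2, this]
      have h3 := abs_nonneg s'
      omega
    have hgp : (g : ZMod p) ≠ 0 := by
      apply intCast_ne_zero_of_lt (by omega)
      rw [abs_of_pos (by omega : (0:ℤ) < g)]
      have h1 : g ≤ t := by
        rw [ht']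
        linarith only [mul_nonneg (sub_nonneg.2 hg2') (sub_nonneg.2 ht'1), ht'1]
      (clear * - ht hHp ht' h1; omega)
    apply hx'
    rw [mem_fracs]
    refine ⟨t', s', ht'1, htH, hsH, ?_⟩
    have h1 : (g : ZMod p) * (x * t') = (g : ZMod p) * s' := by
      have h2 : x * (t : ZMod p) = (s : ZMod p) := hxt
      have e1 : (t : ZMod p) = (g : ZMod p) * t' := by
        have := congrArg (fun q : ℤ => (q : ZMod p)) ht'
        simpa only [Int.cast_mul] using this
      have e2 : (s : ZMod p) = (g : ZMod p) * s' := by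
        have := congrArg (fun q : ℤ => (q : ZMod p)) hs'
        simpa only [Int.cast_mul] using this
      rw [e1, e2] at h2
      rw [← h2]
      ring
    exact mul_left_cancel₀ hgp h1
  -- pick a solution
  rcases Finset.eq_empty_or_nonempty
    ((castSet p A).filter (fun a => x • a + w ∈ castSet p A)) with h0 | ⟨a0, ha0⟩
  · rw [h0, Finset.card_empty]
    exact Nat.zero_le _
  rw [Finset.mem_filter] at ha0
  obtain ⟨y0, hy0, hya0⟩ := mem_castSet.1 ha0.1
  obtain ⟨z0, hz0, hza0⟩ := mem_castSet.1 ha0.2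
  have key : ∀ a ∈ (castSet p A).filter (fun a => x • a + w ∈ castSet p A),
      ∃ y ∈ A, ∃ z ∈ A, (∀ i, (y i : ZMod p) = a i) ∧
        (∀ i, (z i : ZMod p) = (x • a + w) i) ∧
        ∀ i, s * (y i - y0 i) = t * (z i - z0 i) := by
    intro a ha
    rw [Finset.mem_filter] at ha
    obtain ⟨y, hy, hya⟩ := mem_castSet.1 ha.1
    obtain ⟨z, hz, hza⟩ := mem_castSet.1 ha.2
    refine ⟨y, hy, z, hz, hya, hza, ?_⟩
    intro i
    refine solutions_rel (hA y hy) (hA y0 hy0) (hA z hz) (hA z0 hz0) hp hHY ht1 ht hs hxt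
      (w := w) ?_ ?_ i
    · intro i
      rw [hza i, hya i]
      rfl
    · intro i
      rw [hza0 i, hya0 i]
      rfl
  have hmax : t = H ∨ |s| = H := by
    by_contra hne
    rw [not_or] at hne
    apply hx'
    rw [mem_fracs]
    exact ⟨t, s, ht1, by (clear * - hH2 ht hs hne; omega), by omega, hxt⟩
  rcases hmax with htH | hsH
  · refine le_trans ?_ (hB y0)
    have hsub : (castSet p A).filter (fun a => x • a + w ∈ castSet p A) ⊆
        (A.filter (fun y => ∀ i, y i ≡ y0 i [ZMOD H])).image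
          (fun y i => (y i : ZMod p)) := by
      intro a ha
      obtain ⟨y, hy, z, _, hya, _, hrel⟩ := key a ha
      rw [Finset.mem_image]
      refine ⟨y, ?_, funext hya⟩
      rw [Finset.mem_filter]
      refine ⟨hy, fun i => ?_⟩
      rw [Int.modEq_comm, Int.modEq_iff_dvd, ← htH]
      have h1 : t ∣ s * (y i - y0 i) := ⟨_, hrel i⟩
      exact hcop.symm.dvd_of_dvd_mul_left h1
    exact (Finset.card_le_card hsub).trans Finset.card_image_le
  · refine le_trans ?_ (hB z0)
    have hx0 : x ≠ 0 := by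
      intro h
      rw [h, zero_mul] at hxt
      have hs0 : s ≠ 0 := by
        intro h
        rw [h, abs_zero] at hsH
        omega
      exact intCast_ne_zero_of_lt hs0 (by omega) hxt.symm
    have hinj : Set.InjOn (fun a : Fin N → ZMod p => x • a + w)
        ((castSet p A).filter (fun a => x • a + w ∈ castSet p A) : Finset _) := by
      intro a _ b _ hab
      have h1 : x • a = x • b := add_right_cancel hab
      exact smul_right_injective _ hx0 h1
    rw [← Finset.card_image_of_injOn hinj]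
    have hsub : ((castSet p A).filter (fun a => x • a + w ∈ castSet p A)).image
        (fun a : Fin N → ZMod p => x • a + w) ⊆
        (A.filter (fun y => ∀ i, y i ≡ z0 i [ZMOD H])).image
          (fun y i => (y i : ZMod p)) := by
      intro b hb
      rw [Finset.mem_image] at hb
      obtain ⟨a, ha, rfl⟩ := hb
      obtain ⟨y, _, z, hz, _, hza, hrel⟩ := key a ha
      rw [Finset.mem_image]
      refine ⟨z, ?_, funext hza⟩
      rw [Finset.mem_filter]
      refine ⟨hz, fun i => ?_⟩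
      rw [Int.modEq_comm, Int.modEq_iff_dvd, ← hsH, abs_dvd]
      have h1 : s ∣ t * (z i - z0 i) := ⟨_, (hrel i).symm⟩
      exact hcop.dvd_of_dvd_mul_left h1
    exact (Finset.card_le_card hsub).trans Finset.card_image_le

theorem height_count' {p N : ℕ} [Fact p.Prime] (A : Finset (Fin N → ℤ)) (Y' : ℕ)
    (hA : ∀ y ∈ A, ∀ i, |y i| ≤ Y') (hp : 8 * Y' ^ 2 < p)
    (x : ZMod p) (hx' : x ∉ fracs p (2 * Y')) (w : Fin N → ZMod p) :
    ((castSet p A).filter (fun a => x • a + w ∈ castSet p A)).card ≤ 1 := by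
  classical
  rw [Finset.card_le_one]
  intro a ha b hb
  by_contra hab
  rw [Finset.mem_filter] at ha hb
  obtain ⟨y, hy, hya⟩ := mem_castSet.1 ha.1
  obtain ⟨z, hz, hza⟩ := mem_castSet.1 ha.2
  obtain ⟨y', hy', hyb⟩ := mem_castSet.1 hb.1
  obtain ⟨z', hz', hzb⟩ := mem_castSet.1 hb.2
  obtain ⟨i, hi⟩ : ∃ i, a i ≠ b i := by
    by_contra hno
    push Not at hno
    exact hab (funext hno)
  have hd : y i - y' i ≠ 0 := by
    intro h
    apply hi
    rw [← hya i, ← hyb i, sub_eq_zero.1 h]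
  have a1 := hA y hy i
  have a2 := hA y' hy' i
  have a3 := hA z hz i
  have a4 := hA z' hz' i
  have b1 : |y i - y' i| ≤ 2 * Y' := (abs_sub _ _).trans (by linarith only [a1, a2])
  have b2 : |z i - z' i| ≤ 2 * Y' := (abs_sub _ _).trans (by linarith only [a3, a4])
  have hrel : x * ((y i - y' i : ℤ) : ZMod p) = ((z i - z' i : ℤ) : ZMod p) := by
    push_cast
    rw [hza i, hzb i, hya i, hyb i]
    simp only [Pi.add_apply, Pi.smul_apply, smul_eq_mul]
    ring
  apply hx'
  rw [mem_fracs]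
  rcases lt_or_gt_of_ne hd with hneg | hpos
  · refine ⟨-(y i - y' i), -(z i - z' i), by (clear * - hneg; omega), ?_, ?_, ?_⟩
    · push_cast
      exact (neg_le_abs _).trans b1
    · push_cast
      rw [abs_neg]; exact b2
    · rw [Int.cast_neg, Int.cast_neg, mul_neg, hrel]
  · refine ⟨y i - y' i, z i - z' i, by omega, ?_, ?_, hrel⟩
    · push_cast
      exact (le_abs_self _).trans b1
    · push_cast
      exact b2

end Vale.Agent.P230
end
end
end

section

section

section

namespace Vale.Agent.P230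

/-- TASK B1 -/
theorem card_hits {N : ℕ} (p : ℕ) [Fact p.Prime] (B : Finset (Fin N → ℤ))
    (hB : AffIndMod p B) :
    (Finset.univ.filter (fun hu : (Fin N → ZMod p) × ZMod p =>
      ∀ s ∈ B, ∑ i, hu.1 i * (s i : ZMod p) = hu.2)).card * p ^ B.card = p ^ (N + 1) := by
  classical
  set M : Matrix B (Fin (N + 1)) (ZMod p) :=
    Matrix.of fun s => aug (fun i => (((s : Fin N → ℤ) i : ℤ) : ZMod p)) with hM
  have hrank : M.rank = Fintype.card B := LinearIndependent.rank_matrix (M := M) hB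
  have hsurj : Function.Surjective M.mulVecLin := by
    rw [← LinearMap.range_eq_top]
    apply Submodule.eq_top_of_finrank_eq
    rw [Module.finrank_fintype_fun_eq_card]
    exact hrank
  let L : ((Fin N → ZMod p) × ZMod p) →ₗ[ZMod p] (B → ZMod p) :=
    { toFun := fun hu s => ∑ i, hu.1 i * (((s : Fin N → ℤ) i : ℤ) : ZMod p) - hu.2
      map_add' := by
        intro x y
        funext s
        simp only [Prod.fst_add, Prod.snd_add, Pi.add_apply, add_mul, Finset.sum_add_distrib]
        ring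
      map_smul' := by
        intro c x
        funext s
        simp only [Prod.smul_fst, Prod.smul_snd, Pi.smul_apply, smul_eq_mul, RingHom.id_apply,
          mul_sub, Finset.mul_sum, mul_assoc] }
  have hL : Function.Surjective L := by
    intro y
    obtain ⟨x, hx⟩ := hsurj y
    refine ⟨(fun i => x i.succ, - x 0), ?_⟩
    funext s
    have h1 := congrFun hx s
    rw [Matrix.mulVecLin_apply, Matrix.mulVec, dotProduct, Fin.sum_univ_succ] at h1
    simp only [hM, Matrix.of_apply, aug, Fin.cons_zero, Fin.cons_succ, one_mul] at h1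
    rw [← h1]
    show ∑ i, x (Fin.succ i) * (((s : Fin N → ℤ) i : ℤ) : ZMod p) - (- x 0) = _
    rw [sub_neg_eq_add, add_comm]
    congr 1
    exact Finset.sum_congr rfl fun i _ => mul_comm _ _
  have hfr := LinearMap.finrank_range_add_finrank_ker L
  rw [LinearMap.range_eq_top.2 hL, finrank_top, Module.finrank_fintype_fun_eq_card,
    Module.finrank_prod, Module.finrank_fintype_fun_eq_card, Module.finrank_self,
    Fintype.card_fin, Fintype.card_coe] at hfr
  have hcard : (Finset.univ.filter (fun hu : (Fin N → ZMod p) × ZMod p =>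
      ∀ s ∈ B, ∑ i, hu.1 i * (s i : ZMod p) = hu.2)).card =
      p ^ Module.finrank (ZMod p) (LinearMap.ker L) := by
    have h1 := Module.card_eq_pow_finrank (K := ZMod p) (V := LinearMap.ker L)
    rw [ZMod.card] at h1
    rw [← h1, ← Fintype.card_subtype]
    refine Fintype.card_congr (Equiv.subtypeEquivRight fun hu => ?_)
    rw [LinearMap.mem_ker]
    constructor
    · intro h
      funext s
      show ∑ i, hu.1 i * (((s : Fin N → ℤ) i : ℤ) : ZMod p) - hu.2 = 0
      rw [h s s.2, sub_self]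
    · intro h s hs
      have h2 := congrFun h ⟨s, hs⟩
      exact sub_eq_zero.1 h2
  rw [hcard, ← pow_add, ← hfr, add_comm]

end Vale.Agent.P230
end
end
end

section

section

section

namespace Vale.Agent.P230

open Finset Module

/-- enumerations of a finset of size `ρ` -/
theorem card_enum {α : Type*} [DecidableEq α] (T : Finset α) (ρ : ℕ) (hT : T.card = ρ) :
    ((Fintype.piFinset (fun _ : Fin ρ => T)).filter (fun y => Function.Injective y)).card = ρ.factorial := by
  have h1 : Fintype.card (Fin ρ ↪ T) = ρ.factorial := by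
    rw [Fintype.card_embedding_eq]
    simp only [Fintype.card_coe, hT, Fintype.card_fin, Nat.descFactorial_self]
  rw [← h1]
  symm
  rw [← Finset.card_univ]
  refine Finset.card_bij (fun (f : Fin ρ ↪ T) _ => fun i => (f i : α)) ?_ ?_ ?_
  · intro f _
    simp only [mem_filter, Fintype.mem_piFinset]
    refine ⟨fun i => (f i).2, fun i j hij => f.injective (Subtype.ext hij)⟩
  · intro f _ g _ h
    ext i
    exact congrFun h i
  · intro y hy
    simp only [mem_filter, Fintype.mem_piFinset] at hy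
    refine ⟨⟨fun i => ⟨y i, hy.1 i⟩, fun i j hij => hy.2 (by simpa using hij)⟩, mem_univ _, rfl⟩

theorem image_enum {α : Type*} [DecidableEq α] (T : Finset α) (ρ : ℕ) (hT : T.card = ρ) (y : Fin ρ → α)
    (hy : ∀ i, y i ∈ T) (hi : Function.Injective y) : Finset.univ.image y = T := by
  apply Finset.eq_of_subset_of_card_le
  · intro a ha
    simp only [mem_image, mem_univ, true_and] at ha
    obtain ⟨i, rfl⟩ := ha
    exact hy i
  · rw [Finset.card_image_of_injective _ hi, Finset.card_univ, Fintype.card_fin, hT]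

open Classical in
theorem dep_count {N : ℕ} (S : Finset (Fin N → ℤ)) (ρ : ℕ) :
    (∑ T ∈ S.powerset.filter (fun T => T.card = ρ ∧ AffInd T),
      (S.filter (fun e => e ∉ T ∧ ¬ AffInd (insert e T))).card) * ρ.factorial ≤ (depTuples S (ρ + 1)).card := by
  set PP : Finset (Finset (Fin N → ℤ) × (Fin N → ℤ)) :=
    ((S.powerset.filter (fun T => T.card = ρ ∧ AffInd T)) ×ˢ S).filter
      (fun Te => Te.2 ∉ Te.1 ∧ ¬ AffInd (insert Te.2 Te.1)) with hPP
  have h1 : (∑ T ∈ S.powerset.filter (fun T => T.card = ρ ∧ AffInd T),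
      (S.filter (fun e => e ∉ T ∧ ¬ AffInd (insert e T))).card) = PP.card := by
    rw [hPP, Finset.card_filter, Finset.sum_product]
    apply Finset.sum_congr rfl
    intro T _
    rw [Finset.card_filter]
  set En : Finset (Fin N → ℤ) × (Fin N → ℤ) → Finset (Fin ρ → Fin N → ℤ) := fun Te =>
    (Fintype.piFinset (fun _ : Fin ρ => Te.1)).filter (fun y => Function.Injective y) with hEn
  have hmemPP : ∀ Te ∈ PP, Te.1 ⊆ S ∧ Te.1.card = ρ ∧ Te.2 ∈ S ∧ Te.2 ∉ Te.1 ∧ ¬ AffInd (insert Te.2 Te.1) := by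
    intro Te hTe
    simp only [hPP, mem_filter, mem_product, mem_powerset] at hTe
    (clear * - hTe; tauto)
  have h2 : (PP.sigma En).card = PP.card * ρ.factorial := by
    rw [Finset.card_sigma, Finset.sum_const_nat]
    intro Te hTe
    exact card_enum Te.1 ρ (hmemPP Te hTe).2.1
  rw [h1, ← h2]
  refine Finset.card_le_card_of_injOn (fun x => Fin.snoc (α := fun _ => Fin N → ℤ) x.2 x.1.2) ?_ ?_
  · rintro ⟨⟨T, e⟩, y⟩ hx
    rw [mem_coe, Finset.mem_sigma] at hx
    obtain ⟨hx1, hx2⟩ := hx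
    obtain ⟨hT, hTc, he, heT, hdep⟩ := hmemPP _ hx1
    simp only [hEn, mem_filter, Fintype.mem_piFinset] at hx2
    simp only at hT hTc he heT hdep
    have himg := image_enum T ρ hTc y hx2.1 hx2.2
    simp only [depTuples, coe_filter, Set.mem_ofPred_eq, Fintype.mem_piFinset]
    refine ⟨?_, ?_, ?_⟩
    · intro j
      refine Fin.lastCases ?_ (fun i => ?_) j
      · rw [Fin.snoc_last]; exact he
      · rw [Fin.snoc_castSucc]; exact hT (hx2.1 i)
    · rw [Fin.snoc_injective_iff]
      refine ⟨hx2.2, ?_⟩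
      rintro ⟨i, hi⟩
      exact heT (hi ▸ hx2.1 i)
    · intro hlin
      apply hdep
      -- the finite set is the range of the tuple
      set z : Fin (ρ + 1) → Fin N → ℤ := Fin.snoc (α := fun _ => Fin N → ℤ) y e with hz
      have hzinj : Function.Injective z := by
        rw [hz, Fin.snoc_injective_iff]
        refine ⟨hx2.2, ?_⟩
        rintro ⟨i, hi⟩
        exact heT (hi ▸ hx2.1 i)
      have hzr : ∀ s, s ∈ insert e T ↔ ∃ j, z j = s := by
        intro s
        rw [mem_insert]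
        constructor
        · rintro (rfl | hs)
          · exact ⟨Fin.last _, by rw [hz, Fin.snoc_last]⟩
          · rw [← himg, mem_image] at hs
            obtain ⟨i, _, hi⟩ := hs
            exact ⟨i.castSucc, by rw [hz, Fin.snoc_castSucc, hi]⟩
        · rintro ⟨j, rfl⟩
          refine Fin.lastCases ?_ (fun i => ?_) j
          · left; rw [hz, Fin.snoc_last]
          · right; rw [hz, Fin.snoc_castSucc]; exact hx2.1 i
      have hch : ∀ s : (insert e T : Finset (Fin N → ℤ)), ∃ j, z j = s := fun s => (hzr s).1 s.2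
      choose g hg using hch
      have hginj : Function.Injective g := by
        intro s t hst
        apply Subtype.ext
        rw [← hg s, ← hg t, hst]
      have := hlin.comp g hginj
      unfold AffInd
      convert this using 1
      ext s : 1
      simp only [Function.comp]
      rw [hg s]
  · rintro ⟨⟨T, e⟩, y⟩ hx ⟨⟨T', e'⟩, y'⟩ hx' h
    rw [mem_coe, Finset.mem_sigma] at hx hx'
    obtain ⟨hx1, hx2⟩ := hx
    obtain ⟨hx1', hx2'⟩ := hx'
    obtain ⟨hT, hTc, he, heT, hdep⟩ := hmemPP _ hx1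
    obtain ⟨hT', hTc', he', heT', hdep'⟩ := hmemPP _ hx1'
    simp only [hEn, mem_filter, Fintype.mem_piFinset] at hx2 hx2'
    simp only at h hTc hTc'
    obtain ⟨h3, h4⟩ := Fin.snoc_injective2 h
    have himg := image_enum T ρ hTc y hx2.1 hx2.2
    have himg' := image_enum T' ρ hTc' y' hx2'.1 hx2'.2
    subst h3 h4
    rw [himg] at himg'
    subst himg'
    rfl

open Classical in
theorem Ew_le {N : ℕ} (S : Finset (Fin N → ℤ)) (k : ℕ) (p : ℝ) (hp : 0 < p) (W : ℝ) (hW0 : 0 ≤ W)
    (hdep : ∀ ρ < 2 * k, ((depTuples S (ρ + 1)).card : ℝ) ≤ W * (S.card : ℝ) ^ ρ) :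
    Ew S AffInd k (1 / p) ≤ Real.exp (S.card / p) * W := by
  have h1 : Ew S AffInd k (1 / p) = ∑ ρ ∈ Finset.range (2 * k),
      ∑ T ∈ S.powerset.filter (fun T => T.card = ρ ∧ AffInd T),
        ((S.filter (fun e => e ∉ T ∧ ¬ AffInd (insert e T))).card : ℝ) * (1 / p) ^ ρ := by
    unfold Ew
    rw [← Finset.sum_fiberwise_of_maps_to (s := S.powerset.filter (fun T => T.card < 2 * k ∧ AffInd T))
      (t := Finset.range (2 * k)) (g := Finset.card)]
    · apply Finset.sum_congr rfl
      intro ρ hρ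
      rw [mem_range] at hρ
      rw [Finset.filter_filter]
      have : S.powerset.filter (fun T => (T.card < 2 * k ∧ AffInd T) ∧ T.card = ρ)
          = S.powerset.filter (fun T => T.card = ρ ∧ AffInd T) := by
        apply Finset.filter_congr
        intro T _
        constructor
        · rintro ⟨⟨_, h2⟩, h3⟩; exact ⟨h3, h2⟩
        · rintro ⟨h2, h3⟩; exact ⟨⟨by (clear * - hρ h2; omega), h3⟩, h2⟩
      rw [this]
      apply Finset.sum_congr rfl
      intro T hT
      rw [mem_filter] at hT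
      rw [hT.2.1]
    · intro T hT
      rw [mem_filter] at hT
      exact mem_range.mpr hT.2.1
  rw [h1]
  have h2 : ∀ ρ ∈ Finset.range (2 * k), ∑ T ∈ S.powerset.filter (fun T => T.card = ρ ∧ AffInd T),
        ((S.filter (fun e => e ∉ T ∧ ¬ AffInd (insert e T))).card : ℝ) * (1 / p) ^ ρ
        ≤ W * ((S.card / p) ^ ρ / (ρ.factorial : ℝ)) := by
    intro ρ hρ
    rw [mem_range] at hρ
    rw [← Finset.sum_mul]
    have h3 := dep_count S ρ
    have h4 : (∑ T ∈ S.powerset.filter (fun T => T.card = ρ ∧ AffInd T),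
      ((S.filter (fun e => e ∉ T ∧ ¬ AffInd (insert e T))).card : ℝ)) * (ρ.factorial : ℝ)
        ≤ W * (S.card : ℝ) ^ ρ := by
      refine le_trans ?_ (hdep ρ hρ)
      exact_mod_cast h3
    have h5 : (0 : ℝ) < (ρ.factorial : ℝ) := by exact_mod_cast Nat.factorial_pos ρ
    rw [← le_div_iff₀ h5] at h4
    calc (∑ T ∈ S.powerset.filter (fun T => T.card = ρ ∧ AffInd T),
      ((S.filter (fun e => e ∉ T ∧ ¬ AffInd (insert e T))).card : ℝ)) * (1 / p) ^ ρ
        ≤ (W * (S.card : ℝ) ^ ρ / (ρ.factorial : ℝ)) * (1 / p) ^ ρ := by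
          gcongr
      _ = W * ((S.card / p) ^ ρ / (ρ.factorial : ℝ)) := by
          rw [div_pow, div_pow, one_pow]
          ring
  refine (Finset.sum_le_sum h2).trans ?_
  rw [← Finset.mul_sum, mul_comm]
  apply mul_le_mul_of_nonneg_right _ hW0
  apply Real.sum_le_exp_of_nonneg
  (clear * - hp; positivity)

open Classical in
/-- first moment computation, rank form -/
theorem bad_count' {N : ℕ} (p : ℕ) [Fact p.Prime] (S : Finset (Fin N → ℤ))
    (k d : ℕ) (hdk : d < 2 * k)
    (hind : ∀ B ⊆ S, B.card ≤ 2 * k → AffInd B → AffIndMod p B)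
    (W : ℝ) (hW0 : 0 ≤ W)
    (hdep : ∀ ρ < 2 * k, ((depTuples S (ρ + 1)).card : ℝ) ≤ W * (S.card : ℝ) ^ ρ)
    (V : ℝ) (hV : V = (S.card : ℝ) / p) :
    ((Finset.univ.filter (fun hu : (Fin N → ZMod p) × ZMod p =>
      ∀ B ⊆ hit p S hu.1 hu.2, AffInd B → B.card ≤ d)).card : ℝ)
    ≤ 2 ^ d * (Real.exp (-V / 2) + (V / 2) ^ (2 * k + 1) / ((2 * k + 1).factorial : ℝ)
      + (2 + Real.exp (V / 2)) * (Real.exp V * W)) * (p : ℝ) ^ (N + 1) := by
  have hp1 : (1 : ℝ) ≤ p := by exact_mod_cast (Fact.out : p.Prime).one_lt.le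
  have hp0 : (0 : ℝ) < p := by linarith only [hp1]
  have hΩ : (Fintype.card ((Fin N → ZMod p) × ZMod p) : ℝ) = (p : ℝ) ^ (N + 1) := by
    rw [Fintype.card_prod, Fintype.card_pi]
    simp only [ZMod.card, prod_const, card_univ, Fintype.card_fin, Nat.cast_mul, Nat.cast_pow, pow_succ]
  have hmono : ∀ A B : Finset (Fin N → ℤ), A ⊆ B → AffInd B → AffInd A := by
    intro A B hAB hB
    have := hB.comp (fun s : A => (⟨s.1, hAB s.2⟩ : B)) (fun s t h => by
      apply Subtype.ext
      simpa only [SetLike.coe_eq_coe, Subtype.mk.injEq] using h)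
    exact this
  have h0 : AffInd (∅ : Finset (Fin N → ℤ)) := by
    unfold AffInd
    exact linearIndependent_empty_type
  have hq0 : (0 : ℝ) ≤ 1 / p := by (clear * - hp1; positivity)
  have hq1 : (1 : ℝ) / p ≤ 1 := by rw [div_le_one hp0]; exact hp1
  have main := FC_abs (Ω := (Fin N → ZMod p) × ZMod p) (α := Fin N → ℤ)
    (fun hu s => ∑ i, hu.1 i * (s i : ZMod p) = hu.2) S AffInd hmono h0 (1 / p) hq0 hq1 k
    (by
      intro T hT hind' hc
      have h1 := card_hits p T (hind T hT hc hind')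
      have h2 : (((Finset.univ.filter (fun hu : (Fin N → ZMod p) × ZMod p =>
        ∀ s ∈ T, ∑ i, hu.1 i * (s i : ZMod p) = hu.2)).card : ℝ)) * (p : ℝ) ^ T.card = (p : ℝ) ^ (N + 1) := by
        exact_mod_cast h1
      rw [hΩ, ← h2]
      rw [one_div, inv_pow]
      have : (p : ℝ) ^ T.card ≠ 0 := by (clear * - hp1; positivity)
      field_simp)
    (1 / 2) (by norm_num) (by norm_num) d hdk
  rw [hΩ] at main
  set bad := (Finset.univ.filter (fun hu : (Fin N → ZMod p) × ZMod p =>
      ∀ B ⊆ hit p S hu.1 hu.2, AffInd B → B.card ≤ d)) with hbad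
  have main' : (1 - 1 / 2 : ℝ) ^ d * (bad.card : ℝ) ≤ (p : ℝ) ^ (N + 1) *
      ((1 - 1 / 2 * (1 / (p : ℝ))) ^ S.card
        + (S.card.choose (2 * k + 1) : ℝ) * (1 / 2 * (1 / (p : ℝ))) ^ (2 * k + 1)
        + (2 + 1 / 2 * (1 / (p : ℝ)) * (1 + 1 / 2 * (1 / (p : ℝ))) ^ S.card)
          * Ew S AffInd k (1 / p)) := by
    refine le_trans (le_of_eq ?_) main
    congr 3
    ext hu
    rw [hbad, mem_filter, mem_filter]
    simp only [mem_univ, hit, true_and, mem_powerset]
  have hEw := Ew_le S k p hp0 W hW0 hdep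
  have hEw0 := Ew_nonneg S AffInd k (1 / (p : ℝ)) hq0
  rw [← hV] at hEw
  have hV0 : 0 ≤ V := by rw [hV]; (clear * - hp1; positivity)
  have hx : (1 : ℝ) / 2 * (1 / p) * S.card = V / 2 := by rw [hV]; (clear * - hp1; field_simp)
  have hx0 : (0 : ℝ) ≤ 1 / 2 * (1 / p) := by (clear * - hp1; positivity)
  have hx1 : (1 : ℝ) / 2 * (1 / p) ≤ 1 := by linarith only [hq1]
  have t1 : (1 - 1 / 2 * (1 / (p : ℝ))) ^ S.card ≤ Real.exp (-V / 2) := by
    have h1 : 1 - 1 / 2 * (1 / (p : ℝ)) ≤ Real.exp (-(1 / 2 * (1 / (p : ℝ)))) := by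
      have := Real.add_one_le_exp (-(1 / 2 * (1 / (p : ℝ))))
      linarith only [this]
    calc (1 - 1 / 2 * (1 / (p : ℝ))) ^ S.card ≤ (Real.exp (-(1 / 2 * (1 / (p : ℝ))))) ^ S.card := by
          apply pow_le_pow_left₀ (by linarith only [hq1]) h1
      _ = Real.exp (-V / 2) := by
          rw [← Real.exp_nat_mul]
          congr 1
          rw [neg_div, ← hx]; ring
  have t2 : (S.card.choose (2 * k + 1) : ℝ) * (1 / 2 * (1 / (p : ℝ))) ^ (2 * k + 1)
      ≤ (V / 2) ^ (2 * k + 1) / ((2 * k + 1).factorial : ℝ) := by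
    have h1 := Nat.choose_le_pow_div (α := ℝ) (2 * k + 1) S.card
    calc (S.card.choose (2 * k + 1) : ℝ) * (1 / 2 * (1 / (p : ℝ))) ^ (2 * k + 1)
        ≤ ((S.card : ℝ) ^ (2 * k + 1) / ((2 * k + 1).factorial : ℝ)) * (1 / 2 * (1 / (p : ℝ))) ^ (2 * k + 1) := by
          (clear * - h1 hp1; gcongr)
      _ = (V / 2) ^ (2 * k + 1) / ((2 * k + 1).factorial : ℝ) := by
          rw [← hx, mul_pow (1 / 2 * (1 / (p : ℝ)))]
          ring
  have t3 : 1 / 2 * (1 / (p : ℝ)) * (1 + 1 / 2 * (1 / (p : ℝ))) ^ S.card ≤ Real.exp (V / 2) := by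
    have h1 : 1 + 1 / 2 * (1 / (p : ℝ)) ≤ Real.exp (1 / 2 * (1 / (p : ℝ))) := by
      have := Real.add_one_le_exp (1 / 2 * (1 / (p : ℝ)))
      linarith only [this]
    have h2 : (1 + 1 / 2 * (1 / (p : ℝ))) ^ S.card ≤ Real.exp (V / 2) := by
      calc (1 + 1 / 2 * (1 / (p : ℝ))) ^ S.card ≤ (Real.exp (1 / 2 * (1 / (p : ℝ)))) ^ S.card := by
            apply pow_le_pow_left₀ (by linarith only [hq0]) h1
        _ = Real.exp (V / 2) := by
            rw [← Real.exp_nat_mul]
            congr 1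
            rw [← hx]; ring
    calc 1 / 2 * (1 / (p : ℝ)) * (1 + 1 / 2 * (1 / (p : ℝ))) ^ S.card
        ≤ 1 * Real.exp (V / 2) := by
          apply mul_le_mul hx1 h2 (by (clear * - hp1; positivity)) (by norm_num)
      _ = _ := one_mul _
  have hmain2 : (1 - 1 / 2 : ℝ) ^ d * (bad.card : ℝ) ≤ (p : ℝ) ^ (N + 1) *
      (Real.exp (-V / 2) + (V / 2) ^ (2 * k + 1) / ((2 * k + 1).factorial : ℝ)
      + (2 + Real.exp (V / 2)) * (Real.exp V * W)) := by
    refine main'.trans ?_
    (clear * - t1 t2 t3 hEw hEw0 hp1; gcongr)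
  have h2d : (1 - 1 / 2 : ℝ) ^ d * 2 ^ d = 1 := by
    rw [← mul_pow]; norm_num
  calc (bad.card : ℝ) = 2 ^ d * ((1 - 1 / 2 : ℝ) ^ d * (bad.card : ℝ)) := by
        rw [← mul_assoc, mul_comm (2 ^ d : ℝ), h2d, one_mul]
    _ ≤ 2 ^ d * ((p : ℝ) ^ (N + 1) *
      (Real.exp (-V / 2) + (V / 2) ^ (2 * k + 1) / ((2 * k + 1).factorial : ℝ)
      + (2 + Real.exp (V / 2)) * (Real.exp V * W))) := by
        (clear * - hmain2; gcongr)
    _ = _ := by ring

end Vale.Agent.P230
end
end
end

section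

section

section

namespace Vale.Agent.P230

open MeasureTheory Finset

/-- coordinates of integer points -/
theorem intPts_abs_le {N : ℕ} (K : Set (Fin N → ℝ)) (lam : ℝ) (hl : 0 ≤ lam) (z : Fin N → ℤ)
    (hz : z ∈ intPts K lam) (i : Fin N) : |z i| ≤ ((⌈lam⌉₊ : ℕ) : ℤ) := by
  classical
  unfold intPts at hz
  rw [Finset.mem_filter] at hz
  have h1 := (Fintype.mem_piFinset.1 hz.1) i
  rw [Finset.mem_Icc] at h1
  rw [Int.natCast_ceil_eq_ceil hl]
  exact abs_le.2 h1

theorem fracs_one (l : ℕ) [Fact l.Prime] : fracs l 1 = {0, 1, -1} := by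
  ext x
  rw [mem_fracs]
  simp only [Finset.mem_insert, Finset.mem_singleton]
  constructor
  · rintro ⟨t, s, h1, h2, h3, h4⟩
    have ht : t = 1 := by push_cast at h2; omega
    subst ht
    push_cast at h3
    rw [abs_le] at h3
    have : s = 0 ∨ s = 1 ∨ s = -1 := by omega
    rcases this with rfl | rfl | rfl
    · left; simpa using h4
    · right; left; simpa using h4
    · right; right; simpa using h4
  · rintro (rfl | rfl | rfl)
    · exact ⟨1, 0, le_refl _, by simp, by simp only [abs_zero, Nat.cast_one, zero_le_one], by simp⟩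
    · exact ⟨1, 1, le_refl _, by simp, by simp, by simp only [Int.cast_one, mul_one]⟩
    · exact ⟨1, -1, le_refl _, by simp, by simp, by simp only [Int.cast_one, mul_one, Int.reduceNeg, Int.cast_neg]⟩

theorem fracs_mono (l : ℕ) [Fact l.Prime] : Monotone (fracs l) := by
  intro a b hab x hx
  rw [mem_fracs] at hx ⊢
  obtain ⟨t, s, h1, h2, h3, h4⟩ := hx
  have : (a : ℤ) ≤ b := by exact_mod_cast hab
  exact ⟨t, s, h1, by omega, by omega, h4⟩

theorem cast_injOn {N : ℕ} (A : Finset (Fin N → ℤ)) (Y' l : ℕ)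
    (hA : ∀ y ∈ A, ∀ i, |y i| ≤ Y') (hp : 2 * Y' < l) :
    Set.InjOn (fun (s : Fin N → ℤ) (i : Fin N) => (s i : ZMod l)) A := by
  intro y hy z hz h
  funext i
  have h1 := congrFun h i
  simp only at h1
  apply eq_of_cast_eq h1
  have h2 := hA y hy i
  have h3 := hA z hz i
  have h4 : |y i - z i| ≤ |y i| + |z i| := abs_sub _ _
  have h5 : ((2 * Y' : ℕ) : ℤ) < l := by exact_mod_cast hp
  push_cast at h5
  (clear * - hp h2 h3 h4; omega)

theorem castSet_card {N : ℕ} (A : Finset (Fin N → ℤ)) (Y' l : ℕ)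
    (hA : ∀ y ∈ A, ∀ i, |y i| ≤ Y') (hp : 2 * Y' < l) :
    (castSet l A).card = A.card := by
  unfold castSet
  exact Finset.card_image_of_injOn (cast_injOn A Y' l hA hp)

/-- volume lower bound from the cube -/
theorem volume_lower {N : ℕ} {K : Set (Fin N → ℝ)} {R : ℝ} (hR : 1 ≤ R) (hK : NormalizedR K R) :
    (1 / R) ^ N ≤ (volume K).toReal := by
  have hR0 : (0 : ℝ) < R := by linarith only [hR]
  have h1 : Set.Icc (0 : Fin N → ℝ) (fun _ => 1 / R) ⊆ K := by
    intro x hx
    apply hK.cube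
    intro i
    exact ⟨hx.1 i, hx.2 i⟩
  have h2 : volume (Set.Icc (0 : Fin N → ℝ) (fun _ => 1 / R)) = ENNReal.ofReal ((1 / R) ^ N) := by
    rw [Real.volume_Icc_pi]
    simp only [Pi.zero_apply, sub_zero, Finset.prod_const, Finset.card_univ, Fintype.card_fin]
    rw [ENNReal.ofReal_pow (by positivity)]
  have h3 := measure_mono (μ := volume) h1
  rw [h2] at h3
  have h4 : volume K ≠ ⊤ := hK.compact.measure_lt_top.ne
  rw [← ENNReal.toReal_ofReal (show (0 : ℝ) ≤ (1 / R) ^ N by positivity)]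
  exact ENNReal.toReal_mono h4 h3

/-- the relation sum for the integer points of `lam • K` modulo an auxiliary prime -/
theorem rel_sum {N : ℕ} {K : Set (Fin N → ℝ)} {R : ℝ} (hR : 1 ≤ R) (hK : NormalizedR K R)
    {lam : ℝ} (hl : R < lam) (l : ℕ) [Fact l.Prime] (Y' : ℕ) (hY' : Y' = ⌈lam⌉₊)
    (hl1 : 8 * Y' ^ 2 < l) (ρ : ℕ) (hρ : ρ + 1 < l) :
    ∑ D ∈ Finset.univ.filter (fun D : Fin ρ → ZMod l => ∑ j, D j = 1 ∧ ∀ j, D ≠ Pi.single j 1),
      ((((Fintype.piFinset (fun _ : Fin ρ => castSet l (intPts K lam))).filter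
        (fun y => ∑ j, D j • y j ∈ castSet l (intPts K lam))).card : ℝ))
    ≤ (3^ρ * ((19/20 : ℝ)^N * ((lam + 3 * R) / (lam - R))^(3*N))
      + (∑ H ∈ Finset.Icc 2 (2*Y'), ((H * (2*H+1) : ℕ) : ℝ)^ρ
          * ((lam + H * R) / (H * (lam - R)))^N)
      + (l:ℝ)^ρ * (1 / ((intPts K lam).card : ℝ))) * ((intPts K lam).card : ℝ) ^ ρ := by
  classical
  have hR0 : (0 : ℝ) < R := by linarith only [hR]
  have hlam0 : (0 : ℝ) < lam := by linarith only [hR, hl]
  have hlR : 0 < lam - R := by linarith only [hl]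
  set S := intPts K lam with hS
  set vol := (volume K).toReal with hvol
  have hvol0 : 0 < vol := lt_of_lt_of_le (by positivity) (volume_lower hR hK)
  have hA : ∀ y ∈ S, ∀ i, |y i| ≤ (Y' : ℤ) := by
    intro y hy i
    rw [hY']
    exact intPts_abs_le K lam hlam0.le y hy i
  have hY1 : 1 ≤ Y' := by
    rw [hY']
    exact Nat.one_le_iff_ne_zero.2 (by
      intro h
      rw [Nat.ceil_eq_zero] at h
      linarith only [hR, hl, h])
  have hYsq : Y' ≤ Y' ^ 2 := by nlinarith only []
  have hlow : (lam - R) ^ N * vol ≤ (S.card : ℝ) := intPts_card_lower_R hR hK hl.le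
  have hSpos : (0 : ℝ) < S.card := lt_of_lt_of_le (by (clear * - hl hvol0; positivity)) hlow
  have hvolS : vol ≤ (S.card : ℝ) / (lam - R) ^ N := by
    rw [le_div_iff₀ (by positivity), mul_comm]
    exact hlow
  have hcard : (castSet l S).card = S.card := castSet_card S Y' l hA (by omega)
  set γ : ℝ := (19/20 : ℝ)^N * ((lam + 3 * R) / (lam - R))^(3*N) with hγdef
  have hγ0 : 0 ≤ γ := by (clear * - hlam0 hR hl; positivity)
  have hγ : ∀ w : Fin N → ZMod l,
      (((((castSet l S) ×ˢ (castSet l S) ×ˢ (castSet l S)).filter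
        (fun a => a.1 + a.2.1 - a.2.2 + w ∈ castSet l S)).card : ℝ) ≤ γ * ((castSet l S).card : ℝ) ^ 3) := by
    intro w
    have h1 := energy_shift S Y' hA (by (clear * - hY' hl1 hYsq; omega)) w
    have h2 := intPts_energy_R hR hK hlam0.le (fun Q hQ => energy_bound N Q hQ)
    have h3 : (((((castSet l S) ×ˢ (castSet l S) ×ˢ (castSet l S)).filter
        (fun a => a.1 + a.2.1 - a.2.2 + w ∈ castSet l S)).card : ℝ)) ≤
        (19/20 : ℝ) ^ N * ((lam + 3 * R) ^ N * vol) ^ 3 := by
      refine le_trans ?_ h2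
      exact_mod_cast h1
    refine h3.trans ?_
    rw [hcard, hγdef, mul_assoc]
    apply mul_le_mul_of_nonneg_left _ (by positivity)
    calc ((lam + 3 * R) ^ N * vol) ^ 3 ≤ ((lam + 3 * R) ^ N * ((S.card : ℝ) / (lam - R) ^ N)) ^ 3 := by
          (clear * - hlam0 hR hvol0 hvolS; gcongr)
      _ = ((lam + 3 * R) / (lam - R)) ^ (3 * N) * (S.card : ℝ) ^ 3 := by
          rw [div_pow, mul_pow, div_pow, ← pow_mul, ← pow_mul, mul_comm N 3]
          ring
  set β : ℕ → ℝ := fun H => ((lam + H * R) / (H * (lam - R)))^N with hβdef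
  have hβ0 : ∀ H, 0 ≤ β H := by
    intro H
    simp only [hβdef]
    (clear * - hlam0 hR hl; (clear * - hlam0 hR hl; positivity))
  have hβ : ∀ H, 2 ≤ H → H ≤ 2 * Y' → ∀ x ∈ fracs l H, x ∉ fracs l (H - 1) → ∀ w : Fin N → ZMod l,
      ((((castSet l S).filter (fun a => x • a + w ∈ castSet l S)).card : ℝ) ≤ β H * (castSet l S).card) := by
    intro H hH2 hHY x hx hx' w
    rw [hcard]
    have hB0 : 0 ≤ β H * S.card := mul_nonneg (hβ0 H) hSpos.le
    have h1 := height_count S Y' hA hl1 H hH2 hHY ⌊β H * S.card⌋₊ (by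
      intro u
      apply Nat.le_floor
      have h2 := intPts_class_card_R hR hK hlam0.le H (by (clear * - hH2; omega)) u
      have hH0 : (0 : ℝ) < H := by exact_mod_cast (show 0 < H by omega)
      have h3 : (((S.filter (fun y => ∀ i, y i ≡ u i [ZMOD H])).card : ℝ)) * (H : ℝ) ^ N
        ≤ (lam + H * R) ^ N * ((S.card : ℝ) / (lam - R) ^ N) := by
        refine le_trans h2 ?_
        (clear * - hvolS hlam0 hH2 hR; gcongr)
      rw [← le_div_iff₀ (by positivity)] at h3
      refine h3.trans (le_of_eq ?_)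
      simp only [hβdef]
      rw [div_pow, mul_pow]
      (clear * - hH2 hlR hSpos hlam0 hR; field_simp)) x hx hx' w
    calc ((((castSet l S).filter (fun a => x • a + w ∈ castSet l S)).card : ℝ))
        ≤ ((⌊β H * S.card⌋₊ : ℕ) : ℝ) := by exact_mod_cast h1
      _ ≤ β H * S.card := Nat.floor_le hB0
  have hβ' : ∀ x, x ∉ fracs l (2 * Y') → ∀ w : Fin N → ZMod l,
      ((((castSet l S).filter (fun a => x • a + w ∈ castSet l S)).card : ℝ)
        ≤ (1 / (S.card : ℝ)) * (castSet l S).card) := by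
    intro x hx w
    rw [hcard, one_div, inv_mul_cancel₀ hSpos.ne']
    have := height_count' S Y' hA hl1 x hx w
    exact_mod_cast this
  have main := rel_bound hρ (by (clear * - hY' hl1 hY1 hYsq; omega)) (castSet l S) γ hγ0 hγ (2 * Y') (by omega) (fracs l)
    (fracs_one l) (fracs_mono l) β hβ0 hβ (1 / (S.card : ℝ)) (by (clear * - hSpos; positivity)) hβ'
  rw [hcard] at main
  refine main.trans ?_
  apply mul_le_mul_of_nonneg_right _ (by (clear * - hSpos; positivity))
  have hsum : (∑ H ∈ Finset.Icc 2 (2 * Y'), ((fracs l H).card : ℝ) ^ ρ * β H)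
      ≤ ∑ H ∈ Finset.Icc 2 (2*Y'), ((H * (2*H+1) : ℕ) : ℝ)^ρ
          * ((lam + H * R) / (H * (lam - R)))^N := by
    apply Finset.sum_le_sum
    intro H hH
    rw [Finset.mem_Icc] at hH
    have h1 := fracs_card l H (by (clear * - hY' hl1 hYsq hH; omega))
    have h2 : ((fracs l H).card : ℝ) ≤ ((H * (2*H+1) : ℕ) : ℝ) := by exact_mod_cast h1
    have h3 := hβ0 H
    calc ((fracs l H).card : ℝ) ^ ρ * β H ≤ ((H * (2*H+1) : ℕ) : ℝ) ^ ρ * β H := by (clear hK hρ hR0 hlR S hS vol hvol hvol0 hA hlow hSpos hvolS hcard γ hγdef hγ0 hγ hβdef hβ0 hβ hβ' main h3; gcongr)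
      _ = _ := rfl
  (clear hK hρ hR0 hlR hS vol hvol hvol0 hA hlow hSpos hvolS hcard hγdef hγ0 hγ hβ hβ' main; linarith only [hsum])

/-- dependent tuples of integer points of `lam • K` -/
theorem dep_intPts : ∃ N₀ : ℕ, ∀ N : ℕ, N₀ ≤ N → ∀ K : Set (Fin N → ℝ), NormalizedR K ((N:ℝ)^3) →
    ∀ lam : ℝ, (N:ℝ)^5 ≤ lam → lam ≤ (N:ℝ)^6 → ∀ j : ℕ, 100 * j < N →
    ((depTuples (intPts K lam) (j + 1)).card : ℝ)
      ≤ (N * (99/100 : ℝ) ^ N) * ((intPts K lam).card : ℝ) ^ j := by
  obtain ⟨N₁, hN₁⟩ := num_w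
  refine ⟨max N₁ 2, ?_⟩
  intro N hN K hK lam hlam1 hlam2 j hj
  have hN1 : N₁ ≤ N := le_trans (le_max_left _ _) hN
  have hN2 : 2 ≤ N := le_trans (le_max_right _ _) hN
  have hNr : (2 : ℝ) ≤ N := by exact_mod_cast hN2
  have hR : (1 : ℝ) ≤ (N : ℝ) ^ 3 := one_le_pow₀ (by linarith only [hNr])
  have hRl : (N : ℝ) ^ 3 < lam := by
    refine lt_of_lt_of_le ?_ hlam1
    exact pow_lt_pow_right₀ (by linarith only [hNr]) (by norm_num)
  have hR0 : (0 : ℝ) < (N : ℝ) ^ 3 := by linarith only [hR]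
  have hlam0 : 0 < lam := by linarith only [hR, hRl]
  have hlam1' : 1 ≤ lam := by linarith only [hR, hRl]
  set Y' := ⌈lam⌉₊ with hY'
  have hYlam : lam ≤ Y' := Nat.le_ceil _
  have hYlam2 : (Y' : ℝ) ≤ 2 * lam := by
    have := Nat.ceil_lt_add_one hlam0.le
    rw [← hY'] at this
    linarith only [hR, hRl, this]
  have hYN : N ≤ Y' := by
    have h1 : (N : ℝ) ≤ Y' := by
      have : (N : ℝ) ≤ (N : ℝ) ^ 3 := le_self_pow₀ (by linarith only [hNr]) (by norm_num)
      linarith only [hRl, hYlam, this]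
    exact_mod_cast h1
  obtain ⟨l, hlp, hl1, hl2⟩ := Nat.exists_prime_lt_and_le_two_mul (8 * Y' ^ 2) (by
    have : 0 < Y' := by omega
    (clear * - hlam0; positivity))
  have : Fact l.Prime := ⟨hlp⟩
  have hl64 : (l : ℝ) ≤ 64 * lam ^ 2 := by
    have h1 : (l : ℝ) ≤ 2 * (8 * (Y' : ℝ) ^ 2) := by exact_mod_cast hl2
    have h2 : (Y' : ℝ) ^ 2 ≤ (2 * lam) ^ 2 := by (clear * - hlam0 hYlam2; gcongr)
    linarith only [h2, h1]
  set S := intPts K lam with hS
  have hlow : (lam - (N:ℝ)^3) ^ N * (volume K).toReal ≤ (S.card : ℝ) := intPts_card_lower_R hR hK hRl.le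
  have hs : ((lam - (N:ℝ)^3) / (N:ℝ)^3)^N ≤ (S.card : ℝ) := by
    refine le_trans ?_ hlow
    have h1 := volume_lower hR hK
    have h2 : 0 < lam - (N:ℝ)^3 := by linarith only [hRl]
    calc ((lam - (N:ℝ)^3) / (N:ℝ)^3)^N = (lam - (N:ℝ)^3) ^ N * (1 / (N:ℝ)^3) ^ N := by
          rw [← mul_pow]; congr 1; ring
      _ ≤ _ := by (clear * - h1 hRl; gcongr)
  have hA : ∀ y ∈ S, ∀ i, |y i| ≤ (Y' : ℤ) := fun y hy i => intPts_abs_le K lam hlam0.le y hy i
  have hYsq : Y' ≤ Y' ^ 2 := by nlinarith only []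
  have hinj := cast_injOn S Y' l hA (by omega)
  have h1 := depTuples_bound S l hinj j (fun _ => (99/100 : ℝ) ^ N) (fun _ => by positivity) (by
    intro ρ hρ
    refine (rel_sum hR hK hRl l Y' hY' hl1 ρ (by omega)).trans ?_
    apply mul_le_mul_of_nonneg_right _ (by (clear * -; positivity))
    exact hN₁ N hN1 lam hlam1 hlam2 ρ (by omega) l Y' hYlam2 hl64 _ hs)
  refine h1.trans ?_
  apply mul_le_mul_of_nonneg_right _ (by (clear * -; positivity))
  rw [Finset.sum_const, Finset.card_range, nsmul_eq_mul]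
  apply mul_le_mul_of_nonneg_right _ (by positivity)
  exact_mod_cast (show j + 1 ≤ N by omega)

/-- lower bound for the number of integer points -/
theorem card_intPts_lower {N : ℕ} (hN2 : 2 ≤ N) {K : Set (Fin N → ℝ)} (hK : NormalizedR K ((N:ℝ)^3))
    {lam : ℝ} (hlam1 : (N:ℝ)^5 ≤ lam) : (N : ℝ) ^ N ≤ ((intPts K lam).card : ℝ) := by
  have hNr : (2 : ℝ) ≤ N := by exact_mod_cast hN2
  have hR : (1 : ℝ) ≤ (N : ℝ) ^ 3 := one_le_pow₀ (by linarith only [hNr])
  have hRl : (N : ℝ) ^ 3 < lam := by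
    refine lt_of_lt_of_le ?_ hlam1
    exact pow_lt_pow_right₀ (by linarith only [hNr]) (by norm_num)
  have hR0 : (0 : ℝ) < (N : ℝ) ^ 3 := by linarith only [hR]
  have hlow : (lam - (N:ℝ)^3) ^ N * (volume K).toReal ≤ ((intPts K lam).card : ℝ) :=
    intPts_card_lower_R hR hK hRl.le
  refine le_trans ?_ hlow
  have h1 := volume_lower hR hK
  have h2 : 0 < lam - (N:ℝ)^3 := by linarith only [hRl]
  have h3 : (N : ℝ) ≤ (lam - (N:ℝ)^3) / (N:ℝ)^3 := by
    rw [le_div_iff₀ hR0]
    have : (N : ℝ) ^ 4 + (N : ℝ) ^ 3 ≤ (N : ℝ) ^ 5 := by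
      have h4 : (0 : ℝ) ≤ (N : ℝ) ^ 3 * ((N : ℝ) ^ 2 - N - 1) := by
        apply mul_nonneg (by positivity)
        (by_contra nlg; linarith only [nlg, mul_nonneg (le_of_lt (sub_pos.2 (not_le.1 nlg))) (sub_nonneg.2 hNr), mul_nonneg (sq_nonneg (↑N : ℝ)) (sub_nonneg.2 hNr)])
      linarith
    linarith
  calc (N : ℝ) ^ N ≤ ((lam - (N:ℝ)^3) / (N:ℝ)^3)^N := by (clear * - hN2 h3; gcongr)
    _ = (lam - (N:ℝ)^3) ^ N * (1 / (N:ℝ)^3) ^ N := by
          rw [← mul_pow]; congr 1; ring
    _ ≤ _ := by gcongr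

/-- large `p`: independence over `ℤ` of small sets implies independence modulo `p` -/
theorem hind_of_large {N p : ℕ} [Fact p.Prime] (hN : 200 ≤ N) {K : Set (Fin N → ℝ)}
    (hK : NormalizedR K ((N:ℝ)^3)) {lam : ℝ} (hlam1 : (N:ℝ)^5 ≤ lam) (hlam2 : lam ≤ (N:ℝ)^6)
    (hp : ((intPts K lam).card : ℝ) ≤ (N : ℝ) * p)
    (B : Finset (Fin N → ℤ)) (hBS : B ⊆ intPts K lam) (hBc : B.card ≤ 2 * (N / 200)) (hB : AffInd B) :
    AffIndMod p B := by
  have hNr : (200 : ℝ) ≤ N := by exact_mod_cast hN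
  have h5 : (1 : ℝ) ≤ (N : ℝ) ^ 5 := one_le_pow₀ (by linarith only [hNr])
  have hlam0 : 0 < lam := by linarith only [hlam1, h5]
  set Y' := ⌈lam⌉₊ with hY'
  have hYlam2 : (Y' : ℝ) ≤ 2 * (N : ℝ) ^ 6 := by
    have := Nat.ceil_lt_add_one hlam0.le
    rw [← hY'] at this
    linarith only [hlam1, hlam2, h5, this]
  have hY1 : 1 ≤ Y' := Nat.one_le_ceil_iff.2 hlam0
  have hYn : Y' ≤ 2 * N ^ 6 := by exact_mod_cast hYlam2
  refine affInd_mod B Y' hY1 (fun s hs j => intPts_abs_le K lam hlam0.le s (hBS hs) j) p ?_ hB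
  -- numeric part
  have h1 : (N : ℝ) ^ N ≤ (N : ℝ) * p :=
    le_trans (card_intPts_lower (by omega) hK hlam1) hp
  have h2 : N ^ N ≤ N * p := by exact_mod_cast h1
  have h3 : N ^ (N - 1) ≤ p := by
    have h4 : N ^ N = N * N ^ (N - 1) := by
      rw [← pow_succ']; congr 1; (clear * - hN; omega)
    rw [h4] at h2
    exact Nat.le_of_mul_le_mul_left h2 (by omega)
  refine lt_of_lt_of_le ?_ h3
  have h6 : B.card.factorial ≤ N ^ B.card := by
    calc B.card.factorial ≤ B.card ^ B.card := Nat.factorial_le_pow _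
      _ ≤ N ^ B.card := Nat.pow_le_pow_left (by omega) _
  have h7 : (N + 1) * Y' ^ 2 ≤ N ^ 14 := by
    calc (N + 1) * Y' ^ 2 ≤ (N + 1) * (2 * N ^ 6) ^ 2 := by (clear * - hYn; gcongr)
      _ = (4 * (N + 1)) * N ^ 12 := by ring
      _ ≤ (N ^ 2) * N ^ 12 := by
          apply Nat.mul_le_mul_right
          nlinarith only [hN]
      _ = N ^ 14 := by ring
  calc B.card.factorial * ((N + 1) * Y' ^ 2) ^ B.card
      ≤ N ^ B.card * (N ^ 14) ^ B.card := by (clear * - h6 h7; gcongr)
    _ = N ^ (15 * B.card) := by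
        rw [← mul_pow, ← pow_succ', ← pow_mul]
    _ < N ^ (N - 1) := by
        apply Nat.pow_lt_pow_right (by (clear * - hN; omega))
        omega

open Classical in
theorem base_single : ∃ c₂ c₃ c₄ : ℝ, 0 < c₂ ∧ 0 < c₃ ∧ 0 < c₄ ∧ c₄ ≤ 1 ∧ ∃ N₀ : ℕ, ∀ N : ℕ, N₀ ≤ N →
    ∀ K : Set (Fin N → ℝ), NormalizedR K ((N:ℝ)^3) →
    ∀ lam : ℝ, (N:ℝ)^5 ≤ lam → lam ≤ (N:ℝ)^6 → ∀ (p : ℕ) [Fact p.Prime],
    c₂ * N * p ≤ ((intPts K lam).card : ℝ) → ((intPts K lam).card : ℝ) ≤ 4 * c₂ * N * p →
    ((Finset.univ.filter (fun hu : (Fin N → ZMod p) × ZMod p =>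
      ∀ B ⊆ hit p (intPts K lam) hu.1 hu.2, AffInd B → B.card ≤ ⌈c₄ * N⌉₊)).card : ℝ)
      ≤ Real.exp (-c₃ * N) * (p:ℝ) ^ (N+1) := by
  obtain ⟨N₁, hN₁⟩ := dep_intPts
  obtain ⟨N₂, hN₂⟩ := num_final
  refine ⟨1/4000, 1/20000, 1/20000, by norm_num, by norm_num, by norm_num, by norm_num,
    max (max N₁ N₂) 200, ?_⟩
  intro N hN K hK lam hlam1 hlam2 p _ hp1 hp2
  have hN1 : N₁ ≤ N := by omega
  have hN2 : N₂ ≤ N := by omega
  have hN3 : 200 ≤ N := by omega
  have hNr : (200 : ℝ) ≤ N := by exact_mod_cast hN3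
  have hp0 : (0 : ℝ) < p := by exact_mod_cast (Fact.out : p.Prime).pos
  have hceil : ⌈(1/20000 : ℝ) * N⌉₊ = ⌈(N : ℝ) / 20000⌉₊ := by congr 1; ring
  have hdk : ⌈(1/20000 : ℝ) * N⌉₊ < 2 * (N / 200) := by
    have h1 : ⌈(1/20000 : ℝ) * N⌉₊ ≤ N / 200 := by
      apply Nat.ceil_le.2
      have h2 : N < 200 * (N / 200 + 1) := by omega
      have h3 : (N : ℝ) < 200 * (((N / 200 : ℕ) : ℝ) + 1) := by exact_mod_cast h2
      have h4 : (1 : ℝ) ≤ ((N / 200 : ℕ) : ℝ) := by
        exact_mod_cast (show 1 ≤ N / 200 by omega)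
      linarith only [h4, h3]
    (clear * - hN3 hceil h1; omega)
  have h1 := bad_count' p (intPts K lam) (N / 200) ⌈(1/20000 : ℝ) * N⌉₊ hdk
    (fun B hBS hBc hB => hind_of_large hN3 hK hlam1 hlam2 (by linarith only [hp2]) B hBS hBc hB)
    (N * (99/100 : ℝ) ^ N) (by positivity)
    (fun ρ hρ => hN₁ N hN1 K hK lam hlam1 hlam2 ρ (by omega))
    (((intPts K lam).card : ℝ) / p) rfl
  refine h1.trans ?_
  apply mul_le_mul_of_nonneg_right _ (by (clear * - hp0; positivity))
  have h2 := hN₂ N hN2 (((intPts K lam).card : ℝ) / p)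
    (by rw [le_div_iff₀ hp0]; linarith only [hp1]) (by rw [div_le_iff₀ hp0]; linarith only [hp2])
  rw [hceil]
  exact h2

end Vale.Agent.P230
end
end
end

section

section

section

namespace Vale.Agent.P230

open MeasureTheory Finset
open scoped Pointwise ENNReal

theorem volume_eq_lintegral_slc {N t : ℕ} {K : Set ((Fin N → ℝ) × (Fin t → ℝ))}
    (hk : IsCompact K) : volume K = ∫⁻ b, slc K b := by
  rw [Measure.volume_eq_prod, Measure.prod_apply_symm hk.isClosed.measurableSet]
  rfl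

theorem slc_lt_top {N t : ℕ} {K : Set ((Fin N → ℝ) × (Fin t → ℝ))}
    (hk : IsCompact K) (b : Fin t → ℝ) : slc K b < ⊤ := by
  refine lt_of_le_of_lt (measure_mono ?_) (hk.image continuous_fst).measure_lt_top
  intro x hx
  exact ⟨(x, b), hx, rfl⟩

/-- an upper bound for all slices from a lower bound over a ball -/
theorem slice_sup {N t : ℕ} (K : Set ((Fin N → ℝ) × (Fin t → ℝ))) (hc : Convex ℝ K)
    (hk : IsCompact K) (E g W : ℝ) (hE : 1 / 4 ≤ E) (hg : 0 < g) (hW : 0 ≤ W)
    (hlow : ∀ b : Fin t → ℝ, ∑ i, b i ^ 2 ≤ E * t → ENNReal.ofReal g ≤ volume {x | (x, b) ∈ K})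
    (hvol : volume K ≤ ENNReal.ofReal (W * g)) (b₀ : Fin t → ℝ) :
    volume {x | (x, b₀) ∈ K} ≤ ENNReal.ofReal (4 ^ t * W ^ 2 * g) := by
  have hfin := slc_lt_top hk b₀
  obtain ⟨σ, hσ⟩ : ∃ σ : ℝ, σ = (slc K b₀).toReal := ⟨_, rfl⟩
  have hσ0 : 0 ≤ σ := by rw [hσ]; exact ENNReal.toReal_nonneg
  have hσE : slc K b₀ = ENNReal.ofReal σ := by
    rw [hσ]
    exact (ENNReal.ofReal_toReal hfin.ne).symm
  set Q : Set (Fin t → ℝ) := Set.Icc (fun i => (b₀ i - 1 / 2) / 2) (fun i => (b₀ i + 1 / 2) / 2)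
    with hQ
  have hQvol : volume Q = ENNReal.ofReal ((1 / 2) ^ t) := by
    rw [hQ, Real.volume_Icc_pi]
    have : ∀ i : Fin t, ENNReal.ofReal ((b₀ i + 1 / 2) / 2 - (b₀ i - 1 / 2) / 2) =
        ENNReal.ofReal (1 / 2) := by
      intro i
      congr 1
      ring
    rw [Finset.prod_congr rfl fun i _ => this i, Finset.prod_const, Finset.card_univ,
      Fintype.card_fin, ENNReal.ofReal_pow (by norm_num)]
  have hlowQ : ∀ y ∈ Q, ENNReal.ofReal (Real.sqrt (σ * g)) ≤ slc K y := by
    intro y hy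
    set b : Fin t → ℝ := fun i => 2 * y i - b₀ i with hb
    have hbsq : ∑ i, b i ^ 2 ≤ E * t := by
      calc ∑ i, b i ^ 2 ≤ ∑ _i : Fin t, (1 / 4 : ℝ) := by
            apply Finset.sum_le_sum
            intro i _
            have h1 := hy.1 i
            have h2 := hy.2 i
            simp only at h1 h2
            have h3 : |b i| ≤ 1 / 2 := by
              rw [abs_le]
              simp only [hb]
              constructor <;> linarith only [h1, h2]
            calc b i ^ 2 = |b i| ^ 2 := (sq_abs _).symm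
              _ ≤ (1 / 2) ^ 2 := by (clear * - h3; gcongr)
              _ = 1 / 4 := by norm_num
        _ = 1 / 4 * t := by
            rw [Finset.sum_const, Finset.card_univ, Fintype.card_fin, nsmul_eq_mul]
            ring
        _ ≤ E * t := by (clear * - hE; gcongr)
    have h1 := slc_mul_le hc hk b₀ b
    have e : (fun i => (b₀ i + b i) / 2) = y := by
      funext i
      simp only [hb]
      ring
    rw [e] at h1
    have h2 := hlow b hbsq
    have h3 : ENNReal.ofReal (σ * g) ≤ slc K y ^ 2 := by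
      rw [ENNReal.ofReal_mul hσ0, ← hσE]
      exact (mul_le_mul_right h2 _).trans h1
    have h4 : ENNReal.ofReal (σ * g) = ENNReal.ofReal (Real.sqrt (σ * g)) ^ 2 := by
      rw [← ENNReal.ofReal_pow (Real.sqrt_nonneg _), Real.sq_sqrt (by (clear * - hσ0 hg; positivity))]
    rw [h4] at h3
    exact (ENNReal.pow_le_pow_left_iff (by norm_num)).1 h3
  have hint : ENNReal.ofReal (Real.sqrt (σ * g) * (1 / 2) ^ t) ≤ volume K := by
    rw [volume_eq_lintegral_slc hk, ENNReal.ofReal_mul (Real.sqrt_nonneg _), ← hQvol,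
      ← setLIntegral_const]
    refine (setLIntegral_mono_ae' (measurableSet_Icc) ?_).trans (setLIntegral_le_lintegral _ _)
    exact Filter.Eventually.of_forall hlowQ
  have h5 := hint.trans hvol
  rw [ENNReal.ofReal_le_ofReal_iff (by (clear * - hW hg; positivity))] at h5
  have h6 : Real.sqrt (σ * g) ≤ 2 ^ t * (W * g) := by
    have h7 : (2 : ℝ) ^ t * (Real.sqrt (σ * g) * (1 / 2) ^ t) ≤ 2 ^ t * (W * g) := by (clear * - h5; gcongr)
    have h8 : (2 : ℝ) ^ t * (Real.sqrt (σ * g) * (1 / 2) ^ t) = Real.sqrt (σ * g) := by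
      rw [mul_comm, mul_assoc, ← mul_pow]
      norm_num
    rw [h8] at h7
    exact h7
  have h9 : σ * g ≤ (2 ^ t * (W * g)) ^ 2 := by
    rw [← Real.sq_sqrt (by (clear * - hσ0 hg; positivity) : 0 ≤ σ * g)]
    (clear * - h6; gcongr)
  have h10 : σ ≤ 4 ^ t * W ^ 2 * g := by
    have h11 : (2 ^ t * (W * g)) ^ 2 = (4 ^ t * W ^ 2 * g) * g := by
      have : (4 : ℝ) ^ t = (2 ^ t) ^ 2 := by
        rw [← pow_mul, mul_comm, pow_mul]
        (clear * -; norm_num)
      rw [this]
      ring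
    rw [h11] at h9
    exact le_of_mul_le_mul_right h9 hg
  calc volume {x | (x, b₀) ∈ K} = slc K b₀ := rfl
    _ = ENNReal.ofReal σ := hσE
    _ ≤ _ := ENNReal.ofReal_le_ofReal h10

/-- slices of a fibrewise affine preimage -/
theorem slc_fiber {N t : ℕ} (K : Set ((Fin N → ℝ) × (Fin t → ℝ)))
    (B : Matrix (Fin N) (Fin N) ℝ) (hB : B.det ≠ 0)
    (S : Matrix (Fin N) (Fin t) ℝ) (w : Fin N → ℝ) (b : Fin t → ℝ) :
    slc K b = ENNReal.ofReal |B.det| *
      slc {q : (Fin N → ℝ) × (Fin t → ℝ) | (B.mulVec q.1 + S.mulVec q.2 + w, q.2) ∈ K} b := by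
  unfold slc
  rw [volume_affine {x | (x, b) ∈ K} B (S.mulVec b + w) hB]
  simp only [Set.mem_ofPred_eq, add_assoc]

theorem volume_fiber {N t : ℕ} {K : Set ((Fin N → ℝ) × (Fin t → ℝ))} (hk : IsCompact K)
    (B : Matrix (Fin N) (Fin N) ℝ) (hB : B.det ≠ 0)
    (S : Matrix (Fin N) (Fin t) ℝ) (w : Fin N → ℝ)
    (hk' : IsCompact {q : (Fin N → ℝ) × (Fin t → ℝ) |
      (B.mulVec q.1 + S.mulVec q.2 + w, q.2) ∈ K}) :
    volume K = ENNReal.ofReal |B.det| *
      volume {q : (Fin N → ℝ) × (Fin t → ℝ) | (B.mulVec q.1 + S.mulVec q.2 + w, q.2) ∈ K} := by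
  rw [volume_eq_lintegral_slc hk, volume_eq_lintegral_slc hk', ← lintegral_const_mul']
  · refine lintegral_congr fun b => ?_
    exact slc_fiber K B hB S w b
  · exact ENNReal.ofReal_ne_top

end Vale.Agent.P230
end
end
end

section

section

section

namespace Vale.Agent.P230

open MeasureTheory Finset
open scoped Pointwise ENNReal

theorem shrinkB {N t n : ℕ} (ht : 1 ≤ t) (hn : 2 ≤ n) (hNn : N + t = n)
    (K₄ : Set ((Fin N → ℝ) × (Fin t → ℝ))) (hc : Convex ℝ K₄) (hk : IsCompact K₄)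
    (E E' g W : ℝ) (hE' : 1 / 4 ≤ E')
    (hEE' : E * ((1 + 1 / (n : ℝ)) / (1 - 1 / (n : ℝ))) ^ 2 ≤ E') (hg : 0 < g) (hW : 0 ≤ W)
    (hW2 : 3 * 4 ^ t * W ^ 2 ≤ 2 ^ N)
    (hbd : ∀ (x : Fin N → ℝ) (b : Fin t → ℝ), ∑ i, b i ^ 2 ≤ E' * t → (x, b) ∈ K₄ →
      ∀ i, |x i| ≤ 1)
    (hsimp : ∀ x : Fin N → ℝ, (∀ i, 0 ≤ x i) → ∑ i, x i ≤ 1 / (4 * Real.sqrt t) →
      (x, (0 : Fin t → ℝ)) ∈ K₄)
    (hlow : ∀ b : Fin t → ℝ, ∑ i, b i ^ 2 ≤ E' * t →
      ENNReal.ofReal g ≤ volume {x | (x, b) ∈ K₄})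
    (hvol : volume K₄ ≤ ENNReal.ofReal (W * g)) :
    ∃ T : (Fin t → ℝ) → Set (Fin N → ℝ),
      (∀ b : Fin t → ℝ, ∑ i, b i ^ 2 ≤ E * t →
        Convex ℝ (T b) ∧ IsCompact (T b) ∧ (∀ x ∈ T b, ∀ i, |x i| ≤ 1) ∧
        (∃ x₀ : Fin N → ℝ, ∀ x : Fin N → ℝ,
          (∀ i, 0 ≤ x i ∧ x i ≤ 1 / (8 * Real.sqrt t * (n : ℝ) ^ 2)) → x₀ + x ∈ T b) ∧
        ENNReal.ofReal (g / 3) ≤ volume (T b) ∧
        volume (T b) ≤ ENNReal.ofReal (2 ^ N * (g / 3))) ∧
      ∀ b : Fin t → ℝ, ∑ i, b i ^ 2 ≤ E * t → ∀ a : Fin t → ℝ, ∑ i, a i ^ 2 ≤ E * t →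
        ∀ x ∈ T b, ∀ x' ∈ T a,
          (x + (1 / (n : ℝ)) • x', b + (1 / (n : ℝ)) • a) ∈ K₄ := by
  have hn0 : (2 : ℝ) ≤ n := by exact_mod_cast hn
  have hnpos : (0 : ℝ) < n := by linarith only [hn0]
  have ht0 : (1 : ℝ) ≤ t := by exact_mod_cast ht
  have hst : 1 ≤ Real.sqrt t := by
    rw [Real.one_le_sqrt]
    exact ht0
  set δ : ℝ := 1 / (n : ℝ) with hδ
  have hδ0 : 0 < δ := by positivity
  have hδ1 : δ ≤ 1 / 2 := by
    rw [hδ]
    exact one_div_le_one_div_of_le (by norm_num) hn0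
  have h1δ : (0 : ℝ) < 1 + δ := by linarith only [hδ0]
  have h1δ' : (0 : ℝ) < 1 - δ := by linarith only [hδ1]
  have hquot : 1 + δ ≤ (1 + δ) / (1 - δ) := by
    rw [le_div_iff₀ h1δ']
    linarith only [mul_pos (sub_pos.2 hδ0) (sub_pos.2 hδ0), hδ0]
  -- scaled points stay in the larger ball
  have hb1 : ∀ b : Fin t → ℝ, ∑ i, b i ^ 2 ≤ E * t → ∀ c : ℝ, 0 ≤ c → c ≤ (1 + δ) / (1 - δ) →
      ∑ i, (c • b) i ^ 2 ≤ E' * t := by
    intro b hb c hc0 hc1
    have e : ∑ i, (c • b) i ^ 2 = c ^ 2 * ∑ i, b i ^ 2 := by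
      rw [Finset.mul_sum]
      refine Finset.sum_congr rfl fun i _ => ?_
      rw [Pi.smul_apply, smul_eq_mul, mul_pow]
    rw [e]
    calc c ^ 2 * ∑ i, b i ^ 2 ≤ ((1 + δ) / (1 - δ)) ^ 2 * (E * t) := by (clear * - hc0 hc1 hb hn h1δ'; gcongr)
      _ = (E * ((1 + δ) / (1 - δ)) ^ 2) * t := by ring
      _ ≤ E' * t := by (clear * - hEE' ht; gcongr)
  set T : (Fin t → ℝ) → Set (Fin N → ℝ) := fun b => {x | ((1 + δ) • x, (1 + δ) • b) ∈ K₄}
    with hT
  have hslice : ∀ b : Fin t → ℝ, {x : Fin N → ℝ | (x, (1 + δ) • b) ∈ K₄} = (1 + δ) • T b := by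
    intro b
    ext x
    rw [Set.mem_smul_set_iff_inv_smul_mem₀ h1δ.ne']
    simp only [hT, Set.mem_ofPred_eq]
    rw [smul_smul, mul_inv_cancel₀ h1δ.ne', one_smul]
  have hvolT : ∀ b : Fin t → ℝ, volume {x : Fin N → ℝ | (x, (1 + δ) • b) ∈ K₄} =
      ENNReal.ofReal ((1 + δ) ^ N) * volume (T b) := by
    intro b
    rw [hslice, Measure.addHaar_smul]
    simp only [Module.finrank_fintype_fun_eq_card, Fintype.card_fin, abs_pow, abs_of_nonneg h1δ.le]
  have hpow3 : (1 + δ) ^ N ≤ 3 := one_add_pow_le (show 1 ≤ n by (clear * - hn; omega)) (by omega)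
  have hpow1 : 1 ≤ (1 + δ) ^ N := one_le_pow₀ (by linarith only [hδ0])
  refine ⟨T, ?_, ?_⟩
  · intro b hb
    have hball : ∑ i, ((1 + δ) • b) i ^ 2 ≤ E' * t := hb1 b hb _ h1δ.le hquot
    refine ⟨?_, ?_, ?_, ?_, ?_, ?_⟩
    · intro x hx y hy a c ha hc' hac
      have h1 := hc hx hy ha hc' hac
      have e : a • ((1 + δ) • x, (1 + δ) • b) + c • ((1 + δ) • y, (1 + δ) • b) =
          ((1 + δ) • (a • x + c • y), (1 + δ) • b) := by
        ext i
        · simp only [Prod.smul_mk, Prod.mk_add_mk, Pi.add_apply, Pi.smul_apply, smul_eq_mul]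
          ring
        · simp only [Prod.smul_mk, Prod.mk_add_mk, Pi.add_apply, Pi.smul_apply, smul_eq_mul]
          rw [← add_mul, hac, one_mul]
      rw [e] at h1
      exact h1
    · have h1 : IsCompact {x : Fin N → ℝ | (x, (1 + δ) • b) ∈ K₄} := by
        refine IsCompact.of_isClosed_subset (hk.image continuous_fst) ?_ ?_
        · exact hk.isClosed.preimage (by fun_prop : Continuous fun x : Fin N → ℝ =>
            (x, (1 + δ) • b))
        · intro x hx
          exact ⟨_, hx, rfl⟩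
      have h2 : T b = (1 + δ)⁻¹ • {x : Fin N → ℝ | (x, (1 + δ) • b) ∈ K₄} := by
        rw [hslice, smul_smul, inv_mul_cancel₀ h1δ.ne', one_smul]
      rw [h2]
      exact h1.smul _
    · intro x hx i
      have h1 := hbd _ _ hball hx i
      rw [Pi.smul_apply, smul_eq_mul, abs_mul, abs_of_pos h1δ] at h1
      have h2 := abs_nonneg (x i)
      (by_contra nlg; linarith only [nlg, mul_pos (sub_pos.2 (not_le.1 nlg)) (sub_pos.2 hδ0), hδ0, h1])
    · -- the cube
      set b' : Fin t → ℝ := ((1 + δ) / (1 - δ)) • b with hb'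
      have hball' : ∑ i, b' i ^ 2 ≤ E' * t := hb1 b hb _ (by (clear * - hn h1δ'; positivity)) le_rfl
      have hne : {x : Fin N → ℝ | (x, b') ∈ K₄}.Nonempty := by
        by_contra hemp
        rw [Set.not_nonempty_iff_eq_empty] at hemp
        have h1 := hlow b' hball'
        rw [hemp] at h1
        simp only [measure_empty, nonpos_iff_eq_zero, ENNReal.ofReal_eq_zero] at h1
        linarith only [hg, h1]
      obtain ⟨x₁, hx₁⟩ := hne
      refine ⟨((1 - δ) / (1 + δ)) • x₁, fun x hx => ?_⟩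
      have h3 : (((1 + δ) * n) • x, (0 : Fin t → ℝ)) ∈ K₄ := by
        apply hsimp
        · intro i
          rw [Pi.smul_apply, smul_eq_mul]
          exact mul_nonneg (by positivity) (hx i).1
        · have h4 : ∀ i, (((1 + δ) * n) • x) i ≤ 1 / (4 * Real.sqrt t * n) := by
            intro i
            rw [Pi.smul_apply, smul_eq_mul]
            calc (1 + δ) * n * x i ≤ 2 * n * (1 / (8 * Real.sqrt t * (n : ℝ) ^ 2)) := by
                  apply mul_le_mul _ (hx i).2 (hx i).1 (by positivity)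
                  gcongr
                  linarith only [hδ1]
              _ = 1 / (4 * Real.sqrt t * n) := by
                  field_simp
                  norm_num
          calc ∑ i, (((1 + δ) * n) • x) i ≤ ∑ _i : Fin N, 1 / (4 * Real.sqrt t * n) :=
                Finset.sum_le_sum fun i _ => h4 i
            _ = N / n * (1 / (4 * Real.sqrt t)) := by
                rw [Finset.sum_const, Finset.card_univ, Fintype.card_fin, nsmul_eq_mul]
                (clear * - hn ht; field_simp)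
            _ ≤ 1 * (1 / (4 * Real.sqrt t)) := by
                gcongr
                rw [div_le_one hnpos]
                exact_mod_cast (show N ≤ n by omega)
            _ = _ := one_mul _
      have h5 := hc hx₁ h3 h1δ'.le hδ0.le (by ring)
      have e : (1 - δ) • (x₁, b') + δ • (((1 + δ) * n) • x, (0 : Fin t → ℝ)) =
          ((1 + δ) • (((1 - δ) / (1 + δ)) • x₁ + x), (1 + δ) • b) := by
        ext i
        · simp only [Prod.smul_mk, Prod.mk_add_mk, Pi.add_apply, Pi.smul_apply, smul_eq_mul]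
          have h6 : δ * ((1 + δ) * n * x i) = (1 + δ) * x i := by
            rw [hδ]
            (clear * - hn; field_simp)
          rw [h6]
          (clear * - hδ0; field_simp)
        · simp only [hb', Prod.smul_mk, Prod.mk_add_mk, Pi.add_apply, Pi.smul_apply, smul_eq_mul,
            Pi.zero_apply, mul_zero, add_zero]
          (clear * - h1δ' hδ0; field_simp)
      rw [e] at h5
      exact h5
    · have h1 := hlow _ hball
      rw [hvolT] at h1
      have h2 : ENNReal.ofReal g ≤ ENNReal.ofReal 3 * volume (T b) :=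
        h1.trans (mul_le_mul_left (ENNReal.ofReal_le_ofReal hpow3) _)
      rw [show g / 3 = (1 / 3) * g by ring, ENNReal.ofReal_mul (by norm_num)]
      calc ENNReal.ofReal (1 / 3) * ENNReal.ofReal g
          ≤ ENNReal.ofReal (1 / 3) * (ENNReal.ofReal 3 * volume (T b)) := by (clear * - h2; gcongr)
        _ = volume (T b) := by
            rw [← mul_assoc, ← ENNReal.ofReal_mul (by (clear * -; norm_num))]
            norm_num
    · have h1 := slice_sup K₄ hc hk E' g W hE' hg hW hlow hvol ((1 + δ) • b)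
      rw [hvolT] at h1
      have h2 : volume (T b) ≤ ENNReal.ofReal ((1 + δ) ^ N) * volume (T b) := by
        calc volume (T b) = 1 * volume (T b) := (one_mul _).symm
          _ ≤ _ := by
            gcongr
            rw [← ENNReal.ofReal_one]
            exact ENNReal.ofReal_le_ofReal hpow1
      refine h2.trans (h1.trans (ENNReal.ofReal_le_ofReal ?_))
      calc 4 ^ t * W ^ 2 * g = (3 * 4 ^ t * W ^ 2) * (g / 3) := by ring
        _ ≤ 2 ^ N * (g / 3) := by (clear * - hW2 hg; gcongr)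
  · intro b hb a ha x hx x' hx'
    have hconv := hc hx hx' (a := 1 / (1 + δ)) (b := δ / (1 + δ)) (by positivity) (by positivity)
      (by (clear * - hδ0; field_simp))
    convert hconv using 1
    ext i
    · simp only [Pi.add_apply, Pi.smul_apply, smul_eq_mul, Prod.smul_mk, Prod.mk_add_mk]
      (clear * - hδ0; field_simp)
    · simp only [Prod.smul_mk, Prod.mk_add_mk, Pi.add_apply, Pi.smul_apply, smul_eq_mul]
      field_simp

end Vale.Agent.P230
end
end
end
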