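import Vale.Agent.P230.MathlibUsed

set_option linter.all false

section

section

/-!
# Translative covering densities
-/

namespace Vale.Agent.P230.LB

open MeasureTheory
open scoped Pointwise

/-- Euclidean space of dimension `n`. -/
abbrev E (n : ℕ) : Type := EuclideanSpace ℝ (Fin n)

/-! ### Covering densities (the objects of the final statement) -/

/-- Locally finite sets: every ball contains finitely many points. -/
def LocFin {n : ℕ} (X : Set (E n)) : Prop :=
  ∀ R : ℝ, (X ∩ Metric.closedBall 0 R).Finite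

/-- The cube `[-R, R]^n`. -/
def cube (n : ℕ) (R : ℝ) : Set (E n) := {x | ∀ i, |x i| ≤ R}

/-- Upper density of `X` along the cubes `[-R, R]^n`. -/
noncomputable def upDens {n : ℕ} (X : Set (E n)) : ENNReal :=
  Filter.limsup (fun R : ℝ =>
    ((X ∩ cube n R).encard : ENNReal) / ENNReal.ofReal ((2 * R) ^ n)) Filter.atTop

/-- The translative covering density `θ_T(K)`. -/
noncomputable def thetaT {n : ℕ} (K : Set (E n)) : ENNReal :=
  ⨅ (X : Set (E n)) (_ : LocFin X) (_ : K + X = Set.univ), volume K * upDens X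

/-- `Θ_T(n)`, the supremum of `θ_T(K)` over convex bodies `K` in `ℝ^n`. -/
noncomputable def ThetaT (n : ℕ) : ENNReal :=
  ⨆ (K : Set (E n)) (_ : Convex ℝ K) (_ : IsCompact K) (_ : (interior K).Nonempty), thetaT K

end Vale.Agent.P230.LB
end
end

section

section

/-!
# Lower bound `Theta_T(n) ≥ c n log n` for translative coverings: definitions

See note 5890 of P230 (proof by helper849).
-/

namespace Vale.Agent.P230.LB

open MeasureTheory
open scoped Pointwise

/-! ### Constants -/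

/-- cutting threshold -/
noncomputable def rho : ℝ := 51199 / 51200

noncomputable def C1 : ℝ := 110000

noncomputable def r1 (n : ℕ) : ℝ := 1 - 2 * Real.log n / n

noncomputable def eta (n : ℕ) : ℝ := 1 / (2 * n)

/-- the scales `γ_j = 8^j γ_0`, `γ_0² = 1000 log n / n` -/
noncomputable def gam (n j : ℕ) : ℝ := 8 ^ j * Real.sqrt (1000 * Real.log n / n)

/-- number of levels -/
noncomputable def lev (n : ℕ) : ℕ := ⌊Real.log n / (8 * Real.log 8)⌋₊

noncomputable def bet (n : ℕ) : ℝ := 32 * gam n (lev n)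

noncomputable def Hmax (n : ℕ) : ℝ := n * Real.log n / 40

noncomputable def m0 (n : ℕ) : ℝ := (2.2 : ℝ) ^ n

/-! ### Geometry -/

/-- volume as a real number -/
noncomputable def vol {n : ℕ} (s : Set (E n)) : ℝ := (volume s).toReal

/-- unit ball -/
def B (n : ℕ) : Set (E n) := {u | ‖u‖ ≤ 1}

/-- the cap of directions `u` in the unit ball which cut `z` at level `s` -/
def Cap {n : ℕ} (z : E n) (s : ℝ) : Set (E n) := {u | ‖u‖ ≤ 1 ∧ s < inner ℝ z u}

/-- normalising constant of the random body -/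
def NormN (n : ℕ) (N : ℝ) : Prop :=
  0 < N ∧ ∀ z : E n, ‖z‖ = 1 → 1 / 2 ≤ N * vol (Cap z rho) ∧ N * vol (Cap z rho) ≤ 1

open Classical in
/-- the points of `Z` cut by the direction `u` -/
noncomputable def cut {n : ℕ} (Z : Finset (E n)) (u : E n) : Finset (E n) :=
  Z.filter (fun z => rho < inner ℝ z u)

/-- `S` has diameter at most `d` -/
def Small {n : ℕ} (S : Finset (E n)) (d : ℝ) : Prop := ∀ a ∈ S, ∀ b ∈ S, ‖a - b‖ ≤ d

/-- finite sets in the thin shell `r1 ≤ |z| ≤ 1` with at most `n²` points -/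
def Shell (n : ℕ) (Z : Finset (E n)) : Prop :=
  (∀ z ∈ Z, r1 n ≤ ‖z‖ ∧ ‖z‖ ≤ 1) ∧ Z.card ≤ n ^ 2

open Classical in
/-- the differences `y - x`, `x ∈ X`, of norm at most one -/
noncomputable def Zof {n : ℕ} (X : Finset (E n)) (y : E n) : Finset (E n) :=
  (X.image (fun x => y - x)).filter (fun z => ‖z‖ ≤ 1)

/-- good points -/
def GoodPt (n : ℕ) (X : Finset (E n)) (y : E n) : Prop :=
  (∀ x ∈ X, r1 n ≤ ‖y - x‖) ∧ (Zof X y).card ≤ n ^ 2 ∧
    ∑ z ∈ Zof X y, (3 + C1 * n * (1 - ‖z‖)) ≤ Hmax n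

/-! ### Finite probability: a random subset `J` of a finite set `T` -/

section prob

variable {T : Type} [Fintype T] [DecidableEq T]

/-- weight of the subset `J` (each `τ` is chosen independently with probability `p τ`) -/
noncomputable def wt (p : T → ℝ) (J : Finset T) : ℝ :=
  (∏ τ ∈ J, p τ) * ∏ τ ∈ Jᶜ, (1 - p τ)

open Classical in
/-- probability of an event -/
noncomputable def Pr (p : T → ℝ) (A : Finset T → Prop) : ℝ :=
  ∑ J : Finset T, if A J then wt p J else 0

/-- increasing event -/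
def Incr (A : Finset T → Prop) : Prop := ∀ J J', J ⊆ J' → A J → A J'

/-- the event `A` depends only on `J ∩ S` -/
def DepOn (A : Finset T → Prop) (S : Finset T) : Prop :=
  ∀ J J', J ∩ S = J' ∩ S → (A J ↔ A J')

end prob

/-! ### Atoms -/

open Classical in
/-- A finite set of atoms of the unit ball: `u τ` representative, `m τ` mass. -/
structure Atoms (n : ℕ) (Zc : Finset (E n)) (ε : ℝ) (T : Type) [Fintype T] where
  u : T → E n
  m : T → ℝ
  m_nonneg : ∀ τ, 0 ≤ m τ
  u_le : ∀ τ, ‖u τ‖ ≤ 1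
  mass : ∀ Q : Finset (E n) → Prop,
    (∑ τ, if Q (cut Zc (u τ)) then m τ else 0) = vol {v : E n | ‖v‖ ≤ 1 ∧ Q (cut Zc v)}
  half : ∀ w : E n, ‖w‖ ≤ 1 → ∀ s : ℝ,
    (∑ τ, if s < inner ℝ w (u τ) then m τ else 0) ≤ vol (Cap w (s - ε))

section ev

variable {n : ℕ} {Zc : Finset (E n)} {ε : ℝ} {T : Type} [Fintype T]

/-- selection probabilities -/
noncomputable def pp (N : ℝ) (a : Atoms n Zc ε T) (τ : T) : ℝ := 1 - Real.exp (-(N * a.m τ))

/-- the event: each `z ∈ Z` is cut by a chosen atom whose cut set in `Z` has diameter `≤ d` -/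
def Ev (a : Atoms n Zc ε T) (Z : Finset (E n)) (d : ℝ) (J : Finset T) : Prop :=
  ∀ z ∈ Z, ∃ τ ∈ J, z ∈ cut Z (a.u τ) ∧ Small (cut Z (a.u τ)) d

open Classical in
/-- the atoms which cut some point of `Z` -/
noncomputable def supp (a : Atoms n Zc ε T) (Z : Finset (E n)) : Finset T :=
  Finset.univ.filter (fun τ => (cut Z (a.u τ)).Nonempty)

end ev

/-- clusters of good points for a fixed finite set `X` -/
structure ClusterData (n : ℕ) (X : Finset (E n)) where
  Y : Fin (7 ^ n) → Finset (E n)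
  inB : ∀ g, ∀ y ∈ Y g, ‖y‖ ≤ 1
  good : ∀ g, ∀ y ∈ Y g, GoodPt n X y
  card : ∀ g, m0 n ^ 2 * Real.exp (Hmax n) ≤ (Y g).card
  sep : ∀ g, ∀ y ∈ Y g, ∀ y' ∈ Y g, y ≠ y' → 2 * bet n ≤ ‖y - y'‖
  far : ∀ g g', g ≠ g' → ∀ y ∈ Y g, ∀ y' ∈ Y g', ∀ x ∈ X, ∀ x' ∈ X,
    1 / 80 ≤ ‖(y - x) - (y' - x')‖

end Vale.Agent.P230.LB
end
end

section

section

/-!
# Statements of the modules of the proof of `Theta_T(n) ≥ c n log n`

Each module of the proof is a `Prop` below.  A module file proves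
`theorem xxx : Stmt.Xxx` or `theorem xxx (h : Stmt.Yyy) : Stmt.Xxx`.
-/

namespace Vale.Agent.P230.LB

open MeasureTheory
open scoped Pointwise

namespace Stmt

/-! ## A. caps -/

/-- (C3) with rotation and scaling invariance. -/
def CapUpper : Prop :=
  ∀ (n : ℕ), 1 ≤ n → ∀ (z z' : E n) (s s' t t' : ℝ), z ≠ 0 → 0 ≤ t → t ≤ t' → t < 1 →
    s ≤ t * ‖z‖ → t' * ‖z'‖ ≤ s' →
    vol (Cap z' s') ≤
      Real.exp (-(((n : ℝ) - 1) * (t' ^ 2 - t ^ 2) / (2 * (1 - t ^ 2)))) * vol (Cap z s)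

/-- (C2) with rotation and scaling invariance. -/
def CapLowerPow : Prop :=
  ∀ (n : ℕ), 1 ≤ n → ∀ (z z' : E n) (s s' t t' : ℝ), z' ≠ 0 → 0 ≤ t → t ≤ t' → t' < 1 →
    t * ‖z‖ ≤ s → s' ≤ t' * ‖z'‖ →
    ((1 - t') / (1 - t)) ^ n * vol (Cap z s) ≤ vol (Cap z' s')

/-- exponential form of (C2) (follows from `CapLowerPow` and `exp (-2x) ≤ 1 - x` on `[0,1/2]`) -/
def CapLower : Prop :=
  ∀ (n : ℕ), 1 ≤ n → ∀ (z z' : E n) (s s' t t' : ℝ), z' ≠ 0 → 0 ≤ t → t ≤ t' → t < 1 →
    t' - t ≤ (1 - t) / 2 → t * ‖z‖ ≤ s → s' ≤ t' * ‖z'‖ →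
    Real.exp (-(2 * (n : ℝ) * (t' - t) / (1 - t))) * vol (Cap z s) ≤ vol (Cap z' s')

/-! ## B. facets -/

def TwoCut : Prop :=
  ∀ (n : ℕ), 2 ≤ n → ∀ (N : ℝ), NormN n N → ∀ z z' : E n, ‖z‖ ≤ 1 → ‖z'‖ ≤ 1 →
    N * vol {u : E n | ‖u‖ ≤ 1 ∧ rho < inner ℝ z u ∧ rho < inner ℝ z' u} ≤
      Real.exp (-(1000 * n * ‖z - z'‖ ^ 2))

def ZeroCut : Prop :=
  ∀ (n : ℕ), ∀ z z' : E n, ‖z‖ ≤ 1 → ‖z'‖ ≤ 1 → 1 / 80 ≤ ‖z - z'‖ → ∀ u : E n, ‖u‖ ≤ 1 →
    ¬ (rho < inner ℝ z u ∧ rho < inner ℝ z' u)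

def OneCut : Prop :=
  ∀ (n : ℕ), 1 ≤ n → ∀ (N : ℝ), NormN n N → ∀ z : E n, ‖z‖ ≤ 1 → 1 - ‖z‖ ≤ 1 / 204800 →
    1 / 2 * Real.exp (-(C1 * n * (1 - ‖z‖))) ≤ N * vol (Cap z rho)

/-- (L0) -/
def FacetL0 : Prop :=
  ∃ n0 : ℕ, ∀ n : ℕ, n0 ≤ n → ∀ (N : ℝ), NormN n N → ∀ Z : Finset (E n), Shell n Z →
    ∀ z ∈ Z, 1 / 4 * Real.exp (-(C1 * n * (1 - ‖z‖))) ≤
      N * vol {u : E n | ‖u‖ ≤ 1 ∧ z ∈ cut Z u ∧ Small (cut Z u) (gam n 0)}

/-- (L1) -/
def FacetL1 : Prop :=
  ∃ n0 : ℕ, ∀ n : ℕ, n0 ≤ n → ∀ (N : ℝ), NormN n N → ∀ Z : Finset (E n), Shell n Z →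
    ∀ S ⊆ Z, S.Nonempty → ∀ γ : ℝ, gam n 0 ≤ γ → γ ^ 2 ≤ 1 / 10 ^ 7 → Small S γ →
      Real.exp (-(220000 * n * γ ^ 2)) ≤
        N * vol {u : E n | ‖u‖ ≤ 1 ∧ S ⊆ cut Z u ∧ Small (cut Z u) (8 * γ)}

/-! ## C. atoms -/

def ExistsAtoms : Prop :=
  ∀ (n : ℕ) (Zc : Finset (E n)) (ε : ℝ), 0 < ε → ∃ k : ℕ, Nonempty (Atoms n Zc ε (Fin k))

/-! ## D. finite product probability -/

def WtSum : Prop :=
  ∀ (T : Type) [Fintype T] [DecidableEq T] (p : T → ℝ), ∑ J : Finset T, wt p J = 1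

/-- probability that no element of `R` is chosen -/
def PrEmpty : Prop :=
  ∀ (T : Type) [Fintype T] [DecidableEq T] (p : T → ℝ) (R : Finset T),
    Pr p (fun J => Disjoint J R) = ∏ τ ∈ R, (1 - p τ)

def Harris : Prop :=
  ∀ (T : Type) [Fintype T] [DecidableEq T] (p : T → ℝ), (∀ τ, 0 ≤ p τ) → (∀ τ, p τ ≤ 1) →
    ∀ A B : Finset T → Prop, Incr A → Incr B →
      Pr p A * Pr p B ≤ Pr p (fun J => A J ∧ B J)

/-! ## E. the pair lemma -/

def PairLemma : Prop :=
  ∀ (T : Type) [Fintype T] [DecidableEq T] (p : T → ℝ), (∀ τ, 0 ≤ p τ) → (∀ τ, p τ ≤ 1) →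
    ∀ (α : Type) [DecidableEq α] (Z Z' : Finset α) (R Rp R' Rp' : α → Finset T)
      (I : Finset T) (π : ℝ), 0 < π → π ≤ 1 →
      (∀ z ∈ Z, R z ⊆ Rp z) → (∀ z ∈ Z', R' z ⊆ Rp' z) →
      (∀ τ, (∃ z ∈ Z, τ ∈ R z) → (∃ z ∈ Z', τ ∈ R' z) → τ ∈ I) →
      (∀ τ ∈ I, π ≤ Pr p (fun J => ∀ z ∈ Z, τ ∈ R z → (J ∩ Rp z).Nonempty)) →
      (∀ τ ∈ I, π ≤ Pr p (fun J => ∀ z ∈ Z', τ ∈ R' z → (J ∩ Rp' z).Nonempty)) →
      Pr p (fun J => (∀ z ∈ Z, (J ∩ R z).Nonempty) ∧ (∀ z ∈ Z', (J ∩ R' z).Nonempty)) ≤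
        Pr p (fun J => ∀ z ∈ Z, (J ∩ Rp z).Nonempty) *
          Pr p (fun J => ∀ z ∈ Z', (J ∩ Rp' z).Nonempty) *
            Real.exp ((π⁻¹) ^ 2 * ∑ τ ∈ I, p τ)

/-! ## F. one cluster: second moment with the pigeonhole over levels -/

def ClusterProb : Prop :=
  ∀ (T : Type) [Fintype T] [DecidableEq T] (p : T → ℝ), (∀ τ, 0 ≤ p τ) → (∀ τ, p τ ≤ 1) →
    ∀ (α : Type) (Y : Finset α) (L : ℕ) (A : ℕ → α → Finset T → Prop) (H m1 : ℝ)
      (bad : α → α → Prop) [DecidableRel bad],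
      1 ≤ L → 0 ≤ H → Y.Nonempty →
      (∀ j < L, ∀ y ∈ Y, ∀ J, A j y J → A (j + 1) y J) →
      (∀ y ∈ Y, Real.exp (-H) ≤ Pr p (A 0 y)) →
      (∀ y ∈ Y, ((Y.filter (bad y)).card : ℝ) ≤ m1) →
      (∀ j < L, ∀ y ∈ Y, ∀ y' ∈ Y, ¬ bad y y' →
        Pr p (fun J => A j y J ∧ A j y' J) ≤
          Real.exp 1 * Pr p (A (j + 1) y) * Pr p (A (j + 1) y')) →
      m1 ≤ Y.card * Real.exp (-H) →
      Real.exp (-(2 * H / L + 2)) ≤ Pr p (fun J => ∃ y ∈ Y, A L y J)

/-! ## G. independent clusters -/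

def ClustersProb : Prop :=
  ∀ (T : Type) [Fintype T] [DecidableEq T] (p : T → ℝ), (∀ τ, 0 ≤ p τ) → (∀ τ, p τ ≤ 1) →
    ∀ (k : ℕ) (A : Fin k → Finset T → Prop) (S : Fin k → Finset T) (q : ℝ),
      (∀ g, DepOn (A g) (S g)) → (∀ g g', g ≠ g' → Disjoint (S g) (S g')) →
      (∀ g, q ≤ Pr p (A g)) →
      Pr p (fun J => ∀ g, ¬ A g J) ≤ Real.exp (-(k * q))

/-! ## H. the events `Ev` -/

def EvLower : Prop :=
  ∃ n0 : ℕ, ∀ n : ℕ, n0 ≤ n → ∀ (N : ℝ), NormN n N → ∀ (Zc : Finset (E n)) (ε : ℝ)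
    (T : Type) [Fintype T] [DecidableEq T] (a : Atoms n Zc ε T) (Z : Finset (E n)),
    Z ⊆ Zc → Shell n Z →
      Real.exp (-∑ z ∈ Z, (3 + C1 * n * (1 - ‖z‖))) ≤ Pr (pp N a) (Ev a Z (gam n 0))

def EvPair : Prop :=
  ∃ n0 : ℕ, ∀ n : ℕ, n0 ≤ n → ∀ (N : ℝ), NormN n N → ∀ (Zc : Finset (E n)) (ε : ℝ)
    (T : Type) [Fintype T] [DecidableEq T] (a : Atoms n Zc ε T) (Z Z' : Finset (E n)),
    Z ⊆ Zc → Z' ⊆ Zc → Shell n Z → Shell n Z' →
    (∀ z ∈ Z, ∀ z' ∈ Z', bet n ≤ ‖z - z'‖) → ∀ j < lev n,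
      Pr (pp N a) (fun J => Ev a Z (gam n j) J ∧ Ev a Z' (gam n j) J) ≤
        Real.exp 1 * Pr (pp N a) (Ev a Z (gam n (j + 1))) *
          Pr (pp N a) (Ev a Z' (gam n (j + 1)))

def EvDep : Prop :=
  ∀ (n : ℕ) (Zc : Finset (E n)) (ε : ℝ)
    (T : Type) [Fintype T] [DecidableEq T] (a : Atoms n Zc ε T) (Z : Finset (E n)) (d : ℝ),
    DepOn (Ev a Z d) (supp a Z)

def SuppDisj : Prop :=
  ∀ (n : ℕ) (Zc : Finset (E n)) (ε : ℝ)
    (T : Type) [Fintype T] [DecidableEq T] (a : Atoms n Zc ε T) (Z Z' : Finset (E n)),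
    (∀ z ∈ Z, ‖z‖ ≤ 1) → (∀ z ∈ Z', ‖z‖ ≤ 1) →
    (∀ z ∈ Z, ∀ z' ∈ Z', 1 / 80 ≤ ‖z - z'‖) → Disjoint (supp a Z) (supp a Z')

/-! ## I, J. nets and clusters -/

def NetLemma : Prop :=
  ∀ (n : ℕ), 1 ≤ n → ∀ (R ε : ℝ), 0 ≤ R → 0 < ε →
    ∃ Gr : Finset (E n), (Gr.card : ℝ) ≤ (1 + 2 * R / ε) ^ n ∧ (∀ g ∈ Gr, ‖g‖ ≤ R) ∧
      ∀ x : E n, ‖x‖ ≤ R → ∃ g ∈ Gr, ‖x - g‖ ≤ ε

def ClusterLemma : Prop :=
  ∃ n0 : ℕ, ∀ n : ℕ, n0 ≤ n → ∀ X : Finset (E n), (X.card : ℝ) ≤ m0 n →
    vol (B n) / 2 ≤ vol {y : E n | ‖y‖ ≤ 1 ∧ GoodPt n X y} → Nonempty (ClusterData n X)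

/-! ## K. the window lemma -/

/-- averaging over translates -/
def AvgLemma : Prop :=
  ∀ (n : ℕ), 1 ≤ n → ∀ X : Set (E n), LocFin X → ∀ D0 : ENNReal, D0 ≠ ⊤ → upDens X < D0 →
    ∀ g : E n → ENNReal, Measurable g → (∀ v, 3 < ‖v‖ → g v = 0) →
      2 * D0 * ∫⁻ v, g v < 1 → ∃ t : E n, ∑' x : X, g (t - x) < 1

open Classical in
/-- choice of the window, before rounding -/
def WindowAvg : Prop :=
  ∃ n0 : ℕ, ∀ n : ℕ, n0 ≤ n → ∀ X : Set (E n), LocFin X →
    upDens X < ENNReal.ofReal (1 / 10 ^ 9 * n * Real.log n / vol (B n)) →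
      ∃ (t : E n) (F : Finset (E n)), (∀ x, x ∈ F ↔ x ∈ X ∧ ‖x - t‖ ≤ 2) ∧
        (F.card : ℝ) ≤ m0 n ∧
        vol (B n) / 2 ≤ vol {y : E n | ‖y‖ ≤ 1 ∧
          (∀ x ∈ F, r1 n + eta n ≤ ‖(y + t) - x‖) ∧
          (F.filter (fun x => ‖(y + t) - x‖ ≤ 1 + eta n)).card ≤ n ^ 2 ∧
          ∑ x ∈ F.filter (fun x => ‖(y + t) - x‖ ≤ 1 + eta n),
            (3 + C1 * n * (1 + eta n - ‖(y + t) - x‖)) ≤ Hmax n}

def Window : Prop :=
  ∃ n0 : ℕ, ∀ n : ℕ, n0 ≤ n → ∀ X : Set (E n), LocFin X →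
    upDens X < ENNReal.ofReal (1 / 10 ^ 9 * n * Real.log n / vol (B n)) →
    ∀ Gr : Finset (E n), (∀ x : E n, ‖x‖ ≤ 2 → ∃ g ∈ Gr, ‖x - g‖ ≤ eta n) →
      ∃ (t : E n) (X' : Finset (E n)), X' ⊆ Gr ∧ (X'.card : ℝ) ≤ m0 n ∧
        (∀ x ∈ X, ‖x - t‖ ≤ 2 → ∃ x' ∈ X', ‖(x - t) - x'‖ ≤ eta n) ∧
        vol (B n) / 2 ≤ vol {y : E n | ‖y‖ ≤ 1 ∧ GoodPt n X' y}

/-! ## Numerical facts (valid for all large `n`) -/

def NumLev : Prop :=
  ∃ n0 : ℕ, ∀ n : ℕ, n0 ≤ n →
    1 ≤ lev n ∧ 2 * Hmax n / lev n ≤ n ∧ gam n (lev n) ^ 2 ≤ 1 / 10 ^ 7 ∧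
      2 * Real.log n / n ≤ 1 / 204800 ∧ (n : ℝ) ^ 4 * 4 *
        Real.exp (-(900000 * n * gam n (lev n) ^ 2)) ≤ 1

def NumCluster : Prop :=
  ∃ n0 : ℕ, ∀ n : ℕ, n0 ≤ n →
    0 < bet n ∧ m0 n ^ 2 * Real.exp (Hmax n) * (161 ^ n * (2 * bet n) ^ n) ≤ 1 / 4 ∧
      m0 n ^ 2 * (1 / 40) ^ n * 7 ^ n ≤ 1 / 4

def NumUnion : Prop :=
  ∃ n0 : ℕ, ∀ n : ℕ, n0 ≤ n → ∀ M k : ℕ, (M : ℝ) ≤ (1 + 8 * (n : ℝ)) ^ n → (k : ℝ) ≤ m0 n →
    ((M : ℝ) + 1) ^ k * Real.exp (-((7 : ℝ) ^ n * Real.exp (-((n : ℝ) + 2)))) ≤ 1 / 100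

/-! ## L. failure probability for a fixed `X` -/

def FixedX : Prop :=
  ∃ n0 : ℕ, ∀ n : ℕ, n0 ≤ n → ∀ (N : ℝ), NormN n N → ∀ X : Finset (E n),
    (X.card : ℝ) ≤ m0 n → ∀ (D : ClusterData n X) (Zc : Finset (E n)),
    (∀ g, ∀ y ∈ D.Y g, Zof X y ⊆ Zc) → ∀ (ε : ℝ) (T : Type) [Fintype T] [DecidableEq T]
      (a : Atoms n Zc ε T),
      Pr (pp N a) (fun J => ∀ g, ∀ y ∈ D.Y g, ∃ z ∈ Zof X y, ∀ τ ∈ J,
        ¬ rho < inner ℝ z (a.u τ)) ≤
      Real.exp (-((7 : ℝ) ^ n * Real.exp (-((n : ℝ) + 2))))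

/-! ## M. the random body -/

/-- the normalising constant -/
def ExistsNorm : Prop :=
  ∀ n : ℕ, 2 ≤ n → ∃ N : ℝ, NormN n N ∧
    ∀ w : E n, ‖w‖ ≤ 1 - eta n →
      N * vol (Cap w (rho - eta n - 1 / (10 ^ 6 * n))) ≤ 1

/-- the body -/
def body {n : ℕ} {Zc : Finset (E n)} {ε : ℝ} {T : Type} [Fintype T] (a : Atoms n Zc ε T)
    (J : Finset T) : Set (E n) :=
  {w | ‖w‖ ≤ 1 - eta n ∧ ∀ τ ∈ J, inner ℝ w (a.u τ) ≤ rho - eta n}

/-- expected volume of the body -/
def ExpVol : Prop :=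
  ∀ n : ℕ, 2 ≤ n → ∀ (N : ℝ), 0 < N →
    (∀ w : E n, ‖w‖ ≤ 1 - eta n → N * vol (Cap w (rho - eta n - 1 / (10 ^ 6 * n))) ≤ 1) →
    ∀ (Zc : Finset (E n)) (T : Type) [Fintype T] [DecidableEq T]
      (a : Atoms n Zc (1 / (10 ^ 6 * n)) T),
      Real.exp (-1) / 2 * vol (B n) ≤ ∑ J : Finset T, wt (pp N a) J * vol (body a J)

def ExistsBody : Prop :=
  ∃ n0 : ℕ, ∀ n : ℕ, n0 ≤ n → ∀ Gr : Finset (E n), (Gr.card : ℝ) ≤ (1 + 8 * (n : ℝ)) ^ n →
    ∃ K : Set (E n), Convex ℝ K ∧ IsCompact K ∧ (interior K).Nonempty ∧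
      (∀ w ∈ K, ‖w‖ ≤ 1 - eta n) ∧ vol (B n) / 11 ≤ vol K ∧
      ∀ X ⊆ Gr, (X.card : ℝ) ≤ m0 n →
        vol (B n) / 2 ≤ vol {y : E n | ‖y‖ ≤ 1 ∧ GoodPt n X y} →
        ∃ y : E n, ‖y‖ ≤ 1 ∧ ∀ x ∈ X, ∀ v : E n, ‖v‖ ≤ eta n → y - x - v ∉ K

/-! ## N. the final statement -/

/-- every translative covering has density at least one -/
def ThetaTGeOne : Prop := ∀ n : ℕ, 1 ≤ n → 1 ≤ ThetaT n

/-- the lower bound for all large `n` -/
def LowerT : Prop :=
  ∃ c : ℝ, 0 < c ∧ ∃ n0 : ℕ, ∀ n : ℕ, n0 ≤ n →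
    ENNReal.ofReal (c * n * Real.log n) ≤ ThetaT n

end Stmt

end Vale.Agent.P230.LB
end
end

section

section

/-!
P230-LB02: lower bounds for volumes of caps.
-/

namespace Vale.Agent.P230.LB

open MeasureTheory
open scoped Pointwise

namespace CapL

variable {n : ℕ}

theorem measurableSet_Cap (z : E n) (s : ℝ) : MeasurableSet (Cap z s) := by
  have h1 : MeasurableSet {u : E n | ‖u‖ ≤ 1} := measurableSet_le measurable_norm measurable_const
  have h2 : MeasurableSet {u : E n | s < inner ℝ z u} :=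
    measurableSet_lt measurable_const (by fun_prop)
  exact h1.inter h2

theorem Cap_ne_top (z : E n) (s : ℝ) : volume (Cap z s) ≠ ⊤ := by
  have h1 : Cap z s ⊆ Metric.closedBall (0 : E n) 1 := by
    intro u hu
    rw [mem_closedBall_zero_iff]
    exact hu.1
  exact ((measure_mono h1).trans_lt (measure_closedBall_lt_top)).ne

/-- a linear isometry moving one unit vector to another one -/
theorem exists_rot {e e' : E n} (h : ‖e‖ = ‖e'‖) : ∃ A : E n ≃ₗᵢ[ℝ] E n, A e = e' :=
  ⟨(Submodule.span ℝ {e - e'})ᗮ.reflection, Submodule.reflection_sub h⟩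

end CapL

open CapL

theorem capLowerPow : Stmt.CapLowerPow := by
  intro n hn z z' s s' t t' hz' ht htt ht1 hs hs'
  have ht1' : 0 < 1 - t := by linarith only [htt, ht1]
  have h0 : 0 < 1 - t' := by linarith only [ht1]
  set k : ℝ := (1 - t') / (1 - t) with hk
  have hk0 : 0 < k := by positivity
  have hk1 : k ≤ 1 := by rw [hk, div_le_one ht1']; linarith only [htt]
  have hnn : 0 ≤ vol (Cap z' s') := ENNReal.toReal_nonneg
  by_cases hz : z = 0
  · have h1 : Cap z s = ∅ := by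
      ext u
      refine ⟨fun hu => ?_, fun hu => hu.elim⟩
      have h2 : s < inner ℝ z u := hu.2
      rw [hz, norm_zero, mul_zero] at hs
      rw [hz, inner_zero_left] at h2
      linarith only [hs, h2]
    have h2 : vol (Cap z s) = 0 := by rw [h1]; simp only [vol, measure_empty, ENNReal.toReal_zero]
    rw [h2, mul_zero]
    exact hnn
  have hzn : 0 < ‖z‖ := norm_pos_iff.2 hz
  have hzn' : 0 < ‖z'‖ := norm_pos_iff.2 hz'
  obtain ⟨e, he⟩ : ∃ e : E n, e = (‖z‖⁻¹ : ℝ) • z := ⟨_, rfl⟩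
  obtain ⟨e', he'⟩ : ∃ e' : E n, e' = (‖z'‖⁻¹ : ℝ) • z' := ⟨_, rfl⟩
  have hen : ‖e‖ = 1 := by rw [he]; exact norm_smul_inv_norm hz
  have hen' : ‖e'‖ = 1 := by rw [he']; exact norm_smul_inv_norm hz'
  obtain ⟨A, hA⟩ := exists_rot (hen.trans hen'.symm)
  have hze : z = ‖z‖ • e := by rw [he, smul_smul, mul_inv_cancel₀ hzn.ne', one_smul]
  have hze' : z' = ‖z'‖ • e' := by rw [he', smul_smul, mul_inv_cancel₀ hzn'.ne', one_smul]
  have hsub : AffineMap.homothety e' k '' (A '' Cap z s) ⊆ Cap z' s' := by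
    rintro _ ⟨_, ⟨u, hu, rfl⟩, rfl⟩
    obtain ⟨hu1, hu2⟩ := hu
    have a1 : ‖A u‖ ≤ 1 := by rw [A.norm_map]; exact hu1
    have a2 : t < inner ℝ e' (A u) := by
      rw [← hA, A.inner_map_map]
      rw [hze, real_inner_smul_left] at hu2
      have : t * ‖z‖ < ‖z‖ * inner ℝ e u := lt_of_le_of_lt hs hu2
      rw [mul_comm] at this
      exact lt_of_mul_lt_mul_left this hzn.le
    have a3 : AffineMap.homothety e' k (A u) = (1 - k) • e' + k • A u := by
      rw [AffineMap.homothety_apply, vsub_eq_sub, vadd_eq_add, smul_sub, sub_smul, one_smul]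
      abel
    rw [a3]
    constructor
    · calc ‖(1 - k) • e' + k • A u‖ ≤ ‖(1 - k) • e'‖ + ‖k • A u‖ := norm_add_le _ _
        _ = (1 - k) * ‖e'‖ + k * ‖A u‖ := by
            rw [norm_smul, norm_smul, Real.norm_of_nonneg (by linarith only [hk1] : (0 : ℝ) ≤ 1 - k),
              Real.norm_of_nonneg hk0.le]
        _ ≤ (1 - k) * 1 + k * 1 := by
            rw [hen']
            have := mul_le_mul_of_nonneg_left a1 hk0.le
            linarith only [this]
        _ = 1 := by ring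
    · have a4 : inner ℝ e' ((1 - k) • e' + k • A u) = (1 - k) + k * inner ℝ e' (A u) := by
        rw [inner_add_right, real_inner_smul_right, real_inner_smul_right,
          real_inner_self_eq_norm_sq, hen']
        ring
      have a5 : k * (1 - t) = 1 - t' := div_mul_cancel₀ _ ht1'.ne'
      have a6 : t' < inner ℝ e' ((1 - k) • e' + k • A u) := by
        rw [a4]
        have := mul_lt_mul_of_pos_left a2 hk0
        linarith only [a5, this]
      have a7 : inner ℝ z' ((1 - k) • e' + k • A u) =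
          ‖z'‖ * inner ℝ e' ((1 - k) • e' + k • A u) := by
        conv_lhs => rw [hze']
        rw [real_inner_smul_left]
      rw [a7]
      have := mul_lt_mul_of_pos_left a6 hzn'
      linarith only [hs', this]
  have hvA : volume (A '' Cap z s) = volume (Cap z s) := by
    have h1 : A '' Cap z s = A.symm ⁻¹' Cap z s := by
      ext u
      constructor
      · rintro ⟨x, hx, rfl⟩
        simpa using hx
      · intro hu
        exact ⟨A.symm u, hu, by simp⟩
    rw [h1]
    exact A.symm.measurePreserving.measure_preimage (measurableSet_Cap z s).nullMeasurableSet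
  have hv : ENNReal.ofReal (k ^ n) * volume (Cap z s) ≤ volume (Cap z' s') := by
    refine le_trans (le_of_eq ?_) (measure_mono hsub)
    rw [Measure.addHaar_image_homothety, hvA, finrank_euclideanSpace_fin,
      abs_of_nonneg (by (clear * - ht1 ht1'; positivity))]
  have hfin := ENNReal.toReal_mono (Cap_ne_top z' s') hv
  rw [ENNReal.toReal_mul, ENNReal.toReal_ofReal (by (clear * - ht1 ht1'; positivity))] at hfin
  exact hfin

theorem capLower : Stmt.CapLower := by
  intro n hn z z' s s' t t' hz' ht htt ht1 hd hs hs'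
  have ht1' : 0 < 1 - t := by linarith only [ht1]
  have ht1'' : t' < 1 := by linarith only [ht1, hd]
  refine le_trans ?_ (capLowerPow n hn z z' s s' t t' hz' ht htt ht1'' hs hs')
  refine mul_le_mul_of_nonneg_right ?_ ENNReal.toReal_nonneg
  set x : ℝ := (t' - t) / (1 - t) with hx
  have hx0 : 0 ≤ x := div_nonneg (by linarith only [htt]) ht1'.le
  have hx1 : x ≤ 1 / 2 := by
    rw [hx, div_le_iff₀ ht1']
    linarith only [hd]
  have h1 : (1 - t') / (1 - t) = 1 - x := by
    rw [hx, eq_sub_iff_add_eq, ← add_div, div_eq_one_iff_eq ht1'.ne']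
    ring
  have h2 : -(2 * (n : ℝ) * (t' - t) / (1 - t)) = (n : ℝ) * (-(2 * x)) := by
    rw [hx]
    ring
  rw [h1, h2, Real.exp_nat_mul]
  refine pow_le_pow_left₀ (Real.exp_pos _).le ?_ n
  have h3 : 1 + 2 * x ≤ Real.exp (2 * x) := by
    have := Real.add_one_le_exp (2 * x)
    linarith only [this]
  rw [Real.exp_neg, inv_le_comm₀ (Real.exp_pos _) (by linarith only [hx1])]
  refine le_trans ?_ h3
  rw [inv_le_comm₀ (by linarith only [hx1]) (by linarith only [hx0]), inv_le_comm₀ (by linarith only [hx0]) (by linarith only [hx1])]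
  rw [inv_eq_one_div, div_le_iff₀ (by linarith only [hx1])]
  nlinarith only [hx0, hx1]

end Vale.Agent.P230.LB
end
end

section

section

/-!
# Module FL1: the facet lemma (L1)
-/

namespace Vale.Agent.P230.LB

open MeasureTheory

/-- subsets of the unit ball have finite volume -/
theorem fl1_vol_ne_top {n : ℕ} {s : Set (E n)} (h : ∀ u ∈ s, ‖u‖ ≤ 1) : volume s ≠ ⊤ := by
  have h1 : s ⊆ Metric.closedBall (0 : E n) 1 := fun u hu => by
    rw [Metric.mem_closedBall, dist_zero_right]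
    exact h u hu
  exact ((measure_mono h1).trans_lt measure_closedBall_lt_top).ne

/-- subadditivity -/
theorem fl1_vol_cover {n : ℕ} {ι : Type} (s G : Set (E n)) (I : Finset ι) (A : ι → Set (E n))
    (hG : ∀ u ∈ G, ‖u‖ ≤ 1) (hA : ∀ i ∈ I, ∀ u ∈ A i, ‖u‖ ≤ 1) (h : s ⊆ G ∪ ⋃ i ∈ I, A i) :
    vol s ≤ vol G + ∑ i ∈ I, vol (A i) := by
  have h1 : volume s ≤ volume G + ∑ i ∈ I, volume (A i) :=
    (measure_mono h).trans ((measure_union_le _ _).trans
      (add_le_add le_rfl (measure_biUnion_finset_le _ _)))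
  have h2 : ∀ i ∈ I, volume (A i) ≠ ⊤ := fun i hi => fl1_vol_ne_top (hA i hi)
  have h3 : ∑ i ∈ I, volume (A i) ≠ ⊤ := ENNReal.sum_ne_top.2 h2
  unfold vol
  rw [← ENNReal.toReal_sum h2, ← ENNReal.toReal_add (fl1_vol_ne_top hG) h3]
  exact ENNReal.toReal_mono (ENNReal.add_ne_top.2 ⟨fl1_vol_ne_top hG, h3⟩) h1

theorem fl1_vol_nonneg {n : ℕ} (s : Set (E n)) : 0 ≤ vol s := ENNReal.toReal_nonneg

/-- `t₁ = (ρ + 2γ²)/r ≤ ρ + 2.01γ²` -/
theorem fl1_t1_le {r g : ℝ} (hg : 0 ≤ g) (hg1 : g ≤ 1 / 10 ^ 7) (hr : 1 - 0.002 * g ≤ r) :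
    (rho + 2 * g) / r ≤ rho + 2.01 * g := by
  have hr0 : 0 < r := by linarith only [hg1, hr]
  rw [div_le_iff₀ hr0]
  have h1 : (rho + 2.01 * g) * (1 - 0.002 * g) ≤ (rho + 2.01 * g) * r := by
    apply mul_le_mul_of_nonneg_left hr
    unfold rho
    positivity
  refine le_trans ?_ h1
  unfold rho
  linarith only [hg, mul_nonneg hg (by linarith : 0 ≤ 1 / 10 ^ 7 - g)]

theorem fl1_t1_ge {r g : ℝ} (hg : 0 ≤ g) (hr0 : 0 < r) (hr : r ≤ 1) :
    rho ≤ (rho + 2 * g) / r := by
  rw [le_div_iff₀ hr0]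
  have h1 : rho * r ≤ rho * 1 := by
    apply mul_le_mul_of_nonneg_left hr
    unfold rho
    norm_num
  linarith

/-- the bad caps have small volume -/
theorem fl1_bad (hU : Stmt.CapUpper) {n : ℕ} (hn : 2 ≤ n) {g : ℝ} (hg : 0 ≤ g)
    (hg1 : g ≤ 1 / 10 ^ 7) (hgn : 1000 * Real.log n ≤ n * g) {ζ z' : E n} {s' : ℝ}
    (hζ : 1 - 0.002 * g ≤ ‖ζ‖) (hζ1 : ‖ζ‖ ≤ 1) (h : (rho + 2.99 * g) * ‖z'‖ ≤ s') :
    vol (Cap z' s') ≤ 1 / (4 * (n : ℝ) ^ 2) * vol (Cap ζ (rho + 2 * g)) := by
  have hn2 : (2 : ℝ) ≤ n := by exact_mod_cast hn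
  have hr0 : 0 < ‖ζ‖ := by linarith only [hg1, hζ]
  obtain ⟨t, ht⟩ : ∃ t, t = (rho + 2 * g) / ‖ζ‖ := ⟨_, rfl⟩
  have ht1 : t ≤ rho + 2.01 * g := by rw [ht]; exact fl1_t1_le hg hg1 hζ
  have ht2 : rho ≤ t := by rw [ht]; exact fl1_t1_ge hg hr0 hζ1
  have hrho : rho = 51199 / 51200 := rfl
  have ht3 : t < 1 := by
    have : 2.01 * g ≤ 2.01 * (1 / 10 ^ 7) := by (clear * - hg1; gcongr)
    rw [hrho] at ht1
    norm_num at this ht1 ⊢
    linarith only [hg1, ht1]
  have h1 := hU n (by omega) ζ z' (rho + 2 * g) s' t (rho + 2.99 * g) (norm_pos_iff.1 hr0)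
    (by rw [hrho] at ht2; linarith only [ht2]) (by linarith only [hg, ht1]) ht3 (by rw [ht, div_mul_cancel₀ _ hr0.ne']) h
  refine h1.trans (mul_le_mul_of_nonneg_right ?_ (fl1_vol_nonneg _))
  -- the exponent
  have hlog : 0 ≤ Real.log n := Real.log_nonneg (by linarith only [hn2])
  have h2 : 4 * Real.log n ≤ ((n : ℝ) - 1) * ((rho + 2.99 * g) ^ 2 - t ^ 2) / (2 * (1 - t ^ 2)) := by
    have h3 : 0 < 1 - t ^ 2 := by
      have : 0 < t := by rw [hrho] at ht2; linarith only [ht2]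
      (clear * - ht3 ht2 hrho; linarith [mul_pos (by linarith : 0 < 1 - t) (by linarith : 0 < 1 + t)])
    rw [le_div_iff₀ (by linarith only [h3])]
    have h4 : 1 - t ^ 2 ≤ 1 / 25600 := by
      rw [hrho] at ht2
      (clear * - ht2 ht3; linarith [mul_nonneg (by linarith : 0 ≤ t - 51199 / 51200)         (by linarith : 0 ≤ t + 51199 / 51200)])
    have h5 : 0.98 * g * (2 * rho) ≤ (rho + 2.99 * g) ^ 2 - t ^ 2 := by
      have h6 : (rho + 2.99 * g) ^ 2 - t ^ 2 = (rho + 2.99 * g - t) * (rho + 2.99 * g + t) := by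
        ring
      rw [h6]
      apply mul_le_mul
      · linarith only [ht1]
      · linarith only [hg, ht2]
      · rw [hrho]; norm_num
      · linarith only [hg, ht1]
    have h7 : (n : ℝ) / 2 * (0.98 * g * (2 * rho)) ≤
        ((n : ℝ) - 1) * ((rho + 2.99 * g) ^ 2 - t ^ 2) := by
      apply mul_le_mul
      · linarith only [hn2]
      · exact h5
      · rw [hrho]; (clear * - hg; positivity)
      · linarith only [hn2]
    refine le_trans ?_ h7
    have h8 : 4 * Real.log n * (2 * (1 - t ^ 2)) ≤ 4 * Real.log n * (2 * (1 / 25600)) := by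
      (clear * - h4; gcongr)
    refine h8.trans ?_
    rw [hrho]
    linarith only [hlog, hgn]
  have h9 : Real.exp (-(((n : ℝ) - 1) * ((rho + 2.99 * g) ^ 2 - t ^ 2) / (2 * (1 - t ^ 2)))) ≤
      Real.exp (-(4 * Real.log n)) := Real.exp_le_exp.2 (by linarith only [h2])
  refine h9.trans ?_
  have hn0 : (0 : ℝ) < n := by linarith only [hn2]
  have h10 : Real.exp (-(4 * Real.log n)) = 1 / (n : ℝ) ^ 4 := by
    rw [Real.exp_neg, ← Real.rpow_natCast, Real.rpow_def_of_pos hn0, one_div]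
    congr 2
    push_cast
    ring
  rw [h10]
  apply one_div_le_one_div_of_le (by positivity)
  have h11 : 4 ≤ (n : ℝ) ^ 2 := by
    (clear * - hn2; linarith [mul_nonneg (by linarith : (0 : ℝ) ≤ n - 2) (by linarith : (0 : ℝ) ≤ n + 2)])
  calc 4 * (n : ℝ) ^ 2 ≤ (n : ℝ) ^ 2 * (n : ℝ) ^ 2 :=
        mul_le_mul_of_nonneg_right h11 (by positivity)
    _ = (n : ℝ) ^ 4 := by ring

/-- the vectors `2ζ - z` for `z` close to `ζ` -/
theorem fl1_norm_two_sub {n : ℕ} {g : ℝ} (hg : 0 ≤ g) (hg1 : g ≤ 1 / 10 ^ 7) {ζ z : E n}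
    (hζ1 : ‖ζ‖ ≤ 1) (hz : 1 - 0.002 * g ≤ ‖z‖) (hd : ‖ζ - z‖ ^ 2 ≤ g) :
    (rho + 2.99 * g) * ‖(2 : ℝ) • ζ - z‖ ≤ rho + 4 * g := by
  have h1 : ‖(2 : ℝ) • ζ - z‖ ^ 2 = 2 * ‖ζ‖ ^ 2 - ‖z‖ ^ 2 + 2 * ‖ζ - z‖ ^ 2 := by
    rw [@norm_sub_sq_real, @norm_sub_sq_real, inner_smul_left, norm_smul]
    simp only [Real.norm_ofNat, conj_trivial]
    ring
  have h2 : ‖(2 : ℝ) • ζ - z‖ ≤ 1 + 1.002 * g := by
    apply le_of_sq_le_sq _ (by linarith only [hg])
    rw [h1]
    have h3 : (1 - 0.002 * g) ^ 2 ≤ ‖z‖ ^ 2 := pow_le_pow_left₀ (by linarith only [hg1]) hz 2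
    have h4 : ‖ζ‖ ^ 2 ≤ 1 := by
      have := pow_le_pow_left₀ (norm_nonneg ζ) hζ1 2
      rwa [one_pow] at this
    linarith only [hd, h3, h4, sq_nonneg g]
  have hrho : rho = 51199 / 51200 := rfl
  have h5 : (rho + 2.99 * g) * ‖(2 : ℝ) • ζ - z‖ ≤ (rho + 2.99 * g) * (1 + 1.002 * g) := by
    apply mul_le_mul_of_nonneg_left h2
    rw [hrho]
    positivity
  refine h5.trans ?_
  rw [hrho]
  (clear * - hg hg1; linarith [mul_nonneg hg (by linarith : 0 ≤ 1 / 10 ^ 7 - g)])

/-- the midpoints of far pairs -/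
theorem fl1_norm_mid {n : ℕ} {g : ℝ} (hg : 0 ≤ g) (hg1 : g ≤ 1 / 10 ^ 7) {ζ z : E n}
    (hζ1 : ‖ζ‖ ≤ 1) (hz1 : ‖z‖ ≤ 1) (hd : 16 * g ≤ ‖ζ - z‖ ^ 2) :
    (rho + 2.99 * g) * ‖(1 / 2 : ℝ) • (ζ + z)‖ ≤ rho + g := by
  have h1 : ‖(1 / 2 : ℝ) • (ζ + z)‖ ^ 2 = (‖ζ‖ ^ 2 + ‖z‖ ^ 2) / 2 - ‖ζ - z‖ ^ 2 / 4 := by
    rw [norm_smul, mul_pow, @norm_add_sq_real, @norm_sub_sq_real]
    norm_num
    ring
  have h2 : ‖(1 / 2 : ℝ) • (ζ + z)‖ ≤ 1 - 2 * g := by
    apply le_of_sq_le_sq _ (by linarith only [hg1])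
    rw [h1]
    have h3 : ‖ζ‖ ^ 2 ≤ 1 := by
      have := pow_le_pow_left₀ (norm_nonneg ζ) hζ1 2
      rwa [one_pow] at this
    have h4 : ‖z‖ ^ 2 ≤ 1 := by
      have := pow_le_pow_left₀ (norm_nonneg z) hz1 2
      rwa [one_pow] at this
    linarith only [sq_nonneg g, h4, h3, hd]
  have hrho : rho = 51199 / 51200 := rfl
  have h5 : (rho + 2.99 * g) * ‖(1 / 2 : ℝ) • (ζ + z)‖ ≤ (rho + 2.99 * g) * (1 - 2 * g) := by
    apply mul_le_mul_of_nonneg_left h2
    rw [hrho]
    (clear * - hg; positivity)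
  refine h5.trans ?_
  rw [hrho]
  linarith only [mul_nonneg hg hg, hg]

/-- the main cap is not small -/
theorem fl1_main (hL : Stmt.CapLower) {n : ℕ} (hn : 2 ≤ n) {N : ℝ} (hN : NormN n N) {g : ℝ}
    (hg : 0 ≤ g) (hg1 : g ≤ 1 / 10 ^ 7) {ζ : E n} (hζ : 1 - 0.002 * g ≤ ‖ζ‖) (hζ1 : ‖ζ‖ ≤ 1) :
    1 / 2 * Real.exp (-(205824 * n * g)) ≤ N * vol (Cap ζ (rho + 2 * g)) := by
  have hn2 : (2 : ℝ) ≤ n := by exact_mod_cast hn
  have hr0 : 0 < ‖ζ‖ := by linarith only [hg1, hζ]
  obtain ⟨t, ht⟩ : ∃ t, t = (rho + 2 * g) / ‖ζ‖ := ⟨_, rfl⟩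
  have ht1 : t ≤ rho + 2.01 * g := by rw [ht]; exact fl1_t1_le hg hg1 hζ
  have ht2 : rho ≤ t := by rw [ht]; exact fl1_t1_ge hg hr0 hζ1
  have hrho : rho = 51199 / 51200 := rfl
  obtain ⟨e, he⟩ : ∃ e : E n, e = ‖ζ‖⁻¹ • ζ := ⟨_, rfl⟩
  have he1 : ‖e‖ = 1 := by
    rw [he, norm_smul, norm_inv, norm_norm, inv_mul_cancel₀ hr0.ne']
  have h1 := hL n (by omega) e ζ rho (rho + 2 * g) rho t (norm_pos_iff.1 hr0)
    (by rw [hrho]; norm_num) ht2 (by rw [hrho]; norm_num)
    (by rw [hrho] at ht1 ⊢; linarith only [hg1, ht1]) (by rw [he1, mul_one])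
    (by rw [ht, div_mul_cancel₀ _ hr0.ne'])
  have h2 : Real.exp (-(205824 * n * g)) ≤ Real.exp (-(2 * (n : ℝ) * (t - rho) / (1 - rho))) := by
    apply Real.exp_le_exp.2
    apply neg_le_neg
    rw [div_le_iff₀ (by rw [hrho]; norm_num)]
    have h3 : 2 * (n : ℝ) * (t - rho) ≤ 2 * (n : ℝ) * (2.01 * g) := by
      apply mul_le_mul_of_nonneg_left _ (by linarith only [])
      linarith only [ht1]
    refine h3.trans (le_of_eq ?_)
    rw [hrho]
    ring
  obtain ⟨hN0, hN1⟩ := hN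
  have h4 := (hN1 e he1).1
  have h5 : Real.exp (-(205824 * n * g)) * vol (Cap e rho) ≤ vol (Cap ζ (rho + 2 * g)) :=
    (mul_le_mul_of_nonneg_right h2 (fl1_vol_nonneg _)).trans h1
  calc 1 / 2 * Real.exp (-(205824 * n * g))
      ≤ (N * vol (Cap e rho)) * Real.exp (-(205824 * n * g)) :=
        mul_le_mul_of_nonneg_right h4 (Real.exp_pos _).le
    _ = N * (Real.exp (-(205824 * n * g)) * vol (Cap e rho)) := by ring
    _ ≤ N * vol (Cap ζ (rho + 2 * g)) := mul_le_mul_of_nonneg_left h5 hN0.le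

open Classical in
/-- the covering of the main cap by the good set and the bad caps -/
theorem fl1_cover {n : ℕ} (Z S : Finset (E n)) (hS : S ⊆ Z) (ζ : E n) (γ g : ℝ) :
    Cap ζ (rho + 2 * g) ⊆
      ({u : E n | ‖u‖ ≤ 1 ∧ S ⊆ cut Z u ∧ Small (cut Z u) (8 * γ)} ∪
        ⋃ z ∈ S, Cap ((2 : ℝ) • ζ - z) (rho + 4 * g)) ∪
      ⋃ z ∈ Z.filter (fun z => 4 * γ < ‖ζ - z‖), Cap ((1 / 2 : ℝ) • (ζ + z)) (rho + g) := by
  rintro u ⟨hu1, hu2⟩
  by_cases h1 : ∃ z ∈ S, inner ℝ z u ≤ rho
  · obtain ⟨z, hz, hzu⟩ := h1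
    refine Or.inl (Or.inr ?_)
    simp only [Set.mem_iUnion]
    refine ⟨z, hz, hu1, ?_⟩
    rw [inner_sub_left, real_inner_smul_left]
    (clear * - hu2 hzu; linarith)
  by_cases h2 : ∃ z ∈ Z, 4 * γ < ‖ζ - z‖ ∧ rho < inner ℝ z u
  · obtain ⟨z, hz, hzd, hzu⟩ := h2
    refine Or.inr ?_
    simp only [Set.mem_iUnion]
    refine ⟨z, Finset.mem_filter.2 ⟨hz, hzd⟩, hu1, ?_⟩
    rw [real_inner_smul_left, inner_add_left]
    linarith only [hu2, hzu]
  push Not at h1 h2
  refine Or.inl (Or.inl ⟨hu1, fun z hz => ?_, fun a ha b hb => ?_⟩)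
  · exact Finset.mem_filter.2 ⟨hS hz, h1 z hz⟩
  · have h3 : ∀ z ∈ cut Z u, ‖ζ - z‖ ≤ 4 * γ := by
      intro z hz
      obtain ⟨hz1, hz2⟩ := Finset.mem_filter.1 hz
      by_contra h4
      push Not at h4
      exact absurd hz2 (not_lt.2 (h2 z hz1 h4))
    have h4 := h3 a ha
    have h5 := h3 b hb
    have h6 : a - b = (ζ - b) - (ζ - a) := by abel
    rw [h6]
    refine (norm_sub_le _ _).trans ?_
    linarith only [h4, h5]

theorem facetL1 (hU : Stmt.CapUpper) (hL : Stmt.CapLower) : Stmt.FacetL1 := by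
  refine ⟨2, fun n hn N hN Z hZ S hS hSne γ hγ0 hγ1 hSm => ?_⟩
  classical
  obtain ⟨ζ, hζS⟩ := hSne
  have hn2 : (2 : ℝ) ≤ n := by exact_mod_cast hn
  have hn0 : (0 : ℝ) < n := by linarith only [hn2]
  obtain ⟨g, hgdef⟩ : ∃ g, g = γ ^ 2 := ⟨_, rfl⟩
  have hlog : 0 < Real.log n := Real.log_pos (by linarith only [hn2])
  have hgam : gam n 0 = Real.sqrt (1000 * Real.log n / n) := by
    unfold gam
    rw [pow_zero, one_mul]
  have hγnn : 0 ≤ γ := le_trans (by rw [hgam]; exact Real.sqrt_nonneg _) hγ0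
  have hg2 : 1000 * Real.log n / n ≤ g := by
    rw [hgdef, ← Real.sq_sqrt (show 0 ≤ 1000 * Real.log n / n by (clear * - hlog hn; positivity))]
    rw [hgam] at hγ0
    exact pow_le_pow_left₀ (Real.sqrt_nonneg _) hγ0 2
  have hg : 0 ≤ g := by rw [hgdef]; (clear * -; positivity)
  have hg1 : g ≤ 1 / 10 ^ 7 := by rw [hgdef]; exact hγ1
  have hgn : 1000 * Real.log n ≤ n * g := by
    rw [div_le_iff₀ hn0] at hg2
    linarith only [hg2]
  have hshell : ∀ z ∈ Z, 1 - 0.002 * g ≤ ‖z‖ ∧ ‖z‖ ≤ 1 := by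
    intro z hz
    have h1 := hZ.1 z hz
    refine ⟨le_trans ?_ h1.1, h1.2⟩
    unfold r1
    have h2 : 2 * Real.log n / n = 0.002 * (1000 * Real.log n / n) := by ring
    rw [h2]
    linarith only [hg2]
  have hζ := hshell ζ (hS hζS)
  have hmain := fl1_main hL hn hN hg hg1 hζ.1 hζ.2
  rw [← hgdef]
  obtain ⟨G, hG⟩ : ∃ G, G = {u : E n | ‖u‖ ≤ 1 ∧ S ⊆ cut Z u ∧ Small (cut Z u) (8 * γ)} :=
    ⟨_, rfl⟩
  rw [← hG]
  have hcov := fl1_cover Z S hS ζ γ g
  rw [← hG] at hcov
  have hGb : ∀ u ∈ G, ‖u‖ ≤ 1 := by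
    intro u hu
    rw [hG] at hu
    exact hu.1
  have hc1 := fl1_vol_cover _ _ _ _ (fun u hu => by
    rcases hu with hu | hu
    · exact hGb u hu
    · simp only [Set.mem_iUnion] at hu
      obtain ⟨z, _, hz⟩ := hu
      exact hz.1) (fun z _ u hu => hu.1) hcov
  have hc2 := fl1_vol_cover (G ∪ ⋃ z ∈ S, Cap ((2 : ℝ) • ζ - z) (rho + 4 * g)) G S
    (fun z => Cap ((2 : ℝ) • ζ - z) (rho + 4 * g)) hGb (fun z _ u hu => hu.1) le_rfl
  obtain ⟨V, hV⟩ : ∃ V, V = vol (Cap ζ (rho + 2 * g)) := ⟨_, rfl⟩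
  have hV0 : 0 ≤ V := by rw [hV]; exact fl1_vol_nonneg _
  have hA : ∑ z ∈ S, vol (Cap ((2 : ℝ) • ζ - z) (rho + 4 * g)) ≤
      (n : ℝ) ^ 2 * (1 / (4 * (n : ℝ) ^ 2) * V) := by
    have h1 : ∀ z ∈ S, vol (Cap ((2 : ℝ) • ζ - z) (rho + 4 * g)) ≤
        1 / (4 * (n : ℝ) ^ 2) * V := by
      intro z hz
      rw [hV]
      refine fl1_bad hU hn hg hg1 hgn hζ.1 hζ.2
        (fl1_norm_two_sub hg hg1 hζ.2 (hshell z (hS hz)).1 ?_)
      rw [hgdef]
      exact pow_le_pow_left₀ (norm_nonneg _) (hSm ζ hζS z hz) 2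
    refine (Finset.sum_le_card_nsmul _ _ _ h1).trans ?_
    rw [nsmul_eq_mul]
    apply mul_le_mul_of_nonneg_right _ (by (clear * - hn hV0; positivity))
    have h2 : S.card ≤ n ^ 2 := (Finset.card_le_card hS).trans hZ.2
    exact_mod_cast h2
  have hB : ∑ z ∈ Z.filter (fun z => 4 * γ < ‖ζ - z‖),
      vol (Cap ((1 / 2 : ℝ) • (ζ + z)) (rho + g)) ≤
      (n : ℝ) ^ 2 * (1 / (4 * (n : ℝ) ^ 2) * V) := by
    have h1 : ∀ z ∈ Z.filter (fun z => 4 * γ < ‖ζ - z‖),
        vol (Cap ((1 / 2 : ℝ) • (ζ + z)) (rho + g)) ≤ 1 / (4 * (n : ℝ) ^ 2) * V := by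
      intro z hz
      obtain ⟨hz1, hz2⟩ := Finset.mem_filter.1 hz
      rw [hV]
      refine fl1_bad hU hn hg hg1 hgn hζ.1 hζ.2
        (fl1_norm_mid hg hg1 hζ.2 (hshell z hz1).2 ?_)
      have h3 : (4 * γ) ^ 2 ≤ ‖ζ - z‖ ^ 2 := pow_le_pow_left₀ (by linarith only [hγnn]) hz2.le 2
      rw [hgdef]
      linarith only [h3]
    refine (Finset.sum_le_card_nsmul _ _ _ h1).trans ?_
    rw [nsmul_eq_mul]
    apply mul_le_mul_of_nonneg_right _ (by (clear * - hn hV0; positivity))
    have h2 : (Z.filter (fun z => 4 * γ < ‖ζ - z‖)).card ≤ n ^ 2 :=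
      (Finset.card_le_card (Finset.filter_subset _ _)).trans hZ.2
    exact_mod_cast h2
  have hn3 : (n : ℝ) ^ 2 * (1 / (4 * (n : ℝ) ^ 2) * V) = V / 4 := by
    (clear * - hn; field_simp)
  rw [hn3] at hA hB
  rw [← hV] at hc1 hmain
  have hfin : V / 2 ≤ vol G := by linarith only [hc2, hc1, hA, hB]
  have hN0 := hN.1
  have h1 : Real.exp (-(220000 * n * g)) ≤ 1 / 4 * Real.exp (-(205824 * n * g)) := by
    have h2 : Real.exp (-(220000 * n * g)) =
        Real.exp (-(14176 * n * g)) * Real.exp (-(205824 * n * g)) := by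
      rw [← Real.exp_add]
      congr 1
      ring
    rw [h2]
    apply mul_le_mul_of_nonneg_right _ (Real.exp_pos _).le
    have h3 : Real.exp (-(14176 * n * g)) ≤ Real.exp (-(2 * Real.log n)) := by
      apply Real.exp_le_exp.2
      have h4 : 14176 * (n : ℝ) * g = 14176 * (n * g) := by ring
      rw [h4]
      linarith only [hlog, hgn]
    refine h3.trans ?_
    have h10 : Real.exp (-(2 * Real.log n)) = 1 / (n : ℝ) ^ 2 := by
      rw [Real.exp_neg, ← Real.rpow_natCast, Real.rpow_def_of_pos hn0, one_div]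
      congr 2
      push_cast
      ring
    rw [h10]
    apply one_div_le_one_div_of_le (by norm_num)
    have := pow_le_pow_left₀ (by norm_num) hn2 2
    linarith only [this]
  calc Real.exp (-(220000 * n * g)) ≤ 1 / 4 * Real.exp (-(205824 * n * g)) := h1
    _ = 1 / 2 * (1 / 2 * Real.exp (-(205824 * n * g))) := by ring
    _ ≤ 1 / 2 * (N * V) := by linarith only [hmain]
    _ = N * (V / 2) := by ring
    _ ≤ N * vol G := mul_le_mul_of_nonneg_left hfin hN0.le

end Vale.Agent.P230.LB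
end
end

section

section

/-!
# Existence of atoms

The unit ball is covered by finitely many balls of radius `ε/2` (centres in `t`); the pieces are the
level sets of `v ↦ ({x ∈ t | |v - x| < ε/2}, cut Zc v)`.
-/

namespace Vale.Agent.P230.LB

open MeasureTheory
open scoped Pointwise

section atoms

variable {n : ℕ}

theorem atoms_meas_filter (t A : Finset (E n)) (p : E n → E n → Prop)
    [∀ v, DecidablePred (p v)] (hp : ∀ x, MeasurableSet {v | p v x}) :
    MeasurableSet {v | t.filter (p v) = A} := by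
  by_cases hA : A ⊆ t
  · have h1 : {v | t.filter (p v) = A} = ⋂ x ∈ t, {v | p v x ↔ x ∈ A} := by
      ext v
      simp only [Set.mem_ofPred_eq, Set.mem_iInter]
      constructor
      · rintro rfl x hx
        simp [hx]
      · intro h
        ext x
        rw [Finset.mem_filter]
        constructor
        · rintro ⟨h1, h2⟩
          exact (h x h1).1 h2
        · intro hx
          exact ⟨hA hx, (h x (hA hx)).2 hx⟩
    rw [h1]
    refine t.measurableSet_biInter fun x _ => ?_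
    by_cases hx : x ∈ A
    · simpa only [hx, iff_true, measurableSet_setOfPred] using hp x
    · have h2 : {v | p v x ↔ x ∈ A} = {v | p v x}ᶜ := by
        ext v
        simp [hx]
      rw [h2]
      exact (hp x).compl
  · have h1 : {v | t.filter (p v) = A} = ∅ := by
      refine Set.eq_empty_of_forall_notMem fun v hv => ?_
      exact hA (by rw [← (show t.filter (p v) = A from hv)]; exact Finset.filter_subset _ _)
    rw [h1]
    exact MeasurableSet.empty

open Classical in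
/-- the signature of a point -/
noncomputable def sigA (t Zc : Finset (E n)) (ε : ℝ) (v : E n) : Finset (E n) × Finset (E n) :=
  (t.filter (fun x => dist v x < ε / 2), cut Zc v)

/-- a piece of the unit ball -/
def pieceA (t Zc : Finset (E n)) (ε : ℝ) (p : Finset (E n) × Finset (E n)) : Set (E n) :=
  {v | ‖v‖ ≤ 1 ∧ sigA t Zc ε v = p}

theorem measurableSet_pieceA (t Zc : Finset (E n)) (ε : ℝ) (p : Finset (E n) × Finset (E n)) :
    MeasurableSet (pieceA t Zc ε p) := by
  classical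
  have h1 : pieceA t Zc ε p = Metric.closedBall 0 1 ∩
      ({v | t.filter (fun x => dist v x < ε / 2) = p.1} ∩
        {v | Zc.filter (fun z => rho < inner ℝ z v) = p.2}) := by
    ext v
    simp only [pieceA, sigA, cut, Prod.ext_iff, Set.mem_ofPred_eq, Set.mem_inter_iff, Metric.mem_closedBall, dist_zero_right]
  rw [h1]
  refine Metric.isClosed_closedBall.measurableSet.inter (MeasurableSet.inter ?_ ?_)
  · refine atoms_meas_filter t p.1 (fun v x => dist v x < ε / 2) fun x => ?_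
    exact (isOpen_lt (by fun_prop) (by fun_prop)).measurableSet
  · refine atoms_meas_filter Zc p.2 (fun v z => rho < inner ℝ z v) fun x => ?_
    exact (isOpen_lt (by fun_prop) (by fun_prop)).measurableSet

theorem pieceA_ne_top (t Zc : Finset (E n)) (ε : ℝ) (p : Finset (E n) × Finset (E n)) :
    volume (pieceA t Zc ε p) ≠ ⊤ := by
  refine measure_ne_top_of_subset (s := Metric.closedBall (0 : E n) 1) ?_
    (measure_closedBall_lt_top (μ := volume)).ne
  intro v hv
  simpa only [Metric.mem_closedBall, dist_zero_right] using hv.1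

theorem disjoint_pieceA (t Zc : Finset (E n)) (ε : ℝ) {p q : Finset (E n) × Finset (E n)}
    (h : p ≠ q) : Disjoint (pieceA t Zc ε p) (pieceA t Zc ε q) := by
  rw [Set.disjoint_left]
  rintro v ⟨_, hv⟩ ⟨_, hw⟩
  exact h (hv.symm.trans hw)

/-- sums of masses of pieces -/
theorem sum_pieceA (t Zc : Finset (E n)) (ε : ℝ) (I : Finset (Finset (E n) × Finset (E n))) :
    ∑ p ∈ I, vol (pieceA t Zc ε p) = vol (⋃ p ∈ I, pieceA t Zc ε p) := by
  unfold vol
  rw [measure_biUnion_finset, ENNReal.toReal_sum]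
  · exact fun p _ => pieceA_ne_top t Zc ε p
  · intro p _ q _ hpq
    exact disjoint_pieceA t Zc ε hpq
  · exact fun p _ => measurableSet_pieceA t Zc ε p

end atoms

theorem existsAtoms : Stmt.ExistsAtoms := by
  classical
  intro n Zc ε hε
  obtain ⟨t, -, htf, htc⟩ := (isCompact_closedBall (0 : E n) 1).finite_cover_balls
    (half_pos hε)
  lift t to Finset (E n) using htf
  set I : Finset (Finset (E n) × Finset (E n)) :=
    (t.powerset ×ˢ Zc.powerset).filter (fun p => (pieceA t Zc ε p).Nonempty) with hI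
  have hsig : ∀ v : E n, ‖v‖ ≤ 1 → sigA t Zc ε v ∈ I := by
    intro v hv
    rw [hI, Finset.mem_filter, Finset.mem_product, Finset.mem_powerset, Finset.mem_powerset]
    exact ⟨⟨Finset.filter_subset _ _, Finset.filter_subset _ _⟩, v, hv, rfl⟩
  have hdist : ∀ v v' : E n, ‖v‖ ≤ 1 → sigA t Zc ε v = sigA t Zc ε v' → dist v v' < ε := by
    intro v v' hv h
    have hvc : v ∈ Metric.closedBall (0 : E n) 1 := by simpa only [Metric.mem_closedBall, dist_zero_right] using hv
    obtain ⟨x, hx, hvx⟩ := Set.mem_iUnion₂.1 (htc hvc)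
    have h1 : x ∈ (sigA t Zc ε v).1 := by
      simp only [sigA, Finset.mem_filter]
      exact ⟨hx, hvx⟩
    have h2 := h1
    rw [h] at h2
    simp only [sigA, Finset.mem_filter] at h1 h2
    have := dist_triangle_right v v' x
    linarith only [h1, h2, this]
  have hne : ∀ p : I, (pieceA t Zc ε p.1).Nonempty := fun p => (Finset.mem_filter.1 p.2).2
  choose u0 hu0 using hne
  let e : Fin (Fintype.card I) ≃ I := (Fintype.equivFin I).symm
  -- reduction of sums to unions
  have key : ∀ (P : I → Prop) , (∑ τ : Fin (Fintype.card I), if P (e τ) then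
      vol (pieceA t Zc ε (e τ).1) else 0) =
      vol {v : E n | ∃ hv : ‖v‖ ≤ 1, P ⟨sigA t Zc ε v, hsig v hv⟩} := by
    intro P
    rw [e.sum_comp (fun p : I => if P p then vol (pieceA t Zc ε p.1) else 0)]
    rw [← Finset.sum_filter]
    have h1 : ∑ p ∈ (Finset.univ : Finset I).filter P, vol (pieceA t Zc ε p.1) =
        ∑ p ∈ ((Finset.univ : Finset I).filter P).map ⟨Subtype.val, Subtype.val_injective⟩,
          vol (pieceA t Zc ε p) := by
      rw [Finset.sum_map]
      rfl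
    rw [h1, sum_pieceA]
    congr 1
    ext v
    simp only [Set.mem_iUnion, Finset.mem_map, Finset.mem_filter, Finset.mem_univ, true_and,
      Function.Embedding.coeFn_mk, Set.mem_ofPred_eq, exists_prop]
    constructor
    · rintro ⟨_, ⟨p, hp, rfl⟩, hv, hs⟩
      refine ⟨hv, ?_⟩
      have : (⟨sigA t Zc ε v, hsig v hv⟩ : I) = p := Subtype.ext hs
      rw [this]
      exact hp
    · rintro ⟨hv, hp⟩
      exact ⟨_, ⟨_, hp, rfl⟩, hv, rfl⟩
  refine ⟨Fintype.card I, ⟨{
    u := fun τ => u0 (e τ)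
    m := fun τ => vol (pieceA t Zc ε (e τ).1)
    m_nonneg := fun τ => ENNReal.toReal_nonneg
    u_le := fun τ => (hu0 (e τ)).1
    mass := ?_
    half := ?_ }⟩⟩
  · intro Q
    have h1 : (∑ τ : Fin (Fintype.card I), if Q (cut Zc (u0 (e τ))) then
        vol (pieceA t Zc ε (e τ).1) else 0) =
        vol {v : E n | ∃ hv : ‖v‖ ≤ 1,
          Q (cut Zc (u0 ⟨sigA t Zc ε v, hsig v hv⟩))} := key (fun p => Q (cut Zc (u0 p)))
    rw [h1]
    congr 1
    ext v
    simp only [Set.mem_ofPred_eq]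
    have h2 : ∀ hv : ‖v‖ ≤ 1, cut Zc (u0 ⟨sigA t Zc ε v, hsig v hv⟩) = cut Zc v := by
      intro hv
      have h3 := (hu0 ⟨sigA t Zc ε v, hsig v hv⟩).2
      exact congrArg Prod.snd h3
    constructor
    · rintro ⟨hv, hQ⟩
      rw [h2 hv] at hQ
      exact ⟨hv, hQ⟩
    · rintro ⟨hv, hQ⟩
      refine ⟨hv, ?_⟩
      rw [h2 hv]
      exact hQ
  · intro w hw s
    have h1 : (∑ τ : Fin (Fintype.card I), if s < inner ℝ w (u0 (e τ)) then
        vol (pieceA t Zc ε (e τ).1) else 0) =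
        vol {v : E n | ∃ hv : ‖v‖ ≤ 1,
          s < inner ℝ w (u0 ⟨sigA t Zc ε v, hsig v hv⟩)} := key (fun p => s < inner ℝ w (u0 p))
    refine h1.le.trans ?_
    unfold vol
    refine ENNReal.toReal_mono ?_ (measure_mono ?_)
    · refine measure_ne_top_of_subset (s := Metric.closedBall (0 : E n) 1) ?_
        (measure_closedBall_lt_top (μ := volume)).ne
      intro v hv
      simpa only [Metric.mem_closedBall, dist_zero_right] using hv.1
    · rintro v ⟨hv, hs⟩
      refine ⟨hv, ?_⟩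
      have h3 := hu0 ⟨sigA t Zc ε v, hsig v hv⟩
      have h4 := hdist _ v h3.1 h3.2
      have h5 : inner ℝ w (u0 ⟨sigA t Zc ε v, hsig v hv⟩) - inner ℝ w v ≤ ε := by
        rw [← inner_sub_right]
        refine (real_inner_le_norm _ _).trans ?_
        rw [dist_eq_norm] at h4
        linarith only [mul_nonneg (sub_nonneg.2 hw) (sub_nonneg.2 (norm_nonneg (u0 ⟨sigA t Zc ε v, hsig v hv⟩ - v))), h4]
      linarith only [hs, h5]

end Vale.Agent.P230.LB
end
end

section

section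

/-!
# P230, lower bound: the events `Ev` (modules EvLower, EvDep, SuppDisj)

Key lemma `prHit`: for `Z ⊆ Zc` the probability that a chosen atom `τ` satisfies
`Q (cut Z (a.u τ))` is `1 - exp (-(N vol {‖v‖ ≤ 1, Q (cut Z v)}))`.
-/

namespace Vale.Agent.P230.LB

open MeasureTheory

namespace EvA

section prob

variable {T : Type} [Fintype T] [DecidableEq T]

theorem wt_sum (p : T → ℝ) : ∑ J : Finset T, wt p J = 1 := by
  have h := Finset.prod_add (fun τ => p τ) (fun τ => 1 - p τ) (Finset.univ : Finset T)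
  have h1 : ∏ τ : T, (p τ + (1 - p τ)) = 1 := Finset.prod_eq_one fun τ _ => by ring
  rw [h1, Finset.powerset_univ] at h
  rw [h]
  refine Finset.sum_congr rfl fun J _ => ?_
  unfold wt
  rw [Finset.compl_eq_univ_sdiff]

theorem wt_nonneg {p : T → ℝ} (h0 : ∀ τ, 0 ≤ p τ) (h1 : ∀ τ, p τ ≤ 1) (J : Finset T) :
    0 ≤ wt p J :=
  mul_nonneg (Finset.prod_nonneg fun τ _ => h0 τ)
    (Finset.prod_nonneg fun τ _ => sub_nonneg.2 (h1 τ))

theorem pr_nonneg {p : T → ℝ} (h0 : ∀ τ, 0 ≤ p τ) (h1 : ∀ τ, p τ ≤ 1) (A : Finset T → Prop) :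
    0 ≤ Pr p A := by
  unfold Pr
  refine Finset.sum_nonneg fun J _ => ?_
  split_ifs
  · exact wt_nonneg h0 h1 J
  · exact le_rfl

theorem pr_mono {p : T → ℝ} (h0 : ∀ τ, 0 ≤ p τ) (h1 : ∀ τ, p τ ≤ 1) {A B : Finset T → Prop}
    (h : ∀ J, A J → B J) : Pr p A ≤ Pr p B := by
  unfold Pr
  refine Finset.sum_le_sum fun J _ => ?_
  by_cases hA : A J
  · rw [if_pos hA, if_pos (h J hA)]
  · rw [if_neg hA]
    split_ifs
    · exact wt_nonneg h0 h1 J
    · exact le_rfl

theorem pr_congr (p : T → ℝ) {A B : Finset T → Prop} (h : ∀ J, A J ↔ B J) :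
    Pr p A = Pr p B := by
  have : A = B := funext fun J => propext (h J)
  rw [this]

theorem pr_true (p : T → ℝ) : Pr p (fun _ => True) = 1 := by
  unfold Pr
  rw [← wt_sum p]
  exact Finset.sum_congr rfl fun J _ => if_pos trivial

theorem pr_compl (p : T → ℝ) (A : Finset T → Prop) :
    Pr p A = 1 - Pr p (fun J => ¬ A J) := by
  unfold Pr
  rw [eq_sub_iff_add_eq, ← Finset.sum_add_distrib, ← wt_sum p]
  refine Finset.sum_congr rfl fun J _ => ?_
  by_cases hA : A J
  · rw [if_pos hA, if_neg (not_not.2 hA), add_zero]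
  · rw [if_neg hA, if_pos hA, zero_add]

/-- Harris' inequality for finitely many increasing events. -/
theorem harris_finset (hH : Stmt.Harris) {p : T → ℝ} (h0 : ∀ τ, 0 ≤ p τ) (h1 : ∀ τ, p τ ≤ 1)
    {α : Type} (s : Finset α) (A : α → Finset T → Prop) (hA : ∀ z ∈ s, Incr (A z)) :
    ∏ z ∈ s, Pr p (A z) ≤ Pr p (fun J => ∀ z ∈ s, A z J) := by
  classical
  induction s using Finset.induction_on with
  | empty =>
    rw [Finset.prod_empty, ← pr_true p]
    exact pr_mono h0 h1 fun J _ => by simp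
  | insert z s hz ih =>
    rw [Finset.prod_insert hz]
    have ih' := ih fun y hy => hA y (Finset.mem_insert_of_mem hy)
    refine (mul_le_mul_of_nonneg_left ih' (pr_nonneg h0 h1 _)).trans ?_
    refine (hH T p h0 h1 (A z) (fun J => ∀ z ∈ s, A z J) (hA z (Finset.mem_insert_self z s))
      ?_).trans ?_
    · intro J J' hJ h y hy
      exact hA y (Finset.mem_insert_of_mem hy) J J' hJ (h y hy)
    · refine pr_mono h0 h1 fun J hJ y hy => ?_
      rcases Finset.mem_insert.1 hy with rfl | hy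
      · exact hJ.1
      · exact hJ.2 y hy

end prob

section atoms

variable {n : ℕ} {Zc : Finset (E n)} {ε : ℝ} {T : Type} [Fintype T]

theorem pp_nonneg {N : ℝ} (hN : 0 ≤ N) (a : Atoms n Zc ε T) (τ : T) : 0 ≤ pp N a τ := by
  unfold pp
  rw [sub_nonneg, Real.exp_le_one_iff, neg_nonpos]
  exact mul_nonneg hN (a.m_nonneg τ)

theorem pp_le_one {N : ℝ} (a : Atoms n Zc ε T) (τ : T) : pp N a τ ≤ 1 := by
  unfold pp
  linarith [Real.exp_pos (-(N * a.m τ))]

open Classical in
/-- total mass of the atoms whose cut set in `Z ⊆ Zc` has the property `Q` -/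
theorem mass_cut (a : Atoms n Zc ε T) {Z : Finset (E n)} (hZ : Z ⊆ Zc)
    (Q : Finset (E n) → Prop) :
    (∑ τ, if Q (cut Z (a.u τ)) then a.m τ else 0) = vol {v : E n | ‖v‖ ≤ 1 ∧ Q (cut Z v)} := by
  have h := a.mass (fun S => Q (S.filter (fun z => z ∈ Z)))
  have e : ∀ u : E n, (cut Zc u).filter (fun z => z ∈ Z) = cut Z u := by
    intro u
    ext z
    unfold cut
    simp only [Finset.mem_filter]
    constructor
    · rintro ⟨⟨-, h2⟩, h3⟩
      exact ⟨h3, h2⟩
    · rintro ⟨h1, h2⟩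
      exact ⟨⟨hZ h1, h2⟩, h1⟩
  simp only [e] at h
  exact h

variable [DecidableEq T]

/-- KEY LEMMA: the probability that some chosen atom has a cut set in `Z` with property `Q`. -/
theorem prHit (hE : Stmt.PrEmpty) (N : ℝ) (a : Atoms n Zc ε T) {Z : Finset (E n)} (hZ : Z ⊆ Zc)
    (Q : Finset (E n) → Prop) :
    Pr (pp N a) (fun J => ∃ τ ∈ J, Q (cut Z (a.u τ))) =
      1 - Real.exp (-(N * vol {v : E n | ‖v‖ ≤ 1 ∧ Q (cut Z v)})) := by
  classical
  have h1 : Pr (pp N a) (fun J => ¬ ∃ τ ∈ J, Q (cut Z (a.u τ))) =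
      Real.exp (-(N * vol {v : E n | ‖v‖ ≤ 1 ∧ Q (cut Z v)})) := by
    set R : Finset T := Finset.univ.filter (fun τ => Q (cut Z (a.u τ))) with hR
    have h2 : Pr (pp N a) (fun J => ¬ ∃ τ ∈ J, Q (cut Z (a.u τ)))
        = Pr (pp N a) (fun J => Disjoint J R) := by
      refine pr_congr _ fun J => ?_
      rw [Finset.disjoint_left]
      constructor
      · intro h τ hτ hτR
        exact h ⟨τ, hτ, (Finset.mem_filter.1 hτR).2⟩
      · rintro h ⟨τ, hτ, hQ⟩
        exact h hτ (Finset.mem_filter.2 ⟨Finset.mem_univ _, hQ⟩)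
    rw [h2, hE T (pp N a) R, ← mass_cut a hZ Q, ← Finset.sum_filter, ← hR, Finset.mul_sum,
      ← Finset.sum_neg_distrib, Real.exp_sum]
    refine Finset.prod_congr rfl fun τ _ => ?_
    unfold pp
    ring
  rw [pr_compl, h1]

end atoms

end EvA

open EvA

theorem evLower (hH : Stmt.Harris) (hE : Stmt.PrEmpty) (h0 : Stmt.FacetL0) : Stmt.EvLower := by
  obtain ⟨n0, h0⟩ := h0
  refine ⟨n0, fun n hn N hN Zc ε T _ _ a Z hZ hSh => ?_⟩
  have hp0 : ∀ τ, 0 ≤ pp N a τ := pp_nonneg hN.1.le a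
  have hp1 : ∀ τ, pp N a τ ≤ 1 := pp_le_one a
  have key : ∀ z ∈ Z, Real.exp (-(3 + C1 * n * (1 - ‖z‖))) ≤
      Pr (pp N a) (fun J => ∃ τ ∈ J, z ∈ cut Z (a.u τ) ∧ Small (cut Z (a.u τ)) (gam n 0)) := by
    intro z hz
    have e := prHit hE N a hZ (fun S => z ∈ S ∧ Small S (gam n 0))
    rw [e]
    have hL := h0 n hn N hN Z hSh z hz
    set V : ℝ := N * vol {v : E n | ‖v‖ ≤ 1 ∧ z ∈ cut Z v ∧ Small (cut Z v) (gam n 0)} with hV
    set y : ℝ := C1 * n * (1 - ‖z‖) with hy
    have hy0 : 0 ≤ y := by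
      have h1 : ‖z‖ ≤ 1 := (hSh.1 z hz).2
      have h2 : (0 : ℝ) ≤ C1 := by unfold C1; norm_num
      exact mul_nonneg (mul_nonneg h2 n.cast_nonneg) (by linarith only [h1])
    set x : ℝ := 1 / 4 * Real.exp (-y) with hx
    have hx0 : 0 < x := by positivity
    have hx1 : x ≤ 1 / 4 := by
      have : Real.exp (-y) ≤ 1 := Real.exp_le_one_iff.2 (by linarith only [hy0])
      rw [hx]; linarith only [this]
    have hxV : x ≤ V := hL
    have e1 : Real.exp (-V) ≤ Real.exp (-x) := Real.exp_le_exp.2 (by linarith only [hL])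
    have e2 : Real.exp (-x) ≤ 1 - x / 2 := by
      rw [Real.exp_neg, inv_le_comm₀ (Real.exp_pos x) (by linarith only [hx1])]
      have : x + 1 ≤ Real.exp x := Real.add_one_le_exp x
      refine le_trans ?_ this
      rw [inv_le_comm₀ (by linarith only [hx1]) (by linarith only [hx0])]
      rw [inv_le_iff_one_le_mul₀ (by linarith only [hx0])]
      nlinarith only [hx0, hx1]
    have e3 : Real.exp (-(3 + y)) ≤ x / 2 := by
      have h8 : (8 : ℝ) ≤ Real.exp 3 := by
        have := Real.quadratic_le_exp_of_nonneg (x := 3) (by norm_num)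
        linarith only [this]
      have h9 : Real.exp (-3) ≤ 1 / 8 := by
        rw [Real.exp_neg, inv_le_comm₀ (Real.exp_pos 3) (by norm_num)]
        linarith only [h8]
      have : Real.exp (-(3 + y)) = Real.exp (-3) * Real.exp (-y) := by
        rw [← Real.exp_add]; ring_nf
      rw [this, hx]
      nlinarith only [hx, h9, hx0]
    linarith only [e1, e2, e3]
  have hprod : ∏ z ∈ Z, Real.exp (-(3 + C1 * n * (1 - ‖z‖))) ≤
      ∏ z ∈ Z, Pr (pp N a)
        (fun J => ∃ τ ∈ J, z ∈ cut Z (a.u τ) ∧ Small (cut Z (a.u τ)) (gam n 0)) :=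
    Finset.prod_le_prod (fun z _ => (Real.exp_pos _).le) key
  rw [← Finset.sum_neg_distrib, Real.exp_sum]
  refine hprod.trans (harris_finset hH hp0 hp1 Z _ fun z _ => ?_)
  rintro J J' hJ ⟨τ, hτ, h⟩
  exact ⟨τ, hJ hτ, h⟩

theorem evDep : Stmt.EvDep := by
  intro n Zc ε T _ _ a Z d
  have key : ∀ J J' : Finset T, J ∩ supp a Z = J' ∩ supp a Z → Ev a Z d J → Ev a Z d J' := by
    intro J J' hJ h z hz
    obtain ⟨τ, hτ, h1, h2⟩ := h z hz
    have hs : τ ∈ supp a Z := by
      unfold supp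
      exact Finset.mem_filter.2 ⟨Finset.mem_univ _, ⟨z, h1⟩⟩
    have : τ ∈ J' ∩ supp a Z := by
      rw [← hJ]
      exact Finset.mem_inter.2 ⟨hτ, hs⟩
    exact ⟨τ, (Finset.mem_inter.1 this).1, h1, h2⟩
  exact fun J J' hJ => ⟨key J J' hJ, key J' J hJ.symm⟩

theorem suppDisj (h : Stmt.ZeroCut) : Stmt.SuppDisj := by
  intro n Zc ε T _ _ a Z Z' hZ hZ' hd
  rw [Finset.disjoint_left]
  intro τ h1 h2
  unfold supp at h1 h2
  obtain ⟨z, hz⟩ := (Finset.mem_filter.1 h1).2
  obtain ⟨z', hz'⟩ := (Finset.mem_filter.1 h2).2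
  unfold cut at hz hz'
  obtain ⟨hz1, hz2⟩ := Finset.mem_filter.1 hz
  obtain ⟨hz1', hz2'⟩ := Finset.mem_filter.1 hz'
  exact h n z z' (hZ z hz1) (hZ' z' hz1') (hd z hz1 z' hz1') (a.u τ) (a.u_le τ) ⟨hz2, hz2'⟩

end Vale.Agent.P230.LB
end
end

section

section

/-!
# The pair estimate `EvPair` for the events `Ev`
-/

namespace Vale.Agent.P230.LB

open MeasureTheory

section aux

variable {T : Type} [Fintype T] [DecidableEq T]

theorem evb_wt_nonneg (p : T → ℝ) (h0 : ∀ τ, 0 ≤ p τ) (h1 : ∀ τ, p τ ≤ 1) (J : Finset T) :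
    0 ≤ wt p J := by
  unfold wt
  apply mul_nonneg
  · exact Finset.prod_nonneg fun τ _ => h0 τ
  · exact Finset.prod_nonneg fun τ _ => sub_nonneg.2 (h1 τ)

theorem evb_Pr_mono (p : T → ℝ) (h0 : ∀ τ, 0 ≤ p τ) (h1 : ∀ τ, p τ ≤ 1)
    {A B : Finset T → Prop} (h : ∀ J, A J → B J) : Pr p A ≤ Pr p B := by
  unfold Pr
  apply Finset.sum_le_sum
  intro J _
  by_cases hA : A J
  · rw [if_pos hA, if_pos (h J hA)]
  · rw [if_neg hA]
    split_ifs
    · exact evb_wt_nonneg p h0 h1 J
    · exact le_refl _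

theorem evb_Pr_congr (p : T → ℝ) {A B : Finset T → Prop} (h : ∀ J, A J ↔ B J) :
    Pr p A = Pr p B := by
  have : A = B := funext fun J => propext (h J)
  rw [this]

theorem evb_Pr_true (hE : Stmt.PrEmpty) (p : T → ℝ) : Pr p (fun _ => True) = 1 := by
  have := hE T p ∅
  rw [Finset.prod_empty] at this
  rw [← this]
  exact evb_Pr_congr p (fun J => by simp)

theorem evb_Pr_hit (hE : Stmt.PrEmpty) (p : T → ℝ) (R : Finset T) :
    Pr p (fun J => (J ∩ R).Nonempty) = 1 - ∏ τ ∈ R, (1 - p τ) := by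
  have h1 := evb_Pr_true hE p
  have h2 := hE T p R
  have h3 : Pr p (fun J => (J ∩ R).Nonempty) + Pr p (fun J => Disjoint J R) =
      Pr p (fun _ => True) := by
    unfold Pr
    rw [← Finset.sum_add_distrib]
    apply Finset.sum_congr rfl
    intro J _
    by_cases h : Disjoint J R
    · have h' : ¬ (J ∩ R).Nonempty := by
        rw [Finset.not_nonempty_iff_eq_empty]
        exact Finset.disjoint_iff_inter_eq_empty.1 h
      rw [if_neg h', if_pos h, if_pos trivial, zero_add]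
    · have h' : (J ∩ R).Nonempty := by
        rw [Finset.nonempty_iff_ne_empty]
        exact fun h' => h (Finset.disjoint_iff_inter_eq_empty.2 h')
      rw [if_pos h', if_neg h, if_pos trivial, add_zero]
  linarith

end aux

theorem evb_cut {n : ℕ} {Z Zc : Finset (E n)} (h : Z ⊆ Zc) (v : E n) :
    cut Z v = (cut Zc v) ∩ Z := by
  ext z
  simp only [cut, Finset.mem_filter, Finset.mem_inter]
  constructor
  · rintro ⟨h1, h2⟩
    exact ⟨⟨h h1, h2⟩, h1⟩
  · rintro ⟨⟨_, h2⟩, h1⟩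
    exact ⟨h1, h2⟩

theorem evb_mem_cut {n : ℕ} {Z : Finset (E n)} {v z : E n} :
    z ∈ cut Z v ↔ z ∈ Z ∧ rho < inner ℝ z v := by
  simp only [cut, Finset.mem_filter]

open Classical in
theorem evb_mass0 {n : ℕ} {Zc : Finset (E n)} {ε : ℝ} {T : Type} [Fintype T]
    (a : Atoms n Zc ε T) (Q : Finset (E n) → Prop) (R : Finset T)
    (hR : ∀ τ, τ ∈ R ↔ Q (cut Zc (a.u τ))) :
    ∑ τ ∈ R, a.m τ = vol {v : E n | ‖v‖ ≤ 1 ∧ Q (cut Zc v)} := by
  rw [← a.mass Q, ← Finset.sum_filter]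
  apply Finset.sum_congr _ (fun _ _ => rfl)
  ext τ
  rw [hR τ, Finset.mem_filter]
  simp only [Finset.mem_univ, true_and]

theorem evb_mass {n : ℕ} {Zc : Finset (E n)} {ε : ℝ} {T : Type} [Fintype T]
    (a : Atoms n Zc ε T) {Z : Finset (E n)} (h : Z ⊆ Zc) (Q : Finset (E n) → Prop)
    (R : Finset T) (hR : ∀ τ, τ ∈ R ↔ Q (cut Z (a.u τ))) :
    ∑ τ ∈ R, a.m τ = vol {v : E n | ‖v‖ ≤ 1 ∧ Q (cut Z v)} := by
  classical
  have h1 := evb_mass0 a (fun S => Q (S ∩ Z)) R (fun τ => by rw [hR τ, evb_cut h])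
  rw [h1]
  congr 1
  ext v
  simp only [Set.mem_setOf_eq, evb_cut h v]

section ppf

variable {n : ℕ} {Zc : Finset (E n)} {ε : ℝ} {T : Type} [Fintype T] [DecidableEq T]

theorem evb_pp_nonneg {N : ℝ} (hN : 0 ≤ N) (a : Atoms n Zc ε T) (τ : T) : 0 ≤ pp N a τ := by
  unfold pp
  have h := mul_nonneg hN (a.m_nonneg τ)
  have : Real.exp (-(N * a.m τ)) ≤ 1 := Real.exp_le_one_iff.2 (by linarith)
  linarith only [this]

theorem evb_pp_le_one (N : ℝ) (a : Atoms n Zc ε T) (τ : T) : pp N a τ ≤ 1 := by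
  unfold pp
  have := (Real.exp_pos (-(N * a.m τ))).le
  linarith only [this]

theorem evb_pp_le (N : ℝ) (a : Atoms n Zc ε T) (τ : T) : pp N a τ ≤ N * a.m τ := by
  unfold pp
  have := Real.add_one_le_exp (-(N * a.m τ))
  linarith

theorem evb_hit_pp (hE : Stmt.PrEmpty) (N : ℝ) (a : Atoms n Zc ε T) (R : Finset T) :
    Pr (pp N a) (fun J => (J ∩ R).Nonempty) = 1 - Real.exp (-(N * ∑ τ ∈ R, a.m τ)) := by
  rw [evb_Pr_hit hE]
  congr 1
  have : ∀ τ ∈ R, 1 - pp N a τ = Real.exp (-(N * a.m τ)) := by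
    intro τ _
    unfold pp
    ring
  rw [Finset.prod_congr rfl this, ← Real.exp_sum, Finset.sum_neg_distrib, Finset.mul_sum]

end ppf

theorem evb_half {x : ℝ} (h0 : 0 ≤ x) (h1 : x ≤ 1) : 1 / 2 * x ≤ 1 - Real.exp (-x) := by
  have h2 : 1 + x ≤ Real.exp x := by linarith only [Real.add_one_le_exp x]
  have h3 : Real.exp (-x) * Real.exp x = 1 := by
    rw [← Real.exp_add, neg_add_cancel, Real.exp_zero]
  have h4 : 0 < Real.exp (-x) := Real.exp_pos _
  have h5 : Real.exp (-x) * (1 + x) ≤ 1 := by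
    calc Real.exp (-x) * (1 + x) ≤ Real.exp (-x) * Real.exp x :=
          mul_le_mul_of_nonneg_left h2 h4.le
      _ = 1 := h3
  have h6 : Real.exp (-x) * (1 + x) ≤ (1 - 1 / 2 * x) * (1 + x) := by linarith only [mul_nonneg (sub_nonneg.2 h0) (sub_nonneg.2 h1), mul_nonneg (sub_nonneg.2 h5) (sub_nonneg.2 h1), mul_nonneg (sub_nonneg.2 h5) (sub_nonneg.2 h0)]
  have h7 : Real.exp (-x) ≤ 1 - 1 / 2 * x := le_of_mul_le_mul_right h6 (by linarith only [h0])
  linarith only [h7]

theorem evb_gam_nonneg (n j : ℕ) : 0 ≤ gam n j := by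
  unfold gam
  positivity

theorem evb_gam_succ (n j : ℕ) : gam n (j + 1) = 8 * gam n j := by
  unfold gam
  rw [pow_succ]
  ring

theorem evb_gam_mono (n : ℕ) : Monotone (gam n) :=
  monotone_nat_of_le_succ fun j => by
    rw [evb_gam_succ]
    linarith [evb_gam_nonneg n j]

open Classical in
/-- the atoms which cut `z` and whose cut set in `Z` has diameter at most `d` -/
noncomputable def evbR {n : ℕ} {Zc : Finset (E n)} {ε : ℝ} {T : Type} [Fintype T]
    (a : Atoms n Zc ε T) (Z : Finset (E n)) (d : ℝ) (z : E n) : Finset T :=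
  Finset.univ.filter (fun τ => z ∈ cut Z (a.u τ) ∧ Small (cut Z (a.u τ)) d)

theorem evb_mem_R {n : ℕ} {Zc : Finset (E n)} {ε : ℝ} {T : Type} [Fintype T]
    {a : Atoms n Zc ε T} {Z : Finset (E n)} {d : ℝ} {z : E n} {τ : T} :
    τ ∈ evbR a Z d z ↔ z ∈ cut Z (a.u τ) ∧ Small (cut Z (a.u τ)) d := by
  simp only [evbR, Finset.mem_filter, Finset.mem_univ, true_and]

theorem evb_Ev_iff {n : ℕ} {Zc : Finset (E n)} {ε : ℝ} {T : Type} [Fintype T] [DecidableEq T]
    (a : Atoms n Zc ε T) (Z : Finset (E n)) (d : ℝ) (J : Finset T) :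
    Ev a Z d J ↔ ∀ z ∈ Z, (J ∩ evbR a Z d z).Nonempty := by
  unfold Ev
  constructor
  · intro h z hz
    obtain ⟨τ, hτ, h1⟩ := h z hz
    exact ⟨τ, Finset.mem_inter.2 ⟨hτ, evb_mem_R.2 h1⟩⟩
  · intro h z hz
    obtain ⟨τ, hτ⟩ := h z hz
    rw [Finset.mem_inter] at hτ
    exact ⟨τ, hτ.1, evb_mem_R.1 hτ.2⟩

theorem evb_small_mono {n : ℕ} {S : Finset (E n)} {d d' : ℝ} (h : d ≤ d') (hS : Small S d) :
    Small S d' := fun x hx y hy => (hS x hx y hy).trans h

/-- step (1): the conditional events have probability at least `π` -/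
theorem evb_key (hE : Stmt.PrEmpty) {n : ℕ}
    (hL : ∀ (N : ℝ), NormN n N → ∀ Z : Finset (E n), Shell n Z →
      ∀ S ⊆ Z, S.Nonempty → ∀ γ : ℝ, gam n 0 ≤ γ → γ ^ 2 ≤ 1 / 10 ^ 7 → Small S γ →
      Real.exp (-(220000 * n * γ ^ 2)) ≤
        N * vol {u : E n | ‖u‖ ≤ 1 ∧ S ⊆ cut Z u ∧ Small (cut Z u) (8 * γ)})
    {N : ℝ} (hN : NormN n N) {Zc : Finset (E n)} {ε : ℝ}
    {T : Type} [Fintype T] [DecidableEq T] (a : Atoms n Zc ε T) {Z : Finset (E n)}
    (hZ : Z ⊆ Zc) (hs : Shell n Z) {j : ℕ} (hg : gam n j ^ 2 ≤ 1 / 10 ^ 7) (τ : T) :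
    1 / 2 * Real.exp (-(220000 * n * gam n j ^ 2)) ≤
      Pr (pp N a) (fun J => ∀ z ∈ Z, τ ∈ evbR a Z (gam n j) z →
        (J ∩ evbR a Z (gam n (j + 1)) z).Nonempty) := by
  classical
  have hx0 : 0 ≤ Real.exp (-(220000 * n * gam n j ^ 2)) := (Real.exp_pos _).le
  have hx1 : Real.exp (-(220000 * n * gam n j ^ 2)) ≤ 1 := by
    apply Real.exp_le_one_iff.2
    have : 0 ≤ 220000 * (n : ℝ) * gam n j ^ 2 := by (clear * -; positivity)
    linarith
  by_cases h : ∃ z ∈ Z, τ ∈ evbR a Z (gam n j) z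
  · obtain ⟨z, hz, hτ⟩ := h
    rw [evb_mem_R] at hτ
    obtain ⟨hzc, hsm⟩ := hτ
    have hSZ : cut Z (a.u τ) ⊆ Z := Finset.filter_subset _ _
    have h1 := hL N hN Z hs (cut Z (a.u τ)) hSZ ⟨z, hzc⟩ (gam n j)
      (evb_gam_mono n (Nat.zero_le j)) hg hsm
    set R : Finset T := Finset.univ.filter (fun σ => cut Z (a.u τ) ⊆ cut Z (a.u σ) ∧
      Small (cut Z (a.u σ)) (8 * gam n j)) with hR
    have h2 : N * ∑ σ ∈ R, a.m σ = N * vol {u : E n | ‖u‖ ≤ 1 ∧
        cut Z (a.u τ) ⊆ cut Z u ∧ Small (cut Z u) (8 * gam n j)} := by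
      congr 1
      apply evb_mass a hZ (fun S => cut Z (a.u τ) ⊆ S ∧ Small S (8 * gam n j)) R
      intro σ
      rw [hR, Finset.mem_filter]
      simp only [Finset.mem_univ, true_and]
    have h3 := evb_hit_pp hE N a R
    have h4 : Pr (pp N a) (fun J => (J ∩ R).Nonempty) ≤
        Pr (pp N a) (fun J => ∀ z ∈ Z, τ ∈ evbR a Z (gam n j) z →
          (J ∩ evbR a Z (gam n (j + 1)) z).Nonempty) := by
      apply evb_Pr_mono _ (evb_pp_nonneg hN.1.le a) (evb_pp_le_one N a)
      rintro J ⟨σ, hσ⟩ w hw hwτ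
      rw [Finset.mem_inter, hR, Finset.mem_filter] at hσ
      refine ⟨σ, Finset.mem_inter.2 ⟨hσ.1, evb_mem_R.2 ⟨hσ.2.2.1 (evb_mem_R.1 hwτ).1, ?_⟩⟩⟩
      rw [evb_gam_succ]
      exact hσ.2.2.2
    refine le_trans ?_ h4
    rw [h3, h2]
    refine (evb_half hx0 hx1).trans ?_
    have h5 := Real.exp_le_exp.2 (neg_le_neg h1)
    linarith only [h5]
  · have h1 : Pr (pp N a) (fun J => ∀ z ∈ Z, τ ∈ evbR a Z (gam n j) z →
        (J ∩ evbR a Z (gam n (j + 1)) z).Nonempty) = 1 := by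
      rw [← evb_Pr_true hE (pp N a)]
      apply evb_Pr_congr
      intro J
      constructor
      · intro _
        trivial
      · intro _ z hz hτ
        exact absurd ⟨z, hz, hτ⟩ h
    rw [h1]
    linarith only [hx1]

/-- step (2): the expected number of atoms which cut both sets -/
theorem evb_cross (h2 : Stmt.TwoCut) {n : ℕ} (hn : 2 ≤ n)
    {N : ℝ} (hN : NormN n N) {Zc : Finset (E n)} {ε : ℝ}
    {T : Type} [Fintype T] [DecidableEq T] (a : Atoms n Zc ε T) {Z Z' : Finset (E n)}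
    (hZ : Z ⊆ Zc) (hZ' : Z' ⊆ Zc) (hs : Shell n Z) (hs' : Shell n Z')
    {b : ℝ} (hb : 0 ≤ b) (hd : ∀ z ∈ Z, ∀ z' ∈ Z', b ≤ ‖z - z'‖) (I : Finset T)
    (hI : ∀ τ, τ ∈ I ↔ (cut Z (a.u τ)).Nonempty ∧ (cut Z' (a.u τ)).Nonempty) :
    ∑ τ ∈ I, pp N a τ ≤ (n : ℝ) ^ 4 * Real.exp (-(1000 * n * b ^ 2)) := by
  classical
  have hN0 : 0 ≤ N := hN.1.le
  have e1 : ∑ τ ∈ I, pp N a τ ≤ N * ∑ τ ∈ I, a.m τ := by
    rw [Finset.mul_sum]
    exact Finset.sum_le_sum fun τ _ => evb_pp_le N a τ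
  have e2 : ∑ τ ∈ I, a.m τ = vol {v : E n | ‖v‖ ≤ 1 ∧
      ((cut Zc v ∩ Z).Nonempty ∧ (cut Zc v ∩ Z').Nonempty)} := by
    apply evb_mass0 a (fun S => (S ∩ Z).Nonempty ∧ (S ∩ Z').Nonempty) I
    intro τ
    rw [hI τ, evb_cut hZ, evb_cut hZ']
  have e3 : vol {v : E n | ‖v‖ ≤ 1 ∧
      ((cut Zc v ∩ Z).Nonempty ∧ (cut Zc v ∩ Z').Nonempty)} ≤
      ∑ p ∈ Z ×ˢ Z', vol {u : E n | ‖u‖ ≤ 1 ∧ rho < inner ℝ p.1 u ∧ rho < inner ℝ p.2 u} := by
    have hsub : {v : E n | ‖v‖ ≤ 1 ∧
        ((cut Zc v ∩ Z).Nonempty ∧ (cut Zc v ∩ Z').Nonempty)} ⊆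
        ⋃ p ∈ Z ×ˢ Z', {u : E n | ‖u‖ ≤ 1 ∧ rho < inner ℝ p.1 u ∧ rho < inner ℝ p.2 u} := by
      rintro v ⟨hv, ⟨z, hz⟩, ⟨z', hz'⟩⟩
      rw [Finset.mem_inter, evb_mem_cut] at hz hz'
      refine Set.mem_biUnion (x := (z, z')) ?_ ?_
      · exact Finset.mem_coe.2 (Finset.mem_product.2 ⟨hz.2, hz'.2⟩)
      · exact ⟨hv, hz.1.2, hz'.1.2⟩
    have hfin : volume (⋃ p ∈ Z ×ˢ Z',
        {u : E n | ‖u‖ ≤ 1 ∧ rho < inner ℝ p.1 u ∧ rho < inner ℝ p.2 u}) ≠ ⊤ := by
      apply ne_top_of_le_ne_top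
        (measure_closedBall_lt_top (μ := (volume : Measure (E n))) (x := (0 : E n)) (r := 1)).ne
      apply measure_mono
      apply Set.iUnion₂_subset
      intro p _ u hu
      rw [mem_closedBall_zero_iff]
      exact hu.1
    exact (measureReal_mono hsub hfin).trans (measureReal_biUnion_finset_le _ _)
  have e4 : N * ∑ p ∈ Z ×ˢ Z', vol {u : E n | ‖u‖ ≤ 1 ∧ rho < inner ℝ p.1 u ∧
      rho < inner ℝ p.2 u} ≤ ∑ p ∈ Z ×ˢ Z', Real.exp (-(1000 * n * b ^ 2)) := by
    rw [Finset.mul_sum]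
    apply Finset.sum_le_sum
    intro p hp
    rw [Finset.mem_product] at hp
    refine (h2 n hn N hN p.1 p.2 (hs.1 p.1 hp.1).2 (hs'.1 p.2 hp.2).2).trans ?_
    apply Real.exp_le_exp.2
    apply neg_le_neg
    have h3 := hd p.1 hp.1 p.2 hp.2
    have h4 : b ^ 2 ≤ ‖p.1 - p.2‖ ^ 2 := pow_le_pow_left₀ hb h3 2
    exact mul_le_mul_of_nonneg_left h4 (by positivity)
  have e5 : ∑ p ∈ Z ×ˢ Z', Real.exp (-(1000 * n * b ^ 2)) ≤
      (n : ℝ) ^ 4 * Real.exp (-(1000 * n * b ^ 2)) := by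
    rw [Finset.sum_const, nsmul_eq_mul]
    apply mul_le_mul_of_nonneg_right _ (Real.exp_pos _).le
    rw [Finset.card_product]
    have h5 : (Z ×ˢ Z').card = Z.card * Z'.card := Finset.card_product _ _
    have h6 : Z.card * Z'.card ≤ n ^ 2 * n ^ 2 := Nat.mul_le_mul hs.2 hs'.2
    have h7 : ((Z.card * Z'.card : ℕ) : ℝ) ≤ ((n ^ 2 * n ^ 2 : ℕ) : ℝ) := Nat.cast_le.2 h6
    refine h7.trans (le_of_eq ?_)
    push_cast
    ring
  calc ∑ τ ∈ I, pp N a τ ≤ N * ∑ τ ∈ I, a.m τ := e1
    _ ≤ N * ∑ p ∈ Z ×ˢ Z', vol {u : E n | ‖u‖ ≤ 1 ∧ rho < inner ℝ p.1 u ∧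
        rho < inner ℝ p.2 u} := by
        rw [e2]
        exact mul_le_mul_of_nonneg_left e3 hN0
    _ ≤ _ := e4.trans e5

theorem evPair (hP : Stmt.PairLemma) (hE : Stmt.PrEmpty) (h2 : Stmt.TwoCut)
    (h1 : Stmt.FacetL1) (hN : Stmt.NumLev) : Stmt.EvPair := by
  classical
  obtain ⟨n1, h1⟩ := h1
  obtain ⟨n2, hN⟩ := hN
  refine ⟨max (max n1 n2) 2, ?_⟩
  intro n hn N hNN Zc ε T _ _ a Z Z' hZ hZ' hs hs' hd j hj
  have hn1 : n1 ≤ n := le_trans (le_trans (le_max_left _ _) (le_max_left _ _)) hn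
  have hn2 : n2 ≤ n := le_trans (le_trans (le_max_right _ _) (le_max_left _ _)) hn
  have hn3 : 2 ≤ n := le_trans (le_max_right _ _) hn
  obtain ⟨-, -, g1, -, g2⟩ := hN n hn2
  have hL := h1 n hn1
  set G : ℝ := gam n (lev n) with hG
  have hG0 : 0 ≤ G := evb_gam_nonneg n (lev n)
  have hjG : 8 * gam n j ≤ G := by
    rw [← evb_gam_succ]
    exact evb_gam_mono n hj
  have hj0 : 0 ≤ gam n j := evb_gam_nonneg n j
  have hg : gam n j ^ 2 ≤ 1 / 10 ^ 7 := by
    refine le_trans (pow_le_pow_left₀ hj0 ?_ 2) g1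
    linarith only [hG0, hjG]
  have hg' : 64 * gam n j ^ 2 ≤ G ^ 2 := by
    have := pow_le_pow_left₀ (by linarith only [hj0]) hjG 2
    calc 64 * gam n j ^ 2 = (8 * gam n j) ^ 2 := by ring
      _ ≤ G ^ 2 := this
  have hb0 : 0 ≤ bet n := by
    unfold bet
    have := evb_gam_nonneg n (lev n)
    linarith only [hG0]
  set I : Finset T := Finset.univ.filter (fun τ => (cut Z (a.u τ)).Nonempty ∧
    (cut Z' (a.u τ)).Nonempty) with hIdef
  have hI : ∀ τ, τ ∈ I ↔ (cut Z (a.u τ)).Nonempty ∧ (cut Z' (a.u τ)).Nonempty := by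
    intro τ
    rw [hIdef, Finset.mem_filter]
    simp only [Finset.mem_univ, true_and]
  have hcross := evb_cross h2 hn3 hNN a hZ hZ' hs hs' hb0 hd I hI
  set π : ℝ := 1 / 2 * Real.exp (-(220000 * n * gam n j ^ 2)) with hπ
  have hexp : 0 < Real.exp (-(220000 * n * gam n j ^ 2)) := Real.exp_pos _
  have hπ0 : 0 < π := by
    rw [hπ]
    positivity
  have hexp1 : Real.exp (-(220000 * n * gam n j ^ 2)) ≤ 1 := by
    apply Real.exp_le_one_iff.2
    have : 0 ≤ 220000 * (n : ℝ) * gam n j ^ 2 := by (clear * - hn3; positivity)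
    linarith only [this]
  have hπ1 : π ≤ 1 := by
    rw [hπ]
    linarith only [hexp1]
  have hle : gam n j ≤ gam n (j + 1) := evb_gam_mono n (Nat.le_succ j)
  have key := hP T (pp N a) (evb_pp_nonneg hNN.1.le a) (evb_pp_le_one N a) (E n) Z Z'
    (evbR a Z (gam n j)) (evbR a Z (gam n (j + 1))) (evbR a Z' (gam n j))
    (evbR a Z' (gam n (j + 1))) I π hπ0 hπ1
    (fun z _ τ hτ => evb_mem_R.2 ⟨(evb_mem_R.1 hτ).1, evb_small_mono hle (evb_mem_R.1 hτ).2⟩)
    (fun z _ τ hτ => evb_mem_R.2 ⟨(evb_mem_R.1 hτ).1, evb_small_mono hle (evb_mem_R.1 hτ).2⟩)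
    (by
      rintro τ ⟨z, -, hz⟩ ⟨z', -, hz'⟩
      rw [hI]
      exact ⟨⟨z, (evb_mem_R.1 hz).1⟩, ⟨z', (evb_mem_R.1 hz').1⟩⟩)
    (fun τ _ => evb_key hE hL hNN a hZ hs hg τ)
    (fun τ _ => evb_key hE hL hNN a hZ' hs' hg τ)
  have hfac : Real.exp ((π⁻¹) ^ 2 * ∑ τ ∈ I, pp N a τ) ≤ Real.exp 1 := by
    apply Real.exp_le_exp.2
    have f1 : (π⁻¹) ^ 2 = 4 * Real.exp (440000 * n * gam n j ^ 2) := by
      rw [hπ, mul_inv, mul_pow, ← Real.exp_neg, neg_neg, ← Real.exp_nat_mul]
      push_cast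
      norm_num
      ring_nf
    have f2 : (π⁻¹) ^ 2 * ∑ τ ∈ I, pp N a τ ≤ (4 * Real.exp (440000 * n * gam n j ^ 2)) *
        ((n : ℝ) ^ 4 * Real.exp (-(1000 * n * bet n ^ 2))) := by
      rw [f1]
      exact mul_le_mul_of_nonneg_left hcross (by positivity)
    refine f2.trans (le_trans ?_ g2)
    have f3 : (4 * Real.exp (440000 * n * gam n j ^ 2)) *
        ((n : ℝ) ^ 4 * Real.exp (-(1000 * n * bet n ^ 2))) =
        (n : ℝ) ^ 4 * 4 * Real.exp (440000 * n * gam n j ^ 2 + -(1000 * n * bet n ^ 2)) := by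
      rw [Real.exp_add]
      ring
    rw [f3]
    apply mul_le_mul_of_nonneg_left _ (by positivity)
    apply Real.exp_le_exp.2
    have f4 : bet n ^ 2 = 1024 * G ^ 2 := by
      unfold bet
      rw [mul_pow]
      norm_num
      rw [hG]
    rw [f4]
    have f5 : (n : ℝ) * (64 * gam n j ^ 2) ≤ n * G ^ 2 :=
      mul_le_mul_of_nonneg_left hg' (Nat.cast_nonneg n)
    have f6 : 0 ≤ (n : ℝ) * G ^ 2 := by (clear * - hn3; positivity)
    nlinarith only [f5]
  have hA : Pr (pp N a) (fun J => Ev a Z (gam n j) J ∧ Ev a Z' (gam n j) J) =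
      Pr (pp N a) (fun J => (∀ z ∈ Z, (J ∩ evbR a Z (gam n j) z).Nonempty) ∧
        (∀ z ∈ Z', (J ∩ evbR a Z' (gam n j) z).Nonempty)) :=
    evb_Pr_congr _ fun J => and_congr (evb_Ev_iff a Z _ J) (evb_Ev_iff a Z' _ J)
  have hB : Pr (pp N a) (Ev a Z (gam n (j + 1))) =
      Pr (pp N a) (fun J => ∀ z ∈ Z, (J ∩ evbR a Z (gam n (j + 1)) z).Nonempty) :=
    evb_Pr_congr _ fun J => evb_Ev_iff a Z _ J
  have hC : Pr (pp N a) (Ev a Z' (gam n (j + 1))) =
      Pr (pp N a) (fun J => ∀ z ∈ Z', (J ∩ evbR a Z' (gam n (j + 1)) z).Nonempty) :=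
    evb_Pr_congr _ fun J => evb_Ev_iff a Z' _ J
  rw [hA, hB, hC]
  refine key.trans ?_
  have hnn : ∀ A : Finset T → Prop, 0 ≤ Pr (pp N a) A := by
    intro A
    unfold Pr
    apply Finset.sum_nonneg
    intro J _
    split_ifs
    · exact evb_wt_nonneg _ (evb_pp_nonneg hNN.1.le a) (evb_pp_le_one N a) J
    · exact le_refl _
  refine (mul_le_mul_of_nonneg_left hfac (mul_nonneg (hnn _) (hnn _))).trans (le_of_eq ?_)
  ring

end Vale.Agent.P230.LB
end
end

section

section

/-!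
# Nets and clusters of good points
-/

namespace Vale.Agent.P230.LB

open MeasureTheory Metric Set

namespace ClusL

variable {n : ℕ}

theorem vol_eq (s : Set (E n)) : vol s = (volume : Measure (E n)).real s := rfl

theorem B_eq (n : ℕ) : B n = closedBall (0 : E n) 1 := by
  ext u
  simp only [B, mem_ofPred_eq, mem_closedBall, dist_zero_right]

theorem vol_closedBall (x : E n) {r : ℝ} (hr : 0 ≤ r) :
    vol (closedBall x r) = r ^ n * vol (B n) := by
  rw [vol_eq, vol_eq, B_eq, Measure.addHaar_real_closedBall' _ x hr, finrank_euclideanSpace_fin]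

theorem vol_B_pos (n : ℕ) : 0 < vol (B n) := by
  rw [vol_eq, B_eq, Measure.real, ENNReal.toReal_pos_iff]
  exact ⟨measure_closedBall_pos _ _ one_pos, measure_closedBall_lt_top⟩

theorem ne_top_of_bdd {s : Set (E n)} {x : E n} {r : ℝ} (h : s ⊆ closedBall x r) :
    (volume : Measure (E n)) s ≠ ⊤ :=
  (lt_of_le_of_lt (measure_mono h) measure_closedBall_lt_top).ne

/-- packing bound -/
theorem card_le (Y : Finset (E n)) {R ε : ℝ} (hR : 0 ≤ R) (hε : 0 < ε)
    (hY : ∀ y ∈ Y, ‖y‖ ≤ R) (hs : ∀ y ∈ Y, ∀ y' ∈ Y, y ≠ y' → ε < ‖y - y'‖) :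
    (Y.card : ℝ) ≤ (1 + 2 * R / ε) ^ n := by
  have D : Set.Pairwise (Y : Set (E n)) (Function.onFun Disjoint fun c => ball c (ε / 2)) := by
    rintro c hc d hd hcd
    apply ball_disjoint_ball
    rw [dist_eq_norm]
    have := hs c hc d hd hcd
    linarith
  have hsub : (⋃ c ∈ Y, ball c (ε / 2)) ⊆ closedBall (0 : E n) (R + ε / 2) := by
    refine iUnion₂_subset fun x hx => ?_
    intro z hz
    rw [mem_ball_iff_norm] at hz
    rw [mem_closedBall_zero_iff]
    calc ‖z‖ = ‖(z - x) + x‖ := by rw [sub_add_cancel]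
      _ ≤ ‖z - x‖ + ‖x‖ := norm_add_le _ _
      _ ≤ R + ε / 2 := by linarith only [hz, hY x hx]
  have h1 : (volume : Measure (E n)).real (⋃ c ∈ Y, ball c (ε / 2)) =
      ∑ c ∈ Y, (volume : Measure (E n)).real (ball c (ε / 2)) :=
    measureReal_biUnion_finset D (fun c _ => measurableSet_ball)
      (fun c _ => measure_ball_lt_top.ne)
  have h2 : ∀ c ∈ Y, (volume : Measure (E n)).real (ball c (ε / 2)) = (ε / 2) ^ n * vol (B n) := by
    intro c _
    rw [vol_eq, B_eq, Measure.real, Measure.addHaar_ball_of_pos _ _ (by positivity : 0 < ε / 2),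
      finrank_euclideanSpace_fin, ENNReal.toReal_mul, ENNReal.toReal_ofReal (by positivity),
      Measure.real, Measure.addHaar_unitClosedBall_eq_addHaar_unitBall]
  have h3 := measureReal_mono (μ := (volume : Measure (E n))) hsub measure_closedBall_lt_top.ne
  rw [h1, Finset.sum_congr rfl h2, Finset.sum_const, nsmul_eq_mul, ← vol_eq,
    vol_closedBall _ (by positivity), ← mul_assoc] at h3
  have h4 := le_of_mul_le_mul_right h3 (vol_B_pos n)
  have h5 : (1 + 2 * R / ε) ^ n = (R + ε / 2) ^ n / (ε / 2) ^ n := by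
    rw [← div_pow]
    congr 1
    field_simp
    ring
  rw [h5, le_div_iff₀ (by positivity)]
  exact h4

/-- maximal separated sets -/
theorem exists_max (S : Set (E n)) {R ε : ℝ} (hR : 0 ≤ R) (hε : 0 < ε)
    (hS : ∀ y ∈ S, ‖y‖ ≤ R) : ∃ Y : Finset (E n), (∀ y ∈ Y, y ∈ S) ∧
      (∀ y ∈ Y, ∀ y' ∈ Y, y ≠ y' → ε < ‖y - y'‖) ∧ ∀ x ∈ S, ∃ y ∈ Y, ‖x - y‖ ≤ ε := by
  classical
  let P : ℕ → Prop := fun k => ∃ Y : Finset (E n), Y.card = k ∧ (∀ y ∈ Y, y ∈ S) ∧
    (∀ y ∈ Y, ∀ y' ∈ Y, y ≠ y' → ε < ‖y - y'‖)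
  have hP0 : P 0 := ⟨∅, rfl, by simp, by simp only [Finset.notMem_empty, ne_eq, IsEmpty.forall_iff, implies_true]⟩
  set M := ⌊(1 + 2 * R / ε) ^ n⌋₊ with hM
  have hPM : ∀ k, P k → k ≤ M := by
    rintro k ⟨Y, rfl, h1, h2⟩
    exact Nat.le_floor (card_le Y hR hε (fun y hy => hS y (h1 y hy)) h2)
  obtain ⟨Y, hYc, h1, h2⟩ := Nat.findGreatest_spec (P := P) (n := M) (Nat.zero_le _) hP0
  refine ⟨Y, h1, h2, ?_⟩
  by_contra hcon
  push Not at hcon
  obtain ⟨x, hx, hxY⟩ := hcon
  have hxn : x ∉ Y := by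
    intro h
    have := hxY x h
    rw [sub_self, norm_zero] at this
    linarith only [hε, this]
  have hP1 : P (Nat.findGreatest P M + 1) := by
    refine ⟨insert x Y, by rw [Finset.card_insert_of_notMem hxn, hYc], ?_, ?_⟩
    · intro y hy
      rcases Finset.mem_insert.1 hy with rfl | hy
      · exact hx
      · exact h1 y hy
    · intro y hy y' hy' hne
      rcases Finset.mem_insert.1 hy with h3 | h3
      · rcases Finset.mem_insert.1 hy' with h4 | h4
        · exact absurd (h3.trans h4.symm) hne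
        · rw [h3]
          exact hxY y' h4
      · rcases Finset.mem_insert.1 hy' with h4 | h4
        · rw [norm_sub_rev, h4]
          exact hxY y h3
        · exact h2 y h3 y' h4 hne
  have := Nat.le_findGreatest (hPM _ hP1) hP1
  omega

end ClusL

open ClusL

theorem netLemma : Stmt.NetLemma := by
  intro n _ R ε hR hε
  obtain ⟨Y, h1, h2, h3⟩ := exists_max (n := n) {y | ‖y‖ ≤ R} hR hε (fun y hy => hy)
  exact ⟨Y, card_le Y hR hε h1 h2, h1, fun x hx => h3 x hx⟩

namespace ClusL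

/-- partial families of clusters -/
structure Part (n : ℕ) (X : Finset (E n)) (k : ℕ) (Y : ℕ → Finset (E n)) (t : ℕ → E n) :
    Prop where
  inB : ∀ g < k, ∀ y ∈ Y g, ‖y‖ ≤ 1
  good : ∀ g < k, ∀ y ∈ Y g, GoodPt n X y
  card : ∀ g < k, m0 n ^ 2 * Real.exp (Hmax n) ≤ (Y g).card
  sep : ∀ g < k, ∀ y ∈ Y g, ∀ y' ∈ Y g, y ≠ y' → 2 * bet n ≤ ‖y - y'‖
  near : ∀ g < k, ∀ y ∈ Y g, ‖y - t g‖ ≤ 1 / 80
  far : ∀ g < k, ∀ g' < g, ∀ y ∈ Y g, ∀ x ∈ X, ∀ x' ∈ X,
    1 / 40 ≤ ‖(t g' - x) - (y - x')‖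

/-- one more cluster -/
theorem step_aux {n : ℕ} (hn : 1 ≤ n) {X : Finset (E n)} (hX : (X.card : ℝ) ≤ m0 n)
    (hb : 0 < bet n)
    (hc1 : m0 n ^ 2 * Real.exp (Hmax n) * (161 ^ n * (2 * bet n) ^ n) ≤ 1 / 4)
    (hc2 : m0 n ^ 2 * (1 / 40) ^ n * 7 ^ n ≤ 1 / 4)
    (hG : vol (B n) / 2 ≤ vol {y : E n | ‖y‖ ≤ 1 ∧ GoodPt n X y})
    {k : ℕ} (hk : k < 7 ^ n) (t : ℕ → E n) :
    ∃ (Z : Finset (E n)) (s : E n), (∀ y ∈ Z, ‖y‖ ≤ 1 ∧ GoodPt n X y) ∧
      m0 n ^ 2 * Real.exp (Hmax n) ≤ Z.card ∧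
      (∀ y ∈ Z, ∀ y' ∈ Z, y ≠ y' → 2 * bet n ≤ ‖y - y'‖) ∧ (∀ y ∈ Z, ‖y - s‖ ≤ 1 / 80) ∧
      ∀ g' < k, ∀ y ∈ Z, ∀ x ∈ X, ∀ x' ∈ X, 1 / 40 ≤ ‖(t g' - x) - (y - x')‖ := by
  classical
  set G : Set (E n) := {y : E n | ‖y‖ ≤ 1 ∧ GoodPt n X y} with hGdef
  set Rm : Set (E n) := ⋃ p ∈ (Finset.range k) ×ˢ (X ×ˢ X),
    closedBall (t p.1 - p.2.1 + p.2.2) (1 / 40) with hRm
  have hVB := vol_B_pos n
  have hm0 : 0 ≤ m0 n := by unfold m0; positivity
  -- volume of the removed set
  have hRmvol : vol Rm ≤ vol (B n) / 4 := by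
    have h1 : vol Rm ≤ ∑ p ∈ (Finset.range k) ×ˢ (X ×ˢ X),
        vol (closedBall (t p.1 - p.2.1 + p.2.2) (1 / 40)) :=
      measureReal_biUnion_finset_le _ _
    refine h1.trans ?_
    rw [Finset.sum_congr rfl fun p _ => vol_closedBall _ (by norm_num : (0 : ℝ) ≤ 1 / 40),
      Finset.sum_const, Finset.card_product, Finset.card_product, Finset.card_range, nsmul_eq_mul]
    push_cast
    have hk' : (k : ℝ) ≤ 7 ^ n := by exact_mod_cast hk.le
    have hXX : (X.card : ℝ) * X.card ≤ m0 n ^ 2 := by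
      rw [sq]
      exact mul_le_mul hX hX (Nat.cast_nonneg _) hm0
    calc (k : ℝ) * ((X.card : ℝ) * X.card) * ((1 / 40) ^ n * vol (B n))
        ≤ 7 ^ n * m0 n ^ 2 * ((1 / 40) ^ n * vol (B n)) := by
          refine mul_le_mul_of_nonneg_right ?_ (by (clear * - hVB; positivity))
          exact mul_le_mul hk' hXX (by (clear * -; positivity)) (by positivity)
      _ = (m0 n ^ 2 * (1 / 40) ^ n * 7 ^ n) * vol (B n) := by ring
      _ ≤ 1 / 4 * vol (B n) := mul_le_mul_of_nonneg_right hc2 hVB.le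
      _ = vol (B n) / 4 := by ring
  have hRmtop : (volume : Measure (E n)) Rm ≠ ⊤ := by
    refine (lt_of_le_of_lt (measure_biUnion_finset_le _ _) ?_).ne
    exact ENNReal.sum_lt_top.2 fun p _ => measure_closedBall_lt_top
  have hG' : vol (B n) / 4 ≤ vol (G \ Rm) := by
    have h1 : vol G - vol Rm ≤ vol (G \ Rm) := le_measureReal_sdiff hRmtop
    linarith only [hG, hRmvol, h1]
  have hGsub : G \ Rm ⊆ closedBall (0 : E n) 1 := by
    intro y hy
    rw [mem_closedBall_zero_iff]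
    exact hy.1.1
  -- the net
  obtain ⟨Gr, hGr1, -, hGr3⟩ := netLemma n hn 1 (1 / 80) zero_le_one (by norm_num)
  have hGr1' : (Gr.card : ℝ) ≤ 161 ^ n := by
    refine hGr1.trans (le_of_eq ?_)
    norm_num
  have hcov : G \ Rm ⊆ ⋃ s ∈ Gr, (G \ Rm) ∩ closedBall s (1 / 80) := by
    intro y hy
    obtain ⟨s, hs, hys⟩ := hGr3 y hy.1.1
    refine mem_iUnion₂.2 ⟨s, hs, hy, ?_⟩
    rwa [mem_closedBall_iff_norm]
  have htop : ∀ s : E n, (volume : Measure (E n)) ((G \ Rm) ∩ closedBall s (1 / 80)) ≠ ⊤ :=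
    fun s => ne_top_of_bdd inter_subset_right
  have hsum : vol (B n) / 4 ≤ ∑ s ∈ Gr, vol ((G \ Rm) ∩ closedBall s (1 / 80)) := by
    refine hG'.trans ?_
    refine (measureReal_mono (μ := (volume : Measure (E n))) hcov ?_).trans
      (measureReal_biUnion_finset_le _ _)
    refine (lt_of_le_of_lt (measure_biUnion_finset_le _ _) ?_).ne
    exact ENNReal.sum_lt_top.2 fun s _ => (htop s).lt_top
  obtain ⟨s, -, hs⟩ : ∃ s ∈ Gr, vol (B n) / 4 ≤
      161 ^ n * vol ((G \ Rm) ∩ closedBall s (1 / 80)) := by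
    by_contra hcon
    push Not at hcon
    have hne : Gr.Nonempty := by
      rw [Finset.nonempty_iff_ne_empty]
      rintro rfl
      rw [Finset.sum_empty] at hsum
      linarith only [hVB, hsum]
    have h1 : ∑ s ∈ Gr, 161 ^ n * vol ((G \ Rm) ∩ closedBall s (1 / 80)) <
        ∑ s ∈ Gr, vol (B n) / 4 := Finset.sum_lt_sum_of_nonempty hne hcon
    rw [← Finset.mul_sum, Finset.sum_const, nsmul_eq_mul] at h1
    have h2 : (161 : ℝ) ^ n * (vol (B n) / 4) ≤
        161 ^ n * ∑ s ∈ Gr, vol ((G \ Rm) ∩ closedBall s (1 / 80)) :=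
      mul_le_mul_of_nonneg_left hsum (by positivity)
    have h3 : (Gr.card : ℝ) * (vol (B n) / 4) ≤ 161 ^ n * (vol (B n) / 4) :=
      mul_le_mul_of_nonneg_right hGr1' (by (clear * - hVB; positivity))
    linarith only [h3, h2, h1]
  set S : Set (E n) := (G \ Rm) ∩ closedBall s (1 / 80) with hS
  obtain ⟨Z, hZ1, hZ2, hZ3⟩ := exists_max S (R := 1) (ε := 2 * bet n) zero_le_one (by positivity)
    (fun y hy => hy.1.1.1)
  refine ⟨Z, s, fun y hy => (hZ1 y hy).1.1, ?_, fun y hy y' hy' hne => (hZ2 y hy y' hy' hne).le,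
    fun y hy => ?_, ?_⟩
  · have h1 : vol S ≤ Z.card * ((2 * bet n) ^ n * vol (B n)) := by
      have h2 : S ⊆ ⋃ y ∈ Z, closedBall y (2 * bet n) := by
        intro x hx
        obtain ⟨y, hy, hxy⟩ := hZ3 x hx
        refine mem_iUnion₂.2 ⟨y, hy, ?_⟩
        rwa [mem_closedBall_iff_norm]
      have h3 : vol S ≤ ∑ y ∈ Z, vol (closedBall y (2 * bet n)) := by
        refine (measureReal_mono (μ := (volume : Measure (E n))) h2 ?_).trans
          (measureReal_biUnion_finset_le _ _)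
        refine (lt_of_le_of_lt (measure_biUnion_finset_le _ _) ?_).ne
        exact ENNReal.sum_lt_top.2 fun p _ => measure_closedBall_lt_top
      rwa [Finset.sum_congr rfl fun p _ => vol_closedBall _ (by positivity : 0 ≤ 2 * bet n),
        Finset.sum_const, nsmul_eq_mul] at h3
    have h4 : 1 / 4 ≤ (Z.card : ℝ) * (161 ^ n * (2 * bet n) ^ n) := by
      have h5 : vol (B n) / 4 ≤ 161 ^ n * (Z.card * ((2 * bet n) ^ n * vol (B n))) :=
        hs.trans (mul_le_mul_of_nonneg_left h1 (by positivity))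
      have h6 : 1 / 4 * vol (B n) ≤ (Z.card : ℝ) * (161 ^ n * (2 * bet n) ^ n) * vol (B n) := by
        calc 1 / 4 * vol (B n) = vol (B n) / 4 := by ring
          _ ≤ _ := h5
          _ = _ := by ring
      exact le_of_mul_le_mul_right h6 hVB
    exact le_of_mul_le_mul_right (hc1.trans h4) (by positivity)
  · have := (hZ1 y hy).2
    rwa [mem_closedBall_iff_norm] at this
  · intro g' hg' y hy x hx x' hx'
    by_contra hcon
    apply (hZ1 y hy).1.2
    refine mem_iUnion₂.2 ⟨(g', x, x'), ?_, ?_⟩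
    · exact Finset.mem_product.2 ⟨Finset.mem_range.2 hg', Finset.mem_product.2 ⟨hx, hx'⟩⟩
    · rw [mem_closedBall_iff_norm, norm_sub_rev]
      have h1 : t g' - x + x' - y = t g' - x - (y - x') := by abel
      simp only
      rw [h1]
      exact (not_le.1 hcon).le

end ClusL

theorem clusterLemma (hN : Stmt.NumCluster) : Stmt.ClusterLemma := by
  classical
  obtain ⟨n0, h0⟩ := hN
  refine ⟨max n0 1, fun n hn X hX hG => ?_⟩
  obtain ⟨hb, hc1, hc2⟩ := h0 n (le_trans (le_max_left _ _) hn)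
  have hn1 : 1 ≤ n := le_trans (le_max_right _ _) hn
  have key : ∀ k ≤ 7 ^ n, ∃ (Y : ℕ → Finset (E n)) (t : ℕ → E n), Part n X k Y t := by
    intro k
    induction k with
    | zero =>
      intro _
      exact ⟨fun _ => ∅, fun _ => 0, by
        constructor <;> intro g hg <;> exact absurd hg (Nat.not_lt_zero _)⟩
    | succ k ih =>
      intro hk
      obtain ⟨Y, t, h⟩ := ih (Nat.le_of_succ_le hk)
      obtain ⟨Z, s, z1, z2, z3, z4, z5⟩ := step_aux hn1 hX hb hc1 hc2 hG hk t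
      refine ⟨Function.update Y k Z, Function.update t k s, ?_⟩
      have hcase : ∀ g, g < k + 1 → (g < k ∧ Function.update Y k Z g = Y g ∧
          Function.update t k s g = t g) ∨ (g = k ∧ Function.update Y k Z g = Z ∧
          Function.update t k s g = s) := by
        intro g hg
        rcases Nat.lt_succ_iff_lt_or_eq.1 hg with h1 | h1
        · left
          exact ⟨h1, Function.update_of_ne h1.ne _ _, Function.update_of_ne h1.ne _ _⟩
        · right
          subst h1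
          exact ⟨rfl, Function.update_self _ _ _, Function.update_self _ _ _⟩
      constructor
      · intro g hg y hy
        rcases hcase g hg with ⟨h1, h2, h3⟩ | ⟨h1, h2, h3⟩
        · rw [h2] at hy; exact h.inB g h1 y hy
        · rw [h2] at hy; exact (z1 y hy).1
      · intro g hg y hy
        rcases hcase g hg with ⟨h1, h2, h3⟩ | ⟨h1, h2, h3⟩
        · rw [h2] at hy; exact h.good g h1 y hy
        · rw [h2] at hy; exact (z1 y hy).2
      · intro g hg
        rcases hcase g hg with ⟨h1, h2, h3⟩ | ⟨h1, h2, h3⟩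
        · rw [h2]; exact h.card g h1
        · rw [h2]; exact z2
      · intro g hg y hy y' hy'
        rcases hcase g hg with ⟨h1, h2, h3⟩ | ⟨h1, h2, h3⟩
        · rw [h2] at hy hy'; exact h.sep g h1 y hy y' hy'
        · rw [h2] at hy hy'; exact z3 y hy y' hy'
      · intro g hg y hy
        rcases hcase g hg with ⟨h1, h2, h3⟩ | ⟨h1, h2, h3⟩
        · rw [h2] at hy; rw [h3]; exact h.near g h1 y hy
        · rw [h2] at hy; rw [h3]; exact z4 y hy
      · intro g hg g' hg' y hy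
        have hg'' : Function.update t k s g' = t g' := by
          refine Function.update_of_ne ?_ _ _
          (clear * - hg hg'; omega)
        rw [hg'']
        rcases hcase g hg with ⟨h1, h2, h3⟩ | ⟨h1, h2, h3⟩
        · rw [h2] at hy; exact h.far g h1 g' hg' y hy
        · rw [h2] at hy; exact z5 g' (h1 ▸ hg') y hy
  obtain ⟨Y, t, h⟩ := key (7 ^ n) le_rfl
  refine ⟨⟨fun g => Y g, fun g => h.inB g g.2, fun g => h.good g g.2, fun g => h.card g g.2,
    fun g => h.sep g g.2, ?_⟩⟩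
  intro g g' hne y hy y' hy' x hx x' hx'
  rcases lt_or_gt_of_ne hne with hlt | hlt
  · have h1 := h.far g' g'.2 g hlt y' hy' x hx x' hx'
    have h2 := h.near g g.2 y hy
    have h3 : (t g - x) - (y' - x') = ((y - x) - (y' - x')) - (y - t g) := by abel
    rw [h3] at h1
    have h4 := norm_sub_le ((y - x) - (y' - x')) (y - t g)
    linarith only [h4, h2, h1]
  · have h1 := h.far g g.2 g' hlt y hy x' hx' x hx
    have h2 := h.near g' g'.2 y' hy'
    have h3 : (t g' - x') - (y - x) = -((y - x) - (y' - x')) - (y' - t g') := by abel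
    rw [h3] at h1
    have h4 := norm_sub_le (-((y - x) - (y' - x'))) (y' - t g')
    rw [norm_neg] at h4
    linarith only [h4, h2, h1]

end Vale.Agent.P230.LB
end
end

section

section

/-!
# Choice of the window (module K, part 2)
-/

namespace Vale.Agent.P230.LB

open MeasureTheory Set Filter Topology
open scoped Pointwise

/-! ### volumes -/

theorem winA_B (n : ℕ) : B n = Metric.closedBall (0 : E n) 1 := by
  ext u
  simp only [B, mem_ofPred_eq, Metric.mem_closedBall, dist_zero_right]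

theorem winA_measB (n : ℕ) : MeasurableSet (B n) := by
  rw [winA_B]
  exact Metric.isClosed_closedBall.measurableSet

theorem winA_B_ne_top (n : ℕ) : volume (B n) ≠ ⊤ := by
  rw [winA_B]
  exact measure_closedBall_lt_top.ne

theorem winA_B_ne_zero (n : ℕ) : volume (B n) ≠ 0 := by
  rw [winA_B]
  exact (Metric.measure_closedBall_pos volume _ one_pos).ne'

theorem winA_V_pos (n : ℕ) : 0 < vol (B n) :=
  ENNReal.toReal_pos (winA_B_ne_zero n) (winA_B_ne_top n)

theorem winA_ofReal_V (n : ℕ) : ENNReal.ofReal (vol (B n)) = volume (B n) :=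
  ENNReal.ofReal_toReal (winA_B_ne_top n)

theorem winA_ball (n : ℕ) {r : ℝ} (hr : 0 ≤ r) :
    volume {w : E n | ‖w‖ ≤ r} = ENNReal.ofReal (r ^ n) * volume (B n) := by
  have h1 : {w : E n | ‖w‖ ≤ r} = Metric.closedBall (0 : E n) r := by
    ext u
    simp only [mem_ofPred_eq, Metric.mem_closedBall, dist_zero_right]
  rw [h1, winA_B, Measure.addHaar_closedBall' _ _ hr]
  simp only [finrank_euclideanSpace, Fintype.card_fin]

/-- cone -/
theorem winA_cone (n : ℕ) {R : ℝ} (hR : 0 ≤ R) :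
    ∫⁻ w : E n, ENNReal.ofReal (R - ‖w‖) ≤
      ENNReal.ofReal (R ^ (n + 1) / (n + 1)) * volume (B n) := by
  have h0 : ∀ w : E n, ENNReal.ofReal (R - ‖w‖) = ENNReal.ofReal (max (R - ‖w‖) 0) := by
    intro w
    rcases le_total (R - ‖w‖) 0 with h | h
    · rw [ENNReal.ofReal_of_nonpos h, max_eq_right h, ENNReal.ofReal_zero]
    · rw [max_eq_left h]
  simp_rw [h0]
  have hlc := lintegral_eq_lintegral_meas_lt (μ := (volume : Measure (E n)))
    (f := fun w : E n => max (R - ‖w‖) 0) (Eventually.of_forall fun w => le_max_right _ _)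
    (Measurable.aemeasurable (by fun_prop))
  rw [hlc]
  calc ∫⁻ t in Ioi (0 : ℝ), volume {a : E n | t < max (R - ‖a‖) 0}
      ≤ ∫⁻ t in Ioi (0 : ℝ), (Ioc 0 R).indicator
          (fun t => ENNReal.ofReal ((R - t) ^ n) * volume (B n)) t := by
        refine setLIntegral_mono' measurableSet_Ioi fun t ht => ?_
        have ht0 : 0 < t := ht
        by_cases htR : t ≤ R
        · rw [indicator_of_mem (show t ∈ Ioc 0 R from ⟨ht0, htR⟩),
            ← winA_ball n (by linarith only [htR] : 0 ≤ R - t)]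
          refine measure_mono fun a ha => ?_
          have ha' : t < max (R - ‖a‖) 0 := ha
          rcases lt_max_iff.1 ha' with h | h
          · change ‖a‖ ≤ R - t
            linarith only [h]
          · exact absurd h (by linarith only [ht0])
        · rw [indicator_of_notMem (fun h => htR h.2)]
          have : {a : E n | t < max (R - ‖a‖) 0} = ∅ := by
            ext a
            simp only [mem_ofPred_eq, mem_empty_iff_false, iff_false, not_lt]
            have := norm_nonneg a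
            refine max_le ?_ ht0.le
            push Not at htR
            linarith only [this, htR]
          rw [this, measure_empty]
    _ ≤ ∫⁻ t : ℝ, (Ioc 0 R).indicator
          (fun t => ENNReal.ofReal ((R - t) ^ n) * volume (B n)) t := setLIntegral_le_lintegral _ _
    _ = (∫⁻ t in Ioc 0 R, ENNReal.ofReal ((R - t) ^ n)) * volume (B n) := by
        rw [lintegral_indicator measurableSet_Ioc, lintegral_mul_const _ (by (clear * -; fun_prop))]
    _ = _ := by
        congr 1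
        rw [← ofReal_integral_eq_lintegral_ofReal]
        · congr 1
          rw [← intervalIntegral.integral_of_le hR]
          have h1 := intervalIntegral.integral_comp_sub_left (fun t : ℝ => t ^ n) R (a := 0) (b := R)
          rw [h1, sub_self, sub_zero, integral_pow]
          simp only [ne_eq, Nat.add_eq_zero_iff, one_ne_zero, and_false, not_false_eq_true, zero_pow, sub_zero]
        · exact (Continuous.integrableOn_Icc (by fun_prop)).mono_set Ioc_subset_Icc_self
        · filter_upwards [ae_restrict_mem measurableSet_Ioc] with t ht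
          have := ht.2
          have : 0 ≤ R - t := by linarith only [this]
          (clear hR h0 hlc this; positivity)

/-! ### the weight -/

/-- the weight of a point at distance `‖w‖` -/
noncomputable def winH (n : ℕ) (w : E n) : ENNReal :=
  {w : E n | ‖w‖ < r1 n + eta n}.indicator (fun _ => 1) w +
    {w : E n | ‖w‖ ≤ 1 + eta n}.indicator (fun w =>
      ENNReal.ofReal (1 / (n : ℝ) ^ 2 + (3 + C1 * n * (1 + eta n - ‖w‖)) / Hmax n)) w

theorem winA_measH (n : ℕ) : Measurable (winH n) := by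
  unfold winH
  refine Measurable.add ?_ ?_
  · exact measurable_const.indicator (measurableSet_lt measurable_norm measurable_const)
  · refine Measurable.indicator ?_ (measurableSet_le measurable_norm measurable_const)
    exact (by fun_prop : Measurable fun w : E n =>
      1 / (n : ℝ) ^ 2 + (3 + C1 * n * (1 + eta n - ‖w‖)) / Hmax n).ennreal_ofReal

theorem winA_intH (n : ℕ) (hr : 0 ≤ r1 n + eta n) (he : 0 ≤ eta n) (hH : 0 < Hmax n) :
    ∫⁻ w : E n, winH n w ≤ ENNReal.ofReal ((r1 n + eta n) ^ n +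
      (1 / (n : ℝ) ^ 2 + 3 / Hmax n) * (1 + eta n) ^ n +
      C1 * n / Hmax n * ((1 + eta n) ^ (n + 1) / (n + 1))) * volume (B n) := by
  have hC : 0 ≤ C1 := by unfold C1; norm_num
  have hc : 0 ≤ C1 * n / Hmax n := by positivity
  have hpt : ∀ w : E n, winH n w ≤ {w : E n | ‖w‖ ≤ r1 n + eta n}.indicator (fun _ => 1) w +
      ({w : E n | ‖w‖ ≤ 1 + eta n}.indicator
        (fun _ => ENNReal.ofReal (1 / (n : ℝ) ^ 2 + 3 / Hmax n)) w +
      ENNReal.ofReal (C1 * n / Hmax n) * ENNReal.ofReal (1 + eta n - ‖w‖)) := by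
    intro w
    unfold winH
    refine add_le_add ?_ ?_
    · by_cases hw : w ∈ {w : E n | ‖w‖ < r1 n + eta n}
      · have hw' : w ∈ {w : E n | ‖w‖ ≤ r1 n + eta n} := le_of_lt (show ‖w‖ < r1 n + eta n from hw)
        rw [indicator_of_mem hw, indicator_of_mem hw']
      · rw [indicator_of_notMem hw]
        exact bot_le
    · by_cases hw : w ∈ {w : E n | ‖w‖ ≤ 1 + eta n}
      · rw [indicator_of_mem hw, indicator_of_mem hw, ← ENNReal.ofReal_mul hc,
          ← ENNReal.ofReal_add (by positivity) (mul_nonneg hc (sub_nonneg.2 hw))]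
        apply ENNReal.ofReal_le_ofReal
        apply le_of_eq
        ring
      · rw [indicator_of_notMem hw]
        exact bot_le
  have m1 : MeasurableSet {w : E n | ‖w‖ ≤ r1 n + eta n} :=
    measurableSet_le measurable_norm measurable_const
  have m2 : MeasurableSet {w : E n | ‖w‖ ≤ 1 + eta n} :=
    measurableSet_le measurable_norm measurable_const
  have m3 : Measurable fun w : E n => ENNReal.ofReal (1 + eta n - ‖w‖) := by fun_prop
  refine (lintegral_mono hpt).trans ?_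
  rw [lintegral_add_left (measurable_const.indicator m1),
    lintegral_add_left (measurable_const.indicator m2), lintegral_const_mul _ m3,
    lintegral_indicator m1, lintegral_indicator m2, setLIntegral_const, setLIntegral_const,
    winA_ball n hr, winA_ball n (by linarith only [he] : 0 ≤ 1 + eta n), one_mul]
  calc ENNReal.ofReal ((r1 n + eta n) ^ n) * volume (B n) +
        (ENNReal.ofReal (1 / (n : ℝ) ^ 2 + 3 / Hmax n) *
          (ENNReal.ofReal ((1 + eta n) ^ n) * volume (B n)) +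
          ENNReal.ofReal (C1 * n / Hmax n) * ∫⁻ w : E n, ENNReal.ofReal (1 + eta n - ‖w‖))
      ≤ ENNReal.ofReal ((r1 n + eta n) ^ n) * volume (B n) +
        (ENNReal.ofReal (1 / (n : ℝ) ^ 2 + 3 / Hmax n) *
          (ENNReal.ofReal ((1 + eta n) ^ n) * volume (B n)) +
          ENNReal.ofReal (C1 * n / Hmax n) *
            (ENNReal.ofReal ((1 + eta n) ^ (n + 1) / (n + 1)) * volume (B n))) := by
        gcongr
        exact winA_cone n (by linarith only [he])
    _ = _ := by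
        rw [← mul_assoc, ← mul_assoc, ← ENNReal.ofReal_mul (by (clear * - hH; positivity)),
          ← ENNReal.ofReal_mul hc, ← add_mul, ← add_mul, ← ENNReal.ofReal_add (by positivity)
            (by (clear * - hC hH he; positivity)), ← ENNReal.ofReal_add (by (clear * - hr; positivity)) (by (clear * - hH he hC; positivity)), add_assoc]

theorem winA_measK (n : ℕ) : Measurable fun v : E n => ∫⁻ y in B n, winH n (y + v) := by
  have h1 : Measurable fun q : E n × E n => winH n (q.2 + q.1) :=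
    (winA_measH n).comp (measurable_snd.add measurable_fst)
  exact h1.lintegral_prod_right' (ν := volume.restrict (B n))

/-- the averaged weight -/
noncomputable def winG (n : ℕ) (v : E n) : ENNReal :=
  {v : E n | ‖v‖ ≤ 2}.indicator (fun _ => ENNReal.ofReal (1 / m0 n)) v +
    ENNReal.ofReal (2 / vol (B n)) * ∫⁻ y in B n, winH n (y + v)

theorem winA_measG (n : ℕ) : Measurable (winG n) := by
  unfold winG
  exact (measurable_const.indicator (measurableSet_le measurable_norm measurable_const)).add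
    ((winA_measK n).const_mul _)

theorem winA_suppG (n : ℕ) (he : eta n ≤ 1) (hr : r1 n + eta n ≤ 2) (v : E n) (hv : 3 < ‖v‖) :
    winG n v = 0 := by
  have h1 : v ∉ {v : E n | ‖v‖ ≤ 2} := fun h => by
    have : ‖v‖ ≤ 2 := h
    linarith
  have h2 : ∫⁻ y in B n, winH n (y + v) = 0 := by
    rw [setLIntegral_congr_fun (winA_measB n) (g := fun _ => 0)]
    · simp only [lintegral_const, MeasurableSet.univ, Measure.restrict_apply, univ_inter, zero_mul]
    · intro y hy
      have hy1 : ‖y‖ ≤ 1 := hy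
      have h3 : 2 < ‖y + v‖ := by
        have := norm_sub_le (y + v) y
        rw [add_sub_cancel_left] at this
        linarith only [hv, hy1, this]
      simp only
      unfold winH
      rw [indicator_of_notMem, indicator_of_notMem, add_zero]
      · intro h
        have : ‖y + v‖ ≤ 1 + eta n := h
        linarith only [he, h3, this]
      · intro h
        have : ‖y + v‖ < r1 n + eta n := h
        linarith only [hr, h3, this]
  unfold winG
  rw [indicator_of_notMem h1, h2, mul_zero, add_zero]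

theorem winA_intG (n : ℕ) : ∫⁻ v : E n, winG n v =
    ENNReal.ofReal (1 / m0 n) * (ENNReal.ofReal (2 ^ n) * volume (B n)) +
      2 * ∫⁻ w : E n, winH n w := by
  have m2 : MeasurableSet {v : E n | ‖v‖ ≤ 2} := measurableSet_le measurable_norm measurable_const
  have hV := winA_V_pos n
  have h1 : ∫⁻ v : E n, ∫⁻ y in B n, winH n (y + v) = (∫⁻ w : E n, winH n w) * volume (B n) := by
    have hm : Measurable fun q : E n × E n => winH n (q.2 + q.1) :=
      (winA_measH n).comp (measurable_snd.add measurable_fst)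
    rw [lintegral_lintegral_swap hm.aemeasurable]
    have h2 : ∀ y : E n, ∫⁻ v : E n, winH n (y + v) = ∫⁻ w : E n, winH n w := fun y =>
      lintegral_add_left_eq_self (μ := (volume : Measure (E n))) (winH n) y
    simp_rw [h2]
    rw [setLIntegral_const]
  unfold winG
  rw [lintegral_add_left (measurable_const.indicator m2), lintegral_const_mul _ (winA_measK n),
    lintegral_indicator m2, setLIntegral_const, winA_ball n (by norm_num : (0 : ℝ) ≤ 2), h1,
    ← winA_ofReal_V n]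
  congr 1
  calc ENNReal.ofReal (2 / vol (B n)) * ((∫⁻ w : E n, winH n w) * ENNReal.ofReal (vol (B n)))
      = (ENNReal.ofReal (2 / vol (B n)) * ENNReal.ofReal (vol (B n))) * ∫⁻ w : E n, winH n w := by
        ring
    _ = 2 * ∫⁻ w : E n, winH n w := by
        rw [← ENNReal.ofReal_mul (by positivity), div_mul_cancel₀ _ hV.ne']
        simp

/-! ### numerical facts -/

theorem winA_exp_half : Real.exp (1 / 2) ≤ 2 := by
  have h1 : Real.exp (1 / 2) * Real.exp (1 / 2) = Real.exp 1 := by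
    rw [← Real.exp_add]
    norm_num
  have h2 := Real.exp_one_lt_d9
  have h3 := Real.exp_pos (1 / 2)
  nlinarith only [h1, h2]

theorem winA_log_le (n : ℕ) (hn : 1 ≤ n) : 2 * Real.log n ≤ n := by
  have hn' : (1 : ℝ) ≤ n := by exact_mod_cast hn
  have h0 : (0 : ℝ) < n := by linarith only [hn']
  have h1 : Real.log n = 2 * Real.log (√n) := by
    rw [Real.log_sqrt h0.le]
    ring
  have h2 : Real.log (√n) ≤ √n - 1 := Real.log_le_sub_one_of_pos (Real.sqrt_pos.2 h0)
  have h3 : √(n : ℝ) ^ 2 = n := Real.sq_sqrt h0.le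
  linarith only [sq_nonneg (√(n : ℝ) - 2), h3, h2, h1]

/-- the numerical sum -/
noncomputable def winS (n : ℕ) : ℝ := (r1 n + eta n) ^ n +
      (1 / (n : ℝ) ^ 2 + 3 / Hmax n) * (1 + eta n) ^ n +
      C1 * n / Hmax n * ((1 + eta n) ^ (n + 1) / (n + 1))

theorem winA_basic (n : ℕ) (hn : 3 ≤ n) : 0 ≤ r1 n + eta n ∧ 0 < eta n ∧ eta n ≤ 1 ∧
    r1 n + eta n ≤ 2 ∧ 0 < Hmax n ∧ 1 ≤ Real.log n := by
  have hn' : (3 : ℝ) ≤ n := by exact_mod_cast hn
  have h0 : (0 : ℝ) < n := by linarith only [hn']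
  have h1 := winA_log_le n (by omega)
  have hl : 1 ≤ Real.log n := by
    rw [Real.le_log_iff_exp_le h0]
    have := Real.exp_one_lt_d9
    linarith only [hn', this]
  have he : 0 < eta n := by unfold eta; positivity
  have he1 : eta n ≤ 1 := by
    unfold eta
    rw [div_le_one (by positivity)]
    linarith only [hn']
  have hr : 0 ≤ r1 n := by
    unfold r1
    rw [sub_nonneg, div_le_one h0]
    exact h1
  have hr1 : r1 n ≤ 1 := by
    unfold r1
    have : 0 ≤ 2 * Real.log n / n := by positivity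
    linarith only [this]
  refine ⟨by linarith only [he, hr], he, he1, by linarith only [he1, hr1], ?_, hl⟩
  unfold Hmax
  positivity

theorem winA_S_le (n : ℕ) (hn : 3 ≤ n) :
    4 * (1 / 10 ^ 9 * n * Real.log n) * winS n ≤ 1 / 2 := by
  obtain ⟨h1, h2, h3, -, h5, h6⟩ := winA_basic n hn
  have hn' : (3 : ℝ) ≤ n := by exact_mod_cast hn
  have h0 : (0 : ℝ) < n := by (clear * - hn'; linarith)
  have hlog := winA_log_le n (by omega)
  set l := Real.log n with hl
  have hl0 : 0 < l := by linarith only [h6]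
  -- powers
  have p1 : (1 + eta n) ^ n ≤ 2 := by
    calc (1 + eta n) ^ n ≤ (Real.exp (eta n)) ^ n := by
          apply pow_le_pow_left₀ (by linarith only [h2])
          have := Real.add_one_le_exp (eta n)
          linarith only [this]
      _ = Real.exp (1 / 2) := by
          rw [← Real.exp_nat_mul]
          congr 1
          unfold eta
          (clear * - hn; field_simp)
      _ ≤ 2 := winA_exp_half
  have p2 : (1 + eta n) ^ (n + 1) ≤ 4 := by
    rw [pow_succ]
    calc (1 + eta n) ^ n * (1 + eta n) ≤ 2 * 2 :=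
          mul_le_mul p1 (by linarith only [h3]) (by linarith only [h2]) (by norm_num)
      _ = 4 := by norm_num
  have p3 : (r1 n + eta n) ^ n ≤ 2 / (n : ℝ) ^ 2 := by
    calc (r1 n + eta n) ^ n ≤ (Real.exp (-(2 * l / n) + 1 / (2 * n))) ^ n := by
          apply pow_le_pow_left₀ h1
          have := Real.add_one_le_exp (-(2 * l / n) + 1 / (2 * n))
          unfold r1 eta
          linarith only [this]
      _ = Real.exp (-(2 * l) + 1 / 2) := by
          rw [← Real.exp_nat_mul]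
          congr 1
          field_simp
      _ = Real.exp (1 / 2) / (n : ℝ) ^ 2 := by
          rw [add_comm, Real.exp_add, div_eq_mul_inv]
          congr 1
          rw [Real.exp_neg]
          congr 1
          rw [two_mul, Real.exp_add, hl, Real.exp_log h0]
          ring
      _ ≤ 2 / (n : ℝ) ^ 2 := by
          gcongr
          exact winA_exp_half
  have hH : Hmax n = n * l / 40 := rfl
  have hHpos : 0 < n * l / 40 := by positivity
  have e1 : winS n ≤ 2 / (n : ℝ) ^ 2 + (1 / (n : ℝ) ^ 2 + 3 / Hmax n) * 2 +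
      C1 * n / Hmax n * (4 / (n + 1)) := by
    unfold winS C1
    (clear * - p3 p1 hn h5 p2; gcongr)
  have e2 : 4 * (1 / 10 ^ 9 * n * l) * (2 / (n : ℝ) ^ 2 + (1 / (n : ℝ) ^ 2 + 3 / Hmax n) * 2 +
      C1 * n / Hmax n * (4 / (n + 1))) =
      4 / 10 ^ 9 * (4 * (l / n) + 240 + 160 * C1 * (n / (n + 1))) := by
    rw [hH]
    unfold C1
    field_simp
    ring
  have e3 : l / n ≤ 1 := by
    rw [div_le_one h0]
    linarith only [hlog]
  have e4 : (n : ℝ) / (n + 1) ≤ 1 := by
    rw [div_le_one (by linarith only [])]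
    linarith only []
  calc 4 * (1 / 10 ^ 9 * n * l) * winS n ≤ 4 * (1 / 10 ^ 9 * n * l) *
        (2 / (n : ℝ) ^ 2 + (1 / (n : ℝ) ^ 2 + 3 / Hmax n) * 2 +
      C1 * n / Hmax n * (4 / (n + 1))) := by gcongr
    _ = 4 / 10 ^ 9 * (4 * (l / n) + 240 + 160 * C1 * (n / (n + 1))) := e2
    _ ≤ 4 / 10 ^ 9 * (4 * 1 + 240 + 160 * C1 * 1) := by
        have hC : 0 ≤ C1 := by unfold C1; norm_num
        (clear * - e3 e4 hC; gcongr)
    _ ≤ 1 / 2 := by
        unfold C1
        norm_num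

theorem winA_first : ∃ n0 : ℕ, ∀ n : ℕ, n0 ≤ n →
    2 * (1 / 10 ^ 9 * n * Real.log n) * (2 ^ n / m0 n) < 1 / 2 := by
  have h1 : Tendsto (fun n : ℕ => (n : ℝ) ^ 2 * (10 / 11 : ℝ) ^ n) atTop (𝓝 0) :=
    tendsto_pow_const_mul_const_pow_of_lt_one 2 (by (clear * -; norm_num)) (by (clear * -; norm_num))
  have h2 : ∀ᶠ n : ℕ in atTop, (n : ℝ) ^ 2 * (10 / 11 : ℝ) ^ n < 1 :=
    h1.eventually (gt_mem_nhds one_pos)
  obtain ⟨n1, hn1⟩ := eventually_atTop.1 h2
  refine ⟨max n1 1, fun n hn => ?_⟩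
  have h3 := hn1 n ((le_max_left _ _).trans hn)
  have h4 : 1 ≤ n := (le_max_right _ _).trans hn
  have h5 := winA_log_le n h4
  have h6 : (2 : ℝ) ^ n / m0 n = (10 / 11 : ℝ) ^ n := by
    unfold m0
    rw [← div_pow]
    norm_num
  rw [h6]
  have hn' : (1 : ℝ) ≤ n := by exact_mod_cast h4
  have h7 : 0 ≤ Real.log n := Real.log_nonneg hn'
  have h8 : (n : ℝ) * Real.log n ≤ (n : ℝ) ^ 2 := by nlinarith only [h5]
  have h9 : (n : ℝ) * Real.log n * (10 / 11 : ℝ) ^ n ≤ (n : ℝ) ^ 2 * (10 / 11 : ℝ) ^ n := by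
    gcongr
  linarith only [h3, h9]

/-! ### deduction -/

theorem winA_countable {n : ℕ} {X : Set (E n)} (hX : LocFin X) : X.Countable := by
  have h1 : X = ⋃ k : ℕ, X ∩ Metric.closedBall 0 k := by
    ext x
    simp only [mem_iUnion, mem_inter_iff, mem_closedBall_zero_iff, exists_and_left]
    constructor
    · intro hx
      exact ⟨hx, exists_nat_ge _⟩
    · exact fun h => h.1
  rw [h1]
  exact countable_iUnion fun k => (hX k).countable

theorem winA_finite {n : ℕ} {X : Set (E n)} (hX : LocFin X) (t : E n) :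
    {x | x ∈ X ∧ ‖x - t‖ ≤ 2}.Finite := by
  refine (hX (‖t‖ + 2)).subset fun x hx => ⟨hx.1, ?_⟩
  rw [mem_closedBall_zero_iff]
  have := norm_add_le (x - t) t
  rw [sub_add_cancel] at this
  linarith only [this, hx.2]

theorem winA_sum_le {n : ℕ} {X : Set (E n)} (f : E n → ENNReal) (F : Finset (E n))
    (hF : ∀ x ∈ F, x ∈ X) : ∑ x ∈ F, f x ≤ ∑' x : X, f x := by
  rw [tsum_subtype]
  refine le_trans (le_of_eq ?_) (ENNReal.sum_le_tsum F)
  exact Finset.sum_congr rfl fun x hx => (indicator_of_mem (hF x hx) f).symm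

open Classical in
/-- pointwise consequences -/
theorem winA_point (n : ℕ) (hn : 3 ≤ n) {X : Set (E n)} (t : E n) {F : Finset (E n)}
    (hF : ∀ x ∈ F, x ∈ X) {y : E n} (hy : ∑' x : X, winH n (y + (t - x)) < 1) :
    (∀ x ∈ F, r1 n + eta n ≤ ‖(y + t) - x‖) ∧
      (F.filter (fun x => ‖(y + t) - x‖ ≤ 1 + eta n)).card ≤ n ^ 2 ∧
      ∑ x ∈ F.filter (fun x => ‖(y + t) - x‖ ≤ 1 + eta n),
        (3 + C1 * n * (1 + eta n - ‖(y + t) - x‖)) ≤ Hmax n := by
  obtain ⟨h1, h2, h3, -, h5, h6⟩ := winA_basic n hn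
  have hn' : (3 : ℝ) ≤ n := by exact_mod_cast hn
  have h0 : (0 : ℝ) < n := by linarith only [hn']
  have hC : 0 ≤ C1 := by unfold C1; norm_num
  have e0 : ∀ x : E n, y + (t - x) = (y + t) - x := fun x => by abel
  refine ⟨fun x hx => ?_, ?_⟩
  · by_contra hcon
    push Not at hcon
    have h7 := winA_sum_le (X := X) (fun x => winH n (y + (t - x))) {x}
      (fun z hz => by rw [Finset.mem_singleton.1 hz]; exact hF x hx)
    rw [Finset.sum_singleton] at h7
    have h8 : 1 ≤ winH n (y + (t - x)) := by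
      unfold winH
      rw [e0, indicator_of_mem (show (y + t) - x ∈ {w : E n | ‖w‖ < r1 n + eta n} from hcon)]
      exact le_self_add
    exact absurd ((h8.trans h7).trans_lt hy) (lt_irrefl _)
  · set F' := F.filter (fun x => ‖(y + t) - x‖ ≤ 1 + eta n) with hF'
    have hF'X : ∀ x ∈ F', x ∈ X := fun x hx => hF x (Finset.mem_filter.1 hx).1
    have h7 := winA_sum_le (X := X) (fun x => winH n (y + (t - x))) F' hF'X
    have hpos : ∀ x ∈ F', 0 ≤ 3 + C1 * n * (1 + eta n - ‖(y + t) - x‖) := fun x hx => by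
      have := (Finset.mem_filter.1 hx).2
      have h9 : 0 ≤ C1 * n * (1 + eta n - ‖(y + t) - x‖) :=
        mul_nonneg (by (clear * - hC hn; positivity)) (by linarith only [this])
      linarith only [h9]
    have h8 : ENNReal.ofReal (∑ x ∈ F', (1 / (n : ℝ) ^ 2 +
        (3 + C1 * n * (1 + eta n - ‖(y + t) - x‖)) / Hmax n)) < 1 := by
      rw [ENNReal.ofReal_sum_of_nonneg]
      · refine lt_of_le_of_lt (le_trans ?_ h7) hy
        refine Finset.sum_le_sum fun x hx => ?_
        unfold winH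
        rw [e0, indicator_of_mem (s := {w : E n | ‖w‖ ≤ 1 + eta n})
          (show (y + t) - x ∈ {w : E n | ‖w‖ ≤ 1 + eta n} from (Finset.mem_filter.1 hx).2)]
        exact le_add_self
      · intro x hx
        have := hpos x hx
        (clear * - hn this h5; positivity)
    have h9 : ∑ x ∈ F', (1 / (n : ℝ) ^ 2 +
        (3 + C1 * n * (1 + eta n - ‖(y + t) - x‖)) / Hmax n) < 1 := by
      by_contra hcon
      push Not at hcon
      have := ENNReal.ofReal_le_ofReal hcon
      rw [ENNReal.ofReal_one] at this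
      exact absurd (this.trans_lt h8) (lt_irrefl _)
    rw [Finset.sum_add_distrib, Finset.sum_const, nsmul_eq_mul, ← Finset.sum_div] at h9
    set S := ∑ x ∈ F', (3 + C1 * n * (1 + eta n - ‖(y + t) - x‖)) with hS
    have hS0 : 0 ≤ S := Finset.sum_nonneg hpos
    have h10 : 0 ≤ S / Hmax n := by (clear * - hS0 h5; positivity)
    have h11 : (0 : ℝ) ≤ F'.card * (1 / (n : ℝ) ^ 2) := by (clear * - hn; positivity)
    constructor
    · have h12 : (F'.card : ℝ) * (1 / (n : ℝ) ^ 2) ≤ 1 := by linarith only [h9, h10]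
      rw [mul_one_div, div_le_one (by positivity)] at h12
      exact_mod_cast h12
    · have h12 : S / Hmax n ≤ 1 := by linarith only [h9, h11]
      rwa [div_le_one h5] at h12

theorem windowAvg (h : Stmt.AvgLemma) : Stmt.WindowAvg := by
  obtain ⟨n1, hn1⟩ := winA_first
  refine ⟨max n1 3, fun n hn X hX hD => ?_⟩
  have hn3 : 3 ≤ n := (le_max_right _ _).trans hn
  have hnum := hn1 n ((le_max_left _ _).trans hn)
  have hS := winA_S_le n hn3
  obtain ⟨h1, h2, h3, h4, h5, h6⟩ := winA_basic n hn3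
  have hn' : (3 : ℝ) ≤ n := by exact_mod_cast hn3
  have h0 : (0 : ℝ) < n := by linarith only [hn']
  have hV := winA_V_pos n
  set V := vol (B n) with hVdef
  set lam : ℝ := 1 / 10 ^ 9 * n * Real.log n with hlam
  have hlam0 : 0 < lam := by positivity
  have hm0 : 0 < m0 n := by unfold m0; positivity
  have hC : 0 ≤ C1 := by unfold C1; norm_num
  have hS0 : 0 ≤ winS n := by
    unfold winS
    (clear * - h1 hn3 h5 h2 hC; positivity)
  have hVe : volume (B n) = ENNReal.ofReal V := (winA_ofReal_V n).symm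
  -- the average
  have hI : 2 * ENNReal.ofReal (lam / V) * ∫⁻ v, winG n v < 1 := by
    rw [winA_intG n]
    have hH := winA_intH n h1 h2.le h5
    rw [hVe] at hH ⊢
    change _ ≤ ENNReal.ofReal (winS n) * ENNReal.ofReal V at hH
    calc 2 * ENNReal.ofReal (lam / V) * (ENNReal.ofReal (1 / m0 n) *
          (ENNReal.ofReal (2 ^ n) * ENNReal.ofReal V) + 2 * ∫⁻ w : E n, winH n w)
        ≤ 2 * ENNReal.ofReal (lam / V) * (ENNReal.ofReal (1 / m0 n) *
          (ENNReal.ofReal (2 ^ n) * ENNReal.ofReal V) +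
            2 * (ENNReal.ofReal (winS n) * ENNReal.ofReal V)) := by (clear * - hH; gcongr)
      _ = ENNReal.ofReal (2 * lam * (2 ^ n / m0 n) + 4 * lam * winS n) := by
          have e2 : (2 : ENNReal) = ENNReal.ofReal 2 := by simp
          rw [e2, ← ENNReal.ofReal_mul (by norm_num), ← ENNReal.ofReal_mul (by positivity),
            ← ENNReal.ofReal_mul (by (clear * - hm0; positivity)), ← ENNReal.ofReal_mul hS0,
            ← ENNReal.ofReal_mul (by norm_num), ← ENNReal.ofReal_add (by (clear * - hm0 hV; positivity))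
              (by (clear * - hS0 hV; positivity)), ← ENNReal.ofReal_mul (by (clear * - hn3 h6 hV; positivity))]
          congr 1
          field_simp
          ring
      _ < ENNReal.ofReal 1 := by
          rw [ENNReal.ofReal_lt_ofReal_iff one_pos]
          linarith only [hnum, hS]
      _ = 1 := ENNReal.ofReal_one
  obtain ⟨t, ht⟩ := h n (by (clear * - hn3; omega)) X hX _ ENNReal.ofReal_ne_top hD (winG n) (winA_measG n)
    (fun v hv => winA_suppG n h3 h4 v hv) hI
  have hfin := winA_finite hX t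
  set F : Finset (E n) := hfin.toFinset with hFdef
  have hF : ∀ x, x ∈ F ↔ x ∈ X ∧ ‖x - t‖ ≤ 2 := fun x => by
    rw [hFdef, Set.Finite.mem_toFinset]
    rfl
  have hFX : ∀ x ∈ F, x ∈ X := fun x hx => ((hF x).1 hx).1
  refine ⟨t, F, hF, ?_, ?_⟩
  · -- number of points
    have a1 := winA_sum_le (X := X) (fun x => winG n (t - x)) F hFX
    have a2 : (F.card : ENNReal) * ENNReal.ofReal (1 / m0 n) ≤ ∑ x ∈ F, winG n (t - x) := by
      rw [← nsmul_eq_mul, ← Finset.sum_const]
      refine Finset.sum_le_sum fun x hx => ?_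
      unfold winG
      rw [indicator_of_mem (show t - x ∈ {v : E n | ‖v‖ ≤ 2} from by
        change ‖t - x‖ ≤ 2
        rw [norm_sub_rev]
        exact ((hF x).1 hx).2)]
      exact le_self_add
    have a3 : (F.card : ENNReal) * ENNReal.ofReal (1 / m0 n) < 1 := (a2.trans a1).trans_lt ht
    have a4 : ENNReal.ofReal (F.card * (1 / m0 n)) < 1 := by
      rwa [ENNReal.ofReal_mul (by (clear * -; positivity)), ENNReal.ofReal_natCast]
    have a5 : (F.card : ℝ) * (1 / m0 n) < 1 := by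
      by_contra hcon
      push Not at hcon
      have := ENNReal.ofReal_le_ofReal hcon
      rw [ENNReal.ofReal_one] at this
      exact absurd (this.trans_lt a4) (lt_irrefl _)
    rw [mul_one_div, div_lt_one hm0] at a5
    exact a5.le
  · -- volume of the good set
    have hcount : Countable X := (winA_countable hX).to_subtype
    set Φ : E n → ENNReal := fun y => ∑' x : X, winH n (y + (t - x)) with hΦ
    have mterm : ∀ x : X, Measurable fun y : E n => winH n (y + (t - x)) := fun x =>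
      (winA_measH n).comp (measurable_id.add_const _)
    have mΦ : Measurable Φ := Measurable.ennreal_tsum mterm
    have b1 : ∫⁻ y in B n, Φ y = ∑' x : X, ∫⁻ y in B n, winH n (y + (t - x)) :=
      lintegral_tsum fun x => (mterm x).aemeasurable
    have b2 : ENNReal.ofReal (2 / V) * ∫⁻ y in B n, Φ y < 1 := by
      rw [b1, ← ENNReal.tsum_mul_left]
      refine lt_of_le_of_lt (ENNReal.tsum_le_tsum fun x => ?_) ht
      unfold winG
      exact le_add_self
    have b3 : ∫⁻ y in B n, Φ y ≤ ENNReal.ofReal (V / 2) := by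
      have e1 : ENNReal.ofReal (V / 2) * ENNReal.ofReal (2 / V) = 1 := by
        rw [← ENNReal.ofReal_mul (by (clear * - hV; positivity))]
        have : V / 2 * (2 / V) = 1 := by field_simp
        rw [this, ENNReal.ofReal_one]
      calc ∫⁻ y in B n, Φ y = ENNReal.ofReal (V / 2) *
            (ENNReal.ofReal (2 / V) * ∫⁻ y in B n, Φ y) := by
            rw [← mul_assoc, e1, one_mul]
        _ ≤ ENNReal.ofReal (V / 2) * 1 := by (clear * - b2; gcongr)
        _ = _ := mul_one _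
    have b4 : volume (B n ∩ {y | 1 ≤ Φ y}) ≤ ENNReal.ofReal (V / 2) := by
      have c1 := mul_meas_ge_le_lintegral (μ := volume.restrict (B n)) mΦ 1
      rw [one_mul, Measure.restrict_apply (measurableSet_le measurable_const mΦ), inter_comm] at c1
      exact c1.trans b3
    have b5 : volume (B n) ≤ volume (B n ∩ {y | Φ y < 1}) + ENNReal.ofReal (V / 2) := by
      refine le_trans (le_trans (measure_mono ?_) (measure_union_le (B n ∩ {y | Φ y < 1})
        (B n ∩ {y | 1 ≤ Φ y}))) (add_le_add le_rfl b4)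
      intro y hy
      rcases lt_or_ge (Φ y) 1 with h | h
      · exact Or.inl ⟨hy, h⟩
      · exact Or.inr ⟨hy, h⟩
    have b6 : ENNReal.ofReal (V / 2) ≤ volume (B n ∩ {y | Φ y < 1}) := by
      rw [hVe] at b5
      have e1 : ENNReal.ofReal V = ENNReal.ofReal (V / 2) + ENNReal.ofReal (V / 2) := by
        rw [← ENNReal.ofReal_add (by (clear * - hV; positivity)) (by positivity)]
        congr 1
        ring
      rw [e1] at b5
      exact (ENNReal.add_le_add_iff_right ENNReal.ofReal_ne_top).1 b5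
    have b7 : V / 2 ≤ (volume (B n ∩ {y | Φ y < 1})).toReal := by
      have hne : volume (B n ∩ {y | Φ y < 1}) ≠ ⊤ :=
        ne_top_of_le_ne_top (winA_B_ne_top n) (measure_mono inter_subset_left)
      exact (ENNReal.ofReal_le_iff_le_toReal hne).1 b6
    refine b7.trans ?_
    unfold vol
    refine ENNReal.toReal_mono (ne_top_of_le_ne_top (winA_B_ne_top n)
      (measure_mono fun y hy => hy.1)) (measure_mono fun y hy => ?_)
    exact ⟨hy.1, winA_point n hn3 t hFX hy.2⟩

end Vale.Agent.P230.LB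
end
end

section

section

/-!
# The window after rounding, and the lower bound for `Θ_T`
-/

namespace Vale.Agent.P230.LB

open MeasureTheory
open scoped Pointwise

/-- a sum over an image is at most the sum over the index set (nonnegative terms) -/
lemma wb_sum_image {α β : Type*} [DecidableEq β] (s : Finset α) (f : α → β) (g : β → ℝ)
    (hg : ∀ x ∈ s, 0 ≤ g (f x)) : ∑ z ∈ s.image f, g z ≤ ∑ x ∈ s, g (f x) := by
  rw [← Finset.sum_fiberwise_of_maps_to (g := f) (t := s.image f)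
    (fun x hx => Finset.mem_image_of_mem f hx)]
  refine Finset.sum_le_sum fun z hz => ?_
  obtain ⟨x, hx, rfl⟩ := Finset.mem_image.1 hz
  have h1 : x ∈ s.filter (fun x' => f x' = f x) := Finset.mem_filter.2 ⟨hx, rfl⟩
  refine Finset.single_le_sum (f := fun i => g (f i)) ?_ h1
  intro i hi
  exact hg i (Finset.mem_filter.1 hi).1

lemma wb_vol_mono {n : ℕ} {s t : Set (E n)} (hst : s ⊆ t) (ht : ∀ y ∈ t, ‖y‖ ≤ 1) :
    vol s ≤ vol t := by
  unfold vol
  refine ENNReal.toReal_mono ?_ (measure_mono hst)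
  have h1 : t ⊆ Metric.closedBall (0 : E n) 1 := fun y hy => by
    simpa only [Metric.mem_closedBall, dist_zero_right] using ht y hy
  exact ((measure_mono h1).trans_lt measure_closedBall_lt_top).ne

theorem window (h : Stmt.WindowAvg) : Stmt.Window := by
  classical
  obtain ⟨n0, h⟩ := h
  refine ⟨n0, fun n hn X hX hup Gr hGr => ?_⟩
  obtain ⟨t, F, hF, hFc, hvol⟩ := h n hn X hX hup
  have hex : ∀ x : E n, ∃ g : E n, ‖x - t‖ ≤ 2 → g ∈ Gr ∧ ‖(x - t) - g‖ ≤ eta n := by
    intro x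
    by_cases hx : ‖x - t‖ ≤ 2
    · obtain ⟨g, hg, hg'⟩ := hGr (x - t) hx
      exact ⟨g, fun _ => ⟨hg, hg'⟩⟩
    · exact ⟨0, fun h' => absurd h' hx⟩
  choose r hr using hex
  have hF2 : ∀ x ∈ F, ‖x - t‖ ≤ 2 := fun x hx => ((hF x).1 hx).2
  have hrF : ∀ x ∈ F, ‖(x - t) - r x‖ ≤ eta n := fun x hx => (hr x (hF2 x hx)).2
  have hn0 : 0 ≤ (n : ℝ) := Nat.cast_nonneg n
  have hC1 : 0 ≤ C1 * n := mul_nonneg (by unfold C1; norm_num) hn0
  refine ⟨t, F.image r, ?_, ?_, ?_, ?_⟩
  · intro g hg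
    obtain ⟨x, hx, rfl⟩ := Finset.mem_image.1 hg
    exact (hr x (hF2 x hx)).1
  · have h1 : ((F.image r).card : ℝ) ≤ (F.card : ℝ) := by exact_mod_cast Finset.card_image_le
    exact h1.trans hFc
  · intro x hx hx2
    exact ⟨r x, Finset.mem_image_of_mem r ((hF x).2 ⟨hx, hx2⟩), (hr x hx2).2⟩
  · refine hvol.trans (wb_vol_mono ?_ (fun y hy => hy.1))
    rintro y ⟨hy1, hy2, hy3, hy4⟩
    have key1 : ∀ x ∈ F, ‖(y + t) - x‖ ≤ ‖y - r x‖ + eta n := by
      intro x hx
      have e : (y + t) - x = (y - r x) - ((x - t) - r x) := by abel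
      rw [e]
      exact (norm_sub_le _ _).trans (by linarith only [hrF x hx])
    have hZ : Zof (F.image r) y = (F.filter (fun x => ‖y - r x‖ ≤ 1)).image
        (fun x => y - r x) := by
      ext z
      simp only [Zof, Finset.mem_filter, Finset.mem_image]
      constructor
      · rintro ⟨⟨g, ⟨x, hx, rfl⟩, rfl⟩, hz⟩
        exact ⟨x, ⟨hx, hz⟩, rfl⟩
      · rintro ⟨x, ⟨hx, hz⟩, rfl⟩
        exact ⟨⟨r x, ⟨x, hx, rfl⟩, rfl⟩, hz⟩
    have hsub : F.filter (fun x => ‖y - r x‖ ≤ 1) ⊆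
        F.filter (fun x => ‖(y + t) - x‖ ≤ 1 + eta n) := by
      intro x hx
      rw [Finset.mem_filter] at hx ⊢
      exact ⟨hx.1, (key1 x hx.1).trans (by linarith only [hx])⟩
    refine ⟨hy1, ?_, ?_, ?_⟩
    · intro g hg
      obtain ⟨x, hx, rfl⟩ := Finset.mem_image.1 hg
      have h1 := hy2 x hx
      have h2 := key1 x hx
      linarith only [h1, h2]
    · rw [hZ]
      exact Finset.card_image_le.trans ((Finset.card_le_card hsub).trans hy3)
    · rw [hZ]
      refine (wb_sum_image _ _ _ ?_).trans ?_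
      · intro x hx
        have h1 := (Finset.mem_filter.1 hx).2
        have h2 := mul_nonneg hC1 (sub_nonneg.2 h1)
        linarith only [h2]
      · refine (Finset.sum_le_sum (g := fun x => 3 + C1 * n * (1 + eta n - ‖(y + t) - x‖))
          ?_).trans ((Finset.sum_le_sum_of_subset_of_nonneg hsub ?_).trans hy4)
        · intro x hx
          have h1 := key1 x (Finset.mem_filter.1 hx).1
          have h2 : 1 - ‖y - r x‖ ≤ 1 + eta n - ‖(y + t) - x‖ := by linarith only [h1]
          have h3 := mul_le_mul_of_nonneg_left h2 hC1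
          linarith only [h3]
        · intro x hx _
          have h1 := (Finset.mem_filter.1 hx).2
          have h2 := mul_nonneg hC1 (sub_nonneg.2 h1)
          linarith only [h2]

lemma wb_volB_pos {n : ℕ} : 0 < vol (B n) := by
  unfold vol B
  have e : {u : E n | ‖u‖ ≤ 1} = Metric.closedBall (0 : E n) 1 := by
    ext u
    simp only [Set.mem_ofPred_eq, Metric.mem_closedBall, dist_zero_right]
  rw [e]
  exact ENNReal.toReal_pos (Metric.measure_closedBall_pos volume _ one_pos).ne'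
    measure_closedBall_lt_top.ne

theorem lowerT (hB : Stmt.ExistsBody) (hW : Stmt.Window) (hN : Stmt.NetLemma) :
    Stmt.LowerT := by
  obtain ⟨n1, hB⟩ := hB
  obtain ⟨n2, hW⟩ := hW
  refine ⟨1 / 10 ^ 11, by norm_num, max n1 (max n2 1), fun n hn => ?_⟩
  have hn1 : n1 ≤ n := (le_max_left _ _).trans hn
  have hn2 : n2 ≤ n := ((le_max_left _ _).trans (le_max_right _ _)).trans hn
  have hn3 : 1 ≤ n := ((le_max_right _ _).trans (le_max_right _ _)).trans hn
  have hnR : (1 : ℝ) ≤ n := by exact_mod_cast hn3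
  have heta : 0 < eta n := by unfold eta; positivity
  have hlog : 0 ≤ (n : ℝ) * Real.log n := mul_nonneg (by linarith only []) (Real.log_nonneg hnR)
  obtain ⟨Gr, hGc, -, hGn⟩ := hN n hn3 2 (eta n) (by norm_num) heta
  have hGc' : (Gr.card : ℝ) ≤ (1 + 8 * (n : ℝ)) ^ n := by
    refine hGc.trans (le_of_eq ?_)
    congr 1
    unfold eta
    field_simp
    ring
  obtain ⟨K, hKc, hKk, hKi, hKn, hKv, hK⟩ := hB n hn1 Gr hGc'
  refine le_trans ?_ (le_iSup_of_le K (le_iSup_of_le hKc (le_iSup_of_le hKk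
    (le_iSup_of_le hKi le_rfl))))
  refine le_iInf fun X => le_iInf fun hX => le_iInf fun hcov => ?_
  by_contra hlt
  rw [not_le] at hlt
  have hBp := wb_volB_pos (n := n)
  have hKfin : volume K ≠ ⊤ := hKk.measure_lt_top.ne
  have hup : upDens X < ENNReal.ofReal (1 / 10 ^ 9 * n * Real.log n / vol (B n)) := by
    by_contra hge
    rw [not_lt] at hge
    refine absurd hlt (not_lt.2 ?_)
    have h1 : ENNReal.ofReal (vol (B n) / 11) ≤ volume K := by
      rw [← ENNReal.ofReal_toReal hKfin]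
      exact ENNReal.ofReal_le_ofReal hKv
    refine le_trans ?_ (mul_le_mul' h1 hge)
    rw [← ENNReal.ofReal_mul (by (clear * - hBp; positivity))]
    refine ENNReal.ofReal_le_ofReal ?_
    have e : vol (B n) / 11 * (1 / 10 ^ 9 * n * Real.log n / vol (B n)) =
        1 / 11 * (1 / 10 ^ 9) * (n * Real.log n) := by
      (clear * - hBp hn3; field_simp)
    rw [e]
    linarith only [hlog]
  obtain ⟨t, X', hX'G, hX'c, hX'n, hX'v⟩ := hW n hn2 X hX hup Gr hGn
  obtain ⟨y, hy1, hy2⟩ := hK X' hX'G hX'c hX'v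
  have hyt : y + t ∈ K + X := by rw [hcov]; trivial
  obtain ⟨k, hk, x, hx, hkx⟩ := Set.mem_add.1 hyt
  have hkn := hKn k hk
  have hxt : x - t = y - k := by
    have : x = y + t - k := by rw [← hkx]; abel
    rw [this]
    abel
  have h2 : ‖x - t‖ ≤ 2 := by
    rw [hxt]
    exact (norm_sub_le _ _).trans (by linarith only [heta, hy1, hkn])
  obtain ⟨x', hx', hx'n⟩ := hX'n x hx h2
  refine hy2 x' hx' ((x - t) - x') hx'n ?_
  have e : y - x' - ((x - t) - x') = k := by
    rw [hxt]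
    abel
  rw [e]
  exact hk

end Vale.Agent.P230.LB
end
end

section

section

/-!
# Numerical facts (valid for all large `n`)
-/

namespace Vale.Agent.P230.LB

open Filter Topology

theorem num_tendsto_log : Tendsto (fun n : ℕ => Real.log (n : ℝ)) atTop atTop :=
  Real.tendsto_log_atTop.comp tendsto_natCast_atTop_atTop

/-- `C x e^{-c x}` is eventually small -/
theorem num_small (C c δ : ℝ) (hc : 0 < c) (hδ : 0 < δ) :
    ∀ᶠ x : ℝ in atTop, C * (x * Real.exp (-(c * x))) ≤ δ := by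
  have h1 : Tendsto (fun y : ℝ => y ^ 1 * Real.exp (-y)) atTop (𝓝 0) :=
    Real.tendsto_pow_mul_exp_neg_atTop_nhds_zero 1
  have h2 : Tendsto (fun x : ℝ => c * x) atTop atTop := tendsto_id.const_mul_atTop hc
  have h3 := (h1.comp h2).const_mul (C / c)
  rw [mul_zero] at h3
  filter_upwards [h3.eventually_le_const hδ] with x hx
  refine le_trans (le_of_eq ?_) hx
  simp only [Function.comp, pow_one]
  field_simp

theorem num_pow8_eq (k : ℕ) : ((8 : ℝ) ^ k) ^ 2 = Real.exp (2 * (k * Real.log 8)) := by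
  have h : (8 : ℝ) ^ k = Real.exp (k * Real.log 8) := by
    rw [Real.exp_nat_mul, Real.exp_log (by (clear * -; norm_num))]
  rw [h, ← Real.exp_nat_mul]
  (clear * -; norm_num)

theorem num_pow8_le (n : ℕ) : ((8 : ℝ) ^ lev n) ^ 2 ≤ Real.exp (Real.log n / 4) := by
  have h8 : 0 < Real.log 8 := Real.log_pos (by norm_num)
  have hx : 0 ≤ Real.log (n : ℝ) := Real.log_natCast_nonneg n
  have h1 : (lev n : ℝ) ≤ Real.log n / (8 * Real.log 8) := Nat.floor_le (by positivity)
  rw [num_pow8_eq, Real.exp_le_exp]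
  have h3 : (lev n : ℝ) * Real.log 8 ≤ Real.log n / (8 * Real.log 8) * Real.log 8 :=
    mul_le_mul_of_nonneg_right h1 h8.le
  have h4 : Real.log n / (8 * Real.log 8) * Real.log 8 = Real.log n / 8 := by
    field_simp
  rw [h4] at h3
  linarith only [h3]

theorem num_gam_sq (n j : ℕ) :
    gam n j ^ 2 = ((8 : ℝ) ^ j) ^ 2 * (1000 * Real.log n / n) := by
  have hx : 0 ≤ Real.log (n : ℝ) := Real.log_natCast_nonneg n
  unfold gam
  rw [mul_pow, Real.sq_sqrt (by (clear * -; positivity))]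

theorem num_inv {n : ℕ} (hn : 1 ≤ n) : ((n : ℝ))⁻¹ = Real.exp (-Real.log n) := by
  have h0 : (0 : ℝ) < n := by exact_mod_cast hn
  rw [Real.exp_neg, Real.exp_log h0]

theorem num_gam_sq_le {n : ℕ} (hn : 1 ≤ n) :
    gam n (lev n) ^ 2 ≤ 1000 * (Real.log n * Real.exp (-((3 / 4) * Real.log n))) := by
  have hx : 0 ≤ Real.log (n : ℝ) := Real.log_natCast_nonneg n
  rw [num_gam_sq, div_eq_mul_inv, num_inv hn]
  have h1 : ((8 : ℝ) ^ lev n) ^ 2 * (1000 * Real.log n * Real.exp (-Real.log n)) ≤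
      Real.exp (Real.log n / 4) * (1000 * Real.log n * Real.exp (-Real.log n)) :=
    mul_le_mul_of_nonneg_right (num_pow8_le n) (by (clear * -; positivity))
  refine h1.trans (le_of_eq ?_)
  have h2 : Real.exp (Real.log n / 4) * Real.exp (-Real.log n) =
      Real.exp (-((3 / 4) * Real.log n)) := by
    rw [← Real.exp_add]; congr 1; ring
  rw [← h2]; ring

theorem num_gam_sq_ge {n : ℕ} (hn : 1 ≤ n) (j : ℕ) :
    1000 * Real.log n ≤ n * gam n j ^ 2 := by
  have hx : 0 ≤ Real.log (n : ℝ) := Real.log_natCast_nonneg n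
  have h0 : (0 : ℝ) < n := by exact_mod_cast hn
  rw [num_gam_sq]
  have h1 : (1 : ℝ) ≤ ((8 : ℝ) ^ j) ^ 2 := one_le_pow₀ (one_le_pow₀ (by norm_num))
  have h2 : (n : ℝ) * (((8 : ℝ) ^ j) ^ 2 * (1000 * Real.log n / n)) =
      ((8 : ℝ) ^ j) ^ 2 * (1000 * Real.log n) := by
    field_simp
  rw [h2]
  exact le_mul_of_one_le_left (by (clear * -; positivity)) h1

theorem num_log8 : Real.log 8 < 2.0795 := by
  have h : Real.log 8 = 3 * Real.log 2 := by
    rw [show (8 : ℝ) = 2 ^ 3 by norm_num, Real.log_pow]; norm_num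
  rw [h]
  have := Real.log_two_lt_d9
  linarith only [this]

theorem numLev : Stmt.NumLev := by
  have hT := num_tendsto_log
  have e1 := hT.eventually (eventually_ge_atTop (200 : ℝ))
  have e2 := hT.eventually (num_small 1000 (3 / 4) (1 / 10 ^ 7) (by norm_num) (by norm_num))
  have e3 := hT.eventually (num_small 2 1 (1 / 204800) (by norm_num) (by norm_num))
  obtain ⟨n0, hn0⟩ := eventually_atTop.mp ((e1.and (e2.and e3)).and (eventually_ge_atTop 1))
  refine ⟨n0, fun n hn => ?_⟩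
  obtain ⟨⟨h1, h2, h3⟩, h4⟩ := hn0 n hn
  have h0 : (0 : ℝ) < n := by exact_mod_cast h4
  have h8 : 0 < Real.log 8 := Real.log_pos (by norm_num)
  have h8' := num_log8
  have hlow : Real.log n / 20 + 1 ≤ Real.log n / (8 * Real.log 8) := by
    rw [le_div_iff₀ (by positivity)]
    nlinarith only [h1, h8']
  have hlev : Real.log n / (8 * Real.log 8) < (lev n : ℝ) + 1 := Nat.lt_floor_add_one _
  have hl2 : Real.log n / 20 < lev n := by linarith only [hlev, hlow]
  have hlpos : (0 : ℝ) < lev n := by linarith only [h1, hlow, hlev]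
  refine ⟨?_, ?_, (num_gam_sq_le h4).trans h2, ?_, ?_⟩
  · exact_mod_cast hlpos
  · rw [div_le_iff₀ hlpos]
    unfold Hmax
    have : 2 * ((n : ℝ) * Real.log n / 40) = n * (Real.log n / 20) := by ring
    rw [this]
    exact mul_le_mul_of_nonneg_left hl2.le h0.le
  · refine le_trans (le_of_eq ?_) h3
    rw [div_eq_mul_inv, num_inv h4, one_mul]; ring
  · have h5 := num_gam_sq_ge h4 (lev n)
    have h6 : (n : ℝ) ^ 4 = Real.exp (4 * Real.log n) := by
      have : (4 : ℝ) * Real.log n = ((4 : ℕ) : ℝ) * Real.log n := by norm_num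
      rw [this, Real.exp_nat_mul, Real.exp_log h0]
    have h7 : (4 : ℝ) ≤ Real.exp (Real.log n) := by
      have := Real.add_one_le_exp (Real.log (n : ℝ))
      linarith only [h1, this]
    have h8 : Real.exp (-(900000 * n * gam n (lev n) ^ 2)) ≤ Real.exp (-(5 * Real.log n)) := by
      rw [Real.exp_le_exp]
      nlinarith only [h5]
    calc (n : ℝ) ^ 4 * 4 * Real.exp (-(900000 * n * gam n (lev n) ^ 2))
        ≤ Real.exp (4 * Real.log n) * Real.exp (Real.log n) * Real.exp (-(5 * Real.log n)) := by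
          rw [h6]
          exact mul_le_mul (mul_le_mul_of_nonneg_left h7 (Real.exp_pos _).le) h8
            (Real.exp_pos _).le (by positivity)
      _ = 1 := by
          rw [← Real.exp_add, ← Real.exp_add, ← Real.exp_zero]; congr 1; ring

theorem numCluster : Stmt.NumCluster := by
  have hT := num_tendsto_log
  have e1 := hT.eventually (eventually_gt_atTop (0 : ℝ))
  have e2 := hT.eventually (num_small ((4.84 * 161 * 64) ^ 2 * 1000) (7 / 10) (1 / 16)
    (by norm_num) (by norm_num))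
  have e3 : ∀ᶠ n : ℕ in atTop, (0.847 : ℝ) ^ n ≤ 1 / 4 :=
    (tendsto_pow_atTop_nhds_zero_of_lt_one (by norm_num) (by norm_num)).eventually_le_const
      (by norm_num)
  obtain ⟨n0, hn0⟩ := eventually_atTop.mp ((e1.and (e2.and e3)).and (eventually_ge_atTop 1))
  refine ⟨n0, fun n hn => ?_⟩
  obtain ⟨⟨h1, h2, h3⟩, h4⟩ := hn0 n hn
  have h0 : (0 : ℝ) < n := by exact_mod_cast h4
  have hg : 0 < gam n (lev n) := by unfold gam; positivity
  have hb : 0 < bet n := by unfold bet; (clear * - hg; positivity)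
  refine ⟨hb, ?_, ?_⟩
  · set b : ℝ := 4.84 * Real.exp (Real.log n / 40) * 161 * (2 * bet n) with hbdef
    have hb0 : 0 ≤ b := by (clear * - hb; positivity)
    have e : m0 n ^ 2 * Real.exp (Hmax n) * (161 ^ n * (2 * bet n) ^ n) = b ^ n := by
      have q1 : Real.exp (Hmax n) = Real.exp (Real.log n / 40) ^ n := by
        rw [← Real.exp_nat_mul]; unfold Hmax; congr 1; ring
      have q2 : m0 n ^ 2 = (4.84 : ℝ) ^ n := by
        unfold m0; rw [← pow_mul, mul_comm, pow_mul]; norm_num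
      rw [q1, q2, hbdef, mul_pow, mul_pow, mul_pow]; ring
    have hsq : b ^ 2 ≤ 1 / 16 := by
      have q3 : b ^ 2 = (4.84 * 161 * 64) ^ 2 * Real.exp (Real.log n / 20) *
          gam n (lev n) ^ 2 := by
        have q4 : Real.exp (Real.log n / 20) = Real.exp (Real.log n / 40) ^ 2 := by
          rw [← Real.exp_nat_mul]; congr 1; push_cast; ring
        rw [q4, hbdef]; unfold bet; ring
      rw [q3]
      refine le_trans ?_ h2
      have q5 := mul_le_mul_of_nonneg_left (num_gam_sq_le h4)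
        (show (0 : ℝ) ≤ (4.84 * 161 * 64) ^ 2 * Real.exp (Real.log n / 20) by positivity)
      refine q5.trans (le_of_eq ?_)
      have q6 : Real.exp (Real.log n / 20) * Real.exp (-((3 / 4) * Real.log n)) =
          Real.exp (-(7 / 10 * Real.log n)) := by
        rw [← Real.exp_add]; congr 1; ring
      rw [← q6]; ring
    have hb4 : b ≤ 1 / 4 := by
      nlinarith only [hsq]
    rw [e]
    calc b ^ n ≤ b ^ 1 := pow_le_pow_of_le_one hb0 (by linarith only [hb4]) h4
      _ = b := pow_one b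
      _ ≤ 1 / 4 := hb4
  · refine le_trans (le_of_eq ?_) h3
    have q2 : m0 n ^ 2 = (4.84 : ℝ) ^ n := by
      unfold m0; rw [← pow_mul, mul_comm, pow_mul]; norm_num
    rw [q2, ← mul_pow, ← mul_pow]; norm_num

theorem numUnion : Stmt.NumUnion := by
  have e1 : ∀ᶠ n : ℕ in atTop, 162 * ((n : ℝ) ^ 2 * (0.88 : ℝ) ^ n) ≤ 1 := by
    have := (tendsto_pow_const_mul_const_pow_of_abs_lt_one 2
      (show |(0.88 : ℝ)| < 1 by norm_num [abs_lt])).const_mul 162
    rw [mul_zero] at this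
    exact this.eventually_le_const (by norm_num)
  have e2 : ∀ᶠ n : ℕ in atTop, (90 : ℝ) ≤ (2.5 : ℝ) ^ n :=
    (tendsto_pow_atTop_atTop_of_one_lt (by norm_num)).eventually_ge_atTop 90
  obtain ⟨n0, hn0⟩ := eventually_atTop.mp ((e1.and e2).and (eventually_ge_atTop 1))
  refine ⟨n0, fun n hn M k hM hk => ?_⟩
  obtain ⟨⟨h1, h2⟩, h4⟩ := hn0 n hn
  have h0 : (1 : ℝ) ≤ n := by exact_mod_cast h4
  -- `(M+1)^k ≤ exp (k n (1+8n))`
  have a1 : (M : ℝ) + 1 ≤ Real.exp (n * (1 + 8 * n)) := by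
    have b1 : (1 : ℝ) + 8 * n + 1 ≤ Real.exp (1 + 8 * n) := Real.add_one_le_exp _
    have b2 : (1 + 8 * (n : ℝ)) ^ n + 1 ≤ (1 + 8 * (n : ℝ) + 1) ^ n := by
      have : (1 + 8 * (n : ℝ)) ^ n + 1 ^ n ≤ (1 + 8 * (n : ℝ) + 1) ^ n :=
        pow_add_pow_le (by positivity) zero_le_one (by omega)
      simpa only [ge_iff_le, one_pow] using this
    rw [Real.exp_nat_mul]
    calc (M : ℝ) + 1 ≤ (1 + 8 * (n : ℝ)) ^ n + 1 := by linarith only [hM]
      _ ≤ (1 + 8 * (n : ℝ) + 1) ^ n := b2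
      _ ≤ _ := pow_le_pow_left₀ (by (clear * - h4; positivity)) b1 n
  have a2 : ((M : ℝ) + 1) ^ k ≤ Real.exp (k * (n * (1 + 8 * n))) := by
    rw [Real.exp_nat_mul]
    exact pow_le_pow_left₀ (by (clear * -; positivity)) a1 k
  have a3 : (k : ℝ) * (n * (1 + 8 * n)) ≤ 9 * n ^ 2 * (2.2 : ℝ) ^ n := by
    have b1 : (n : ℝ) * (1 + 8 * n) ≤ 9 * n ^ 2 := by nlinarith only [h0]
    have b2 : (k : ℝ) ≤ (2.2 : ℝ) ^ n := hk
    calc (k : ℝ) * (n * (1 + 8 * n)) ≤ (2.2 : ℝ) ^ n * (9 * n ^ 2) :=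
          mul_le_mul b2 b1 (by positivity) (by positivity)
      _ = _ := by ring
  have a4 : 9 * (n : ℝ) ^ 2 * (2.2 : ℝ) ^ n ≤ (2.5 : ℝ) ^ n / 18 := by
    have b1 : (2.2 : ℝ) ^ n = (0.88 : ℝ) ^ n * (2.5 : ℝ) ^ n := by
      rw [← mul_pow]; norm_num
    have b2 := mul_le_mul_of_nonneg_right h1 (show (0 : ℝ) ≤ (2.5 : ℝ) ^ n by (clear * -; positivity))
    rw [b1]
    linarith only [b2]
  -- `7^n e^{-(n+2)} ≥ 2.5^n / 9`
  have a5 : (2.5 : ℝ) ^ n / 9 ≤ (7 : ℝ) ^ n * Real.exp (-((n : ℝ) + 2)) := by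
    have c1 : Real.exp (-((n : ℝ) + 2)) = Real.exp (-1) ^ n * Real.exp (-1) ^ 2 := by
      rw [← Real.exp_nat_mul, ← Real.exp_nat_mul, ← Real.exp_add]; congr 1; push_cast; ring
    have c3 := Real.exp_one_lt_d9
    have c2 : (1 : ℝ) / 2.75 ≤ Real.exp (-1) := by
      rw [Real.exp_neg, one_div]
      exact inv_anti₀ (Real.exp_pos 1) (by linarith only [c3])
    have c4 : (2.5 : ℝ) ≤ 7 * Real.exp (-1) := by
      have : (7 : ℝ) * (1 / 2.75) ≤ 7 * Real.exp (-1) := by linarith only [c2]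
      refine le_trans (by norm_num) this
    have c5 : (1 : ℝ) / 9 ≤ Real.exp (-1) ^ 2 := by
      have : ((1 : ℝ) / 2.75) ^ 2 ≤ Real.exp (-1) ^ 2 := pow_le_pow_left₀ (by norm_num) c2 2
      refine le_trans (by norm_num) this
    rw [c1]
    calc (2.5 : ℝ) ^ n / 9 = (2.5 : ℝ) ^ n * (1 / 9) := by ring
      _ ≤ (7 * Real.exp (-1)) ^ n * Real.exp (-1) ^ 2 :=
          mul_le_mul (pow_le_pow_left₀ (by norm_num) c4 n) c5 (by norm_num) (by positivity)
      _ = _ := by rw [mul_pow]; ring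
  have a6 : Real.exp (-5) ≤ 1 / 100 := by
    have c3 := Real.exp_one_gt_d9
    rw [Real.exp_neg, one_div]
    refine inv_anti₀ (by norm_num) ?_
    have : Real.exp 5 = Real.exp 1 ^ 5 := by
      rw [← Real.exp_nat_mul]; norm_num
    rw [this]
    have : (2.7 : ℝ) ^ 5 ≤ Real.exp 1 ^ 5 := pow_le_pow_left₀ (by norm_num) (by linarith only [c3]) 5
    refine le_trans (by norm_num) this
  calc ((M : ℝ) + 1) ^ k * Real.exp (-((7 : ℝ) ^ n * Real.exp (-((n : ℝ) + 2))))
      ≤ Real.exp (k * (n * (1 + 8 * n))) *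
          Real.exp (-((7 : ℝ) ^ n * Real.exp (-((n : ℝ) + 2)))) :=
        mul_le_mul_of_nonneg_right a2 (Real.exp_pos _).le
    _ = Real.exp (k * (n * (1 + 8 * n)) - (7 : ℝ) ^ n * Real.exp (-((n : ℝ) + 2))) := by
        rw [← Real.exp_add]; rfl
    _ ≤ Real.exp (-5) := by
        rw [Real.exp_le_exp]
        linarith only [a5, a4, a3, h2]
    _ ≤ 1 / 100 := a6

end Vale.Agent.P230.LB
end
end

section

section

/-!
# The normalising constant and the expected volume of the random body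
-/

namespace Vale.Agent.P230.LB

open MeasureTheory
open scoped Pointwise

/-! ### The normalising constant -/

theorem normV_cap_fin {n : ℕ} (z : E n) (s : ℝ) : volume (Cap z s) ≠ ⊤ := by
  refine ne_top_of_le_ne_top (measure_closedBall_lt_top (x := (0 : E n)) (r := 1)).ne
    (measure_mono ?_)
  intro u hu
  simpa only [Metric.mem_closedBall, dist_zero_right] using hu.1

theorem normV_cap_pos {n : ℕ} (z : E n) (hz : ‖z‖ = 1) (s : ℝ) (h0 : 0 ≤ s) (h1 : s < 1) :
    0 < vol (Cap z s) := by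
  unfold vol
  refine ENNReal.toReal_pos ?_ (normV_cap_fin z s)
  have hop : IsOpen {u : E n | ‖u‖ < 1 ∧ s < inner ℝ z u} := by
    refine IsOpen.inter ?_ ?_
    · exact isOpen_lt continuous_norm continuous_const
    · have hc : Continuous (fun u : E n => (inner ℝ z u : ℝ)) := by fun_prop
      exact isOpen_lt continuous_const hc
  have hne : {u : E n | ‖u‖ < 1 ∧ s < inner ℝ z u}.Nonempty := by
    refine ⟨((1 + s) / 2) • z, ?_, ?_⟩
    · rw [norm_smul, hz, Real.norm_eq_abs, abs_of_nonneg (by linarith only [h0])]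
      linarith only [h1]
    · rw [inner_smul_right, real_inner_self_eq_norm_sq, hz]
      linarith
  have h2 := hop.measure_pos volume hne
  refine (lt_of_lt_of_le h2 (measure_mono ?_)).ne'
  intro u hu
  exact ⟨hu.1.le, hu.2⟩

theorem normV_pow {n : ℕ} (hn : 2 ≤ n) (r : ℝ) (hr : 1 - 0.5512 / (n : ℝ) ≤ r) :
    1 / 2 ≤ r ^ n := by
  have hn' : (2 : ℝ) ≤ n := by exact_mod_cast hn
  have hn0 : (0 : ℝ) < n := by linarith only [hn']
  have h1 : (0 : ℝ) ≤ 1 - 0.5512 / (n : ℝ) := by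
    have : (0.5512 : ℝ) / n ≤ 1 := by
      rw [div_le_one hn0]; linarith only [hn']
    linarith only [this]
  have h2 : (1 - 0.5512 / (n : ℝ)) ^ n ≤ r ^ n := pow_le_pow_left₀ h1 hr n
  refine le_trans ?_ h2
  have h3 := one_add_mul_self_le_rpow_one_add (s := -(0.5512 / (n : ℝ))) (by linarith only [h1])
    (p := (n : ℝ) / 2) (by linarith only [hn'])
  have h4 : (1 - 0.5512 / (n : ℝ)) ^ n = ((1 + -(0.5512 / (n : ℝ))) ^ ((n : ℝ) / 2)) ^ 2 := by
    rw [← Real.rpow_natCast, ← Real.rpow_natCast, ← Real.rpow_mul (by linarith only [h1])]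
    norm_num [sub_eq_add_neg]
  rw [h4]
  have h5 : 1 + (n : ℝ) / 2 * -(0.5512 / (n : ℝ)) = 0.7244 := by
    field_simp
    norm_num
  rw [h5] at h3
  have h6 : (0.7244 : ℝ) ^ 2 ≤ ((1 + -(0.5512 / (n : ℝ))) ^ ((n : ℝ) / 2)) ^ 2 :=
    pow_le_pow_left₀ (by norm_num) h3 2
  refine le_trans (by norm_num) h6

theorem existsNorm (hU : Stmt.CapUpper) (hL : Stmt.CapLowerPow) : Stmt.ExistsNorm := by
  intro n hn
  have hn' : (2 : ℝ) ≤ n := by exact_mod_cast hn
  have hn0 : (0 : ℝ) < n := by linarith only [hn']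
  have hn1 : 1 ≤ n := by omega
  obtain ⟨δ, hδ⟩ : ∃ δ : ℝ, δ = 1 / (10 ^ 6 * n) := ⟨_, rfl⟩
  obtain ⟨η, hη⟩ : ∃ η : ℝ, η = eta n := ⟨_, rfl⟩
  have hη' : η = 1 / (2 * n) := by rw [hη]; rfl
  have hη0 : 0 < η := by rw [hη']; positivity
  have hη1 : η ≤ 1 / 4 := by
    rw [hη']
    rw [div_le_div_iff₀ (by positivity) (by norm_num)]
    linarith only [hn']
  have hδ0 : 0 < δ := by rw [hδ]; positivity
  have hδ1 : δ ≤ 1 / 4 := by
    rw [hδ]
    rw [div_le_div_iff₀ (by positivity) (by norm_num)]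
    linarith only [hn']
  have hρ1 : rho < 1 := by unfold rho; norm_num
  have hρ0 : 3 / 4 < rho := by unfold rho; norm_num
  obtain ⟨t0, ht0⟩ : ∃ t0 : ℝ, t0 = (rho - η - δ) / (1 - η) := ⟨_, rfl⟩
  have hη2 : 0 < 1 - η := by linarith only [hη1]
  have ht : t0 * (1 - η) = rho - η - δ := by
    rw [ht0]; (clear * - hη2; field_simp)
  have ht00 : 0 ≤ t0 := by
    rw [ht0]
    exact div_nonneg (by linarith only [hη1, hδ1, hρ0]) hη2.le
  have htr : t0 ≤ rho := by
    rw [ht0, div_le_iff₀ hη2]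
    nlinarith only [hδ0, hη0, hρ1]
  have ht1 : t0 < 1 := by linarith only [hρ1, htr]
  -- unit vector
  obtain ⟨e, he⟩ : ∃ e : E n, ‖e‖ = 1 := by
    refine ⟨EuclideanSpace.single ⟨0, by (clear * - hn; omega)⟩ 1, ?_⟩
    simp only [PiLp.norm_single, norm_one]
  have he0 : e ≠ 0 := by
    intro h
    rw [h, norm_zero] at he
    exact zero_ne_one he
  obtain ⟨V, hV⟩ : ∃ V : ℝ, V = vol (Cap e t0) := ⟨_, rfl⟩
  have hVpos : 0 < V := by rw [hV]; exact normV_cap_pos e he t0 ht00 ht1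
  refine ⟨V⁻¹, ⟨inv_pos.2 hVpos, ?_⟩, ?_⟩
  · intro z hz
    have hz0 : z ≠ 0 := by
      intro h
      rw [h, norm_zero] at hz
      exact zero_ne_one hz
    constructor
    · have h1 := hL n hn1 e z t0 rho t0 rho hz0 ht00 htr hρ1 (by rw [he, mul_one])
        (by rw [hz, mul_one])
      rw [← hV] at h1
      have h2 : 1 / 2 ≤ ((1 - rho) / (1 - t0)) ^ n := by
        apply normV_pow hn
        rw [le_div_iff₀ (by linarith only [hρ1, htr])]
        have h3 : (1 - t0) * (1 - η) = 1 - rho + δ := by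
          linarith only [ht]
        have h4 : (1 - 0.5512 / (n : ℝ)) * (1 - rho + δ) ≤ (1 - rho) * (1 - η) := by
          rw [hη', hδ]
          unfold rho
          have h5 : (1 - 51199 / 51200 : ℝ) * (1 - 1 / (2 * n)) -
              (1 - 0.5512 / (n : ℝ)) * (1 - 51199 / 51200 + 1 / (10 ^ 6 * n)) =
                0.5512 / (10 ^ 6 * n ^ 2) := by
            field_simp
            ring
          have h6 : (0 : ℝ) ≤ 0.5512 / (10 ^ 6 * n ^ 2) := by positivity
          linarith only [h5, h6]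
        rw [← h3] at h4
        have h7 : (1 - 0.5512 / (n : ℝ)) * (1 - t0) * (1 - η) ≤ (1 - rho) * (1 - η) := by
          rw [mul_assoc]; exact h4
        exact le_of_mul_le_mul_right h7 hη2
      have h8 : 1 / 2 * V ≤ vol (Cap z rho) :=
        le_trans (mul_le_mul_of_nonneg_right h2 hVpos.le) h1
      rw [inv_mul_eq_div, le_div_iff₀ hVpos]
      exact h8
    · have h1 := hU n hn1 e z t0 rho t0 rho he0 ht00 htr ht1 (by rw [he, mul_one])
        (by rw [hz, mul_one])
      rw [← hV] at h1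
      rw [inv_mul_eq_div, div_le_one hVpos]
      refine le_trans h1 ?_
      have h2 : Real.exp (-(((n : ℝ) - 1) * (rho ^ 2 - t0 ^ 2) / (2 * (1 - t0 ^ 2)))) ≤ 1 := by
        rw [Real.exp_le_one_iff]
        have h3 : 0 ≤ rho ^ 2 - t0 ^ 2 := by linarith only [mul_nonneg (sub_nonneg.2 htr) (sub_nonneg.2 ht00), mul_nonneg (sub_nonneg.2 htr) (sub_nonneg.2 htr)]
        have h4 : 0 < 1 - t0 ^ 2 := by nlinarith only [hρ1, h3, hρ0]
        have h5 : 0 ≤ (n : ℝ) - 1 := by linarith only [hn']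
        have : 0 ≤ ((n : ℝ) - 1) * (rho ^ 2 - t0 ^ 2) / (2 * (1 - t0 ^ 2)) := by (clear * - h5 h3 h4; positivity)
        linarith only [this]
      calc _ ≤ 1 * V := mul_le_mul_of_nonneg_right h2 hVpos.le
        _ = V := one_mul V
  · intro w hw
    rw [← hη] at hw
    rw [← hη, ← hδ]
    have h1 := hU n hn1 e w t0 (rho - η - δ) t0 t0 he0 ht00 le_rfl ht1 (by rw [he, mul_one])
      (by rw [← ht]; exact mul_le_mul_of_nonneg_left hw ht00)
    rw [← hV] at h1
    rw [inv_mul_eq_div, div_le_one hVpos]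
    refine le_trans h1 ?_
    simp

/-! ### The expected volume -/

theorem normV_vol_ball {n : ℕ} (hn : 1 ≤ n) :
    1 / 2 * vol (B n) ≤ vol {w : E n | ‖w‖ ≤ 1 - eta n} := by
  have hn' : (1 : ℝ) ≤ n := by exact_mod_cast hn
  have hn0 : (0 : ℝ) < n := by linarith only [hn']
  have hη1 : eta n ≤ 1 / 2 := by
    unfold eta
    rw [div_le_div_iff₀ (by positivity) (by norm_num)]
    linarith only [hn']
  have hη0 : 0 < eta n := by unfold eta; positivity
  have e1 : {w : E n | ‖w‖ ≤ 1 - eta n} = Metric.closedBall 0 (1 - eta n) := by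
    ext w; simp only [Set.mem_ofPred_eq, Metric.mem_closedBall, dist_zero_right]
  have e2 : B n = Metric.closedBall 0 1 := by
    ext w; simp only [B, Set.mem_ofPred_eq, Metric.mem_closedBall, dist_zero_right]
  unfold vol
  rw [e1, e2, Measure.addHaar_closedBall' volume (0 : E n) (by linarith only [hη1] : 0 ≤ 1 - eta n),
    ENNReal.toReal_mul, ENNReal.toReal_ofReal (pow_nonneg (by linarith only [hη1]) _),
    finrank_euclideanSpace_fin]
  have h1 : 1 / 2 ≤ (1 - eta n) ^ n := by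
    have h2 := one_add_mul_le_pow (a := -eta n) (by linarith only [hη1]) n
    have h3 : 1 + (n : ℝ) * -eta n = 1 / 2 := by
      unfold eta
      field_simp
      norm_num
    rw [h3] at h2
    rw [sub_eq_add_neg]
    exact h2
  exact mul_le_mul_of_nonneg_right h1 ENNReal.toReal_nonneg

theorem normV_meas {n : ℕ} {Zc : Finset (E n)} {ε : ℝ} {T : Type} [Fintype T]
    (a : Atoms n Zc ε T) (J : Finset T) : MeasurableSet (Stmt.body a J) := by
  have h : Stmt.body a J = {w | ‖w‖ ≤ 1 - eta n} ∩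
      ⋂ τ ∈ J, {w : E n | inner ℝ w (a.u τ) ≤ rho - eta n} := by
    ext w
    simp only [Stmt.body, Set.mem_ofPred_eq, Set.mem_inter_iff, Set.mem_iInter]
  rw [h]
  refine MeasurableSet.inter ?_ ?_
  · exact (isClosed_le continuous_norm continuous_const).measurableSet
  · refine Finset.measurableSet_biInter J ?_
    intro τ _
    exact (isClosed_le (continuous_id.inner continuous_const) continuous_const).measurableSet

theorem normV_fin {n : ℕ} {Zc : Finset (E n)} {ε : ℝ} {T : Type} [Fintype T]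
    (a : Atoms n Zc ε T) (J : Finset T) : volume (Stmt.body a J) ≠ ⊤ := by
  refine ne_top_of_le_ne_top
    (measure_closedBall_lt_top (x := (0 : E n)) (r := 1 - eta n)).ne (measure_mono ?_)
  intro u hu
  simpa only [Metric.mem_closedBall, dist_zero_right] using hu.1

theorem normV_point (hE : Stmt.PrEmpty) {n : ℕ} {N : ℝ} (hN : 0 < N) {Zc : Finset (E n)} {ε : ℝ}
    {T : Type} [Fintype T] [DecidableEq T] (a : Atoms n Zc ε T) (w : E n)
    (hw : ‖w‖ ≤ 1 - eta n) (hw1 : ‖w‖ ≤ 1) (h : N * vol (Cap w (rho - eta n - ε)) ≤ 1) :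
    Real.exp (-1) ≤
      ∑ J : Finset T, wt (pp N a) J * (Stmt.body a J).indicator (fun _ => (1 : ℝ)) w := by
  classical
  obtain ⟨R, hR⟩ : ∃ R : Finset T,
      R = Finset.univ.filter (fun τ => rho - eta n < inner ℝ w (a.u τ)) := ⟨_, rfl⟩
  have h1 : ∀ J : Finset T, w ∈ Stmt.body a J ↔ Disjoint J R := by
    intro J
    rw [Finset.disjoint_left]
    constructor
    · intro hJ τ hτ hτ2
      rw [hR, Finset.mem_filter] at hτ2
      exact absurd hτ2.2 (not_lt.2 (hJ.2 τ hτ))
    · intro hJ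
      refine ⟨hw, fun τ hτ => ?_⟩
      by_contra hc
      apply hJ hτ
      rw [hR, Finset.mem_filter]
      exact ⟨Finset.mem_univ _, not_le.1 hc⟩
  have h2 : ∑ J : Finset T, wt (pp N a) J * (Stmt.body a J).indicator (fun _ => (1 : ℝ)) w =
      Pr (pp N a) (fun J => Disjoint J R) := by
    unfold Pr
    refine Finset.sum_congr rfl fun J _ => ?_
    by_cases hJ : w ∈ Stmt.body a J
    · rw [Set.indicator_of_mem hJ, if_pos ((h1 J).1 hJ), mul_one]
    · rw [Set.indicator_of_notMem hJ, if_neg (fun hc => hJ ((h1 J).2 hc)), mul_zero]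
  rw [h2, hE T (pp N a) R]
  have h3 : ∏ τ ∈ R, (1 - pp N a τ) = Real.exp (-(N * ∑ τ ∈ R, a.m τ)) := by
    rw [Finset.mul_sum, ← Finset.sum_neg_distrib, Real.exp_sum]
    refine Finset.prod_congr rfl fun τ _ => ?_
    unfold pp
    ring
  rw [h3, Real.exp_le_exp]
  have h4 : ∑ τ ∈ R, a.m τ ≤ vol (Cap w (rho - eta n - ε)) := by
    have h5 := a.half w hw1 (rho - eta n)
    refine le_trans (le_of_eq ?_) h5
    rw [hR, Finset.sum_filter]
  have h6 : N * ∑ τ ∈ R, a.m τ ≤ N * vol (Cap w (rho - eta n - ε)) :=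
    mul_le_mul_of_nonneg_left h4 hN.le
  linarith only [h, h6]

theorem expVol (hE : Stmt.PrEmpty) : Stmt.ExpVol := by
  intro n hn N hN hw Zc T _ _ a
  have hn' : (2 : ℝ) ≤ n := by exact_mod_cast hn
  have hη0 : 0 < eta n := by unfold eta; positivity
  have hint : ∀ J : Finset T, Integrable ((Stmt.body a J).indicator (fun _ => (1 : ℝ))) := by
    intro J
    refine IntegrableOn.integrable_indicator ?_ (normV_meas a J)
    exact integrableOn_const (normV_fin a J)
  have h1 : ∀ J : Finset T, vol (Stmt.body a J) =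
      ∫ w, (Stmt.body a J).indicator (fun _ => (1 : ℝ)) w := by
    intro J
    rw [integral_indicator (normV_meas a J), setIntegral_const]
    simp only [vol, Measure.real, smul_eq_mul, mul_one]
  have h2 : ∑ J : Finset T, wt (pp N a) J * vol (Stmt.body a J) =
      ∫ w, ∑ J : Finset T, wt (pp N a) J * (Stmt.body a J).indicator (fun _ => (1 : ℝ)) w := by
    rw [integral_finsetSum _ (fun J _ => (hint J).const_mul _)]
    refine Finset.sum_congr rfl fun J _ => ?_
    rw [h1 J, integral_const_mul]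
  have hSm : MeasurableSet {w : E n | ‖w‖ ≤ 1 - eta n} :=
    (isClosed_le continuous_norm continuous_const).measurableSet
  have hSf : volume {w : E n | ‖w‖ ≤ 1 - eta n} ≠ ⊤ := by
    refine ne_top_of_le_ne_top
      (measure_closedBall_lt_top (x := (0 : E n)) (r := 1 - eta n)).ne (measure_mono ?_)
    intro u hu
    simpa only [Metric.mem_closedBall, dist_zero_right, Set.mem_ofPred_eq] using hu
  have h3 : ∫ w, {w : E n | ‖w‖ ≤ 1 - eta n}.indicator (fun _ => Real.exp (-1)) w ≤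
      ∫ w, ∑ J : Finset T, wt (pp N a) J * (Stmt.body a J).indicator (fun _ => (1 : ℝ)) w := by
    refine integral_mono ?_ ?_ ?_
    · exact (integrableOn_const hSf).integrable_indicator hSm
    · exact integrable_finsetSum _ (fun J _ => (hint J).const_mul _)
    · intro w
      by_cases hwS : ‖w‖ ≤ 1 - eta n
      · have hm : w ∈ {w : E n | ‖w‖ ≤ 1 - eta n} := hwS
        simp only [Set.indicator_of_mem hm]
        exact normV_point hE hN a w hwS (by linarith only [hη0, hwS]) (hw w hwS)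
      · have hm : w ∉ {w : E n | ‖w‖ ≤ 1 - eta n} := hwS
        simp only [Set.indicator_of_notMem hm]
        refine le_of_eq (Eq.symm (Finset.sum_eq_zero fun J _ => ?_))
        rw [Set.indicator_of_notMem (fun hc => hwS hc.1), mul_zero]
  rw [h2]
  refine le_trans ?_ h3
  rw [integral_indicator hSm, setIntegral_const]
  have h4 := normV_vol_ball (n := n) (by omega)
  have h5 : (volume.real {w : E n | ‖w‖ ≤ 1 - eta n}) = vol {w : E n | ‖w‖ ≤ 1 - eta n} := rfl
  rw [h5, smul_eq_mul]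
  have h6 := mul_le_mul_of_nonneg_right h4 (Real.exp_pos (-1)).le
  calc _ = 1 / 2 * vol (B n) * Real.exp (-1) := by ring
    _ ≤ _ := h6

end Vale.Agent.P230.LB
end
end

section

section

namespace Vale.Agent.P230

open MeasureTheory
open scoped Pointwise ENNReal

/-- The lattice covering density of a set `K` in Euclidean space: the infimum of
`vol K / det Λ` over all full-rank lattices `Λ` with `K + Λ` the whole space. -/
noncomputable def thetaL {n : ℕ} (K : Set (EuclideanSpace ℝ (Fin n))) : ℝ≥0∞ :=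
  ⨅ (Λ : Submodule ℤ (EuclideanSpace ℝ (Fin n))) (_ : DiscreteTopology Λ) (_ : IsZLattice ℝ Λ)
    (_ : K + (Λ : Set (EuclideanSpace ℝ (Fin n))) = Set.univ),
    volume K / ENNReal.ofReal (ZLattice.covolume Λ volume)

/-- `ThetaL n` is the supremum of the lattice covering densities of all convex bodies
(compact convex sets with nonempty interior) in dimension `n`. -/
noncomputable def ThetaL (n : ℕ) : ℝ≥0∞ :=
  ⨆ (K : Set (EuclideanSpace ℝ (Fin n))) (_ : IsCompact K) (_ : Convex ℝ K)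
    (_ : (interior K).Nonempty), thetaL K

end Vale.Agent.P230
end
end

section

section

section

namespace Vale.Agent.P230

/-- TASK K -/
theorem exists_kernel_matrix {ι : Type*} [Fintype ι] [DecidableEq ι] (p : ℕ) [Fact p.Prime]
    (h : ι → ZMod p) (hh : h ≠ 0) :
    ∃ A : Matrix ι ι ℤ, |A.det| = p ∧
      ∀ z : ι → ℤ, (∑ i, h i * (z i : ZMod p) = 0 ↔ ∃ w : ι → ℤ, z = A.mulVec w) := by
  classical
  obtain ⟨i0, hi0⟩ := Function.ne_iff.1 hh
  simp only [Pi.zero_apply] at hi0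
  set H : ι → ℤ := fun i => ((h i0)⁻¹ * h i).val with hH
  have hHc : ∀ i, ((H i : ℤ) : ZMod p) = (h i0)⁻¹ * h i := by
    intro i
    simp only [hH, ZMod.natCast_val, ZMod.intCast_cast, dvd_refl, ZMod.cast_mul, ZMod.cast_id', id_eq]
  set r : ι → ℤ := fun i => if i = i0 then (p : ℤ) else - H i with hr
  set A : Matrix ι ι ℤ := (1 : Matrix ι ι ℤ).updateRow i0 r with hA
  have hdet : A.det = p := by
    rw [hA, ← Matrix.cramer_transpose_apply, Matrix.transpose_one, Matrix.cramer_one]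
    simp [hr]
  have hmul_ne : ∀ (w : ι → ℤ) (i : ι), i ≠ i0 → A.mulVec w i = w i := by
    intro w i hi
    have : A i = (1 : Matrix ι ι ℤ) i := by
      rw [hA]
      exact Matrix.updateRow_ne hi
    rw [Matrix.mulVec, this]
    have h2 := congrFun (Matrix.one_mulVec w) i
    rw [Matrix.mulVec] at h2
    exact h2
  have hmul_eq : ∀ (w : ι → ℤ), A.mulVec w i0 = p * w i0 - ∑ i ∈ Finset.univ.erase i0, H i * w i := by
    intro w
    have : A i0 = r := by
      rw [hA]
      exact Matrix.updateRow_self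
    rw [Matrix.mulVec, this, dotProduct, ← Finset.add_sum_erase _ _ (Finset.mem_univ i0),
      sub_eq_add_neg, ← Finset.sum_neg_distrib]
    congr 1
    · simp [hr]
    · apply Finset.sum_congr rfl
      intro i hi
      have : i ≠ i0 := (Finset.mem_erase.1 hi).1
      simp [hr, this]
  have hkey : ∀ z : ι → ℤ, (∑ i, h i * (z i : ZMod p) = 0 ↔
      (p : ℤ) ∣ z i0 + ∑ i ∈ Finset.univ.erase i0, H i * z i) := by
    intro z
    rw [← ZMod.intCast_zmod_eq_zero_iff_dvd]
    push_cast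
    have e1 : ∑ i, h i * (z i : ZMod p)
        = h i0 * ((z i0 : ZMod p) + ∑ i ∈ Finset.univ.erase i0, ((H i : ℤ) : ZMod p) * (z i : ZMod p)) := by
      rw [← Finset.add_sum_erase _ _ (Finset.mem_univ i0), mul_add, Finset.mul_sum]
      congr 1
      apply Finset.sum_congr rfl
      intro i _
      rw [hHc i]
      (clear hh H hH hHc r hr A hA hdet hmul_ne hmul_eq; field_simp)
    rw [e1, mul_eq_zero]
    constructor
    · rintro (h0 | h0)
      · exact absurd h0 hi0
      · exact h0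
    · intro h0
      exact Or.inr h0
  refine ⟨A, by rw [hdet]; simp, ?_⟩
  intro z
  rw [hkey z]
  constructor
  · rintro ⟨m, hm⟩
    refine ⟨Function.update z i0 m, ?_⟩
    funext i
    by_cases hi : i = i0
    · subst hi
      rw [hmul_eq]
      have e2 : ∑ j ∈ Finset.univ.erase i, H j * Function.update z i m j
          = ∑ j ∈ Finset.univ.erase i, H j * z j := by
        apply Finset.sum_congr rfl
        intro j hj
        rw [Function.update_of_ne (Finset.mem_erase.1 hj).1]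
      rw [e2, Function.update_self]
      linarith only [hm]
    · rw [hmul_ne _ _ hi, Function.update_of_ne hi]
  · rintro ⟨w, hw⟩
    refine ⟨w i0, ?_⟩
    have e0 : z i0 = p * w i0 - ∑ i ∈ Finset.univ.erase i0, H i * w i := by
      rw [hw]; exact hmul_eq w
    have e1 : ∑ i ∈ Finset.univ.erase i0, H i * z i = ∑ i ∈ Finset.univ.erase i0, H i * w i := by
      apply Finset.sum_congr rfl
      intro i hi
      rw [hw, hmul_ne _ _ (Finset.mem_erase.1 hi).1]
    rw [e0, e1]
    ring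

end Vale.Agent.P230
end
end
end

section

section

/-!
# P230 / TL / Caps : spherical caps of the unit ball (helper602)

`cap z s = {u : ‖u‖ ≤ 1, s < ⟨z,u⟩}`; the volume depends only on `s/‖z‖`; the two comparison
inequalities (C2), (C3) of helper849's proof that `Θ_T(n) ≥ c n log n`.
-/

open MeasureTheory Set
open scoped ENNReal RealInnerProductSpace

namespace P230.TL

/-- Euclidean space -/
abbrev E (n : ℕ) := EuclideanSpace ℝ (Fin n)

/-- `{u : ‖u‖ ≤ 1, s < ⟨z,u⟩}` -/
def cap {n : ℕ} (z : E n) (s : ℝ) : Set (E n) := {u | ‖u‖ ≤ 1 ∧ s < inner ℝ z u}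

variable {n : ℕ}

theorem cap_subset_ball (z : E n) (s : ℝ) : cap z s ⊆ Metric.closedBall 0 1 := by
  intro u hu
  simpa only [Metric.mem_closedBall, dist_zero_right] using hu.1

theorem isOpen_half (z : E n) (s : ℝ) : IsOpen {u : E n | s < inner ℝ z u} := by
  have h : Continuous (fun u : E n => inner ℝ z u) := continuous_const.inner continuous_id
  exact isOpen_lt continuous_const h

theorem measurableSet_cap (z : E n) (s : ℝ) : MeasurableSet (cap z s) := by
  have h1 : MeasurableSet {u : E n | ‖u‖ ≤ 1} :=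
    (isClosed_le continuous_norm continuous_const).measurableSet
  exact h1.inter (isOpen_half z s).measurableSet

theorem volume_cap_ne_top (z : E n) (s : ℝ) : volume (cap z s) ≠ ∞ :=
  ((measure_mono (cap_subset_ball z s)).trans_lt measure_closedBall_lt_top).ne

theorem cap_mono (z : E n) {s s' : ℝ} (h : s ≤ s') : cap z s' ⊆ cap z s :=
  fun _ hu => ⟨hu.1, h.trans_lt hu.2⟩

theorem cap_smul (z : E n) (s : ℝ) {a : ℝ} (ha : 0 < a) : cap (a • z) (a * s) = cap z s := by
  ext u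
  simp only [cap, inner_smul_left, RCLike.conj_to_real, mem_ofPred_eq]
  refine and_congr_right fun _ => ?_
  exact ⟨fun h => lt_of_mul_lt_mul_left h ha.le, fun h => mul_lt_mul_of_pos_left h ha⟩

theorem cap_eq_normalize (z : E n) (s : ℝ) (hz : z ≠ 0) :
    cap z s = cap (‖z‖⁻¹ • z) (s / ‖z‖) := by
  have h := cap_smul z s (a := ‖z‖⁻¹) (inv_pos.mpr (norm_pos_iff.mpr hz))
  rw [div_eq_inv_mul, h]

/-- rotation invariance -/
theorem volume_cap_eq {z z' : E n} (h : ‖z‖ = ‖z'‖) (s : ℝ) :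
    volume (cap z s) = volume (cap z' s) := by
  set r := (ℝ ∙ (z - z'))ᗮ.reflection with hr
  have hrz : r z = z' := Submodule.reflection_sub h
  have him : cap z s = r ⁻¹' (cap z' s) := by
    ext u
    simp only [cap, mem_ofPred_eq, mem_preimage, LinearIsometryEquiv.norm_map]
    rw [← hrz, LinearIsometryEquiv.inner_map_map]
  rw [him]
  exact r.measurePreserving.measure_preimage (measurableSet_cap z' s).nullMeasurableSet

section base
variable [NeZero n]

/-- first basis vector -/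
noncomputable def e0 (n : ℕ) [NeZero n] : E n := EuclideanSpace.single 0 1

@[simp] theorem norm_e0 : ‖e0 n‖ = 1 := by simp [e0]

/-- cap volume function -/
noncomputable def capV (n : ℕ) [NeZero n] (t : ℝ) : ℝ := (volume (cap (e0 n) t)).toReal

theorem capV_nonneg (t : ℝ) : 0 ≤ capV n t := ENNReal.toReal_nonneg

theorem cap_vol (z : E n) (s : ℝ) (hz : z ≠ 0) :
    (volume (cap z s)).toReal = capV n (s / ‖z‖) := by
  rw [cap_eq_normalize z s hz, capV, volume_cap_eq (z := ‖z‖⁻¹ • z) (z' := e0 n)]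
  rw [norm_smul, norm_inv, norm_norm, norm_e0, inv_mul_cancel₀ (norm_ne_zero_iff.mpr hz)]

theorem capV_anti {t t' : ℝ} (h : t ≤ t') : capV n t' ≤ capV n t :=
  ENNReal.toReal_mono (volume_cap_ne_top _ _) (measure_mono (cap_mono _ h))

theorem capV_eq_zero {t : ℝ} (h : 1 ≤ t) : capV n t = 0 := by
  have : cap (e0 n) t = ∅ := by
    ext u
    simp only [cap, mem_ofPred_eq, mem_empty_iff_false, iff_false, not_and, not_lt]
    intro hu
    calc inner ℝ (e0 n) u ≤ ‖e0 n‖ * ‖u‖ := real_inner_le_norm _ _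
      _ ≤ 1 * 1 := by rw [norm_e0]; gcongr
      _ ≤ t := by linarith only [h]
  simp [capV, this]

/-- coordinatewise dilation `(1,k,…,k)` -/
noncomputable def dil (n : ℕ) [NeZero n] (k : ℝ) : E n →ₗ[ℝ] E n where
  toFun u := k • u + ((1 - k) * inner ℝ (e0 n) u) • e0 n
  map_add' u v := by
    rw [inner_add_right]
    module
  map_smul' c u := by
    rw [inner_smul_right]
    simp only [RingHom.id_apply]
    module

theorem dil_apply_coord (k : ℝ) (u : E n) (i : Fin n) :
    dil n k u i = (if i = 0 then 1 else k) * u i := by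
  simp only [dil, e0, EuclideanSpace.inner_single_left, map_one, one_mul, LinearMap.coe_mk, AddHom.coe_mk, PiLp.add_apply, PiLp.smul_apply, smul_eq_mul, PiLp.single_apply]
  split_ifs with h
  · rw [h]; ring
  · ring

theorem det_dil (k : ℝ) : LinearMap.det (dil n k) = k ^ (n - 1) := by
  have hM : LinearMap.toMatrix (EuclideanSpace.basisFun (Fin n) ℝ).toBasis
      (EuclideanSpace.basisFun (Fin n) ℝ).toBasis (dil n k)
      = Matrix.diagonal (fun i : Fin n => if i = 0 then (1 : ℝ) else k) := by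
    ext i j
    rw [LinearMap.toMatrix_apply]
    simp only [OrthonormalBasis.coe_toBasis, EuclideanSpace.basisFun_apply,
      OrthonormalBasis.coe_toBasis_repr_apply, EuclideanSpace.basisFun_repr]
    rw [dil_apply_coord, Matrix.diagonal_apply, PiLp.single_apply]
    split_ifs <;> simp_all
  rw [← LinearMap.det_toMatrix (EuclideanSpace.basisFun (Fin n) ℝ).toBasis, hM,
    Matrix.det_diagonal, Finset.prod_ite]
  simp only [Finset.prod_const_one, one_mul, Finset.prod_const]
  congr 1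
  rw [Finset.filter_ne', Finset.card_erase_of_mem (Finset.mem_univ _), Finset.card_univ,
    Fintype.card_fin]

/-- (C3) -/
theorem capV_C3 {t t' : ℝ} (ht : 0 ≤ t) (htt : t ≤ t') (ht' : t' < 1) :
    capV n t' ≤ (√((1 - t' ^ 2) / (1 - t ^ 2))) ^ (n - 1) * capV n t := by
  have a1 : 0 < 1 - t' ^ 2 := by nlinarith
  have a2 : 0 < 1 - t ^ 2 := by nlinarith only [htt, ht', ht]
  set k : ℝ := √((1 - t ^ 2) / (1 - t' ^ 2)) with hk
  have hk0 : 0 < k := Real.sqrt_pos.mpr (div_pos a2 a1)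
  have hk2 : k ^ 2 = (1 - t ^ 2) / (1 - t' ^ 2) := Real.sq_sqrt (div_pos a2 a1).le
  have hk2' : k ^ 2 * (1 - t' ^ 2) = 1 - t ^ 2 := by rw [hk2]; (clear * - a1 a2; field_simp)
  have hk1 : 1 ≤ k ^ 2 := by
    rw [hk2, le_div_iff₀ a1]; nlinarith only [ht, htt]
  have hsub : (fun x => x + (-(t' - t)) • e0 n) '' ((dil n k) '' cap (e0 n) t')
      ⊆ cap (e0 n) t := by
    rintro _ ⟨_, ⟨u, hu, rfl⟩, rfl⟩
    obtain ⟨hu1, hu2⟩ := hu
    set a := inner ℝ (e0 n) u with ha
    have hin : inner ℝ (e0 n) (dil n k u) = a := by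
      simp only [dil, LinearMap.coe_mk, AddHom.coe_mk, inner_add_right, inner_smul_right,
        real_inner_self_eq_norm_sq, norm_e0, ← ha]
      ring
    have ha1 : a ≤ 1 := by
      calc a ≤ ‖e0 n‖ * ‖u‖ := real_inner_le_norm _ _
        _ ≤ 1 * 1 := by rw [norm_e0]; (clear * - hu1; gcongr)
        _ = 1 := one_mul 1
    constructor
    · have hsq : ‖dil n k u + (-(t' - t)) • e0 n‖ ^ 2
          = k ^ 2 * (‖u‖ ^ 2 - a ^ 2) + (a - (t' - t)) ^ 2 := by
        rw [norm_add_sq_real, inner_smul_right, real_inner_comm (e0 n), hin, norm_smul, norm_e0]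
        have : ‖dil n k u‖ ^ 2 = k ^ 2 * ‖u‖ ^ 2 + (1 - k ^ 2) * a ^ 2 := by
          simp only [dil, LinearMap.coe_mk, AddHom.coe_mk]
          rw [norm_add_sq_real, norm_smul, norm_smul, norm_e0, inner_smul_left, inner_smul_right,
            real_inner_comm (e0 n) u, ← ha]
          simp only [Real.norm_eq_abs, mul_pow, sq_abs, RCLike.conj_to_real, mul_one]
          ring
        rw [this]
        simp only [Real.norm_eq_abs, mul_one, sq_abs]
        ring
      have hle : k ^ 2 * (‖u‖ ^ 2 - a ^ 2) + (a - (t' - t)) ^ 2 ≤ 1 := by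
        have h1 : ‖u‖ ^ 2 ≤ 1 := by
          have := norm_nonneg u
          nlinarith only [hu1, this]
        have h2 : k ^ 2 * (‖u‖ ^ 2 - a ^ 2) ≤ k ^ 2 * (1 - a ^ 2) := by
          apply mul_le_mul_of_nonneg_left _ (sq_nonneg k)
          linarith only [h1]
        have h3 : k ^ 2 * (1 - a ^ 2) = 1 - t ^ 2 - k ^ 2 * (a ^ 2 - t' ^ 2) := by
          linarith
        have h4 : 0 ≤ a ^ 2 - t' ^ 2 := by nlinarith only [ht, hu2, htt]
        have h5 : a ^ 2 - t' ^ 2 ≤ k ^ 2 * (a ^ 2 - t' ^ 2) := le_mul_of_one_le_left h4 hk1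
        nlinarith only [hk2', h2, h5, htt, hu2]
      have h6 : ‖dil n k u + (-(t' - t)) • e0 n‖ ^ 2 ≤ 1 ^ 2 := by rw [hsq]; linarith only [hle]
      exact le_of_sq_le_sq h6 zero_le_one
    · rw [inner_add_right, hin, inner_smul_right, real_inner_self_eq_norm_sq, norm_e0]
      linarith only [hu2]
  have hvol := measure_mono (μ := volume) hsub
  have himg : (fun x => x + (-(t' - t)) • e0 n) '' ((dil n k) '' cap (e0 n) t') =
      (fun x => x + (-((-(t' - t)) • e0 n))) ⁻¹' ((dil n k) '' cap (e0 n) t') := by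
    rw [image_add_right]
  rw [himg, measure_preimage_add_right, Measure.addHaar_image_linearMap, det_dil] at hvol
  have h4 := ENNReal.toReal_mono (volume_cap_ne_top _ _) hvol
  rw [ENNReal.toReal_mul, ENNReal.toReal_ofReal (abs_nonneg _), abs_of_pos (pow_pos hk0 _)] at h4
  change k ^ (n - 1) * capV n t' ≤ capV n t at h4
  have hinv : √((1 - t' ^ 2) / (1 - t ^ 2)) = k⁻¹ := by
    rw [hk, ← Real.sqrt_inv, inv_div]
  rw [hinv, inv_pow]
  rw [← div_eq_inv_mul, le_div_iff₀ (pow_pos hk0 _), mul_comm]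
  exact h4

/-! ### positivity -/

end base

/-! ### intersections -/

end P230.TL
end
end

section

section

section

/-!
# Choosing `g` one coordinate at a time (binary-cube point sets)
-/

namespace Vale.Agent.P230

open Finset

/-- target density after `m` constraints -/
noncomputable def treeD (c Mx : ℝ) (m : ℕ) : ℝ := if m = 0 then 1 else c ^ m / Mx

/-- average number of solutions -/
theorem sum_inter_card {p : ℕ} [NeZero p] (A B : Finset (ZMod p)) :
    ∑ x : ZMod p, (A.filter (fun u => u - x ∈ B)).card = A.card * B.card := by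
  simp_rw [card_filter]
  rw [sum_comm]
  have : ∀ u ∈ A, ∑ x : ZMod p, (if u - x ∈ B then 1 else 0) = B.card := by
    intro u _
    rw [← card_filter]
    refine card_bij (fun x _ => u - x) ?_ ?_ ?_
    · intro x hx
      exact (mem_filter.mp hx).2
    · intro x _ y _ h
      exact sub_right_injective h
    · intro b hb
      refine ⟨u - b, ?_, ?_⟩
      · simp only [mem_filter, mem_univ, sub_sub_cancel, hb, and_self]
      · simp
  rw [sum_congr rfl this, sum_const, smul_eq_mul]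

theorem tree_bad {p : ℕ} [NeZero p] {c Mx : ℝ} (hc : 0 ≤ c) (hMx : 0 < Mx)
    (A B : Finset (ZMod p)) (m₀ m₁ : ℕ) (hA : (A.card : ℝ) ≤ treeD c Mx m₀ * p)
    (hB : (B.card : ℝ) ≤ treeD c Mx m₁ * p) :
    ((univ.filter (fun x : ZMod p =>
      treeD c Mx (m₀ + m₁) * p < ((A.filter (fun u => u - x ∈ B)).card : ℝ))).card : ℝ) * Mx
      ≤ p := by
  have hp : (0 : ℝ) < p := by exact_mod_cast Nat.pos_of_ne_zero (NeZero.ne p)
  have hAx : ∀ x : ZMod p, ((A.filter (fun u => u - x ∈ B)).card : ℝ) ≤ A.card := fun x => by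
    exact_mod_cast card_filter_le _ _
  have hBx : ∀ x : ZMod p, ((A.filter (fun u => u - x ∈ B)).card : ℝ) ≤ B.card := fun x => by
    have : (A.filter (fun u => u - x ∈ B)).card ≤ B.card := by
      refine card_le_card_of_injOn (fun u => u - x) ?_ ?_
      · intro u hu
        exact (mem_filter.mp hu).2
      · intro u _ v _ h
        exact sub_left_injective h
    exact_mod_cast this
  have hempty : ∀ (_ : ∀ x : ZMod p, ((A.filter (fun u => u - x ∈ B)).card : ℝ) ≤
      treeD c Mx (m₀ + m₁) * p),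
      ((univ.filter (fun x : ZMod p =>
      treeD c Mx (m₀ + m₁) * p < ((A.filter (fun u => u - x ∈ B)).card : ℝ))).card : ℝ) * Mx
      ≤ p := by
    intro h
    have : univ.filter (fun x : ZMod p =>
      treeD c Mx (m₀ + m₁) * p < ((A.filter (fun u => u - x ∈ B)).card : ℝ)) = ∅ := by
      rw [filter_eq_empty_iff]
      intro x _
      exact not_lt.mpr (h x)
    rw [this]
    simp only [card_empty, CharP.cast_eq_zero, zero_mul, Nat.cast_nonneg]
  rcases Nat.eq_zero_or_pos m₀ with h0 | h0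
  · subst h0
    refine hempty fun x => ?_
    rw [Nat.zero_add]
    exact (hBx x).trans hB
  rcases Nat.eq_zero_or_pos m₁ with h1 | h1
  · subst h1
    refine hempty fun x => ?_
    rw [Nat.add_zero]
    exact (hAx x).trans hA
  have d0 : treeD c Mx m₀ = c ^ m₀ / Mx := by unfold treeD; rw [if_neg (by omega)]
  have d1 : treeD c Mx m₁ = c ^ m₁ / Mx := by unfold treeD; rw [if_neg (by omega)]
  have d2 : treeD c Mx (m₀ + m₁) = c ^ (m₀ + m₁) / Mx := by unfold treeD; rw [if_neg (by omega)]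
  rcases hc.eq_or_lt with hc0 | hcpos
  · refine hempty fun x => ?_
    have hA0 : (A.card : ℝ) ≤ 0 := by
      rw [d0, ← hc0, zero_pow (by omega)] at hA
      simpa only [Nat.cast_nonpos, card_eq_zero, zero_div, zero_mul] using hA
    have := hAx x
    rw [d2]
    have h2 : 0 ≤ c ^ (m₀ + m₁) / Mx * p := by (clear * - hc hMx hp; positivity)
    linarith only [hA0, this, h2]
  · set T := univ.filter (fun x : ZMod p =>
      treeD c Mx (m₀ + m₁) * p < ((A.filter (fun u => u - x ∈ B)).card : ℝ)) with hT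
    have h1 : (T.card : ℝ) * (treeD c Mx (m₀ + m₁) * p) ≤ A.card * B.card := by
      have e : ((A.card : ℝ) * B.card) =
          ∑ x : ZMod p, ((A.filter (fun u => u - x ∈ B)).card : ℝ) := by
        rw [← Nat.cast_mul, ← sum_inter_card, Nat.cast_sum]
      rw [e]
      calc (T.card : ℝ) * (treeD c Mx (m₀ + m₁) * p)
          = ∑ x ∈ T, treeD c Mx (m₀ + m₁) * p := by rw [sum_const, nsmul_eq_mul]
        _ ≤ ∑ x ∈ T, ((A.filter (fun u => u - x ∈ B)).card : ℝ) :=
            sum_le_sum fun x hx => (mem_filter.mp hx).2.le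
        _ ≤ _ := sum_le_sum_of_subset_of_nonneg (subset_univ _) fun _ _ _ => Nat.cast_nonneg _
    have h2 : (A.card : ℝ) * B.card ≤ (c ^ m₀ / Mx * p) * (c ^ m₁ / Mx * p) := by
      rw [d0] at hA
      rw [d1] at hB
      exact mul_le_mul hA hB (Nat.cast_nonneg _) (by (clear * - hcpos hMx hp; positivity))
    rw [d2] at h1
    have h3 : (T.card : ℝ) * (c ^ (m₀ + m₁) / Mx * p) ≤ (c ^ (m₀ + m₁) / Mx * p) * (p / Mx) := by
      refine (h1.trans h2).trans (le_of_eq ?_)
      rw [pow_add]; ring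
    have h4 : (T.card : ℝ) ≤ p / Mx := by
      have hpos : 0 < c ^ (m₀ + m₁) / Mx * p := by positivity
      rw [mul_comm] at h3
      exact le_of_mul_le_mul_left h3 hpos
    rwa [le_div_iff₀ hMx] at h4

theorem tree_ind {J : Type*} [Fintype J] (p : ℕ) [NeZero p] (c Mx : ℝ) (hc : 0 ≤ c) :
    ∀ t : ℕ, (Fintype.card J : ℝ) * 2 ^ t < Mx →
    ∀ (W : J → (Fin t → Bool) → Finset (ZMod p)) (μ : J → (Fin t → Bool) → ℕ),
      (∀ j ε, ((W j ε).card : ℝ) ≤ treeD c Mx (μ j ε) * p) →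
      ∃ g : Fin t → ZMod p, ∀ j, ((univ.filter (fun u : ZMod p =>
        ∀ ε, u - ∑ a, (if ε a = true then g a else 0) ∈ W j ε)).card : ℝ) ≤
          treeD c Mx (∑ ε, μ j ε) * p := by
  intro t
  induction t with
  | zero =>
    intro _ W μ hW
    refine ⟨fun a => a.elim0, fun j => ?_⟩
    have h1 : (univ.filter (fun u : ZMod p =>
        ∀ ε : Fin 0 → Bool, u - ∑ a, (if ε a = true then (fun a : Fin 0 => (a.elim0 : ZMod p)) a else 0)
          ∈ W j ε)) ⊆ W j default := by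
      intro u hu
      have := (mem_filter.mp hu).2 default
      simpa using this
    have h2 : ∑ ε : Fin 0 → Bool, μ j ε = μ j default :=
      Finset.sum_eq_single default (fun b _ hb => absurd (Subsingleton.elim b default) hb)
        (fun h => absurd (mem_univ _) h)
    rw [h2]
    refine le_trans ?_ (hW j default)
    exact_mod_cast card_le_card h1
  | succ t ih =>
    intro hMx W μ hW
    have hMx0 : 0 < Mx := lt_of_le_of_lt (by (clear * -; positivity)) hMx
    have hp : (0 : ℝ) < p := by exact_mod_cast Nat.pos_of_ne_zero (NeZero.ne p)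
    -- bad values of the first coordinate
    let bad : J × (Fin t → Bool) → Finset (ZMod p) := fun q =>
      univ.filter (fun x : ZMod p =>
        treeD c Mx (μ q.1 (Fin.cons false q.2) + μ q.1 (Fin.cons true q.2)) * p <
          (((W q.1 (Fin.cons false q.2)).filter (fun u => u - x ∈ W q.1 (Fin.cons true q.2))).card : ℝ))
    have hbad : ∀ q, ((bad q).card : ℝ) * Mx ≤ p := fun q =>
      tree_bad hc hMx0 _ _ _ _ (hW _ _) (hW _ _)
    have hlt : ((univ.biUnion bad).card : ℝ) < p := by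
      have h1 : ((univ.biUnion bad).card : ℝ) ≤ ∑ q, ((bad q).card : ℝ) := by
        exact_mod_cast card_biUnion_le
      have h2 : (∑ q, ((bad q).card : ℝ)) * Mx ≤ (Fintype.card J * 2 ^ t) * p := by
        rw [sum_mul]
        refine (sum_le_sum fun q _ => hbad q).trans (le_of_eq ?_)
        rw [sum_const, nsmul_eq_mul, card_univ, Fintype.card_prod, Fintype.card_fun,
          Fintype.card_bool, Fintype.card_fin]
        push_cast
        ring
      have h3 : ((Fintype.card J : ℝ) * 2 ^ t) * p < Mx * p := by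
        refine mul_lt_mul_of_pos_right (lt_of_le_of_lt ?_ hMx) hp
        rw [pow_succ]
        nlinarith only [(by (clear * -; positivity) : (0 : ℝ) ≤ Fintype.card J * 2 ^ t)]
      have h4 : (∑ q, ((bad q).card : ℝ)) * Mx < p * Mx := by
        rw [mul_comm (p : ℝ) Mx]
        exact h2.trans_lt h3
      exact h1.trans_lt (lt_of_mul_lt_mul_right h4 hMx0.le)
    obtain ⟨x, hx⟩ : ∃ x : ZMod p, x ∉ univ.biUnion bad := by
      by_contra hcon
      push Not at hcon
      have : (univ.biUnion bad) = univ := eq_univ_iff_forall.mpr hcon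
      rw [this, card_univ, ZMod.card] at hlt
      exact lt_irrefl _ hlt
    have hx' : ∀ j ε', (((W j (Fin.cons false ε')).filter
        (fun u => u - x ∈ W j (Fin.cons true ε'))).card : ℝ) ≤
        treeD c Mx (μ j (Fin.cons false ε') + μ j (Fin.cons true ε')) * p := by
      intro j ε'
      by_contra hcon
      exact hx (mem_biUnion.mpr ⟨(j, ε'), mem_univ _, mem_filter.mpr ⟨mem_univ _, not_le.mp hcon⟩⟩)
    have hMx' : (Fintype.card J : ℝ) * 2 ^ t < Mx := by
      refine lt_of_le_of_lt ?_ hMx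
      rw [pow_succ]
      nlinarith only [(by (clear * -; positivity) : (0 : ℝ) ≤ Fintype.card J * 2 ^ t)]
    obtain ⟨g, hg⟩ := ih hMx' (fun j ε' => (W j (Fin.cons false ε')).filter
        (fun u => u - x ∈ W j (Fin.cons true ε')))
      (fun j ε' => μ j (Fin.cons false ε') + μ j (Fin.cons true ε')) hx'
    refine ⟨Fin.cons x g, fun j => ?_⟩
    have e1 : ∑ ε : Fin (t + 1) → Bool, μ j ε =
        ∑ ε' : Fin t → Bool, (μ j (Fin.cons false ε') + μ j (Fin.cons true ε')) := by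
      rw [← (Fin.consEquiv (fun _ : Fin (t + 1) => Bool)).sum_comp, Fintype.sum_prod_type,
        Fintype.sum_bool, ← sum_add_distrib]
      refine sum_congr rfl fun ε' _ => ?_
      rw [add_comm]
      rfl
    rw [e1]
    refine le_trans ?_ (hg j)
    have hsub : (univ.filter (fun u : ZMod p =>
        ∀ ε : Fin (t + 1) → Bool, u - ∑ a, (if ε a = true then
          (Fin.cons x g : Fin (t + 1) → ZMod p) a else 0) ∈ W j ε)) ⊆
        univ.filter (fun u : ZMod p => ∀ ε' : Fin t → Bool,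
          u - ∑ a, (if ε' a = true then g a else 0) ∈ (W j (Fin.cons false ε')).filter
            (fun u => u - x ∈ W j (Fin.cons true ε'))) := by
      intro u hu
      have hu' := (mem_filter.mp hu).2
      refine mem_filter.mpr ⟨mem_univ _, fun ε' => mem_filter.mpr ⟨?_, ?_⟩⟩
      · have := hu' (Fin.cons false ε')
        rw [Fin.sum_univ_succ] at this
        simpa only [Fin.cons_zero, Bool.false_eq_true, ↓reduceIte, Fin.cons_succ, zero_add] using this
      · have := hu' (Fin.cons true ε')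
        rw [Fin.sum_univ_succ] at this
        simp only [Fin.cons_zero, if_true, Fin.cons_succ] at this
        have e : u - ∑ a, (if ε' a = true then g a else 0) - x =
            u - (x + ∑ a, (if ε' a = true then g a else 0)) := by ring
        rw [e]
        exact this
    exact_mod_cast card_le_card hsub

/-- choosing `g` one coordinate at a time -/
theorem exists_g_tree {t : ℕ} {J : Type*} [Fintype J] (p : ℕ) [Fact p.Prime]
    (z₀ : J → Fin t → ℤ) (P : J → Finset (Fin t → ℤ))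
    (hP : ∀ j, ∀ z ∈ P j, ∀ a, z a = z₀ j a ∨ z a = z₀ j a + 1) (m : ℕ) (hm : 1 ≤ m)
    (hcard : ∀ j, m ≤ (P j).card) (U : J → (Fin t → ℤ) → Finset (ZMod p)) (η : ℝ) (hη0 : 0 ≤ η)
    (hU : ∀ j, ∀ z ∈ P j, ((U j z).card : ℝ) ≤ η * p)
    (hη1 : 2 ^ (t + 1) * (Fintype.card J + 1) * η ≤ 1)
    (hη : (2 ^ (t + 1) * (Fintype.card J + 1) * η) ^ m * p < 1) :
    ∃ g : Fin t → ZMod p, ∀ j, ∀ u : ZMod p, ∃ z ∈ P j,
      u - ∑ a, g a * (z a : ZMod p) ∉ U j z := by
  classical
  have : NeZero p := ⟨(Fact.out : p.Prime).ne_zero⟩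
  have hp : (0 : ℝ) < p := by exact_mod_cast Nat.pos_of_ne_zero (NeZero.ne p)
  set Mx : ℝ := 2 ^ (t + 1) * (Fintype.card J + 1) with hMxd
  have hMx1 : 1 ≤ Mx := by
    rw [hMxd]
    have h1 : (1 : ℝ) ≤ 2 ^ (t + 1) := one_le_pow₀ (by norm_num)
    have h2 : (1 : ℝ) ≤ Fintype.card J + 1 := by
      have : (0 : ℝ) ≤ Fintype.card J := Nat.cast_nonneg _
      linarith only []
    calc (1 : ℝ) = 1 * 1 := by ring
      _ ≤ _ := mul_le_mul h1 h2 (by norm_num) (by positivity)
  have hMx0 : 0 < Mx := by linarith only [hMx1]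
  have hMx : (Fintype.card J : ℝ) * 2 ^ t < Mx := by
    rw [hMxd, pow_succ]
    have : (0 : ℝ) < 2 ^ t := by positivity
    nlinarith only [this]
  set c : ℝ := Mx * η with hc
  have hc0 : 0 ≤ c := by (clear * - hη0; positivity)
  -- points of the cube
  let pt : J → (Fin t → Bool) → (Fin t → ℤ) := fun j ε a => z₀ j a + if ε a = true then 1 else 0
  let W : J → (Fin t → Bool) → Finset (ZMod p) := fun j ε =>
    if pt j ε ∈ P j then U j (pt j ε) else univ
  let μ : J → (Fin t → Bool) → ℕ := fun j ε => if pt j ε ∈ P j then 1 else 0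
  have hW : ∀ j ε, ((W j ε).card : ℝ) ≤ treeD c Mx (μ j ε) * p := by
    intro j ε
    by_cases h : pt j ε ∈ P j
    · have e1 : W j ε = U j (pt j ε) := if_pos h
      have e2 : μ j ε = 1 := if_pos h
      rw [e1, e2]
      have e3 : treeD c Mx 1 = η := by
        unfold treeD
        rw [if_neg (by norm_num), hc]
        field_simp
      rw [e3]
      exact hU j _ h
    · have e1 : W j ε = univ := if_neg h
      have e2 : μ j ε = 0 := if_neg h
      rw [e1, e2]
      have e3 : treeD c Mx 0 = 1 := by simp [treeD]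
      rw [e3, card_univ, ZMod.card, one_mul]
  obtain ⟨g, hg⟩ := tree_ind p c Mx hc0 t hMx W μ hW
  refine ⟨g, fun j u => ?_⟩
  -- number of constraints
  have hμ : m ≤ ∑ ε, μ j ε := by
    refine (hcard j).trans ?_
    have e : ∑ ε, μ j ε = (univ.filter (fun ε => pt j ε ∈ P j)).card := by
      rw [card_filter]
    rw [e]
    have key : ∀ z ∈ P j, pt j (fun a => decide (z a = z₀ j a + 1)) = z := by
      intro z hz
      funext a
      show z₀ j a + (if decide (z a = z₀ j a + 1) = true then 1 else 0) = z a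
      rcases hP j z hz a with h | h
      · rw [if_neg]
        · rw [h]; ring
        · simp [h]
      · rw [if_pos]
        · exact h.symm
        · simp [h]
    refine card_le_card_of_injOn (fun z a => decide (z a = z₀ j a + 1)) ?_ ?_
    · intro z hz
      simp only [coe_filter, mem_univ, true_and, Set.mem_ofPred_eq]
      rw [key z hz]
      exact hz
    · intro z hz z' hz' h
      rw [← key z hz, ← key z' hz']
      simp only at h
      rw [h]
  -- the intersection is empty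
  have hempty : (univ.filter (fun u : ZMod p =>
        ∀ ε, u - ∑ a, (if ε a = true then g a else 0) ∈ W j ε)) = ∅ := by
    rw [← card_eq_zero]
    have h1 := hg j
    have h2 : treeD c Mx (∑ ε, μ j ε) * p < 1 := by
      unfold treeD
      rw [if_neg (by omega)]
      have hc1 : c ≤ 1 := hη1
      have h3 : c ^ (∑ ε, μ j ε) ≤ c ^ m := pow_le_pow_of_le_one hc0 hc1 hμ
      have h4 : c ^ (∑ ε, μ j ε) / Mx ≤ c ^ m := by
        rw [div_le_iff₀ hMx0]
        have : c ^ m ≤ c ^ m * Mx := le_mul_of_one_le_right (by (clear * - hη0; positivity)) hMx1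
        linarith only [this, h3]
      exact lt_of_le_of_lt (mul_le_mul_of_nonneg_right h4 hp.le) hη
    have h5 : ((univ.filter (fun u : ZMod p =>
        ∀ ε, u - ∑ a, (if ε a = true then g a else 0) ∈ W j ε)).card : ℝ) < 1 := h1.trans_lt h2
    have h6 : (univ.filter (fun u : ZMod p =>
        ∀ ε, u - ∑ a, (if ε a = true then g a else 0) ∈ W j ε)).card < 1 := by exact_mod_cast h5
    omega
  by_contra hcon
  push Not at hcon
  have hmem : u - ∑ a, g a * (z₀ j a : ZMod p) ∈ (univ.filter (fun u : ZMod p =>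
        ∀ ε, u - ∑ a, (if ε a = true then g a else 0) ∈ W j ε)) := by
    refine mem_filter.mpr ⟨mem_univ _, fun ε => ?_⟩
    by_cases h : pt j ε ∈ P j
    · have e1 : W j ε = U j (pt j ε) := if_pos h
      rw [e1]
      have := hcon (pt j ε) h
      have e2 : ∑ a, g a * ((pt j ε a : ℤ) : ZMod p) =
          ∑ a, g a * (z₀ j a : ZMod p) + ∑ a, (if ε a = true then g a else 0) := by
        rw [← sum_add_distrib]
        refine sum_congr rfl fun a _ => ?_
        show g a * ((z₀ j a + (if ε a = true then 1 else 0) : ℤ) : ZMod p) = _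
        split_ifs <;> push_cast <;> ring
      rw [e2] at this
      rwa [sub_sub]
    · have e1 : W j ε = univ := if_neg h
      rw [e1]
      exact mem_univ _
  rw [hempty] at hmem
  exact notMem_empty _ hmem

end Vale.Agent.P230
end
end
end

section

section

section

/-!
# Position with identity second-moment matrix
-/

open MeasureTheory Set
open scoped ENNReal

namespace Vale.Agent.P230

namespace Iso

variable {n : ℕ}

theorem quad_pos {K : Set (Fin n → ℝ)} (hk : IsCompact K) (hi : (interior K).Nonempty)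
    {θ : Fin n → ℝ} (hθ : θ ≠ 0) : 0 < ∫ y in K, (∑ i, θ i * y i) ^ 2 := by
  have hcont : Continuous fun y : Fin n → ℝ => (∑ i, θ i * y i) ^ 2 := by fun_prop
  rw [setIntegral_pos_iff_support_of_nonneg_ae
    (Filter.Eventually.of_forall fun y => sq_nonneg _) (hcont.continuousOn.integrableOn_compact hk)]
  have hopen : IsOpen ({y : Fin n → ℝ | ∑ i, θ i * y i ≠ 0} ∩ interior K) := by
    refine IsOpen.inter ?_ isOpen_interior
    exact isOpen_ne_fun (by fun_prop) continuous_const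
  have hsub : {y : Fin n → ℝ | ∑ i, θ i * y i ≠ 0} ∩ interior K ⊆
      (Function.support fun y : Fin n → ℝ => (∑ i, θ i * y i) ^ 2) ∩ K := by
    rintro y ⟨h1, h2⟩
    refine ⟨?_, interior_subset h2⟩
    rw [Function.mem_support]
    exact pow_ne_zero 2 h1
  refine lt_of_lt_of_le (hopen.measure_pos volume ?_) (measure_mono hsub)
  obtain ⟨y₀, hy₀⟩ := hi
  by_cases h : ∑ i, θ i * y₀ i = 0
  · -- move in the direction θ
    have hc : Continuous fun s : ℝ => y₀ + s • θ := by fun_prop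
    have hnh : (fun s : ℝ => y₀ + s • θ) ⁻¹' interior K ∈ nhds (0 : ℝ) := by
      refine hc.continuousAt.preimage_mem_nhds ?_
      simp only [zero_smul, add_zero]
      exact isOpen_interior.mem_nhds hy₀
    obtain ⟨ε, hε, hball⟩ := Metric.mem_nhds_iff.1 hnh
    have hmem : y₀ + (ε / 2) • θ ∈ interior K := by
      have : (ε / 2) ∈ Metric.ball (0 : ℝ) ε := by
        rw [Metric.mem_ball, dist_zero_right, Real.norm_eq_abs, abs_of_pos (by linarith)]
        linarith only [hε]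
      exact hball this
    refine ⟨_, ?_, hmem⟩
    have e : ∑ i, θ i * (y₀ + (ε / 2) • θ) i = ε / 2 * ∑ i, θ i ^ 2 := by
      have : ∑ i, θ i * (y₀ + (ε / 2) • θ) i = ∑ i, θ i * y₀ i + ε / 2 * ∑ i, θ i ^ 2 := by
        rw [Finset.mul_sum, ← Finset.sum_add_distrib]
        refine Finset.sum_congr rfl fun i _ => ?_
        simp only [Pi.add_apply, Pi.smul_apply, smul_eq_mul]; ring
      rw [this, h, zero_add]
    rw [mem_ofPred_eq, e]
    have hpos : 0 < ∑ i, θ i ^ 2 := by
      obtain ⟨i, hi⟩ := Function.ne_iff.1 hθ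
      exact Finset.sum_pos' (fun i _ => sq_nonneg _) ⟨i, Finset.mem_univ i, by
        have : θ i ≠ 0 := hi
        (clear * - this; positivity)⟩
    (clear * - hε hpos; positivity)
  · exact ⟨y₀, h, hy₀⟩

/-- second-moment matrix -/
noncomputable def mom (K : Set (Fin n → ℝ)) : Matrix (Fin n) (Fin n) ℝ :=
  Matrix.of fun i j => ∫ x in K, x i * x j

theorem int_mul {K : Set (Fin n → ℝ)} (hk : IsCompact K) (i j : Fin n) :
    IntegrableOn (fun x : Fin n → ℝ => x i * x j) K :=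
  (Continuous.continuousOn (by fun_prop)).integrableOn_compact hk

theorem posDef_mom {K : Set (Fin n → ℝ)} (hk : IsCompact K) (hi : (interior K).Nonempty) :
    (mom K).PosDef := by
  refine Matrix.PosDef.of_dotProduct_mulVec_pos ?_ ?_
  · ext i j
    simp only [mom, Matrix.conjTranspose_apply, Matrix.of_apply, star_trivial]
    exact integral_congr_ae (Filter.Eventually.of_forall fun x => mul_comm _ _)
  · intro θ hθ
    have e : star θ ⬝ᵥ (mom K).mulVec θ = ∫ y in K, (∑ i, θ i * y i) ^ 2 := by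
      have e1 : ∀ y : Fin n → ℝ, (∑ i, θ i * y i) ^ 2 =
          ∑ i, ∑ j, θ i * θ j * (y i * y j) := by
        intro y
        rw [sq, Finset.sum_mul_sum]
        exact Finset.sum_congr rfl fun i _ => Finset.sum_congr rfl fun j _ => by ring
      simp only [e1]
      rw [integral_finsetSum _ fun i _ => integrable_finsetSum _ fun j _ =>
        (int_mul hk i j).const_mul _]
      simp only [dotProduct, Matrix.mulVec, star_trivial, mom, Matrix.of_apply]
      refine Finset.sum_congr rfl fun i _ => ?_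
      rw [integral_finsetSum _ fun j _ => (int_mul hk i j).const_mul _, Finset.mul_sum]
      refine Finset.sum_congr rfl fun j _ => ?_
      rw [integral_const_mul]
      ring
    rw [e]
    exact quad_pos hk hi hθ

end Iso

open scoped MatrixOrder in
theorem Iso.exists_factor {n : ℕ} {M : Matrix (Fin n) (Fin n) ℝ} (h : M.PosSemidef) :
    ∃ B : Matrix (Fin n) (Fin n) ℝ, M = B.transpose * B := by
  obtain ⟨B, hB⟩ := CStarAlgebra.nonneg_iff_eq_star_mul_self.mp h.nonneg
  refine ⟨B, hB.trans ?_⟩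
  rfl

open Iso

/-- TASK V1: position with identity second-moment matrix -/
theorem exists_isotropic {n : ℕ} (K : Set (Fin n → ℝ)) (_hc : Convex ℝ K) (hk : IsCompact K)
    (hi : (interior K).Nonempty) :
    ∃ A : Matrix (Fin n) (Fin n) ℝ, A.det ≠ 0 ∧ ∀ i j,
      ∫ x in {x : Fin n → ℝ | A.mulVec x ∈ K}, x i * x j =
        if i = j then (volume {x : Fin n → ℝ | A.mulVec x ∈ K}).toReal else 0 := by
  set V := (volume K).toReal with hV
  have hVpos : 0 < V :=
    ENNReal.toReal_pos (Measure.measure_pos_of_nonempty_interior volume hi).ne' hk.measure_lt_top.ne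
  have hpd := posDef_mom hk hi
  obtain ⟨B, hB⟩ := exists_factor hpd.posSemidef
  have hdetB : B.det ≠ 0 := by
    intro h
    have h1 := hpd.det_pos
    rw [hB, Matrix.det_mul, h, mul_zero] at h1
    exact lt_irrefl _ h1
  -- rescale
  set r := Real.sqrt V with hr
  have hrpos : 0 < r := Real.sqrt_pos.2 hVpos
  have hr2 : r * r = V := Real.mul_self_sqrt hVpos.le
  set A : Matrix (Fin n) (Fin n) ℝ := r⁻¹ • B.transpose with hA
  have hdetA : A.det ≠ 0 := by
    rw [hA, Matrix.det_smul, Matrix.det_transpose]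
    exact mul_ne_zero (pow_ne_zero _ (inv_ne_zero hrpos.ne')) hdetB
  have hAM : V • (A * A.transpose) = mom K := by
    rw [hA, hB, Matrix.transpose_smul, Matrix.transpose_transpose, Matrix.smul_mul, Matrix.mul_smul,
      smul_smul, smul_smul]
    have : V * r⁻¹ * r⁻¹ = 1 := by rw [← hr2]; (clear * - hrpos; field_simp)
    rw [this, one_smul]
  have hAu : IsUnit A.det := isUnit_iff_ne_zero.2 hdetA
  refine ⟨A, hdetA, fun i j => ?_⟩
  -- change of variables
  have hmap := Real.map_matrix_volume_pi_eq_smul_volume_pi hdetA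
  have hemb : MeasurableEmbedding (Matrix.toLin' A) := by
    have hcont : Continuous (Matrix.toLin' A) := LinearMap.continuous_of_finiteDimensional _
    refine hcont.measurableEmbedding ?_
    intro x y hxy
    have h1 : A.mulVec x = A.mulVec y := hxy
    have h2 := congrArg (A⁻¹.mulVec) h1
    rwa [Matrix.mulVec_mulVec, Matrix.mulVec_mulVec, Matrix.nonsing_inv_mul _ hAu, Matrix.one_mulVec,
      Matrix.one_mulVec] at h2
  have hpre : {x : Fin n → ℝ | A.mulVec x ∈ K} = Matrix.toLin' A ⁻¹' K := rfl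
  set d := |(A.det)⁻¹| with hd
  have hd0 : 0 ≤ d := abs_nonneg _
  have hcv : ∀ g : (Fin n → ℝ) → ℝ, ∫ x in {x : Fin n → ℝ | A.mulVec x ∈ K}, g (A.mulVec x) =
      d * ∫ y in K, g y := by
    intro g
    have h1 := hemb.setIntegral_map (μ := volume) g K
    rw [hmap, Measure.restrict_smul, integral_smul_measure, ENNReal.toReal_ofReal hd0] at h1
    rw [hpre]
    exact h1.symm
  have hvol : (volume {x : Fin n → ℝ | A.mulVec x ∈ K}).toReal = d * V := by
    have h1 := hcv (fun _ => 1)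
    simp only [setIntegral_const, smul_eq_mul, mul_one] at h1
    exact h1
  rw [hvol]
  have hL : ∫ x in {x : Fin n → ℝ | A.mulVec x ∈ K}, x i * x j =
      ∫ x in {x : Fin n → ℝ | A.mulVec x ∈ K},
        (fun y => A⁻¹.mulVec y i * A⁻¹.mulVec y j) (A.mulVec x) := by
    refine integral_congr_ae (Filter.Eventually.of_forall fun x => ?_)
    simp only [Matrix.mulVec_mulVec, Matrix.nonsing_inv_mul _ hAu, Matrix.one_mulVec]
  rw [hL, hcv (fun y => A⁻¹.mulVec y i * A⁻¹.mulVec y j)]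
  have hexp : ∫ y in K, A⁻¹.mulVec y i * A⁻¹.mulVec y j =
      (A⁻¹ * mom K * A⁻¹.transpose) i j := by
    have e1 : ∀ y : Fin n → ℝ, A⁻¹.mulVec y i * A⁻¹.mulVec y j =
        ∑ l, ∑ k, A⁻¹ i k * A⁻¹ j l * (y k * y l) := by
      intro y
      simp only [Matrix.mulVec, dotProduct]
      rw [Finset.sum_mul_sum, Finset.sum_comm]
      exact Finset.sum_congr rfl fun l _ => Finset.sum_congr rfl fun k _ => by ring
    simp only [e1]
    rw [integral_finsetSum _ fun l _ => integrable_finsetSum _ fun k _ =>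
      (int_mul hk k l).const_mul _, Matrix.mul_apply]
    refine Finset.sum_congr rfl fun l _ => ?_
    rw [integral_finsetSum _ fun k _ => (int_mul hk k l).const_mul _, Matrix.mul_apply,
      Finset.sum_mul]
    refine Finset.sum_congr rfl fun k _ => ?_
    rw [integral_const_mul, Matrix.transpose_apply]
    simp only [mom, Matrix.of_apply]
    ring
  rw [hexp, ← hAM, Matrix.mul_smul, Matrix.smul_mul]
  have e2 : A⁻¹ * (A * A.transpose) * A⁻¹.transpose = 1 := by
    rw [← Matrix.mul_assoc, Matrix.nonsing_inv_mul _ hAu, Matrix.one_mul, ← Matrix.transpose_mul,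
      Matrix.nonsing_inv_mul _ hAu, Matrix.transpose_one]
  rw [e2, Matrix.smul_apply, Matrix.one_apply, smul_eq_mul]
  split_ifs <;> ring

end Vale.Agent.P230
end
end
end

section

section

/-!
P230-LB01: upper bounds for volumes of caps (C3).
-/

namespace Vale.Agent.P230.LB

open MeasureTheory
open scoped Pointwise

/-- the volume of a cap in terms of the one-variable function of `TL/Caps` -/
theorem vol_Cap_eq {n : ℕ} [NeZero n] (z : E n) (s : ℝ) (hz : z ≠ 0) :
    vol (Cap z s) = P230.TL.capV n (s / ‖z‖) := P230.TL.cap_vol z s hz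

theorem capUpper_exp {n : ℕ} (hn : 1 ≤ n) {t t' : ℝ} (ht : 0 ≤ t) (ht1 : t < 1) :
    √((1 - t' ^ 2) / (1 - t ^ 2)) ^ (n - 1) ≤
      Real.exp (-(((n : ℝ) - 1) * (t' ^ 2 - t ^ 2) / (2 * (1 - t ^ 2)))) := by
  have h0 : 0 < 1 - t ^ 2 := by nlinarith only [ht1, ht]
  set x : ℝ := (t' ^ 2 - t ^ 2) / (1 - t ^ 2) with hx
  have h1 : (1 - t' ^ 2) / (1 - t ^ 2) = 1 - x := by
    rw [hx, eq_sub_iff_add_eq, ← add_div, div_eq_one_iff_eq h0.ne']
    ring
  have h2 : -(((n : ℝ) - 1) * (t' ^ 2 - t ^ 2) / (2 * (1 - t ^ 2))) =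
      ((n - 1 : ℕ) : ℝ) * (-(x / 2)) := by
    rw [Nat.cast_sub hn, Nat.cast_one, hx]
    field_simp
  rw [h1, h2, Real.exp_nat_mul]
  refine pow_le_pow_left₀ (Real.sqrt_nonneg _) ?_ _
  rw [Real.sqrt_le_left (Real.exp_pos _).le, ← Real.exp_nat_mul]
  have h3 := Real.add_one_le_exp (-x)
  have h4 : ((2 : ℕ) : ℝ) * -(x / 2) = -x := by push_cast; ring
  rw [h4]
  linarith only [h3]

theorem capUpper : Stmt.CapUpper := by
  intro n hn z z' s s' t t' hz ht htt ht1 hs hs'
  have : NeZero n := ⟨by omega⟩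
  have hnn : 0 ≤ vol (Cap z s) := ENNReal.toReal_nonneg
  have hexp := Real.exp_pos (-(((n : ℝ) - 1) * (t' ^ 2 - t ^ 2) / (2 * (1 - t ^ 2))))
  have hzn : 0 < ‖z‖ := norm_pos_iff.2 hz
  by_cases hz' : z' = 0
  · have h1 : Cap z' s' = ∅ := by
      ext u
      refine ⟨fun hu => ?_, fun hu => hu.elim⟩
      have h2 : s' < inner ℝ z' u := hu.2
      rw [hz', norm_zero, mul_zero] at hs'
      rw [hz', inner_zero_left] at h2
      (clear * - hs' h2; linarith)
    have h2 : vol (Cap z' s') = 0 := by rw [h1]; simp [vol]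
    rw [h2]
    (clear * - hnn; positivity)
  have hzn' : 0 < ‖z'‖ := norm_pos_iff.2 hz'
  rw [vol_Cap_eq z s hz, vol_Cap_eq z' s' hz'] at *
  have h1 : P230.TL.capV n t ≤ P230.TL.capV n (s / ‖z‖) :=
    P230.TL.capV_anti (by rw [div_le_iff₀ hzn]; exact hs)
  have h2 : P230.TL.capV n (s' / ‖z'‖) ≤ P230.TL.capV n t' :=
    P230.TL.capV_anti (by rw [le_div_iff₀ hzn']; exact hs')
  refine h2.trans (le_trans ?_ (mul_le_mul_of_nonneg_left h1 hexp.le))
  rcases lt_or_ge t' 1 with ht' | ht'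
  · exact (P230.TL.capV_C3 ht htt ht').trans
      (mul_le_mul_of_nonneg_right (capUpper_exp hn ht ht1) (P230.TL.capV_nonneg _))
  · rw [P230.TL.capV_eq_zero ht']
    exact mul_nonneg hexp.le (P230.TL.capV_nonneg _)

end Vale.Agent.P230.LB
end
end

section

section

/-!
# Facets: two cuts, no double cut of far points, one cut
-/

namespace Vale.Agent.P230.LB

open MeasureTheory

theorem facet_unit {n : ℕ} (hn : 1 ≤ n) : ∃ e : E n, ‖e‖ = 1 :=
  ⟨EuclideanSpace.single ⟨0, hn⟩ 1, by simp⟩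

theorem facet_vol_mono {n : ℕ} {s t : Set (E n)} (h : s ⊆ t) (ht : ∀ u ∈ t, ‖u‖ ≤ 1) :
    vol s ≤ vol t := by
  unfold vol
  refine ENNReal.toReal_mono ?_ (measure_mono h)
  have h1 : t ⊆ Metric.closedBall (0 : E n) 1 := fun u hu => by
    simpa only [Metric.mem_closedBall, dist_zero_right] using ht u hu
  exact ((measure_mono h1).trans_lt measure_closedBall_lt_top).ne

theorem facet_mid_norm {n : ℕ} {z z' : E n} (hz : ‖z‖ ≤ 1) (hz' : ‖z'‖ ≤ 1) :
    ‖(1 / 2 : ℝ) • (z + z')‖ ^ 2 ≤ 1 - ‖z - z'‖ ^ 2 / 4 := by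
  have h := parallelogram_law_with_norm ℝ z z'
  have h1 : ‖z‖ * ‖z‖ ≤ 1 := by (clear * - hz; linarith [mul_nonneg (sub_nonneg.2 hz) (sub_nonneg.2 (norm_nonneg z)), mul_nonneg (sub_nonneg.2 hz) (sub_nonneg.2 hz)])
  have h2 : ‖z'‖ * ‖z'‖ ≤ 1 := by linarith only [mul_nonneg (sub_nonneg.2 hz') (sub_nonneg.2 (norm_nonneg z')), mul_nonneg (sub_nonneg.2 hz') (sub_nonneg.2 hz')]
  rw [norm_smul, mul_pow]
  have h3 : ‖(1 / 2 : ℝ)‖ ^ 2 = 1 / 4 := by norm_num
  rw [h3]
  linarith only [h2, h1, h]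

theorem facet_mid_inner {n : ℕ} {z z' u : E n} {s : ℝ} (h : s < inner ℝ z u)
    (h' : s < inner ℝ z' u) : s < inner ℝ ((1 / 2 : ℝ) • (z + z')) u := by
  rw [inner_smul_left, inner_add_left]
  simp only [conj_trivial]
  linarith only [h, h']

theorem zeroCut : Stmt.ZeroCut := by
  intro n z z' hz hz' hd u hu h
  have h1 := facet_mid_inner h.1 h.2
  have h2 := real_inner_le_norm ((1 / 2 : ℝ) • (z + z')) u
  have h3 := facet_mid_norm hz hz'
  have h4 : ‖(1 / 2 : ℝ) • (z + z')‖ * ‖u‖ ≤ ‖(1 / 2 : ℝ) • (z + z')‖ :=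
    mul_le_of_le_one_right (norm_nonneg _) hu
  have h5 : rho < ‖(1 / 2 : ℝ) • (z + z')‖ := by linarith only [h1, h2, h4]
  have h6 : (0 : ℝ) ≤ rho := by unfold rho; norm_num
  have h7 : rho ^ 2 < ‖(1 / 2 : ℝ) • (z + z')‖ ^ 2 := pow_lt_pow_left₀ h5 h6 two_ne_zero
  have h8 : (1 / 80 : ℝ) ^ 2 ≤ ‖z - z'‖ ^ 2 := pow_le_pow_left₀ (by norm_num) hd 2
  have h9 : (1 : ℝ) - 1 / 25600 < rho ^ 2 := by unfold rho; norm_num
  have h10 : (1 / 80 : ℝ) ^ 2 / 4 = 1 / 25600 := by norm_num
  linarith only [h9, h8, h7, h3]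

/-- scalar estimate for `twoCut` -/
theorem facet_two_scalar {n : ℕ} (hn : 2 ≤ n) {a d : ℝ} (ha : 0 < a) (ha1 : a ^ 2 ≤ 1 - d ^ 2 / 4) :
    1000 * n * d ^ 2 ≤ ((n : ℝ) - 1) * ((rho / a) ^ 2 - rho ^ 2) / (2 * (1 - rho ^ 2)) := by
  have hn' : (2 : ℝ) ≤ n := by exact_mod_cast hn
  have hr : (0 : ℝ) < 2 * (1 - rho ^ 2) := by unfold rho; norm_num
  rw [le_div_iff₀ hr]
  have hr2 : 2 * (1 - rho ^ 2) ≤ 1 / 12800 := by unfold rho; norm_num
  have hr3 : (9 / 10 : ℝ) ≤ rho ^ 2 := by unfold rho; norm_num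
  have ha2 : 0 < a ^ 2 := pow_pos ha 2
  have e1 : (rho / a) ^ 2 - rho ^ 2 = rho ^ 2 * (1 / a ^ 2 - 1) := by
    rw [div_pow]; ring
  have h1 : d ^ 2 / 4 ≤ 1 / a ^ 2 - 1 := by
    have h2 : 1 - a ^ 2 ≤ 1 / a ^ 2 - 1 := by
      rw [le_sub_iff_add_le, le_div_iff₀ ha2]
      linarith only [sq_nonneg (1 - a ^ 2)]
    linarith only [h2, ha1]
  have hd : 0 ≤ d ^ 2 := sq_nonneg d
  have h3 : 9 / 10 * (d ^ 2 / 4) ≤ rho ^ 2 * (1 / a ^ 2 - 1) := by
    refine mul_le_mul hr3 h1 (by linarith only [hd]) (by linarith only [hr2])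
  rw [e1]
  calc 1000 * n * d ^ 2 * (2 * (1 - rho ^ 2)) ≤ 1000 * n * d ^ 2 * (1 / 12800) :=
        mul_le_mul_of_nonneg_left hr2 (by (clear * - hn; positivity))
    _ ≤ ((n : ℝ) / 2) * (9 / 10 * (d ^ 2 / 4)) := by
        have : 0 ≤ (n : ℝ) * d ^ 2 := by (clear * - hn; positivity)
        linarith only [this]
    _ ≤ ((n : ℝ) - 1) * (rho ^ 2 * (1 / a ^ 2 - 1)) :=
        mul_le_mul (by linarith only [hn']) h3 (by linarith only [hd]) (by linarith only [hn'])

theorem twoCut (h : Stmt.CapUpper) : Stmt.TwoCut := by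
  intro n hn N hN z z' hz hz'
  obtain ⟨e, he⟩ := facet_unit (n := n) (by omega)
  obtain ⟨m, hm⟩ : ∃ m, m = (1 / 2 : ℝ) • (z + z') := ⟨_, rfl⟩
  have hmn : ‖m‖ ^ 2 ≤ 1 - ‖z - z'‖ ^ 2 / 4 := hm ▸ facet_mid_norm hz hz'
  have hsub : {u : E n | ‖u‖ ≤ 1 ∧ rho < inner ℝ z u ∧ rho < inner ℝ z' u} ⊆ Cap m rho := by
    rintro u ⟨h1, h2, h3⟩
    exact ⟨h1, hm ▸ facet_mid_inner h2 h3⟩
  have h1 := facet_vol_mono hsub (fun u hu => hu.1)
  have h2 : N * vol {u : E n | ‖u‖ ≤ 1 ∧ rho < inner ℝ z u ∧ rho < inner ℝ z' u} ≤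
      N * vol (Cap m rho) := mul_le_mul_of_nonneg_left h1 hN.1.le
  refine h2.trans ?_
  have hr0 : (0 : ℝ) < rho := by unfold rho; norm_num
  have hr1 : rho < 1 := by unfold rho; norm_num
  rcases eq_or_ne m 0 with h0 | h0
  · have : Cap m rho = ∅ := by
      rw [h0]
      ext u
      simp only [Cap, inner_zero_left, Set.mem_ofPred_eq, Set.mem_empty_iff_false, iff_false, not_and, not_lt]
      exact fun _ => hr0.le
    rw [this]
    simp only [vol, measure_empty, ENNReal.toReal_zero, mul_zero]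
    positivity
  · have hm0 : 0 < ‖m‖ := norm_pos_iff.2 h0
    have hm1 : ‖m‖ ≤ 1 := by
      have : ‖m‖ ^ 2 ≤ 1 ^ 2 := by nlinarith only [hmn]
      exact le_of_sq_le_sq this (by norm_num)
    have h3 := h n (by omega) e m rho rho rho (rho / ‖m‖) (by
        intro h4; rw [h4, norm_zero] at he; exact zero_ne_one he) hr0.le
      (by rw [le_div_iff₀ hm0]; exact mul_le_of_le_one_right hr0.le hm1) hr1
      (by rw [he, mul_one]) (by rw [div_mul_cancel₀ _ hm0.ne'])
    have h4 : N * vol (Cap m rho) ≤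
        Real.exp (-(((n : ℝ) - 1) * ((rho / ‖m‖) ^ 2 - rho ^ 2) / (2 * (1 - rho ^ 2)))) *
          (N * vol (Cap e rho)) := by
      calc N * vol (Cap m rho) ≤ N * (Real.exp (-(((n : ℝ) - 1) * ((rho / ‖m‖) ^ 2 - rho ^ 2) /
            (2 * (1 - rho ^ 2)))) * vol (Cap e rho)) := mul_le_mul_of_nonneg_left h3 hN.1.le
        _ = _ := by ring
    have h5 := (hN.2 e he).2
    refine h4.trans ?_
    calc _ ≤ Real.exp (-(((n : ℝ) - 1) * ((rho / ‖m‖) ^ 2 - rho ^ 2) / (2 * (1 - rho ^ 2)))) * 1 :=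
          mul_le_mul_of_nonneg_left h5 (Real.exp_pos _).le
      _ ≤ _ := by
          rw [mul_one]
          exact Real.exp_le_exp.2 (neg_le_neg (facet_two_scalar hn hm0 hmn))

/-- scalar estimates for `oneCut` -/
theorem facet_one_scalar {a : ℝ} (ha1 : a ≤ 1) (ha2 : 1 - a ≤ 1 / 204800) :
    rho / a - rho ≤ (1 - rho) / 2 ∧ (rho / a - rho) / (1 - rho) ≤ 51200 * (1 - a) := by
  have ha : 0 < a := by linarith
  have e : rho / a - rho = rho / a * (1 - a) := by
    field_simp
  have h1 : rho / a ≤ 1 := by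
    rw [div_le_one ha]
    unfold rho
    linarith only [ha2]
  have h2 : rho / a * (1 - a) ≤ 1 - a := mul_le_of_le_one_left (by linarith only [ha1]) h1
  rw [e]
  refine ⟨?_, ?_⟩
  · unfold rho at h2 ⊢
    linarith
  · have h3 : (1 : ℝ) - rho = 1 / 51200 := by unfold rho; norm_num
    rw [h3, div_div_eq_mul_div, div_one]
    linarith only [h2]

theorem oneCut (h : Stmt.CapLower) : Stmt.OneCut := by
  intro n hn N hN z hz hz2
  obtain ⟨e, he⟩ := facet_unit (n := n) hn
  have hz0 : 0 < ‖z‖ := by (clear * - hz2; linarith only [hz2])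
  have hr0 : (0 : ℝ) < rho := by unfold rho; norm_num
  have hr1 : rho < 1 := by unfold rho; norm_num
  obtain ⟨s1, s2⟩ := facet_one_scalar hz hz2
  have h3 := h n hn e z rho rho rho (rho / ‖z‖) (norm_pos_iff.1 hz0) hr0.le
    (by rw [le_div_iff₀ hz0]; exact mul_le_of_le_one_right hr0.le hz) hr1 s1
    (by rw [he, mul_one]) (by rw [div_mul_cancel₀ _ hz0.ne'])
  have h4 : Real.exp (-(2 * (n : ℝ) * (rho / ‖z‖ - rho) / (1 - rho))) * (N * vol (Cap e rho)) ≤
      N * vol (Cap z rho) := by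
    calc _ = N * (Real.exp (-(2 * (n : ℝ) * (rho / ‖z‖ - rho) / (1 - rho))) *
          vol (Cap e rho)) := by ring
      _ ≤ _ := mul_le_mul_of_nonneg_left h3 hN.1.le
  refine le_trans ?_ h4
  have h5 := (hN.2 e he).1
  have h6 : Real.exp (-(C1 * n * (1 - ‖z‖))) ≤
      Real.exp (-(2 * (n : ℝ) * (rho / ‖z‖ - rho) / (1 - rho))) := by
    refine Real.exp_le_exp.2 (neg_le_neg ?_)
    rw [mul_div_assoc]
    calc 2 * (n : ℝ) * ((rho / ‖z‖ - rho) / (1 - rho)) ≤ 2 * n * (51200 * (1 - ‖z‖)) :=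
          mul_le_mul_of_nonneg_left s2 (by positivity)
      _ = 102400 * (n * (1 - ‖z‖)) := by ring
      _ ≤ 110000 * (n * (1 - ‖z‖)) :=
          mul_le_mul_of_nonneg_right (by norm_num)
            (mul_nonneg (Nat.cast_nonneg n) (by linarith only [hz]))
      _ = C1 * n * (1 - ‖z‖) := by unfold C1; ring
  calc 1 / 2 * Real.exp (-(C1 * n * (1 - ‖z‖))) = Real.exp (-(C1 * n * (1 - ‖z‖))) * (1 / 2) :=
        mul_comm _ _
    _ ≤ _ := mul_le_mul h6 h5 (by norm_num) (Real.exp_pos _).le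

end Vale.Agent.P230.LB
end
end

section

section

/-!
# Facets, statement (L0)

A point `z` of a thin shell set is cut, with the expected probability, by a direction
whose cut set has small diameter.
-/

namespace Vale.Agent.P230.LB

open MeasureTheory
open scoped Pointwise

/-- subsets of the unit ball have finite volume -/
theorem fl0_finite {n : ℕ} {s : Set (E n)} (hs : ∀ u ∈ s, ‖u‖ ≤ 1) : volume s ≠ ⊤ := by
  have h1 : s ⊆ Metric.closedBall (0 : E n) 1 := by
    intro u hu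
    rw [mem_closedBall_zero_iff]
    exact hs u hu
  exact ((measure_mono h1).trans_lt measure_closedBall_lt_top).ne

/-- the threshold on the dimension: `2 log n / n` is eventually small -/
theorem fl0_log_small : ∃ n0 : ℕ, ∀ n : ℕ, n0 ≤ n →
    4 ≤ n ∧ 2 * Real.log n / n ≤ 1 / 204800 := by
  have h1 : Filter.Tendsto (fun x : ℝ => Real.log x / x) Filter.atTop (nhds 0) :=
    Real.isLittleO_log_id_atTop.tendsto_div_nhds_zero
  have h2 : Filter.Tendsto (fun n : ℕ => Real.log (n : ℝ) / (n : ℝ)) Filter.atTop (nhds 0) :=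
    h1.comp tendsto_natCast_atTop_atTop
  have h3 : ∀ᶠ n : ℕ in Filter.atTop, Real.log (n : ℝ) / (n : ℝ) < 1 / 409600 :=
    h2.eventually (gt_mem_nhds (by norm_num))
  obtain ⟨n1, hn1⟩ := Filter.eventually_atTop.1 h3
  refine ⟨max n1 4, fun n hn => ⟨(le_max_right _ _).trans hn, ?_⟩⟩
  have h4 := hn1 n ((le_max_left _ _).trans hn)
  rw [mul_div_assoc]
  linarith only [h4]

/-- the squared scale -/
theorem fl0_gam_sq {n : ℕ} (hn : 4 ≤ n) : gam n 0 ^ 2 * n = 1000 * Real.log n := by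
  have hn0 : (0 : ℝ) < n := by
    have : (4 : ℝ) ≤ n := by exact_mod_cast hn
    linarith only [this]
  have hlog : 0 ≤ Real.log n := Real.log_nonneg (by
    have : (4 : ℝ) ≤ n := by exact_mod_cast hn
    linarith only [this])
  have h0 : 0 ≤ 1000 * Real.log n / n := by (clear * - hn; positivity)
  unfold gam
  rw [pow_zero, one_mul, Real.sq_sqrt h0]
  field_simp

/-- the covering of the cap of `z` by the good set and the sets where two far points are cut -/
theorem fl0_cover {n : ℕ} (Z : Finset (E n)) (z : E n) (hz : z ∈ Z) (g : ℝ) :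
    Cap z rho ⊆ {u : E n | ‖u‖ ≤ 1 ∧ z ∈ cut Z u ∧ Small (cut Z u) g} ∪
      ⋃ z' ∈ Z.filter (fun z' => g / 2 < ‖z - z'‖),
        {u : E n | ‖u‖ ≤ 1 ∧ rho < inner ℝ z u ∧ rho < inner ℝ z' u} := by
  classical
  rintro u ⟨hu1, hu2⟩
  by_cases hS : Small (cut Z u) g
  · left
    exact ⟨hu1, by simp [cut, hz, hu2], hS⟩
  · right
    unfold Small at hS
    push Not at hS
    obtain ⟨a, ha, b, hb, hab⟩ := hS
    have ha' : a ∈ Z ∧ rho < inner ℝ a u := by simpa only [cut, Finset.mem_filter] using ha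
    have hb' : b ∈ Z ∧ rho < inner ℝ b u := by simpa [cut] using hb
    have htri : ‖a - b‖ ≤ ‖z - a‖ + ‖z - b‖ := by
      have h := norm_sub_le (z - b) (z - a)
      have e : (z - b) - (z - a) = a - b := by abel
      rw [e] at h
      linarith only [h]
    rcases lt_or_ge (g / 2) ‖z - a‖ with h1 | h1
    · refine Set.mem_iUnion₂.2 ⟨a, Finset.mem_filter.2 ⟨ha'.1, h1⟩, hu1, hu2, ha'.2⟩
    · have h2 : g / 2 < ‖z - b‖ := by linarith only [h1, htri, hab]
      refine Set.mem_iUnion₂.2 ⟨b, Finset.mem_filter.2 ⟨hb'.1, h2⟩, hu1, hu2, hb'.2⟩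

/-- the volume form of the covering -/
theorem fl0_vol {n : ℕ} (Z : Finset (E n)) (z : E n) (hz : z ∈ Z) (g : ℝ) :
    vol (Cap z rho) ≤ vol {u : E n | ‖u‖ ≤ 1 ∧ z ∈ cut Z u ∧ Small (cut Z u) g} +
      ∑ z' ∈ Z.filter (fun z' => g / 2 < ‖z - z'‖),
        vol {u : E n | ‖u‖ ≤ 1 ∧ rho < inner ℝ z u ∧ rho < inner ℝ z' u} := by
  have hf1 : volume {u : E n | ‖u‖ ≤ 1 ∧ z ∈ cut Z u ∧ Small (cut Z u) g} ≠ ⊤ :=
    fl0_finite (fun u hu => hu.1)
  have hf2 : ∀ z' : E n, volume {u : E n | ‖u‖ ≤ 1 ∧ rho < inner ℝ z u ∧ rho < inner ℝ z' u} ≠ ⊤ :=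
    fun z' => fl0_finite (fun u hu => hu.1)
  have h1 : volume (Cap z rho) ≤
      volume {u : E n | ‖u‖ ≤ 1 ∧ z ∈ cut Z u ∧ Small (cut Z u) g} +
      ∑ z' ∈ Z.filter (fun z' => g / 2 < ‖z - z'‖),
        volume {u : E n | ‖u‖ ≤ 1 ∧ rho < inner ℝ z u ∧ rho < inner ℝ z' u} := by
    refine (measure_mono (fl0_cover Z z hz g)).trans ((measure_union_le _ _).trans ?_)
    gcongr
    exact measure_biUnion_finset_le _ _
  have h2 : (∑ z' ∈ Z.filter (fun z' => g / 2 < ‖z - z'‖),
      volume {u : E n | ‖u‖ ≤ 1 ∧ rho < inner ℝ z u ∧ rho < inner ℝ z' u}) ≠ ⊤ :=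
    ENNReal.sum_ne_top.2 (fun z' _ => hf2 z')
  unfold vol
  rw [← ENNReal.toReal_sum (fun z' _ => hf2 z'), ← ENNReal.toReal_add hf1 h2]
  exact ENNReal.toReal_mono (ENNReal.add_ne_top.2 ⟨hf1, h2⟩) h1

/-- **(L0)** -/
theorem facetL0 (h2 : Stmt.TwoCut) (h1 : Stmt.OneCut) : Stmt.FacetL0 := by
  obtain ⟨n0, hn0⟩ := fl0_log_small
  refine ⟨n0, fun n hn N hN Z hZ z hz => ?_⟩
  obtain ⟨hn4, hlogn⟩ := hn0 n hn
  have hnR : (4 : ℝ) ≤ n := by exact_mod_cast hn4
  have hnpos : (0 : ℝ) < n := by linarith only [hnR]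
  have hlog : 0 ≤ Real.log n := Real.log_nonneg (by linarith only [hnR])
  obtain ⟨hzr, hz1⟩ := hZ.1 z hz
  have hr : 1 - ‖z‖ ≤ 2 * Real.log n / n := by
    unfold r1 at hzr
    linarith only [hzr]
  have hone := h1 n (by omega) N hN z hz1 (hr.trans hlogn)
  have hN0 : 0 < N := hN.1
  have hg0 : 0 ≤ gam n 0 := by unfold gam; (clear * -; positivity)
  -- each term of the sum
  have hterm : ∀ z' ∈ Z.filter (fun z' => gam n 0 / 2 < ‖z - z'‖),
      N * vol {u : E n | ‖u‖ ≤ 1 ∧ rho < inner ℝ z u ∧ rho < inner ℝ z' u} ≤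
        Real.exp (-(250000 * Real.log n)) := by
    intro z' hz'
    obtain ⟨hz'Z, hfar⟩ := Finset.mem_filter.1 hz'
    refine (h2 n (by omega) N hN z z' hz1 (hZ.1 z' hz'Z).2).trans ?_
    apply Real.exp_le_exp.2
    have hsq : (gam n 0 / 2) ^ 2 ≤ ‖z - z'‖ ^ 2 :=
      pow_le_pow_left₀ (by (clear * - hg0; positivity)) hfar.le 2
    have hgs := fl0_gam_sq hn4
    have h3 : (n : ℝ) * (gam n 0 / 2) ^ 2 ≤ n * ‖z - z'‖ ^ 2 :=
      mul_le_mul_of_nonneg_left hsq hnpos.le
    linarith only [hgs, h3]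
  have hsum : ∑ z' ∈ Z.filter (fun z' => gam n 0 / 2 < ‖z - z'‖),
      N * vol {u : E n | ‖u‖ ≤ 1 ∧ rho < inner ℝ z u ∧ rho < inner ℝ z' u} ≤
        (n : ℝ) ^ 2 * Real.exp (-(250000 * Real.log n)) := by
    refine (Finset.sum_le_card_nsmul _ _ _ hterm).trans ?_
    rw [nsmul_eq_mul]
    refine mul_le_mul_of_nonneg_right ?_ (Real.exp_pos _).le
    have hc : (Z.filter (fun z' => gam n 0 / 2 < ‖z - z'‖)).card ≤ n ^ 2 :=
      (Finset.card_filter_le _ _).trans hZ.2
    exact_mod_cast hc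
  have hnum : (n : ℝ) ^ 2 * Real.exp (-(250000 * Real.log n)) ≤
      1 / 4 * Real.exp (-(C1 * n * (1 - ‖z‖))) := by
    have e1 : (n : ℝ) ^ 2 = Real.exp (2 * Real.log n) := by
      rw [mul_comm, Real.exp_mul, Real.exp_log hnpos]
      norm_num
    have e2 : C1 * n * (1 - ‖z‖) ≤ 220000 * Real.log n := by
      unfold C1
      have h3 : (n : ℝ) * (1 - ‖z‖) ≤ n * (2 * Real.log n / n) :=
        mul_le_mul_of_nonneg_left hr hnpos.le
      have h4 : (n : ℝ) * (2 * Real.log n / n) = 2 * Real.log n := by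
        (clear * - hn4; field_simp)
      rw [h4] at h3
      linarith only [h3]
    have e3 : Real.exp (-(220000 * Real.log n)) ≤ Real.exp (-(C1 * n * (1 - ‖z‖))) :=
      Real.exp_le_exp.2 (by linarith only [e2])
    have e4 : 4 ≤ Real.exp (29998 * Real.log n) := by
      have : Real.exp (Real.log n) ≤ Real.exp (29998 * Real.log n) :=
        Real.exp_le_exp.2 (by linarith only [hlog])
      rw [Real.exp_log hnpos] at this
      linarith only [hnR, this]
    have e5 : Real.exp (2 * Real.log n) * Real.exp (-(250000 * Real.log n)) *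
        Real.exp (29998 * Real.log n) = Real.exp (-(220000 * Real.log n)) := by
      rw [← Real.exp_add, ← Real.exp_add]
      congr 1
      ring
    rw [e1]
    have hpos : 0 < Real.exp (2 * Real.log n) * Real.exp (-(250000 * Real.log n)) := by positivity
    nlinarith only [e3, e5, e4, hpos]
  have hvol := mul_le_mul_of_nonneg_left (fl0_vol Z z hz (gam n 0)) hN0.le
  rw [mul_add, Finset.mul_sum] at hvol
  linarith only [hvol, hnum, hsum, hone]

end Vale.Agent.P230.LB
end
end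

section

section

/-!
# The averaging lemma
-/

namespace Vale.Agent.P230.LB

open MeasureTheory Filter

theorem avg_cube_eq (n : ℕ) (R : ℝ) :
    cube n R = (WithLp.ofLp : E n → Fin n → ℝ) ⁻¹' (Set.Icc (fun _ => -R) (fun _ => R)) := by
  ext x
  simp only [cube, Set.mem_ofPred_eq, Set.mem_preimage, Set.mem_Icc, Pi.le_def, abs_le]
  exact ⟨fun h => ⟨fun i => (h i).1, fun i => (h i).2⟩, fun h i => ⟨h.1 i, h.2 i⟩⟩

theorem avg_cube_meas (n : ℕ) (R : ℝ) : MeasurableSet (cube n R) := by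
  rw [avg_cube_eq]
  exact (PiLp.volume_preserving_ofLp (Fin n)).measurable measurableSet_Icc

theorem avg_cube_vol (n : ℕ) {R : ℝ} (hR : 0 ≤ R) :
    volume (cube n R) = ENNReal.ofReal ((2 * R) ^ n) := by
  rw [avg_cube_eq, (PiLp.volume_preserving_ofLp (Fin n)).measure_preimage
    measurableSet_Icc.nullMeasurableSet, Real.volume_Icc_pi]
  simp only [sub_neg_eq_add, Finset.prod_const, Finset.card_univ, Fintype.card_fin]
  rw [← ENNReal.ofReal_pow (by linarith)]
  congr 2
  ring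

theorem avg_norm_gt {n : ℕ} {x t : E n} {R : ℝ} (hx : x ∉ cube n R) (ht : t ∈ cube n (R - 3)) :
    3 < ‖t - x‖ := by
  simp only [cube, Set.mem_ofPred_eq, not_forall, not_le] at hx
  obtain ⟨i, hi⟩ := hx
  have h1 : |t i| ≤ R - 3 := ht i
  have h2 : ‖(t - x) i‖ ≤ ‖t - x‖ := PiLp.norm_apply_le _ i
  have h3 : (t - x) i = t i - x i := rfl
  rw [h3, Real.norm_eq_abs] at h2
  have h4 : |x i| ≤ |t i - x i| + |t i| := by
    have := abs_sub_abs_le_abs_sub (x i) (t i)
    rw [abs_sub_comm] at this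
    linarith
  linarith only [hi, h1, h2, h4]

theorem avg_countable {n : ℕ} {X : Set (E n)} (hX : LocFin X) : X.Countable := by
  have h : X = ⋃ k : ℕ, X ∩ Metric.closedBall 0 (k : ℝ) := by
    rw [← Set.inter_iUnion, Metric.iUnion_closedBall_nat, Set.inter_univ]
  rw [h]
  exact Set.countable_iUnion fun k => (hX k).countable

theorem avg_pow {n : ℕ} {R : ℝ} (hR : 6 * n ≤ R) (hR3 : 3 < R) :
    (2 * R) ^ n ≤ 2 * (2 * (R - 3)) ^ n := by
  have hR0 : 0 < R := by linarith only [hR3]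
  have h1 : (1 : ℝ) + n * (-3 / R) ≤ (1 + (-3 / R)) ^ n := by
    apply one_add_mul_le_pow
    rw [le_div_iff₀ hR0]
    linarith
  have h2 : (1 : ℝ) / 2 ≤ 1 + n * (-3 / R) := by
    have : (n : ℝ) * 3 / R ≤ 1 / 2 := by
      rw [div_le_iff₀ hR0]
      linarith only [hR]
    have h3 : (n : ℝ) * (-3 / R) = -(n * 3 / R) := by ring
    rw [h3]
    linarith only [this]
  have h3 : 2 * (R - 3) = 2 * R * (1 + (-3 / R)) := by
    field_simp
    ring
  rw [h3, mul_pow (2 * R)]
  have h4 : 0 < (2 * R) ^ n := by positivity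
  have h5 : (1 : ℝ) / 2 ≤ (1 + (-3 / R)) ^ n := h2.trans h1
  calc (2 * R) ^ n = 2 * ((2 * R) ^ n * (1 / 2)) := by ring
    _ ≤ 2 * ((2 * R) ^ n * (1 + (-3 / R)) ^ n) := by (clear * - h5 hR3; gcongr)

theorem avgLemma : Stmt.AvgLemma := by
  intro n hn X hX D0 hD0 hup g hg hg0 hsmall
  by_contra hcon
  push Not at hcon
  have hev := eventually_lt_of_limsup_lt hup
  obtain ⟨R, ⟨hR1, hR2⟩, hR3⟩ := ((hev.and (eventually_ge_atTop (6 * n : ℝ))).and
    (eventually_gt_atTop (3 : ℝ))).exists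
  have hR0 : 0 < R := by linarith only [hR3]
  have hpos : 0 < (2 * R) ^ n := by (clear * - hR3; positivity)
  have hpos3 : 0 < (2 * (R - 3)) ^ n := by
    have : 0 < R - 3 := by linarith only [hR3]
    (clear * - hR3; positivity)
  have hcard : ((X ∩ cube n R).encard : ENNReal) ≤ D0 * ENNReal.ofReal ((2 * R) ^ n) := by
    rw [← ENNReal.div_le_iff (ENNReal.ofReal_pos.2 hpos).ne' ENNReal.ofReal_ne_top]
    exact hR1.le
  have : Countable X := (avg_countable hX).to_subtype
  have h1 : ENNReal.ofReal ((2 * (R - 3)) ^ n) ≤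
      ((X ∩ cube n R).encard : ENNReal) * ∫⁻ v, g v := by
    calc ENNReal.ofReal ((2 * (R - 3)) ^ n)
        = ∫⁻ _t in cube n (R - 3), 1 := by
          rw [setLIntegral_one, avg_cube_vol n (by linarith only [hR3])]
      _ ≤ ∫⁻ t in cube n (R - 3), ∑' x : X, g (t - x) := lintegral_mono fun t => hcon t
      _ = ∑' x : X, ∫⁻ t in cube n (R - 3), g (t - x) :=
          lintegral_tsum fun x => (hg.comp (measurable_id.sub_const _)).aemeasurable
      _ ≤ ∑' x : X, (cube n R).indicator (fun _ => ∫⁻ v, g v) (x : E n) := by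
          apply ENNReal.tsum_le_tsum
          intro x
          by_cases hx : (x : E n) ∈ cube n R
          · rw [Set.indicator_of_mem hx]
            calc ∫⁻ t in cube n (R - 3), g (t - x) ≤ ∫⁻ t, g (t - x) :=
                  setLIntegral_le_lintegral _ _
              _ = ∫⁻ v, g v := lintegral_sub_right_eq_self g _
          · rw [Set.indicator_of_notMem hx]
            apply le_of_eq
            exact (setLIntegral_eq_zero_iff (avg_cube_meas n _)
              (hg.comp (measurable_id.sub_const (x : E n)))).2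
              (Eventually.of_forall fun t ht => hg0 _ (avg_norm_gt hx ht))
      _ = ∑' x : E n, X.indicator ((cube n R).indicator (fun _ => ∫⁻ v, g v)) x :=
          tsum_subtype X _
      _ = ∑' x : ↥(X ∩ cube n R), ∫⁻ v, g v := by
          rw [Set.indicator_indicator, ← tsum_subtype (X ∩ cube n R)]
      _ = ((X ∩ cube n R).encard : ENNReal) * ∫⁻ v, g v := ENNReal.tsum_set_const _ _
  have h2 : ENNReal.ofReal ((2 * (R - 3)) ^ n) ≤
      ENNReal.ofReal ((2 * (R - 3)) ^ n) * (2 * D0 * ∫⁻ v, g v) := by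
    calc ENNReal.ofReal ((2 * (R - 3)) ^ n)
        ≤ ((X ∩ cube n R).encard : ENNReal) * ∫⁻ v, g v := h1
      _ ≤ (D0 * ENNReal.ofReal ((2 * R) ^ n)) * ∫⁻ v, g v := by gcongr
      _ ≤ (D0 * ENNReal.ofReal (2 * (2 * (R - 3)) ^ n)) * ∫⁻ v, g v := by
          gcongr
          exact avg_pow hR2 hR3
      _ = ENNReal.ofReal ((2 * (R - 3)) ^ n) * (2 * D0 * ∫⁻ v, g v) := by
          rw [ENNReal.ofReal_mul (by norm_num : (0 : ℝ) ≤ 2), ENNReal.ofReal_ofNat]
          ring
  have h3 : ENNReal.ofReal ((2 * (R - 3)) ^ n) * (2 * D0 * ∫⁻ v, g v) <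
      ENNReal.ofReal ((2 * (R - 3)) ^ n) * 1 :=
    ENNReal.mul_lt_mul_right (ENNReal.ofReal_pos.2 hpos3).ne' ENNReal.ofReal_ne_top hsmall
  rw [mul_one] at h3
  exact absurd h2 (not_le.2 h3)

end Vale.Agent.P230.LB
end
end

section

section

/-!
# M. existence of the random body
-/

namespace Vale.Agent.P230.LB

open MeasureTheory
open scoped Pointwise

namespace BodyM

/-! ### counting small subsets -/

theorem exists_fun {α : Type*} [DecidableEq α] (Gr X : Finset α) (k : ℕ) (hX : X ⊆ Gr)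
    (hk : X.card ≤ k) :
    ∃ f ∈ Fintype.piFinset (fun _ : Fin k => Finset.insertNone Gr),
      Finset.eraseNone (Finset.univ.image f) = X := by
  classical
  refine ⟨fun i => if h : (i : ℕ) < X.card then some ((X.equivFin.symm ⟨i, h⟩ : X) : α) else none,
    ?_, ?_⟩
  · rw [Fintype.mem_piFinset]
    intro i
    by_cases h : (i : ℕ) < X.card
    · simp only [h, dif_pos]
      rw [Finset.some_mem_insertNone]
      exact hX (X.equivFin.symm ⟨i, h⟩).2
    · simp only [h, dif_neg, not_false_eq_true]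
      exact Finset.none_mem_insertNone
  · ext a
    rw [Finset.mem_eraseNone, Finset.mem_image]
    constructor
    · rintro ⟨i, -, hi⟩
      by_cases h : (i : ℕ) < X.card
      · simp only [h, dif_pos, Option.some.injEq] at hi
        rw [← hi]
        exact (X.equivFin.symm ⟨i, h⟩).2
      · simp [h] at hi
    · intro ha
      have hlt := (X.equivFin ⟨a, ha⟩).2
      refine ⟨⟨X.equivFin ⟨a, ha⟩, lt_of_lt_of_le hlt hk⟩, Finset.mem_univ _, ?_⟩
      simp [hlt]

theorem card_small {α : Type*} [DecidableEq α] (Gr : Finset α) (k : ℕ)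
    (S : Finset (Finset α)) (hS : ∀ X ∈ S, X ⊆ Gr ∧ X.card ≤ k) :
    S.card ≤ (Gr.card + 1) ^ k := by
  classical
  have h1 : S ⊆ (Fintype.piFinset (fun _ : Fin k => Finset.insertNone Gr)).image
      (fun f => Finset.eraseNone (Finset.univ.image f)) := by
    intro X hX
    obtain ⟨f, hf, hfX⟩ := exists_fun Gr X k (hS X hX).1 (hS X hX).2
    exact Finset.mem_image.2 ⟨f, hf, hfX⟩
  refine (Finset.card_le_card h1).trans (Finset.card_image_le.trans ?_)
  rw [Fintype.card_piFinset]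
  simp only [Finset.card_insertNone, Finset.prod_const, Finset.card_univ, Fintype.card_fin, Std.le_refl]

/-! ### weights -/

theorem wt_nonneg {T : Type} [Fintype T] [DecidableEq T] {p : T → ℝ} (h0 : ∀ τ, 0 ≤ p τ)
    (h1 : ∀ τ, p τ ≤ 1) (J : Finset T) : 0 ≤ wt p J := by
  unfold wt
  exact mul_nonneg (Finset.prod_nonneg fun τ _ => h0 τ)
    (Finset.prod_nonneg fun τ _ => by linarith [h1 τ])

theorem pp_nonneg {n : ℕ} {Zc : Finset (E n)} {ε : ℝ} {T : Type} [Fintype T] {N : ℝ} (hN : 0 < N)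
    (a : Atoms n Zc ε T) (τ : T) : 0 ≤ pp N a τ := by
  unfold pp
  have : Real.exp (-(N * a.m τ)) ≤ 1 := by
    rw [Real.exp_le_one_iff]
    have := mul_nonneg hN.le (a.m_nonneg τ)
    linarith only [this]
  linarith

theorem pp_le_one {n : ℕ} {Zc : Finset (E n)} {ε : ℝ} {T : Type} [Fintype T] {N : ℝ}
    (a : Atoms n Zc ε T) (τ : T) : pp N a τ ≤ 1 := by
  unfold pp
  have := Real.exp_pos (-(N * a.m τ))
  linarith only [this]

/-- first moment and union bound -/
theorem exists_good {T : Type} [Fintype T] [DecidableEq T] {p : T → ℝ} (h0 : ∀ τ, 0 ≤ p τ)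
    (h1 : ∀ τ, p τ ≤ 1) (hW : ∑ J : Finset T, wt p J = 1) {ι : Type} [Fintype ι]
    (F : ι → Finset T → Prop) (q : ℝ) (hF : ∀ i, Pr p (F i) ≤ q)
    (hq : (Fintype.card ι : ℝ) * q ≤ 1 / 100) (v : Finset T → ℝ) {V : ℝ} (hV : 0 < V)
    (hv : ∀ J, v J ≤ V) (hE : Real.exp (-1) / 2 * V ≤ ∑ J : Finset T, wt p J * v J) :
    ∃ J, (∀ i, ¬ F i J) ∧ V / 11 ≤ v J := by
  classical
  by_contra hcon
  push Not at hcon
  have hw := wt_nonneg h0 h1
  have key : ∀ J, wt p J * v J ≤ V * (∑ i, if F i J then wt p J else 0) + V / 11 * wt p J := by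
    intro J
    by_cases hJ : ∃ i, F i J
    · obtain ⟨i, hi⟩ := hJ
      have h2 : wt p J ≤ ∑ i, if F i J then wt p J else 0 := by
        calc wt p J = if F i J then wt p J else 0 := by rw [if_pos hi]
          _ ≤ ∑ i, if F i J then wt p J else 0 :=
            Finset.single_le_sum (f := fun i => if F i J then wt p J else 0)
              (fun i _ => by
                split_ifs
                · exact hw J
                · exact le_rfl) (Finset.mem_univ i)
      have h3 : wt p J * v J ≤ wt p J * V := mul_le_mul_of_nonneg_left (hv J) (hw J)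
      have h4 := mul_le_mul_of_nonneg_left h2 hV.le
      have h5 : 0 ≤ V / 11 * wt p J := mul_nonneg (by positivity) (hw J)
      linarith only [h5, h4, h3]
    · push Not at hJ
      have h2 := hcon J hJ
      have h3 : wt p J * v J ≤ wt p J * (V / 11) := mul_le_mul_of_nonneg_left h2.le (hw J)
      have h4 : 0 ≤ V * (∑ i, if F i J then wt p J else 0) := by
        apply mul_nonneg hV.le
        apply Finset.sum_nonneg
        intro i _
        split_ifs
        · exact hw J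
        · exact le_rfl
      linarith only [h4, h3]
  have hsum : ∑ J : Finset T, wt p J * v J ≤ V * ((Fintype.card ι : ℝ) * q) + V / 11 := by
    calc ∑ J : Finset T, wt p J * v J
        ≤ ∑ J : Finset T, (V * (∑ i, if F i J then wt p J else 0) + V / 11 * wt p J) :=
          Finset.sum_le_sum fun J _ => key J
      _ = V * (∑ i, Pr p (F i)) + V / 11 := by
          rw [Finset.sum_add_distrib, ← Finset.mul_sum, ← Finset.mul_sum, hW, mul_one,
            Finset.sum_comm]
          rfl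
      _ ≤ V * (∑ _i : ι, q) + V / 11 := by
          gcongr with i _
          exact hF i
      _ = V * ((Fintype.card ι : ℝ) * q) + V / 11 := by
          rw [Finset.sum_const, nsmul_eq_mul, Finset.card_univ]
  have he : (0.18 : ℝ) ≤ Real.exp (-1) / 2 := by
    have h2 := Real.exp_one_lt_d9
    have h3 : (0.36 : ℝ) ≤ Real.exp (-1) := by
      rw [Real.exp_neg, ← one_div, le_div_iff₀ (Real.exp_pos 1)]
      linarith only [h2]
    linarith only [h3]
  have h6 : V * ((Fintype.card ι : ℝ) * q) ≤ V * (1 / 100) := mul_le_mul_of_nonneg_left hq hV.le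
  have h7 : (0.18 : ℝ) * V ≤ Real.exp (-1) / 2 * V := mul_le_mul_of_nonneg_right he hV.le
  linarith only [h7, h6, hsum, hE, hV]

/-! ### the unit ball -/

theorem B_eq (n : ℕ) : B n = Metric.closedBall 0 1 := by
  ext u
  simp only [B, Set.mem_ofPred_eq, Metric.mem_closedBall, dist_zero_right]

theorem vol_B_pos (n : ℕ) : 0 < vol (B n) := by
  unfold vol
  rw [B_eq]
  exact ENNReal.toReal_pos (Metric.measure_closedBall_pos volume 0 one_pos).ne'
    measure_closedBall_lt_top.ne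

theorem vol_le_B {n : ℕ} {S : Set (E n)} (h : S ⊆ B n) : vol S ≤ vol (B n) := by
  unfold vol
  apply ENNReal.toReal_mono _ (measure_mono h)
  rw [B_eq]
  exact measure_closedBall_lt_top.ne

theorem eta_pos {n : ℕ} (hn : 2 ≤ n) : 0 < eta n := by
  unfold eta
  have : (2 : ℝ) ≤ n := by exact_mod_cast hn
  positivity

theorem eta_le {n : ℕ} (hn : 2 ≤ n) : eta n ≤ 1 / 4 := by
  unfold eta
  have : (2 : ℝ) ≤ n := by exact_mod_cast hn
  apply one_div_le_one_div_of_le (by norm_num)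
  linarith only [this]

section body

variable {n : ℕ} {Zc : Finset (E n)} {ε : ℝ} {T : Type} [Fintype T] (a : Atoms n Zc ε T)
  (J : Finset T)

theorem body_eq : Stmt.body a J = Metric.closedBall 0 (1 - eta n) ∩
    ⋂ τ ∈ J, {w : E n | inner ℝ w (a.u τ) ≤ rho - eta n} := by
  ext w
  simp only [Stmt.body, Set.mem_ofPred_eq, Set.mem_inter_iff, Metric.mem_closedBall, dist_zero_right, Set.mem_iInter]

theorem convex_half (u : E n) (s : ℝ) : Convex ℝ {w : E n | inner ℝ w u ≤ s} := by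
  have h : {w : E n | inner ℝ w u ≤ s} = {w : E n | inner ℝ u w ≤ s} := by
    ext w
    simp only [real_inner_comm, Set.mem_ofPred_eq]
  rw [h]
  exact convex_halfSpace_le (IsBoundedLinearMap.mk (IsLinearMap.mk (fun x y => inner_add_right _ _ _)
    (fun c x => by rw [inner_smul_right]; rfl)) ⟨‖u‖ + 1, by positivity, fun x => by
      refine (norm_inner_le_norm u x).trans ?_
      linarith only [norm_nonneg x]⟩).toIsLinearMap s

theorem body_convex : Convex ℝ (Stmt.body a J) := by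
  rw [body_eq]
  exact (convex_closedBall _ _).inter (convex_iInter₂ fun τ _ => convex_half _ _)

theorem body_compact : IsCompact (Stmt.body a J) := by
  rw [body_eq]
  apply (isCompact_closedBall _ _).inter_right
  apply isClosed_biInter
  intro τ _
  exact isClosed_le (by fun_prop) continuous_const

theorem body_interior (hn : 2 ≤ n) : (interior (Stmt.body a J)).Nonempty := by
  have h1 := eta_le hn
  have hrho : rho - eta n > 0 := by
    unfold rho
    linarith only [h1]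
  refine ⟨0, ?_⟩
  rw [mem_interior]
  refine ⟨Metric.ball 0 (rho - eta n), ?_, Metric.isOpen_ball, Metric.mem_ball_self hrho⟩
  intro w hw
  rw [mem_ball_zero_iff] at hw
  refine ⟨?_, fun τ _ => ?_⟩
  · have : rho ≤ 1 := by
      unfold rho
      norm_num
    linarith only [hw, this]
  · calc inner ℝ w (a.u τ) ≤ ‖w‖ * ‖a.u τ‖ := real_inner_le_norm _ _
      _ ≤ ‖w‖ * 1 := by
        apply mul_le_mul_of_nonneg_left (a.u_le τ) (norm_nonneg _)
      _ ≤ rho - eta n := by linarith only [hw]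

theorem body_sub_B (hn : 2 ≤ n) : Stmt.body a J ⊆ B n := by
  intro w hw
  have := eta_pos hn
  have h1 : ‖w‖ ≤ 1 - eta n := hw.1
  show ‖w‖ ≤ 1
  linarith only [this, h1]

/-- a translation vector which is cut from all sides -/
theorem body_miss (hn : 2 ≤ n) {X : Finset (E n)} {y : E n}
    (h : ∀ z ∈ Zof X y, ∃ τ ∈ J, rho < inner ℝ z (a.u τ)) :
    ∀ x ∈ X, ∀ v : E n, ‖v‖ ≤ eta n → y - x - v ∉ Stmt.body a J := by
  classical
  intro x hx v hv hmem
  have hη := eta_pos hn
  have h1 : ‖y - x - v‖ ≤ 1 - eta n := hmem.1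
  have h2 : ‖y - x‖ ≤ 1 := by
    calc ‖y - x‖ = ‖(y - x - v) + v‖ := by rw [sub_add_cancel]
      _ ≤ ‖y - x - v‖ + ‖v‖ := norm_add_le _ _
      _ ≤ 1 := by linarith only [hv, h1]
  have hz : y - x ∈ Zof X y := by
    unfold Zof
    rw [Finset.mem_filter, Finset.mem_image]
    exact ⟨⟨x, hx, rfl⟩, h2⟩
  obtain ⟨τ, hτ, hlt⟩ := h _ hz
  have h3 := hmem.2 τ hτ
  rw [inner_sub_left] at h3
  have h4 : inner ℝ v (a.u τ) ≤ eta n := by
    calc inner ℝ v (a.u τ) ≤ ‖v‖ * ‖a.u τ‖ := real_inner_le_norm _ _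
      _ ≤ ‖v‖ * 1 := mul_le_mul_of_nonneg_left (a.u_le τ) (norm_nonneg _)
      _ ≤ eta n := by linarith only [hv]
  linarith only [hlt, h3, h4]

end body

end BodyM

open BodyM in
/-- existence of the body -/
theorem existsBody (hC : Stmt.ClusterLemma) (hF : Stmt.FixedX) (hA : Stmt.ExistsAtoms)
    (hN : Stmt.ExistsNorm) (hV : Stmt.ExpVol) (hW : Stmt.WtSum) (hU : Stmt.NumUnion) :
    Stmt.ExistsBody := by
  classical
  obtain ⟨nC, hC⟩ := hC
  obtain ⟨nF, hF⟩ := hF
  obtain ⟨nU, hU⟩ := hU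
  refine ⟨max (max nC nF) (max nU 2), fun n hn Gr hGr => ?_⟩
  have hnC : nC ≤ n := le_trans (le_trans (le_max_left _ _) (le_max_left _ _)) hn
  have hnF : nF ≤ n := le_trans (le_trans (le_max_right _ _) (le_max_left _ _)) hn
  have hnU : nU ≤ n := le_trans (le_trans (le_max_left _ _) (le_max_right _ _)) hn
  have hn2 : 2 ≤ n := le_trans (le_trans (le_max_right _ _) (le_max_right _ _)) hn
  have hn2' : (2 : ℝ) ≤ n := by exact_mod_cast hn2
  obtain ⟨S, hS⟩ : ∃ S : Finset (Finset (E n)), ∀ X, X ∈ S ↔ X ⊆ Gr ∧ (X.card : ℝ) ≤ m0 n ∧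
      vol (B n) / 2 ≤ vol {y : E n | ‖y‖ ≤ 1 ∧ GoodPt n X y} := by
    refine ⟨Gr.powerset.filter (fun X => (X.card : ℝ) ≤ m0 n ∧
      vol (B n) / 2 ≤ vol {y : E n | ‖y‖ ≤ 1 ∧ GoodPt n X y}), fun X => ?_⟩
    rw [Finset.mem_filter, Finset.mem_powerset]
  have hD : ∀ X : S, Nonempty (ClusterData n X.1) := fun X =>
    hC n hnC X.1 ((hS X.1).1 X.2).2.1 ((hS X.1).1 X.2).2.2
  let D : ∀ X : S, ClusterData n X.1 := fun X => (hD X).some
  obtain ⟨Zc, hZc⟩ : ∃ Zc : Finset (E n), ∀ X : S, ∀ g, ∀ y ∈ (D X).Y g, Zof X.1 y ⊆ Zc := by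
    refine ⟨Finset.univ.biUnion fun X : S => Finset.univ.biUnion fun g =>
      ((D X).Y g).biUnion fun y => Zof X.1 y, fun X g y hy z hz => ?_⟩
    rw [Finset.mem_biUnion]
    refine ⟨X, Finset.mem_univ _, ?_⟩
    rw [Finset.mem_biUnion]
    refine ⟨g, Finset.mem_univ _, ?_⟩
    rw [Finset.mem_biUnion]
    exact ⟨y, hy, hz⟩
  obtain ⟨N, hNN, hNw⟩ := hN n hn2
  have hε : (0 : ℝ) < 1 / (10 ^ 6 * n) := by (clear * - hn2; positivity)
  obtain ⟨k, ⟨a⟩⟩ := hA n Zc (1 / (10 ^ 6 * n)) hε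
  have hp0 := pp_nonneg hNN.1 a
  have hp1 := pp_le_one (N := N) a
  have hcard : S.card ≤ (Gr.card + 1) ^ ⌊m0 n⌋₊ := by
    apply card_small
    intro X hX
    have h1 := (hS X).1 hX
    exact ⟨h1.1, Nat.le_floor h1.2.1⟩
  have hm0 : (0 : ℝ) ≤ m0 n := by
    unfold m0
    positivity
  have hunion := hU n hnU Gr.card ⌊m0 n⌋₊ hGr (Nat.floor_le hm0)
  set q := Real.exp (-((7 : ℝ) ^ n * Real.exp (-((n : ℝ) + 2)))) with hq
  have hqc : (Fintype.card S : ℝ) * q ≤ 1 / 100 := by
    refine le_trans ?_ hunion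
    apply mul_le_mul_of_nonneg_right _ (Real.exp_pos _).le
    rw [Fintype.card_coe]
    calc (S.card : ℝ) ≤ (((Gr.card + 1) ^ ⌊m0 n⌋₊ : ℕ) : ℝ) := by exact_mod_cast hcard
      _ = ((Gr.card : ℝ) + 1) ^ ⌊m0 n⌋₊ := by push_cast; ring
  obtain ⟨J, hJ1, hJ2⟩ := exists_good hp0 hp1 (hW (Fin k) (pp N a))
    (fun (X : S) (J : Finset (Fin k)) => ∀ g, ∀ y ∈ (D X).Y g, ∃ z ∈ Zof X.1 y, ∀ τ ∈ J,
        ¬ rho < inner ℝ z (a.u τ)) q
    (fun X => hF n hnF N hNN X.1 ((hS X.1).1 X.2).2.1 (D X) Zc (hZc X) _ (Fin k) a)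
    hqc (fun J => vol (Stmt.body a J)) (vol_B_pos n)
    (fun J => vol_le_B (body_sub_B a J hn2))
    (hV n hn2 N hNN.1 hNw Zc (Fin k) a)
  refine ⟨Stmt.body a J, body_convex a J, body_compact a J, body_interior a J hn2,
    fun w hw => hw.1, hJ2, fun X hXG hXc hXv => ?_⟩
  have hXS : X ∈ S := (hS X).2 ⟨hXG, hXc, hXv⟩
  have h1 := hJ1 ⟨X, hXS⟩
  push Not at h1
  obtain ⟨g, y, hy, hz⟩ := h1
  exact ⟨y, (D ⟨X, hXS⟩).inB g y hy, body_miss a J hn2 hz⟩

end Vale.Agent.P230.LB
end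
end

section

section

/-!
# Side statements: comparison with lattice coverings, Rogers' upper bound
-/

namespace Vale.Agent.P230.LB

open MeasureTheory
open scoped Pointwise

namespace Stmt

/-- a lattice covering is a translative covering -/
def LatLe : Prop :=
  ∀ (n : ℕ), 1 ≤ n → ∀ K : Set (E n), thetaT K ≤ Vale.Agent.P230.thetaL K

/-- Rogers 1957 (with an unspecified absolute constant) -/
def RogersT : Prop :=
  ∃ C : ℝ, 0 < C ∧ ∀ n : ℕ, 2 ≤ n → ThetaT n ≤ ENNReal.ofReal (C * n * Real.log n)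

end Stmt

end Vale.Agent.P230.LB
end
end

section

section

/-!
# Failure probability for a fixed `X` (helper849)
-/

namespace Vale.Agent.P230.LB

open MeasureTheory

theorem fx_mem_Zof {n : ℕ} {X : Finset (E n)} {y z : E n} :
    z ∈ Zof X y ↔ (∃ x ∈ X, y - x = z) ∧ ‖z‖ ≤ 1 := by
  unfold Zof
  rw [Finset.mem_filter, Finset.mem_image]

theorem fx_gam_mono (n j : ℕ) : gam n j ≤ gam n (j + 1) := by
  unfold gam
  apply mul_le_mul_of_nonneg_right _ (Real.sqrt_nonneg _)
  rw [pow_succ]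
  have : (0 : ℝ) ≤ 8 ^ j := by positivity
  linarith only [this]

theorem fx_small_mono {n : ℕ} {S : Finset (E n)} {d d' : ℝ} (h : d ≤ d') (hS : Small S d) :
    Small S d' := fun a ha b hb => (hS a ha b hb).trans h

theorem fx_shell {n : ℕ} {X : Finset (E n)} {y : E n} (h : GoodPt n X y) : Shell n (Zof X y) := by
  refine ⟨fun z hz => ?_, h.2.1⟩
  obtain ⟨⟨x, hx, rfl⟩, hz1⟩ := fx_mem_Zof.1 hz
  exact ⟨h.1 x hx, hz1⟩

theorem fx_bad_card {n : ℕ} {X Y : Finset (E n)} {b : ℝ}
    (hsep : ∀ y ∈ Y, ∀ y' ∈ Y, y ≠ y' → 2 * b ≤ ‖y - y'‖) (y : E n) (hX : (X.card : ℝ) ≤ m0 n)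
    (B : Finset (E n)) (hBY : B ⊆ Y)
    (hB : ∀ y' ∈ B, ∃ x ∈ X, ∃ x' ∈ X, ‖(y - x) - (y' - x')‖ < b) :
    (B.card : ℝ) ≤ m0 n ^ 2 := by
  classical
  choose! f hf g hg hfg using hB
  have h1 : B.card ≤ (X ×ˢ X).card := by
    refine Finset.card_le_card_of_injOn (fun y' => (f y', g y')) ?_ ?_
    · intro y' hy'
      exact Finset.mem_coe.2 (Finset.mem_product.2 ⟨hf y' hy', hg y' hy'⟩)
    · intro y1 h1 y2 h2 h12
      by_contra hne
      have h3 := hsep y1 (hBY h1) y2 (hBY h2) hne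
      have h4 := hfg y1 h1
      have h5 := hfg y2 h2
      have h6 : f y1 = f y2 := congrArg Prod.fst h12
      have h7 : g y1 = g y2 := congrArg Prod.snd h12
      rw [h6, h7] at h4
      have h8 : y1 - y2 = ((y - f y2) - (y2 - g y2)) - ((y - f y2) - (y1 - g y2)) := by abel
      rw [h8] at h3
      have h9 := norm_sub_le ((y - f y2) - (y2 - g y2)) ((y - f y2) - (y1 - g y2))
      linarith only [h3, h4, h5, h9]
  have h2 : (B.card : ℝ) ≤ (X.card : ℝ) ^ 2 := by
    have h3 : B.card ≤ X.card ^ 2 := by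
      rw [sq, ← Finset.card_product]
      exact h1
    exact_mod_cast h3
  exact h2.trans (pow_le_pow_left₀ (Nat.cast_nonneg _) hX 2)

theorem fixedX849 (hC : Stmt.ClusterProb) (hI : Stmt.ClustersProb) (hL : Stmt.EvLower)
    (hP : Stmt.EvPair) (hD : Stmt.EvDep) (hS : Stmt.SuppDisj) (hN : Stmt.NumLev) :
    Stmt.FixedX := by
  classical
  obtain ⟨n1, hL⟩ := hL
  obtain ⟨n2, hP⟩ := hP
  obtain ⟨n3, hN⟩ := hN
  refine ⟨max n1 (max n2 n3), fun n hn N hNN X hX D Zc hZc ε T _ _ a => ?_⟩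
  have hn1 : n1 ≤ n := (le_max_left _ _).trans hn
  have hn2 : n2 ≤ n := (le_max_left _ _).trans ((le_max_right _ _).trans hn)
  have hn3 : n3 ≤ n := (le_max_right _ _).trans ((le_max_right _ _).trans hn)
  obtain ⟨hlev, hHlev, -, -, -⟩ := hN n hn3
  have h0 : ∀ τ, 0 ≤ pp N a τ := EvA.pp_nonneg hNN.1.le a
  have h1 : ∀ τ, pp N a τ ≤ 1 := EvA.pp_le_one a
  have hH0 : 0 ≤ Hmax n := by
    unfold Hmax
    have := Real.log_natCast_nonneg n
    (clear * -; positivity)
  have hq : ∀ g, Real.exp (-((n : ℝ) + 2)) ≤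
      Pr (pp N a) (fun J => ∃ y ∈ D.Y g, Ev a (Zof X y) (gam n (lev n)) J) := by
    intro g
    have hcard := D.card g
    have hm0 : 0 < m0 n := by
      unfold m0
      positivity
    have hYpos : (0 : ℝ) < (D.Y g).card := lt_of_lt_of_le (by (clear * - hm0; positivity)) hcard
    have hYne : (D.Y g).Nonempty := Finset.card_pos.1 (by exact_mod_cast hYpos)
    have key := hC T (pp N a) h0 h1 (E n) (D.Y g) (lev n)
      (fun j y J => Ev a (Zof X y) (gam n j) J) (Hmax n) (m0 n ^ 2)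
      (fun y y' => ∃ x ∈ X, ∃ x' ∈ X, ‖(y - x) - (y' - x')‖ < bet n) hlev hH0 hYne
      (by
        intro j _ y _ J hJ z hz
        obtain ⟨τ, hτ, h2, h3⟩ := hJ z hz
        exact ⟨τ, hτ, h2, fx_small_mono (fx_gam_mono n j) h3⟩)
      (by
        intro y hy
        have hg := D.good g y hy
        refine le_trans ?_ (hL n hn1 N hNN Zc ε T a (Zof X y) (hZc g y hy) (fx_shell hg))
        exact Real.exp_le_exp.2 (neg_le_neg hg.2.2))
      (by
        intro y _
        refine fx_bad_card (D.sep g) y hX _ (Finset.filter_subset _ _) ?_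
        intro y' hy'
        exact (Finset.mem_filter.1 hy').2)
      (by
        intro j hj y hy y' hy' hbad
        refine hP n hn2 N hNN Zc ε T a (Zof X y) (Zof X y') (hZc g y hy) (hZc g y' hy')
          (fx_shell (D.good g y hy)) (fx_shell (D.good g y' hy')) ?_ j hj
        intro z hz z' hz'
        obtain ⟨⟨x, hx, rfl⟩, -⟩ := fx_mem_Zof.1 hz
        obtain ⟨⟨x', hx', rfl⟩, -⟩ := fx_mem_Zof.1 hz'
        by_contra hlt
        exact hbad ⟨x, hx, x', hx', not_le.1 hlt⟩)
      (by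
        have h2 : Real.exp (Hmax n) * Real.exp (-Hmax n) = 1 := by
          rw [← Real.exp_add, add_neg_cancel, Real.exp_zero]
        calc m0 n ^ 2 = m0 n ^ 2 * Real.exp (Hmax n) * Real.exp (-Hmax n) := by
              rw [mul_assoc, h2, mul_one]
          _ ≤ (D.Y g).card * Real.exp (-Hmax n) :=
              mul_le_mul_of_nonneg_right hcard (Real.exp_pos _).le)
    refine le_trans ?_ key
    apply Real.exp_le_exp.2
    linarith only [hHlev]
  have hmain := hI T (pp N a) h0 h1 (7 ^ n)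
    (fun g J => ∃ y ∈ D.Y g, Ev a (Zof X y) (gam n (lev n)) J)
    (fun g => (D.Y g).biUnion (fun y => supp a (Zof X y))) (Real.exp (-((n : ℝ) + 2)))
    (by
      intro g J J' hJJ'
      have hy : ∀ y ∈ D.Y g, (Ev a (Zof X y) (gam n (lev n)) J ↔
          Ev a (Zof X y) (gam n (lev n)) J') := by
        intro y hy
        apply hD n Zc ε T a (Zof X y) (gam n (lev n)) J J'
        have hsub : supp a (Zof X y) ⊆ (D.Y g).biUnion (fun y => supp a (Zof X y)) :=
          Finset.subset_biUnion_of_mem (fun y => supp a (Zof X y)) hy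
        have h3 : J ∩ supp a (Zof X y) =
            (J ∩ (D.Y g).biUnion (fun y => supp a (Zof X y))) ∩ supp a (Zof X y) := by
          rw [Finset.inter_assoc, Finset.inter_eq_right.2 hsub]
        have h4 : J' ∩ supp a (Zof X y) =
            (J' ∩ (D.Y g).biUnion (fun y => supp a (Zof X y))) ∩ supp a (Zof X y) := by
          rw [Finset.inter_assoc, Finset.inter_eq_right.2 hsub]
        rw [h3, h4, hJJ']
      constructor
      · rintro ⟨y, hy1, hy2⟩
        exact ⟨y, hy1, (hy y hy1).1 hy2⟩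
      · rintro ⟨y, hy1, hy2⟩
        exact ⟨y, hy1, (hy y hy1).2 hy2⟩)
    (by
      intro g g' hgg'
      rw [Finset.disjoint_biUnion_left]
      intro y hy
      rw [Finset.disjoint_biUnion_right]
      intro y' hy'
      refine hS n Zc ε T a (Zof X y) (Zof X y') (fun z hz => (fx_mem_Zof.1 hz).2)
        (fun z hz => (fx_mem_Zof.1 hz).2) ?_
      intro z hz z' hz'
      obtain ⟨⟨x, hx, rfl⟩, -⟩ := fx_mem_Zof.1 hz
      obtain ⟨⟨x', hx', rfl⟩, -⟩ := fx_mem_Zof.1 hz'
      exact D.far g g' hgg' y hy y' hy' x hx x' hx')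
    hq
  push_cast at hmain
  refine le_trans (EvA.pr_mono h0 h1 ?_) hmain
  intro J hJ g
  rintro ⟨y, hy, hev⟩
  obtain ⟨z, hz, hz2⟩ := hJ g y hy
  obtain ⟨τ, hτ, hc, -⟩ := hev z hz
  unfold cut at hc
  exact hz2 τ hτ (Finset.mem_filter.1 hc).2

end Vale.Agent.P230.LB
end
end

section

section

/-!
# Combination of the modules
-/

namespace Vale.Agent.P230.LB

open MeasureTheory
open scoped Pointwise

theorem lowerT_all (h1 : Stmt.LowerT) (h2 : Stmt.ThetaTGeOne) :
    ∃ c : ℝ, 0 < c ∧ ∀ n : ℕ, 2 ≤ n → ENNReal.ofReal (c * n * Real.log n) ≤ ThetaT n := by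
  obtain ⟨c, hc, n0, h⟩ := h1
  have hpos : ∀ m : ℕ, 0 ≤ (m : ℝ) * Real.log m := fun m =>
    mul_nonneg (Nat.cast_nonneg m) (Real.log_natCast_nonneg m)
  set d : ℝ := 1 / ((n0 : ℝ) * Real.log n0 + 1) with hd
  have hd0 : 0 < d := by
    have := hpos n0
    (clear * -; positivity)
  refine ⟨min c d, lt_min hc hd0, fun n hn => ?_⟩
  rcases le_or_gt n0 n with hle | hlt
  · refine le_trans (ENNReal.ofReal_le_ofReal ?_) (h n hle)
    have h3 := hpos n
    rw [mul_assoc, mul_assoc]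
    exact mul_le_mul_of_nonneg_right (min_le_left _ _) h3
  · refine le_trans ?_ (h2 n (by omega))
    rw [← ENNReal.ofReal_one]
    apply ENNReal.ofReal_le_ofReal
    have h3 := hpos n
    have h4 : (n : ℝ) * Real.log n ≤ n0 * Real.log n0 := by
      have h5 : (n : ℝ) ≤ n0 := by exact_mod_cast hlt.le
      have h6 : (0 : ℝ) < n := by
        have : 0 < n := by omega
        exact_mod_cast this
      exact mul_le_mul h5 (Real.log_le_log h6 h5) (Real.log_natCast_nonneg n) (by (clear * -; positivity))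
    have h7 : (0 : ℝ) < n0 * Real.log n0 + 1 := by
      have := hpos n0
      (clear * -; positivity)
    calc min c d * n * Real.log n = min c d * (n * Real.log n) := by ring
      _ ≤ d * (n * Real.log n) := mul_le_mul_of_nonneg_right (min_le_right _ _) h3
      _ ≤ d * (n0 * Real.log n0 + 1) := by
          apply mul_le_mul_of_nonneg_left _ hd0.le
          linarith only [h4]
      _ = 1 := by
          rw [hd]
          (clear * -; field_simp)

theorem ThetaT_le_ThetaL_of (h : Stmt.LatLe) (n : ℕ) (hn : 1 ≤ n) :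
    ThetaT n ≤ Vale.Agent.P230.ThetaL n := by
  unfold ThetaT Vale.Agent.P230.ThetaL
  refine iSup_le fun K => iSup_le fun hc => iSup_le fun hk => iSup_le fun hi => ?_
  refine le_trans (h n hn K) ?_
  exact le_iSup_of_le K (le_iSup_of_le hk (le_iSup_of_le hc (le_iSup_of_le hi le_rfl)))

/-- there is no absolute constant `C` with `theta_T(K) ≤ C n` for all convex bodies `K` -/
theorem no_linear_of (h : ∃ c : ℝ, 0 < c ∧ ∀ n : ℕ, 2 ≤ n →
      ENNReal.ofReal (c * n * Real.log n) ≤ ThetaT n) :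
    ¬ ∃ C : ℝ, ∀ n : ℕ, 1 ≤ n → ∀ K : Set (E n), Convex ℝ K → IsCompact K →
      (interior K).Nonempty → thetaT K ≤ ENNReal.ofReal (C * n) := by
  rintro ⟨C, hC⟩
  obtain ⟨c, hc, h⟩ := h
  have hlim : Filter.Tendsto (fun n : ℕ => Real.log n) Filter.atTop Filter.atTop :=
    Real.tendsto_log_atTop.comp tendsto_natCast_atTop_atTop
  obtain ⟨n, hn1, hn2⟩ := ((hlim.eventually_gt_atTop (|C| / c)).and
    (Filter.eventually_ge_atTop 2)).exists
  have h1 : ThetaT n ≤ ENNReal.ofReal (C * n) := by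
    unfold ThetaT
    exact iSup_le fun K => iSup_le fun h1 => iSup_le fun h2 => iSup_le fun h3 =>
      hC n (by omega) K h1 h2 h3
  have h2 := (h n hn2).trans h1
  have hn0 : (0 : ℝ) < n := by
    have : 0 < n := by omega
    exact_mod_cast this
  have h3 : ENNReal.ofReal (C * n) ≤ ENNReal.ofReal (|C| * n) :=
    ENNReal.ofReal_le_ofReal (mul_le_mul_of_nonneg_right (le_abs_self C) hn0.le)
  have h4 := (ENNReal.ofReal_le_ofReal_iff (by (clear * - hn2; positivity))).1 (h2.trans h3)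
  rw [div_lt_iff₀ hc] at hn1
  have h5 : |C| * n < Real.log n * c * n := mul_lt_mul_of_pos_right hn1 hn0
  linarith

/-- the order of growth of `Theta_T(n)` is `n log n`, and `Theta_L(n) ≥ c n log n` -/
theorem orders_of (h1 : Stmt.LowerT) (h2 : Stmt.ThetaTGeOne) (h3 : Stmt.RogersT)
    (h4 : Stmt.LatLe) :
    ∃ c C : ℝ, 0 < c ∧ 0 < C ∧ ∀ n : ℕ, 2 ≤ n →
      ENNReal.ofReal (c * n * Real.log n) ≤ ThetaT n ∧
        ThetaT n ≤ ENNReal.ofReal (C * n * Real.log n) ∧
          ENNReal.ofReal (c * n * Real.log n) ≤ Vale.Agent.P230.ThetaL n := by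
  obtain ⟨c, hc, h5⟩ := lowerT_all h1 h2
  obtain ⟨C, hC, h6⟩ := h3
  refine ⟨c, C, hc, hC, fun n hn => ⟨h5 n hn, h6 n hn, ?_⟩⟩
  exact (h5 n hn).trans (ThetaT_le_ThetaL_of h4 n (by omega))

end Vale.Agent.P230.LB
end
end

section

section

/-!
# P230 / LB / Rogers : the upper bound `Theta_T(n) ≤ C n log n` (Rogers 1957, helper234)
-/

set_option linter.all false

namespace Vale.Agent.P230.LB

open MeasureTheory Set
open scoped Pointwise ENNReal

/-- averaging: some translate of `W` meets `U` in at least the average volume -/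
theorem avg_overlap {n : ℕ} {U W Q : Set (E n)} (hU : MeasurableSet U) (hW : MeasurableSet W)
    (hQ : MeasurableSet Q) (hQ0 : volume Q ≠ 0) (hQt : volume Q ≠ ⊤) (hUt : volume U ≠ ⊤)
    (hWt : volume W ≠ ⊤) (h : ∀ x u, u ∈ U → u - x ∈ W → x ∈ Q) :
    ∃ x ∈ Q, volume U * volume W ≤ volume Q * volume {u | u ∈ U ∧ u - x ∈ W} := by
  have hmeas : MeasurableSet {q : E n × E n | q.2 ∈ U ∧ q.2 - q.1 ∈ W} :=
    (measurable_snd hU).inter ((measurable_snd.sub measurable_fst) hW)
  have hf : Measurable (fun x : E n => volume {u | u ∈ U ∧ u - x ∈ W}) := by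
    have := measurable_measure_prodMk_left (ν := (volume : Measure (E n))) hmeas
    exact this
  have hint : ∫⁻ x in Q, volume {u | u ∈ U ∧ u - x ∈ W} = volume U * volume W := by
    have h1 : ∫⁻ x in Q, volume {u | u ∈ U ∧ u - x ∈ W} =
        ∫⁻ x, volume {u | u ∈ U ∧ u - x ∈ W} := by
      rw [← lintegral_indicator hQ]
      refine lintegral_congr fun x => ?_
      by_cases hx : x ∈ Q
      · rw [indicator_of_mem hx]
      · rw [indicator_of_notMem hx]
        symm
        have : {u | u ∈ U ∧ u - x ∈ W} = ∅ := by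
          ext u
          simp only [mem_setOf_eq, mem_empty_iff_false, iff_false, not_and]
          exact fun hu hw => hx (h x u hu hw)
        rw [this, measure_empty]
    rw [h1]
    have h2 : ∀ x : E n, volume {u | u ∈ U ∧ u - x ∈ W} =
        ∫⁻ u, U.indicator 1 u * W.indicator 1 (u - x) := by
      intro x
      have hm : MeasurableSet {u : E n | u ∈ U ∧ u - x ∈ W} :=
        hU.inter ((measurable_id.sub_const x) hW)
      rw [← lintegral_indicator_one hm]
      refine lintegral_congr fun u => ?_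
      by_cases h1 : u ∈ U <;> by_cases h2 : u - x ∈ W <;> simp [indicator, h1, h2]
    simp only [h2]
    rw [lintegral_lintegral_swap]
    · have h3 : ∀ u : E n, ∫⁻ x, U.indicator (1 : E n → ℝ≥0∞) u * W.indicator 1 (u - x) =
          U.indicator (1 : E n → ℝ≥0∞) u * volume W := by
        intro u
        rw [lintegral_const_mul]
        · rw [lintegral_sub_left_eq_self (fun x => W.indicator (1 : E n → ℝ≥0∞) x) u,
            lintegral_indicator_one hW]
        · exact (measurable_one.indicator hW).comp (measurable_const.sub measurable_id)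
      simp only [h3]
      rw [lintegral_mul_const _ (measurable_one.indicator hU), lintegral_indicator_one hU]
    · refine Measurable.aemeasurable ?_
      exact ((measurable_one.indicator hU).comp measurable_snd).mul
        ((measurable_one.indicator hW).comp (measurable_snd.sub measurable_fst))
  obtain ⟨x, hxQ, hx⟩ := exists_setLAverage_le hQ0 hQ.nullMeasurableSet
    (f := fun x : E n => volume {u | u ∈ U ∧ u - x ∈ W})
    (by rw [hint]; exact ENNReal.mul_ne_top hUt hWt)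
  refine ⟨x, hxQ, ?_⟩
  rw [setLAverage_eq, hint] at hx
  rw [ENNReal.div_le_iff hQ0 hQt] at hx
  rwa [mul_comm (volume Q)]

/-- greedy covering -/
theorem greedy {n : ℕ} {A W Q : Set (E n)} (hA : MeasurableSet A) (hW : MeasurableSet W)
    (hQ : MeasurableSet Q) (hQ0 : volume Q ≠ 0) (hQt : volume Q ≠ ⊤) (hAt : volume A ≠ ⊤)
    (hWt : volume W ≠ ⊤) (hWQ : volume W ≤ volume Q)
    (h : ∀ x u, u ∈ A → u - x ∈ W → x ∈ Q) (N : ℕ) :
    ∃ F : Finset (E n), F.card ≤ N ∧
      (volume {u | u ∈ A ∧ ∀ x ∈ F, u - x ∉ W}).toReal ≤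
        (1 - (volume W).toReal / (volume Q).toReal) ^ N * (volume A).toReal := by
  classical
  induction N with
  | zero => exact ⟨∅, by simp, by simp only [Finset.notMem_empty, IsEmpty.forall_iff, implies_true, and_true, ofPred_mem_eq, pow_zero, one_mul, Std.le_refl]⟩
  | succ N ih =>
    obtain ⟨F, hF, hv⟩ := ih
    set U : Set (E n) := {u | u ∈ A ∧ ∀ x ∈ F, u - x ∉ W} with hUdef
    have hU : MeasurableSet U := by
      have : U = A ∩ ⋂ x ∈ F, {u | u - x ∉ W} := by
        ext u; simp only [hUdef, mem_ofPred_eq, mem_inter_iff, mem_iInter]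
      rw [this]
      exact hA.inter (Finset.measurableSet_biInter _ fun x _ =>
        ((measurable_id.sub_const x) hW).compl)
    have hUA : U ⊆ A := fun u hu => hu.1
    have hUt : volume U ≠ ⊤ := ((measure_mono hUA).trans_lt hAt.lt_top).ne
    obtain ⟨x, hxQ, hx⟩ := avg_overlap hU hW hQ hQ0 hQt hUt hWt
      fun x u hu hw => h x u (hUA hu) hw
    refine ⟨insert x F, (Finset.card_insert_le _ _).trans (by omega), ?_⟩
    set V : Set (E n) := {u | u ∈ U ∧ u - x ∈ W} with hV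
    have hVm : MeasurableSet V := hU.inter ((measurable_id.sub_const x) hW)
    have hVU : V ⊆ U := fun u hu => hu.1
    have hVt : volume V ≠ ⊤ := ((measure_mono hVU).trans_lt hUt.lt_top).ne
    have hset : {u | u ∈ A ∧ ∀ y ∈ insert x F, u - y ∉ W} = U \ V := by
      ext u
      simp only [hUdef, hV, mem_setOf_eq, mem_diff, Finset.mem_insert]
      constructor
      · rintro ⟨h1, h2⟩
        exact ⟨⟨h1, fun y hy => h2 y (Or.inr hy)⟩, fun h3 => h2 x (Or.inl rfl) h3.2⟩
      · rintro ⟨⟨h1, h2⟩, h3⟩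
        refine ⟨h1, fun y hy => ?_⟩
        rcases hy with rfl | hy
        · exact fun h4 => h3 ⟨⟨h1, h2⟩, h4⟩
        · exact h2 y hy
    rw [hset, measure_diff hVU hVm.nullMeasurableSet hVt,
      ENNReal.toReal_sub_of_le (measure_mono hVU) hUt]
    have hq : 0 < (volume Q).toReal := ENNReal.toReal_pos hQ0 hQt
    have hx' : (volume U).toReal * (volume W).toReal ≤
        (volume Q).toReal * (volume V).toReal := by
      rw [← ENNReal.toReal_mul, ← ENNReal.toReal_mul]
      exact ENNReal.toReal_mono (ENNReal.mul_ne_top hQt hVt) hx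
    have hfac : 0 ≤ 1 - (volume W).toReal / (volume Q).toReal := by
      rw [sub_nonneg, div_le_one hq]
      exact ENNReal.toReal_mono hQt hWQ
    calc (volume U).toReal - (volume V).toReal
        ≤ (volume U).toReal - (volume U).toReal * (volume W).toReal / (volume Q).toReal := by
          have : (volume U).toReal * (volume W).toReal / (volume Q).toReal ≤
              (volume V).toReal := by
            rw [div_le_iff₀ hq, mul_comm (volume V).toReal]
            exact hx'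
          linarith only [this]
      _ = (1 - (volume W).toReal / (volume Q).toReal) * (volume U).toReal := by ring
      _ ≤ (1 - (volume W).toReal / (volume Q).toReal) *
          ((1 - (volume W).toReal / (volume Q).toReal) ^ N * (volume A).toReal) :=
          mul_le_mul_of_nonneg_left hv hfac
      _ = _ := by rw [pow_succ]; ring


/-! ### symmetrization -/

/-- Some reflection of `K` meets `K` in volume at least `2^{-n} vol K`. -/
theorem exists_sym {n : ℕ} {K : Set (E n)} (hc : Convex ℝ K) (hk : IsCompact K)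
    (hi : (interior K).Nonempty) :
    ∃ z : E n, volume K ≤ 2 ^ n * volume {u | u ∈ K ∧ z - u ∈ K} := by
  have hK0 : volume K ≠ 0 := by
    have h1 : 0 < volume (interior K) := isOpen_interior.measure_pos _ hi
    exact (h1.trans_le (measure_mono interior_subset)).ne'
  have hKt : volume K ≠ ⊤ := hk.measure_lt_top.ne
  have h2K : (2 : ℝ) • K = K + K := by
    have := hc.add_smul (p := 1) (q := 1) zero_le_one zero_le_one
    rw [one_smul] at this
    rw [← this]
    norm_num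
  have hQv : volume ((2 : ℝ) • K) = 2 ^ n * volume K := by
    rw [Measure.addHaar_smul, finrank_euclideanSpace, Fintype.card_fin]
    congr 1
    rw [abs_of_pos (by positivity), ENNReal.ofReal_pow (by norm_num)]
    norm_num
  have hQc : IsCompact ((2 : ℝ) • K) := hk.smul 2
  obtain ⟨z, -, hz⟩ := avg_overlap (U := K) (W := -K) (Q := (2 : ℝ) • K)
    hk.measurableSet hk.measurableSet.neg hQc.measurableSet
    (by rw [hQv]; exact mul_ne_zero (by positivity) hK0) hQc.measure_lt_top.ne hKt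
    (by rw [Measure.measure_neg]; exact hKt)
    (by
      intro x u hu hw
      rw [h2K]
      refine ⟨u, hu, x - u, ?_, by abel⟩
      simpa only [mem_neg, neg_sub] using hw)
  refine ⟨z, ?_⟩
  rw [Measure.measure_neg, hQv] at hz
  have hset : {u | u ∈ K ∧ u - z ∈ -K} = {u | u ∈ K ∧ z - u ∈ K} := by
    ext u; simp only [mem_neg, neg_sub, mem_ofPred_eq]
  rw [hset, mul_right_comm, mul_comm (2 ^ n * _) (volume K)] at hz
  exact (ENNReal.mul_le_mul_iff_right hK0 hKt).1 hz

/-! ### maximal packing of the uncovered part -/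

/-- `K' = (1-t) K + t z/2`, `S = {s : z/2 ± s ∈ K}`; every point of `A₁` is covered by
`F + K` or by `G' + K`, `|G| t^n vol S ≤ vol(uncovered)`. -/
theorem pack {n : ℕ} {K S K' A A₁ : Set (E n)} {t : ℝ} (ht : 0 < t) (c : E n)
    (hS0 : (0 : E n) ∈ S)
    (hSm : MeasurableSet S) (hSv : volume S ≠ 0)
    (hneg : ∀ s ∈ S, -s ∈ S)
    (hF1 : ∀ u ∈ K', ∀ s ∈ S, u + t • s ∈ K)
    (hF2 : ∀ s ∈ S, ∀ s' ∈ S, t • s + t • s' + c ∈ K)
    (hAA : ∀ y ∈ A₁, ∀ s ∈ S, y + t • s ∈ A) (hA : volume A ≠ ⊤) (F : Finset (E n)) :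
    ∃ G : Finset (E n), (∀ y ∈ A₁, (∃ x ∈ F, y - x ∈ K) ∨ ∃ x ∈ G, y - x ∈ K) ∧
      (G.card : ℝ≥0∞) * (ENNReal.ofReal (t ^ n) * volume S) ≤
        volume {u | u ∈ A ∧ ∀ x ∈ F, u - x ∉ K'} := by
  classical
  set U : Set (E n) := {u | u ∈ A ∧ ∀ x ∈ F, u - x ∉ K'} with hU
  have hUA : U ⊆ A := fun u hu => hu.1
  have hUt : volume U ≠ ⊤ := ((measure_mono hUA).trans_lt hA.lt_top).ne
  set v : ℝ≥0∞ := ENNReal.ofReal (t ^ n) * volume S with hv
  have hv0 : v ≠ 0 := mul_ne_zero (by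
    rw [Ne, ENNReal.ofReal_eq_zero, not_le]; positivity) hSv
  let P : Finset (E n) → Prop := fun G => (∀ g ∈ G, ∀ s ∈ S, g + t • s ∈ U) ∧
    ∀ g ∈ G, ∀ g' ∈ G, g ≠ g' → ∀ s ∈ S, ∀ s' ∈ S, g + t • s ≠ g' + t • s'
  have hcard : ∀ G, P G → (G.card : ℝ≥0∞) * v ≤ volume U := by
    intro G hG
    have hvol : ∀ g : E n, volume ((fun s => g + t • s) '' S) = v := by
      intro g
      have : (fun s => g + t • s) '' S = (fun x => g + x) '' (t • S) := by
        rw [← image_smul, image_image]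
      rw [this, image_add_left, measure_preimage_add, Measure.addHaar_smul,
        finrank_euclideanSpace, Fintype.card_fin, abs_of_pos (by positivity)]
    have hmeas : ∀ g : E n, MeasurableSet ((fun s => g + t • s) '' S) := by
      intro g
      have : (fun s => g + t • s) '' S = (fun x => t⁻¹ • (x - g)) ⁻¹' S := by
        ext x
        constructor
        · rintro ⟨s, hs, rfl⟩
          simp only [mem_preimage, add_sub_cancel_left]
          rwa [inv_smul_smul₀ ht.ne']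
        · intro hx
          exact ⟨t⁻¹ • (x - g), hx, by simp only [smul_inv_smul₀ ht.ne', add_sub_cancel]⟩
      rw [this]
      exact ((measurable_id.sub_const g).const_smul t⁻¹) hSm
    have hsub : (⋃ g ∈ G, (fun s => g + t • s) '' S) ⊆ U := by
      intro x hx
      simp only [mem_iUnion, mem_image] at hx
      obtain ⟨g, hg, s, hs, rfl⟩ := hx
      exact hG.1 g hg s hs
    have hd : (↑G : Set (E n)).PairwiseDisjoint (fun g => (fun s => g + t • s) '' S) := by
      intro g hg g' hg' hne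
      rw [Function.onFun, Set.disjoint_left]
      rintro _ ⟨s, hs, rfl⟩ ⟨s', hs', h⟩
      exact hG.2 g hg g' hg' hne s hs s' hs' h.symm
    calc (G.card : ℝ≥0∞) * v = ∑ g ∈ G, volume ((fun s => g + t • s) '' S) := by
          simp only [hvol, Finset.sum_const, nsmul_eq_mul]
      _ = volume (⋃ g ∈ G, (fun s => g + t • s) '' S) :=
          (measure_biUnion_finset hd fun g _ => hmeas g).symm
      _ ≤ volume U := measure_mono hsub
  have hbdd : BddAbove {k | ∃ G, P G ∧ G.card = k} := by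
    obtain ⟨M, hM⟩ := ENNReal.exists_nat_gt (ENNReal.div_lt_top hUt hv0).ne
    refine ⟨M, ?_⟩
    rintro _ ⟨G, hG, rfl⟩
    have h1 := hcard G hG
    have h2 : (G.card : ℝ≥0∞) ≤ volume U / v := by
      rw [ENNReal.le_div_iff_mul_le (Or.inl hv0) (Or.inr hUt)]
      exact h1
    have h3 : (G.card : ℝ≥0∞) < M := h2.trans_lt hM
    exact (by exact_mod_cast h3 : G.card < M).le
  obtain ⟨G, hG, hmax⟩ := Nat.sSup_mem (s := {k | ∃ G, P G ∧ G.card = k})
    ⟨0, ∅, ⟨by simp only [Finset.notMem_empty, IsEmpty.forall_iff, implies_true], by simp only [Finset.notMem_empty, ne_eq, IsEmpty.forall_iff, implies_true]⟩, by simp⟩ hbdd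
  refine ⟨G.image (fun g => g - c), fun y hy => ?_, ?_⟩
  · by_contra hcon
    push Not at hcon
    obtain ⟨hc1, hc2⟩ := hcon
    have hyG : y ∉ G := by
      intro hyG
      refine hc2 (y - c) (Finset.mem_image.2 ⟨y, hyG, rfl⟩) ?_
      have := hF2 0 hS0 0 hS0
      simpa using this
    have hP : P (insert y G) := by
      have hyU : ∀ s ∈ S, y + t • s ∈ U := by
        intro s hs
        refine ⟨hAA y hy s hs, fun x hx hxK => hc1 x hx ?_⟩
        have h3 := hF1 _ hxK (-s) (hneg s hs)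
        have h4 : y + t • s - x + t • -s = y - x := by rw [smul_neg]; abel
        rwa [h4] at h3
      have hyg : ∀ g ∈ G, ∀ s ∈ S, ∀ s' ∈ S, y + t • s ≠ g + t • s' := by
        intro g hg s hs s' hs' heq
        refine hc2 (g - c) (Finset.mem_image.2 ⟨g, hg, rfl⟩) ?_
        have h3 := hF2 s' hs' (-s) (hneg s hs)
        have h4 : t • s' + t • -s + c = y - (g - c) := by
          rw [smul_neg]
          have : y = g + t • s' - t • s := by rw [← heq]; abel
          rw [this]; abel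
        rwa [h4] at h3
      refine ⟨fun g hg => ?_, fun g hg g' hg' hne => ?_⟩
      · rcases Finset.mem_insert.1 hg with rfl | hg
        · exact hyU
        · exact hG.1 g hg
      · intro s hs s' hs' heq
        rcases Finset.mem_insert.1 hg with h1 | h1
        · rcases Finset.mem_insert.1 hg' with h2 | h2
          · exact hne (h1.trans h2.symm)
          · rw [h1] at heq
            exact hyg g' h2 s hs s' hs' heq
        · rcases Finset.mem_insert.1 hg' with h2 | h2
          · rw [h2] at heq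
            exact hyg g h1 s' hs' s hs heq.symm
          · exact hG.2 g h1 g' h2 hne s hs s' hs' heq
    have h5 : (insert y G).card ≤ sSup {k | ∃ G, P G ∧ G.card = k} :=
      le_csSup hbdd ⟨_, hP, rfl⟩
    rw [Finset.card_insert_of_notMem hyG, ← hmax] at h5
    omega
  · refine le_trans ?_ (hcard G hG)
    refine mul_le_mul_left ?_ _
    exact_mod_cast Finset.card_image_le

/-! ### cubes -/

theorem volume_cube {n : ℕ} {R : ℝ} (hR : 0 ≤ R) :
    volume (cube n R) = ENNReal.ofReal ((2 * R) ^ n) := by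
  have h1 : cube n R = WithLp.ofLp ⁻¹' (Set.Icc (fun _ : Fin n => -R) (fun _ => R)) := by
    ext x
    simp only [cube, mem_setOf_eq, mem_preimage, mem_Icc, Pi.le_def, abs_le]
    exact ⟨fun h => ⟨fun i => (h i).1, fun i => (h i).2⟩, fun h i => ⟨h.1 i, h.2 i⟩⟩
  rw [h1, (PiLp.volume_preserving_ofLp (Fin n)).measure_preimage
    measurableSet_Icc.nullMeasurableSet, Real.volume_Icc_pi]
  rw [Finset.prod_const, Finset.card_univ, Fintype.card_fin, ← ENNReal.ofReal_pow (by linarith)]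
  congr 2
  ring

theorem measurableSet_cube {n : ℕ} {R : ℝ} : MeasurableSet (cube n R) := by
  have h1 : cube n R = WithLp.ofLp ⁻¹' (Set.Icc (fun _ : Fin n => -R) (fun _ => R)) := by
    ext x
    simp only [cube, mem_setOf_eq, mem_preimage, mem_Icc, Pi.le_def, abs_le]
    exact ⟨fun h => ⟨fun i => (h i).1, fun i => (h i).2⟩, fun h i => ⟨h.1 i, h.2 i⟩⟩
  rw [h1]
  exact (PiLp.volume_preserving_ofLp (Fin n)).measurable measurableSet_Icc

theorem abs_coord_le_norm {n : ℕ} (x : E n) (i : Fin n) : |x i| ≤ ‖x‖ := by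
  have := PiLp.norm_apply_le x i
  simpa only [ge_iff_le, Real.norm_eq_abs] using this


/-! ### periodic coverings -/

/-- translation vector -/
noncomputable def lat {n : ℕ} (L : ℝ) (k : Fin n → ℤ) : E n :=
  WithLp.toLp 2 (fun i => 2 * L * (k i : ℝ))

/-- points of `x + 2L ℤ^n` in a cube -/
theorem encard_lat_cube {n : ℕ} {L R : ℝ} (hL : 0 < L) (hR : 0 ≤ R) (x : E n) :
    {p : E n | p ∈ cube n R ∧ ∃ k : Fin n → ℤ, p = x + lat L k}.Finite ∧
    (({p : E n | p ∈ cube n R ∧ ∃ k : Fin n → ℤ, p = x + lat L k}.encard : ℕ∞) : ℝ≥0∞) ≤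
      ENNReal.ofReal ((R / L + 1) ^ n) := by
  classical
  let I : Fin n → Finset ℤ := fun i => Finset.Icc ⌈(-R - x i) / (2 * L)⌉ ⌊(R - x i) / (2 * L)⌋
  have hI : ∀ i, ((I i).card : ℝ) ≤ R / L + 1 := by
    intro i
    simp only [I, Int.card_Icc]
    have h1 : (⌊(R - x i) / (2 * L)⌋ : ℝ) ≤ (R - x i) / (2 * L) := Int.floor_le _
    have h2 : (-R - x i) / (2 * L) ≤ (⌈(-R - x i) / (2 * L)⌉ : ℝ) := Int.le_ceil _
    have h3 : (R - x i) / (2 * L) - (-R - x i) / (2 * L) = R / L := by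
      field_simp
      ring
    have h4 : 0 ≤ R / L := by (clear * - hR hL; positivity)
    rcases le_or_gt 0 (⌊(R - x i) / (2 * L)⌋ + 1 - ⌈(-R - x i) / (2 * L)⌉) with h | h
    · have h5 : (((⌊(R - x i) / (2 * L)⌋ + 1 - ⌈(-R - x i) / (2 * L)⌉).toNat : ℤ) : ℝ) =
          ⌊(R - x i) / (2 * L)⌋ + 1 - ⌈(-R - x i) / (2 * L)⌉ := by
        rw [Int.toNat_of_nonneg h]
        push_cast
        ring
      have h6 : (((⌊(R - x i) / (2 * L)⌋ + 1 - ⌈(-R - x i) / (2 * L)⌉).toNat : ℕ) : ℝ) =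
          (((⌊(R - x i) / (2 * L)⌋ + 1 - ⌈(-R - x i) / (2 * L)⌉).toNat : ℤ) : ℝ) := by
        push_cast
        rfl
      rw [h6, h5]
      linarith only [h1, h2, h3]
    · rw [Int.toNat_of_nonpos h.le]
      push_cast
      linarith only [h4]
  have hsub : {p : E n | p ∈ cube n R ∧ ∃ k : Fin n → ℤ, p = x + lat L k} ⊆
      ((fun k => x + lat L k) '' (Fintype.piFinset I : Set (Fin n → ℤ))) := by
    rintro p ⟨hp, k, rfl⟩
    refine ⟨k, ?_, rfl⟩
    rw [Finset.mem_coe, Fintype.mem_piFinset]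
    intro i
    have h1 := abs_le.1 (hp i)
    have h2 : (x + lat L k) i = x i + 2 * L * k i := rfl
    rw [h2] at h1
    have h2L : 0 < 2 * L := by linarith only [hL]
    simp only [I, Finset.mem_Icc]
    constructor
    · rw [Int.ceil_le, div_le_iff₀ h2L]
      linarith
    · rw [Int.le_floor, le_div_iff₀ h2L]
      linarith
  refine ⟨((Fintype.piFinset I).finite_toSet.image _).subset hsub, ?_⟩
  have h1 : ({p : E n | p ∈ cube n R ∧ ∃ k : Fin n → ℤ, p = x + lat L k}.encard : ℕ∞) ≤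
      ((Fintype.piFinset I).card : ℕ∞) := by
    refine (encard_le_encard hsub).trans ((encard_image_le _ _).trans ?_)
    rw [encard_coe_eq_coe_finsetCard]
  have h2 : (({p : E n | p ∈ cube n R ∧ ∃ k : Fin n → ℤ, p = x + lat L k}.encard : ℕ∞) : ℝ≥0∞) ≤
      (((Fintype.piFinset I).card : ℕ∞) : ℝ≥0∞) := by
    exact_mod_cast h1
  refine h2.trans ?_
  have h3 : (((Fintype.piFinset I).card : ℕ∞) : ℝ≥0∞) =
      ENNReal.ofReal ((Fintype.piFinset I).card : ℝ) := by
    rw [ENNReal.ofReal_natCast]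
    rfl
  rw [h3]
  apply ENNReal.ofReal_le_ofReal
  rw [Fintype.card_piFinset]
  push_cast
  calc ∏ i, ((I i).card : ℝ) ≤ ∏ _i : Fin n, (R / L + 1) :=
        Finset.prod_le_prod (fun _ _ => Nat.cast_nonneg _) fun i _ => hI i
    _ = _ := by simp only [Finset.prod_const, Finset.card_univ, Fintype.card_fin]

theorem periodize {n : ℕ} {K : Set (E n)} {L : ℝ} (hL : 0 < L) {F : Finset (E n)}
    (h : ∀ y ∈ cube n L, ∃ x ∈ F, y - x ∈ K) :
    ∃ X : Set (E n), LocFin X ∧ K + X = univ ∧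
      upDens X ≤ ENNReal.ofReal (F.card / (2 * L) ^ n) := by
  classical
  set X : Set (E n) := {p | ∃ x ∈ F, ∃ k : Fin n → ℤ, p = x + lat L k} with hX
  have hcube : ∀ R : ℝ, X ∩ cube n R =
      ⋃ x ∈ F, {p : E n | p ∈ cube n R ∧ ∃ k : Fin n → ℤ, p = x + lat L k} := by
    intro R
    ext p
    simp only [hX, mem_inter_iff, mem_setOf_eq, mem_iUnion, exists_prop]
    constructor
    · rintro ⟨⟨x, hx, k, hk⟩, hp⟩
      exact ⟨x, hx, hp, k, hk⟩
    · rintro ⟨x, hx, hp, k, hk⟩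
      exact ⟨⟨x, hx, k, hk⟩, hp⟩
  have hcount : ∀ R : ℝ, 0 ≤ R → (((X ∩ cube n R).encard : ℕ∞) : ℝ≥0∞) ≤
      ENNReal.ofReal (F.card * (R / L + 1) ^ n) := by
    intro R hR
    rw [hcube R]
    have key : ∀ G : Finset (E n), (((⋃ x ∈ G, {p : E n | p ∈ cube n R ∧
        ∃ k : Fin n → ℤ, p = x + lat L k}).encard : ℕ∞) : ℝ≥0∞) ≤
        ENNReal.ofReal (G.card * (R / L + 1) ^ n) := by
      intro G
      induction G using Finset.induction_on with
      | empty => simp
      | insert a G ha ih =>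
        rw [Finset.set_biUnion_insert, Finset.card_insert_of_notMem ha]
        have h1 := encard_union_le {p : E n | p ∈ cube n R ∧ ∃ k : Fin n → ℤ, p = a + lat L k}
          (⋃ x ∈ G, {p : E n | p ∈ cube n R ∧ ∃ k : Fin n → ℤ, p = x + lat L k})
        have h2 : (({p : E n | p ∈ cube n R ∧ ∃ k : Fin n → ℤ, p = a + lat L k} ∪
            (⋃ x ∈ G, {p : E n | p ∈ cube n R ∧
              ∃ k : Fin n → ℤ, p = x + lat L k})).encard : ℝ≥0∞) ≤
            (({p : E n | p ∈ cube n R ∧ ∃ k : Fin n → ℤ, p = a + lat L k}.encard : ℕ∞) : ℝ≥0∞) +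
            (((⋃ x ∈ G, {p : E n | p ∈ cube n R ∧
              ∃ k : Fin n → ℤ, p = x + lat L k}).encard : ℕ∞) : ℝ≥0∞) := by
          exact_mod_cast h1
        refine h2.trans ((add_le_add (encard_lat_cube hL hR a).2 ih).trans ?_)
        rw [← ENNReal.ofReal_add (by (clear * - hR hL; positivity)) (by (clear * - hR hL; positivity))]
        apply ENNReal.ofReal_le_ofReal
        push_cast
        linarith only []
    exact key F
  refine ⟨X, fun R => ?_, ?_, ?_⟩
  · have h1 : X ∩ Metric.closedBall 0 R ⊆ X ∩ cube n (max R 0) := by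
      rintro p ⟨hp, hpR⟩
      refine ⟨hp, fun i => (abs_coord_le_norm p i).trans ?_⟩
      rw [mem_closedBall_zero_iff] at hpR
      exact hpR.trans (le_max_left _ _)
    refine Set.Finite.subset ?_ h1
    rw [hcube]
    exact F.finite_toSet.biUnion fun x _ => (encard_lat_cube hL (le_max_right _ _) x).1
  · rw [eq_univ_iff_forall]
    intro p
    have h2L : 0 < 2 * L := by linarith only [hL]
    let k : Fin n → ℤ := fun i => round (p i / (2 * L))
    have hy : p - lat L k ∈ cube n L := by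
      intro i
      have h1 : (p - lat L k) i = 2 * L * (p i / (2 * L) - round (p i / (2 * L))) := by
        have : (p - lat L k) i = p i - 2 * L * (round (p i / (2 * L)) : ℝ) := rfl
        rw [this]
        (clear * - hL; field_simp)
      rw [h1, abs_mul, abs_of_pos h2L]
      have h2 := abs_sub_round (p i / (2 * L))
      calc 2 * L * |p i / (2 * L) - round (p i / (2 * L))| ≤ 2 * L * (1 / 2) := by (clear * - h2 hL; gcongr)
        _ = L := by ring
    obtain ⟨x, hx, hxK⟩ := h _ hy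
    exact ⟨p - lat L k - x, hxK, x + lat L k, ⟨x, hx, k, rfl⟩, by
      show p - lat L k - x + (x + lat L k) = p
      abel⟩
  · unfold upDens
    have hev : ∀ᶠ R : ℝ in Filter.atTop,
        ((X ∩ cube n R).encard : ℝ≥0∞) / ENNReal.ofReal ((2 * R) ^ n) ≤
          ENNReal.ofReal (F.card / (2 * L) ^ n * (1 + L / R) ^ n) := by
      filter_upwards [Filter.eventually_gt_atTop 0] with R hR
      have h2R : 0 < (2 * R) ^ n := by positivity
      refine (ENNReal.div_le_div_right (hcount R hR.le) _).trans ?_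
      rw [← ENNReal.ofReal_div_of_pos h2R]
      apply ENNReal.ofReal_le_ofReal
      apply le_of_eq
      have h3 : R / L + 1 = R / L * (1 + L / R) := by field_simp
      rw [h3, mul_pow, div_pow, mul_pow, mul_pow]
      (clear * - hR hL; field_simp)
    refine (Filter.limsup_le_limsup hev).trans (le_of_eq ?_)
    apply Filter.Tendsto.limsup_eq
    have h4 : Filter.Tendsto (fun R : ℝ => (F.card : ℝ) / (2 * L) ^ n * (1 + L / R) ^ n)
        Filter.atTop (nhds (F.card / (2 * L) ^ n * (1 + 0) ^ n)) := by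
      refine Filter.Tendsto.const_mul _ (Filter.Tendsto.pow ?_ n)
      exact Filter.Tendsto.const_add _ (Filter.Tendsto.const_div_atTop Filter.tendsto_id L)
    rw [add_zero, one_pow, mul_one] at h4
    exact ENNReal.tendsto_ofReal h4

theorem quarter_le {n : ℕ} (hn : 2 ≤ n) : (1 / 4 : ℝ) ≤ (1 - 1 / n) ^ n := by
  have hn' : (2 : ℝ) ≤ n := by exact_mod_cast hn
  have h1 : 1 + (n / 2 : ℝ) * (-(1 / n)) ≤ (1 + (-(1 / n) : ℝ)) ^ (n / 2 : ℝ) := by
    apply one_add_mul_self_le_rpow_one_add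
    · have : (1 : ℝ) / n ≤ 1 := by
        rw [div_le_one (by linarith only [hn'])]; linarith only [hn']
      linarith only [this]
    · linarith only [hn']
  have h2 : 1 + (n / 2 : ℝ) * (-(1 / n)) = 1 / 2 := by
    field_simp
    ring
  rw [h2] at h1
  have h0 : (0 : ℝ) ≤ 1 + (-(1 / n) : ℝ) := by
    have : (1 : ℝ) / n ≤ 1 := by
      rw [div_le_one (by linarith only [hn'])]; linarith only [hn']
    (clear * - this; linarith)
  have h3 : ((1 + (-(1 / n) : ℝ)) ^ (n / 2 : ℝ)) ^ 2 = (1 - 1 / n : ℝ) ^ n := by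
    rw [← Real.rpow_natCast, ← Real.rpow_mul h0]
    have : (n / 2 : ℝ) * ((2 : ℕ) : ℝ) = n := by push_cast; ring
    rw [this, Real.rpow_natCast]
    ring
  rw [← h3]
  nlinarith only [h1]

/-- the numerical part of `cube_cover` -/
theorem cube_num {n : ℕ} (hn : 2 ≤ n) {d vK vK' vQ vA vS g card : ℝ} {N : ℕ} (hd1 : 1 ≤ d)
    (hvK0 : 0 < vK) (hKd : vK ≤ (2 * d) ^ n)
    (hvK' : vK' = (1 - 1 / n) ^ n * vK)
    (hvQ : vQ = (2 * (4 * d * n + 2 * d)) ^ n)
    (hvA : vA = (2 * (4 * d * n + d)) ^ n)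
    (hzr : vK ≤ 2 ^ n * vS) (hWQ : vK' ≤ vQ)
    (hN : N = ⌈vQ / vK' * (n * Real.log (2 * n))⌉₊)
    (hGr : g * ((1 / n : ℝ) ^ n * vS) ≤ (1 - vK' / vQ) ^ N * vA)
    (hcard : card ≤ N + g) (hg0 : 0 ≤ g) :
    vK * card ≤ 20 * n * Real.log n * (2 * (4 * d * n)) ^ n := by
  have hn' : (2 : ℝ) ≤ n := by exact_mod_cast hn
  have hn0 : (0 : ℝ) < n := by linarith only [hn']
  have hquarter : (1 / 4 : ℝ) ≤ (1 - 1 / n) ^ n := quarter_le hn
  have hvK'0 : 0 < vK' := by
    rw [hvK']
    have : (0 : ℝ) < (1 - 1 / n) ^ n := by linarith only [hquarter]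
    (clear * - hquarter hvK0; positivity)
  set P : ℝ := (2 * (4 * d * n)) ^ n with hP
  have hP0 : 0 < P := by positivity
  have hKP : vK ≤ P := by
    refine hKd.trans ?_
    rw [hP]
    have : d ≤ 4 * d * n := by nlinarith only [hn', hd1]
    (clear * - hd1 this; gcongr)
  have hQP : vQ ≤ 2 * P := by
    rw [hvQ, hP]
    have h1 : 2 * (4 * d * n + 2 * d) = 2 * (4 * d * n) * (1 + 1 / (2 * n)) := by
      field_simp
      ring
    rw [h1, mul_pow, mul_comm]
    have h2 : (1 : ℝ) + 1 / (2 * n) ≤ Real.exp (1 / (2 * n)) := by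
      have := Real.add_one_le_exp (1 / (2 * n) : ℝ)
      linarith only [this]
    have h5 : (1 + 1 / (2 * (n : ℝ))) ^ n ≤ 2 := by
      calc (1 + 1 / (2 * (n : ℝ))) ^ n ≤ Real.exp (1 / (2 * n)) ^ n :=
            pow_le_pow_left₀ (by positivity) h2 n
        _ = Real.exp (1 / 2) := by
            rw [← Real.exp_nat_mul]
            congr 1
            field_simp
        _ ≤ 2 := by
            have h3 : Real.exp (1 / 2) ^ 2 = Real.exp 1 := by
              rw [← Real.exp_nat_mul]; norm_num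
            have h4 := Real.exp_one_lt_d9
            nlinarith only [h3, h4]
    (clear * - h5 hd1 hn; gcongr)
  have hAQ : vA ≤ vQ := by
    rw [hvA, hvQ]
    have : 4 * d * n + d ≤ 4 * d * n + 2 * d := by linarith only [hd1]
    (clear * - hd1 hn this; gcongr)
  have hvA0 : 0 ≤ vA := by rw [hvA]; positivity
  have hQpos' : 0 < vQ := hvK'0.trans_le hWQ
  set x : ℝ := vK' / vQ with hx
  have hx0 : 0 < x := div_pos hvK'0 hQpos'
  have hx1 : x ≤ 1 := by rw [hx, div_le_one hQpos']; exact hWQ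
  have hlog : 0 < Real.log (2 * n) := Real.log_pos (by linarith only [hn'])
  have hNlow : n * Real.log (2 * n) ≤ x * N := by
    have h1 : vQ / vK' * (n * Real.log (2 * n)) ≤ N := by rw [hN]; exact Nat.le_ceil _
    calc n * Real.log (2 * n) = x * (vQ / vK' * (n * Real.log (2 * n))) := by
          rw [hx]; (clear * - hvK'0 hQpos' hn; field_simp)
      _ ≤ x * N := mul_le_mul_of_nonneg_left h1 hx0.le
  have hNup : (N : ℝ) ≤ vQ / vK' * (n * Real.log (2 * n)) + 1 := by
    have : 0 ≤ vQ / vK' * (n * Real.log (2 * n)) := by (clear * - hQpos' hvK'0 hn hlog; positivity)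
    rw [hN]
    exact (Nat.ceil_lt_add_one this).le
  have hdecay : (1 - x) ^ N * (2 * (n : ℝ)) ^ n ≤ 1 := by
    have h1 : (1 - x) ^ N ≤ Real.exp (-(n * Real.log (2 * n))) := by
      calc (1 - x) ^ N ≤ Real.exp (-x) ^ N := by
            refine pow_le_pow_left₀ (by linarith only [hx1]) ?_ N
            linarith only [Real.add_one_le_exp (-x)]
        _ = Real.exp (-(x * N)) := by rw [← Real.exp_nat_mul]; congr 1; ring
        _ ≤ _ := Real.exp_le_exp.2 (by linarith only [hNlow])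
    have h2 : Real.exp (-(n * Real.log (2 * n))) * (2 * (n : ℝ)) ^ n = 1 := by
      have h3 : (2 * (n : ℝ)) ^ n = Real.exp (n * Real.log (2 * n)) := by
        rw [Real.exp_nat_mul, Real.exp_log (by linarith only [hn'])]
      rw [h3, ← Real.exp_add]
      simp
    calc _ ≤ Real.exp (-(n * Real.log (2 * n))) * (2 * (n : ℝ)) ^ n := by (clear * - h1 hn; gcongr)
      _ = 1 := h2
  have hGK : vK * g ≤ vA := by
    have h1 : (2 * (n : ℝ)) ^ n * (1 / n : ℝ) ^ n = 2 ^ n := by
      rw [← mul_pow]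
      congr 1
      field_simp
    calc vK * g ≤ (2 ^ n * vS) * g := by (clear * - hzr hg0; gcongr)
      _ = (2 * (n : ℝ)) ^ n * (g * ((1 / n : ℝ) ^ n * vS)) := by
          rw [← h1]; ring
      _ ≤ (2 * (n : ℝ)) ^ n * ((1 - x) ^ N * vA) := by (clear * - hGr hn; gcongr)
      _ = ((1 - x) ^ N * (2 * (n : ℝ)) ^ n) * vA := by ring
      _ ≤ 1 * vA := by (clear * - hdecay hvA0; gcongr)
      _ = _ := one_mul _
  have hNK : vK * N ≤ 4 * vQ * (n * Real.log (2 * n)) + vK := by
    have h1 : vK ≤ 4 * vK' := by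
      rw [hvK']
      nlinarith only [hvK0, hquarter]
    have h2 : vK * (vQ / vK') ≤ 4 * vQ := by
      rw [← mul_div_assoc, div_le_iff₀ hvK'0]
      linarith only [mul_nonneg (sub_nonneg.2 h1) (le_of_lt (sub_pos.2 hvK'0)), mul_nonneg (sub_nonneg.2 hWQ) (sub_nonneg.2 h1)]
    calc vK * N ≤ vK * (vQ / vK' * (n * Real.log (2 * n)) + 1) := by (clear * - hNup hvK0; gcongr)
      _ = vK * (vQ / vK') * (n * Real.log (2 * n)) + vK := by ring
      _ ≤ _ := by (clear * - h2 hn hlog; gcongr)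
  have hlogn : 0 < Real.log n := Real.log_pos (by linarith only [hn'])
  have hlog2n : Real.log 2 ≤ Real.log n := Real.log_le_log (by norm_num) hn'
  have hlog2 : Real.log (2 * n) ≤ 2 * Real.log n := by
    rw [Real.log_mul (by norm_num) (by positivity)]
    linarith only [hlog2n]
  have h3 : 3 ≤ 4 * (n * Real.log n) := by
    have h2 := Real.log_two_gt_d9
    nlinarith only [hn', hlog2n, h2]
  calc vK * card ≤ vK * (N + g) := by (clear * - hcard hvK0; gcongr)
    _ = vK * N + vK * g := by ring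
    _ ≤ (4 * vQ * (n * Real.log (2 * n)) + vK) + vA := by linarith only [hGK, hNK]
    _ ≤ (4 * (2 * P) * (n * (2 * Real.log n)) + P) + 2 * P := by
        have h4 : 4 * vQ * (n * Real.log (2 * n)) ≤
            4 * (2 * P) * (n * (2 * Real.log n)) := by (clear * - hQP hlog2 hn hlog hd1; gcongr)
        linarith only [hKP, hQP, hAQ, h4]
    _ = (16 * (n * Real.log n) + 3) * P := by ring
    _ ≤ (20 * (n * Real.log n)) * P := by
        gcongr
        linarith only [h3]
    _ = 20 * n * Real.log n * P := by ring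

/-- economical covering of a large cube -/
theorem cube_cover {n : ℕ} (hn : 2 ≤ n) {K : Set (E n)} (hc : Convex ℝ K) (hk : IsCompact K)
    (hi : (interior K).Nonempty) :
    ∃ (L : ℝ) (F : Finset (E n)), 0 < L ∧ (∀ y ∈ cube n L, ∃ x ∈ F, y - x ∈ K) ∧
      (volume K).toReal * F.card ≤ 20 * n * Real.log n * (2 * L) ^ n := by
  classical
  have hn' : (2 : ℝ) ≤ n := by exact_mod_cast hn
  have hn0 : (0 : ℝ) < n := by linarith only [hn']
  obtain ⟨z, hz⟩ := exists_sym hc hk hi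
  have hK0 : volume K ≠ 0 := by
    have h1 : 0 < volume (interior K) := isOpen_interior.measure_pos _ hi
    exact (h1.trans_le (measure_mono interior_subset)).ne'
  have hKt : volume K ≠ ⊤ := hk.measure_lt_top.ne
  set t : ℝ := 1 / n with ht
  have ht0 : 0 < t := by positivity
  have ht2 : t ≤ 1 / 2 := by
    rw [ht]
    exact one_div_le_one_div_of_le (by norm_num) hn'
  set c : E n := (1 / 2 : ℝ) • z with hcdef
  have hcc : c + c = z := by
    rw [hcdef, ← add_smul]; norm_num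
  set S : Set (E n) := {s | c + s ∈ K ∧ c - s ∈ K} with hS
  have hSpre : S = (fun s => c + s) ⁻¹' {u | u ∈ K ∧ z - u ∈ K} := by
    ext s
    simp only [hS, mem_setOf_eq, mem_preimage]
    rw [← hcc]
    have : c + c - (c + s) = c - s := by abel
    rw [this]
  have hSm : MeasurableSet S :=
    ((measurable_const_add c) hk.measurableSet).inter
      ((measurable_const.sub measurable_id) hk.measurableSet)
  have hSvol : volume S = volume {u | u ∈ K ∧ z - u ∈ K} := by
    rw [hSpre, measure_preimage_add]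
  rw [← hSvol] at hz
  have hSv : volume S ≠ 0 := by
    intro h0
    rw [h0, mul_zero] at hz
    exact hK0 (le_antisymm hz bot_le)
  have hSne : S.Nonempty := nonempty_of_measure_ne_zero hSv
  have hneg : ∀ s ∈ S, -s ∈ S := by
    rintro s ⟨h1, h2⟩
    refine ⟨?_, ?_⟩
    · rwa [← sub_eq_add_neg]
    · rwa [sub_neg_eq_add]
  have hcK : c ∈ K := by
    obtain ⟨s, h1, h2⟩ := hSne
    have h3 := hc h1 h2 (a := 1 / 2) (b := 1 / 2) (by norm_num) (by norm_num) (by norm_num)
    have h4 : (1 / 2 : ℝ) • (c + s) + (1 / 2 : ℝ) • (c - s) = c := by module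
    rwa [h4] at h3
  have hS0 : (0 : E n) ∈ S := by
    refine ⟨?_, ?_⟩
    · rwa [add_zero]
    · rwa [sub_zero]
  set K' : Set (E n) := AffineMap.homothety c (1 - t) '' K with hK'
  have hK'form : ∀ u ∈ K', ∃ k ∈ K, u = (1 - t) • k + t • c := by
    rintro _ ⟨k, hkK, rfl⟩
    refine ⟨k, hkK, ?_⟩
    rw [AffineMap.homothety_apply]
    simp only [vsub_eq_sub, vadd_eq_add]
    module
  have hK'K : K' ⊆ K := by
    intro u hu
    obtain ⟨k, hkK, rfl⟩ := hK'form u hu
    exact hc hkK hcK (by linarith only [ht2]) ht0.le (by ring)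
  have hK'm : MeasurableSet K' := by
    have : IsCompact K' := hk.image (AffineMap.homothety_continuous c (1 - t))
    exact this.measurableSet
  have hK'v : volume K' = ENNReal.ofReal ((1 - t) ^ n) * volume K := by
    rw [hK', Measure.addHaar_image_homothety, finrank_euclideanSpace, Fintype.card_fin,
      abs_of_nonneg (pow_nonneg (by linarith only [ht2]) n)]
  have hF1 : ∀ u ∈ K', ∀ s ∈ S, u + t • s ∈ K := by
    intro u hu s hs
    obtain ⟨k, hkK, rfl⟩ := hK'form u hu
    have h3 := hc hkK hs.1 (a := 1 - t) (b := t) (by linarith only [ht2]) ht0.le (by ring)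
    have h4 : (1 - t) • k + t • c + t • s = (1 - t) • k + t • (c + s) := by module
    rwa [h4]
  have hF2 : ∀ s ∈ S, ∀ s' ∈ S, t • s + t • s' + c ∈ K := by
    intro s hs s' hs'
    have h3 := hc hs.1 hs'.1 (a := 1 / 2) (b := 1 / 2) (by norm_num) (by norm_num) (by norm_num)
    have h5 := hc hcK h3 (a := 1 - 2 * t) (b := 2 * t) (by linarith only [ht2]) (by linarith only [ht0]) (by ring)
    have h4 : (1 - 2 * t) • c + (2 * t) • ((1 / 2 : ℝ) • (c + s) + (1 / 2 : ℝ) • (c + s')) =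
        t • s + t • s' + c := by module
    rwa [h4] at h5
  obtain ⟨d0, hd0⟩ := hk.isBounded.subset_closedBall (0 : E n)
  set d : ℝ := max d0 1 with hd
  have hd1 : 1 ≤ d := le_max_right _ _
  have hKd : ∀ u ∈ K, ‖u‖ ≤ d := by
    intro u hu
    have := hd0 hu
    rw [mem_closedBall_zero_iff] at this
    exact this.trans (le_max_left _ _)
  set L : ℝ := 4 * d * n with hL
  have hLd : d ≤ L := by
    rw [hL]; nlinarith only [hn', hd1]
  have hL0 : 0 < L := by linarith only [hd1, hLd]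
  set A : Set (E n) := cube n (L + d) with hA
  set Q : Set (E n) := cube n (L + 2 * d) with hQ
  have hAv : volume A = ENNReal.ofReal ((2 * (L + d)) ^ n) := volume_cube (by linarith only [hd1, hLd])
  have hQv : volume Q = ENNReal.ofReal ((2 * (L + 2 * d)) ^ n) := volume_cube (by linarith only [hd1, hLd])
  have hQpos : 0 < (2 * (L + 2 * d)) ^ n := by (clear * - hn; positivity)
  have hAA : ∀ y ∈ cube n L, ∀ s ∈ S, y + t • s ∈ A := by
    intro y hy s hs i
    have h1 : (y + t • s) i = y i + t * s i := rfl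
    have h2 : ‖s‖ ≤ 2 * d := by
      have : s = (c + s) - c := by abel
      rw [this]
      refine (norm_sub_le _ _).trans ?_
      have := hKd _ hs.1
      have := hKd _ hcK
      (clear hn hk hn' hn0 hKt t ht ht0 ht2 hcdef hcc hS hSpre hSm hSvol hneg hS0 K' hK' hK'form hK'K hK'm hK'v hF1 hF2 hd hd1 L hL hLd hL0 A hA Q hQ hAv hQv hQpos y hy i h1; linarith)
    have h3 : |s i| ≤ 2 * d := (abs_coord_le_norm s i).trans h2
    rw [h1]
    refine (abs_add_le _ _).trans ?_
    rw [abs_mul, abs_of_pos ht0]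
    have h4 := hy i
    have h5 : t * |s i| ≤ 1 / 2 * (2 * d) := by (clear * - ht2 h3; gcongr)
    linarith only [h4, h5]
  have hgr : ∀ x u : E n, u ∈ A → u - x ∈ K' → x ∈ Q := by
    intro x u hu hux i
    have h1 : x i = u i - (u - x) i := by
      have : (u - x) i = u i - x i := rfl
      rw [this]; ring
    rw [h1]
    refine (abs_sub _ _).trans ?_
    have h2 := hu i
    have h3 := (abs_coord_le_norm (u - x) i).trans (hKd _ (hK'K hux))
    linarith only [h2, h3]
  have hWQ : volume K' ≤ volume Q := by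
    refine measure_mono fun u hu i => ?_
    have h3 := (abs_coord_le_norm u i).trans (hKd _ (hK'K hu))
    linarith only [hd1, hLd, h3]
  set N : ℕ := ⌈(volume Q).toReal / (volume K').toReal * (n * Real.log (2 * n))⌉₊ with hN
  obtain ⟨F₀, hF₀, hv⟩ := greedy (measurableSet_cube (n := n) (R := L + d)) hK'm
    (measurableSet_cube (n := n) (R := L + 2 * d))
    (by rw [← hQ, hQv, Ne, ENNReal.ofReal_eq_zero, not_le]; exact hQpos)
    (by rw [← hQ, hQv]; exact ENNReal.ofReal_ne_top) (by rw [← hA, hAv]; exact ENNReal.ofReal_ne_top)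
    (by rw [hK'v]; exact ENNReal.mul_ne_top ENNReal.ofReal_ne_top hKt) hWQ hgr N
  obtain ⟨G, hG, hGc⟩ := pack ht0 c hS0 hSm hSv hneg hF1 hF2 hAA
    (by rw [hAv]; exact ENNReal.ofReal_ne_top) F₀
  refine ⟨L, F₀ ∪ G, hL0, fun y hy => ?_, ?_⟩
  · rcases hG y hy with ⟨x, hx, hxK⟩ | ⟨x, hx, hxK⟩
    · exact ⟨x, Finset.mem_union_left _ hx, hxK⟩
    · exact ⟨x, Finset.mem_union_right _ hx, hxK⟩
  · have hquarter : 1 / 4 ≤ (1 - t) ^ n := quarter_le hn
    have hvK0 : 0 < (volume K).toReal := ENNReal.toReal_pos hK0 hKt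
    have hvK' : (volume K').toReal = (1 - t) ^ n * (volume K).toReal := by
      rw [hK'v, ENNReal.toReal_mul, ENNReal.toReal_ofReal (pow_nonneg (by linarith only [ht2]) n)]
    have hvQ : (volume Q).toReal = (2 * (L + 2 * d)) ^ n := by
      rw [hQv, ENNReal.toReal_ofReal hQpos.le]
    have hvA : (volume A).toReal = (2 * (L + d)) ^ n := by
      rw [hAv, ENNReal.toReal_ofReal (by (clear * - hn; positivity))]
    have hSt : volume S ≠ ⊤ := by
      rw [hSvol]
      exact ((measure_mono fun u hu => hu.1).trans_lt hKt.lt_top).ne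
    have hUt : volume {u | u ∈ A ∧ ∀ x ∈ F₀, u - x ∉ K'} ≠ ⊤ :=
      ((measure_mono fun u hu => hu.1).trans_lt
        (by rw [hAv]; exact ENNReal.ofReal_lt_top : volume A < ⊤)).ne
    refine cube_num hn hd1 (vK := (volume K).toReal) (vK' := (volume K').toReal)
      (vQ := (volume Q).toReal) (vA := (volume A).toReal) (vS := (volume S).toReal)
      (g := G.card) (N := N) hvK0 ?_ hvK' hvQ hvA ?_ ?_ hN ?_ ?_ (Nat.cast_nonneg _)
    · have h1 : volume K ≤ volume (cube n d) := measure_mono fun u hu i =>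
        (abs_coord_le_norm u i).trans (hKd u hu)
      rw [volume_cube (by linarith only [hd1])] at h1
      have h2 := ENNReal.toReal_mono ENNReal.ofReal_ne_top h1
      rwa [ENNReal.toReal_ofReal (by (clear * -; positivity))] at h2
    · have h1 := ENNReal.toReal_mono (ENNReal.mul_ne_top (by simp) hSt) hz
      rw [ENNReal.toReal_mul] at h1
      simpa only [ge_iff_le, ENNReal.toReal_pow, ENNReal.toReal_ofNat] using h1
    · exact ENNReal.toReal_mono (by rw [hQv]; exact ENNReal.ofReal_ne_top) hWQ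
    · have h1 := ENNReal.toReal_mono hUt hGc
      rw [ENNReal.toReal_mul, ENNReal.toReal_mul, ENNReal.toReal_ofReal (by positivity),
        ENNReal.toReal_natCast] at h1
      exact h1.trans hv
    · have h1 : (F₀ ∪ G).card ≤ N + G.card := (Finset.card_union_le _ _).trans (by omega)
      exact_mod_cast h1

/-- Rogers' theorem with an unspecified constant: `Θ_T(n) ≤ 20 n log n` for `n ≥ 2` -/
theorem rogersT : Stmt.RogersT := by
  refine ⟨20, by norm_num, fun n hn => ?_⟩
  unfold ThetaT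
  refine iSup_le fun K => iSup_le fun hc => iSup_le fun hk => iSup_le fun hi => ?_
  obtain ⟨L, F, hL, hcov, hnum⟩ := cube_cover hn hc hk hi
  obtain ⟨X, hX1, hX2, hX3⟩ := periodize hL hcov
  unfold thetaT
  refine iInf_le_of_le X (iInf_le_of_le hX1 (iInf_le_of_le hX2 ?_))
  have hKt : volume K ≠ ⊤ := hk.measure_lt_top.ne
  calc volume K * upDens X ≤ volume K * ENNReal.ofReal (F.card / (2 * L) ^ n) := by (clear * - hX3; gcongr)
    _ = ENNReal.ofReal ((volume K).toReal * (F.card / (2 * L) ^ n)) := by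
        rw [ENNReal.ofReal_mul ENNReal.toReal_nonneg, ENNReal.ofReal_toReal hKt]
    _ ≤ ENNReal.ofReal (20 * n * Real.log n) := by
        apply ENNReal.ofReal_le_ofReal
        rw [← mul_div_assoc, div_le_iff₀ (by (clear * - hL; positivity))]
        exact hnum

end Vale.Agent.P230.LB
end
end

section

section

section

/-!
# P230, task V4: mean and covariance of the Gaussian kernel
-/

namespace Vale.Agent.P230

open MeasureTheory ProbabilityTheory

/-- the Gaussian kernel evaluated at the image of `v` under a matrix with rows `γ i` -/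
noncomputable def gker {t : ℕ} {V : Type*} [NormedAddCommGroup V] [InnerProductSpace ℝ V]
    (r : ℝ) (b : Fin t → ℝ) (γ : Fin t → V) (v : V) : ℝ :=
  Real.exp (-(∑ i, (inner ℝ (γ i) v - b i) ^ 2) / (2 * r ^ 2))

/-- the one-dimensional kernel -/
noncomputable def k1 (r b u : ℝ) : ℝ := Real.exp (-(u - b) ^ 2 / (2 * r ^ 2))

theorem k1_nonneg (r b u : ℝ) : 0 ≤ k1 r b u := (Real.exp_pos _).le

theorem k1_le_one (r b u : ℝ) : k1 r b u ≤ 1 := by
  unfold k1
  rw [Real.exp_le_one_iff]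
  exact div_nonpos_of_nonpos_of_nonneg (by linarith only [sq_nonneg (u - b)]) (by positivity)

theorem k1_abs_le_one (r b u : ℝ) : |k1 r b u| ≤ 1 := by
  rw [abs_of_nonneg (k1_nonneg r b u)]
  exact k1_le_one r b u

theorem continuous_k1 (r b : ℝ) : Continuous (k1 r b) := by
  unfold k1
  fun_prop

theorem gker_eq_prod {t : ℕ} {V : Type*} [NormedAddCommGroup V] [InnerProductSpace ℝ V]
    (r : ℝ) (b : Fin t → ℝ) (γ : Fin t → V) (v : V) :
    gker r b γ v = ∏ i, k1 r (b i) (inner ℝ (γ i) v) := by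
  unfold gker k1
  rw [← Real.exp_sum]
  congr 1
  rw [← Finset.sum_div, Finset.sum_neg_distrib]

/-- the kernel is `1/r`-Lipschitz -/
theorem k1_lip {r : ℝ} (hr : 0 < r) (b x y : ℝ) : |k1 r b x - k1 r b y| ≤ |x - y| / r := by
  have hd : ∀ u : ℝ, HasDerivAt (k1 r b) (Real.exp (-(u - b) ^ 2 / (2 * r ^ 2)) *
      (-(2 * (u - b)) / (2 * r ^ 2))) u := by
    intro u
    unfold k1
    have h1 : HasDerivAt (fun u : ℝ => -(u - b) ^ 2 / (2 * r ^ 2))
        (-(2 * (u - b)) / (2 * r ^ 2)) u := by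
      have h2 : HasDerivAt (fun u : ℝ => u - b) 1 u := (hasDerivAt_id u).sub_const b
      have h3 := (h2.pow 2).neg.div_const (2 * r ^ 2)
      have e : -(2 * (u - b)) / (2 * r ^ 2) =
          -(((2 : ℕ) : ℝ) * (u - b) ^ (2 - 1) * 1) / (2 * r ^ 2) := by
        norm_num
      rw [e]
      exact h3
    exact h1.exp
  have hb : ∀ u : ℝ, ‖Real.exp (-(u - b) ^ 2 / (2 * r ^ 2)) *
      (-(2 * (u - b)) / (2 * r ^ 2))‖ ≤ 1 / r := by
    intro u
    set w : ℝ := |u - b| / r with hw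
    have hw0 : 0 ≤ w := by positivity
    have e1 : -(u - b) ^ 2 / (2 * r ^ 2) = -(w ^ 2 / 2) := by
      rw [hw, div_pow, sq_abs]; (clear * - hr; field_simp)
    have e2 : |(-(2 * (u - b)) / (2 * r ^ 2))| = w / r := by
      rw [abs_div, abs_neg, abs_mul, abs_of_pos (by positivity : (0:ℝ) < 2 * r ^ 2), hw]
      simp only [abs_two]
      (clear * - hr; field_simp)
    rw [Real.norm_eq_abs, abs_mul, abs_of_pos (Real.exp_pos _), e1, e2, Real.exp_neg]
    have h3 : w ≤ Real.exp (w ^ 2 / 2) := by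
      have := Real.add_one_le_exp (w ^ 2 / 2)
      (clear * - this; linarith only [sq_nonneg (w - 1), this])
    rw [inv_mul_eq_div, div_div, div_le_div_iff₀ (by positivity) hr]
    linarith only [mul_nonneg (le_of_lt (sub_pos.2 hr)) (sub_nonneg.2 h3)]
  have := Convex.norm_image_sub_le_of_norm_hasDerivWithin_le (f := k1 r b) (C := 1 / r)
    (s := Set.univ) (x := y) (y := x) (fun u _ => (hd u).hasDerivWithinAt) (fun u _ => hb u)
    convex_univ (Set.mem_univ _) (Set.mem_univ _)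
  rw [Real.norm_eq_abs, Real.norm_eq_abs] at this
  calc |k1 r b x - k1 r b y| ≤ 1 / r * |x - y| := this
    _ = |x - y| / r := by ring

/-- the one-dimensional Gaussian integral of the kernel -/
theorem gauss1 {r : ℝ} (hr : 0 < r) (b : ℝ) (s : NNReal) :
    ∫ u, k1 r b u ∂(gaussianReal 0 s) =
      (r ^ 2 / (r ^ 2 + s)) ^ ((1 : ℝ) / 2) * Real.exp (-b ^ 2 / (2 * (r ^ 2 + s))) := by
  by_cases hs : s = 0
  · subst hs
    rw [gaussianReal_zero_var, integral_dirac]
    unfold k1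
    have h1 : r ^ 2 / (r ^ 2 + ((0 : NNReal) : ℝ)) = 1 := by
      simp only [NNReal.coe_zero, add_zero]
      field_simp
    rw [h1, Real.one_rpow, one_mul]
    simp only [zero_sub, even_two, Even.neg_pow, NNReal.coe_zero, add_zero]
  · have hs0 : (0 : ℝ) < s := by
      have : 0 < s := pos_iff_ne_zero.mpr hs
      exact_mod_cast this
    rw [integral_gaussianReal_eq_integral_smul hs]
    set D : ℝ := r ^ 2 + s with hD
    have hD0 : 0 < D := by (clear * - hr hs; positivity)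
    set β : ℝ := D / (2 * s * r ^ 2) with hβ
    have hβ0 : 0 < β := by positivity
    have hpt : ∀ x : ℝ, gaussianPDFReal 0 s x • k1 r b x =
        ((Real.sqrt (2 * Real.pi * s))⁻¹ * Real.exp (-b ^ 2 / (2 * D))) *
          Real.exp (-β * (x - b * s / D) ^ 2) := by
      intro x
      rw [gaussianPDFReal_def]
      unfold k1
      rw [smul_eq_mul, mul_assoc (Real.sqrt (2 * Real.pi * s))⁻¹,
        mul_assoc (Real.sqrt (2 * Real.pi * s))⁻¹, ← Real.exp_add, ← Real.exp_add]
      congr 2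
      rw [hβ]
      have hs' : (s : ℝ) ≠ 0 := hs0.ne'
      have hr' : r ≠ 0 := hr.ne'
      have hD' : D ≠ 0 := hD0.ne'
      field_simp
      rw [hD]
      ring
    rw [integral_congr_ae (Filter.Eventually.of_forall hpt), integral_const_mul,
      integral_sub_right_eq_self (fun x : ℝ => Real.exp (-β * x ^ 2)) (b * s / D),
      integral_gaussian]
    have h5 : (Real.sqrt (2 * Real.pi * s))⁻¹ * Real.sqrt (Real.pi / β) =
        (r ^ 2 / D) ^ ((1 : ℝ) / 2) := by
      rw [← Real.sqrt_eq_rpow, ← Real.sqrt_inv, ← Real.sqrt_mul (by positivity)]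
      congr 1
      rw [hβ]
      field_simp
    calc (Real.sqrt (2 * Real.pi * s))⁻¹ * Real.exp (-b ^ 2 / (2 * D)) * Real.sqrt (Real.pi / β)
        = ((Real.sqrt (2 * Real.pi * s))⁻¹ * Real.sqrt (Real.pi / β)) *
          Real.exp (-b ^ 2 / (2 * D)) := by ring
      _ = _ := by rw [h5]

section Row

variable {E : Type*} [NormedAddCommGroup E] [InnerProductSpace ℝ E] [FiniteDimensional ℝ E]
  [MeasurableSpace E] [BorelSpace E]

theorem map_inner_stdGaussian (v : E) :
    (stdGaussian E).map (fun g => inner ℝ g v) = gaussianReal 0 (‖v‖ ^ 2).toNNReal := by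
  have h1 : (fun g : E => inner ℝ g v) = (innerSL ℝ v : StrongDual ℝ E) := by
    funext g
    rw [innerSL_apply_apply, real_inner_comm]
  rw [h1, IsGaussian.map_eq_gaussianReal, integral_strongDual_stdGaussian,
    variance_dual_stdGaussian, innerSL_apply_norm]

theorem row_mean {r : ℝ} (hr : 0 < r) (b : ℝ) (v : E) :
    ∫ g, k1 r b (inner ℝ g v) ∂(stdGaussian E) =
      (r ^ 2 / (r ^ 2 + ‖v‖ ^ 2)) ^ ((1 : ℝ) / 2) *
        Real.exp (-b ^ 2 / (2 * (r ^ 2 + ‖v‖ ^ 2))) := by
  have h1 : ∫ g, k1 r b (inner ℝ g v) ∂(stdGaussian E) =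
      ∫ u, k1 r b u ∂((stdGaussian E).map (fun g => inner ℝ g v)) := by
    rw [integral_map]
    · exact Measurable.aemeasurable (by (clear r hr b; fun_prop))
    · exact (continuous_k1 r b).aestronglyMeasurable
  rw [h1, map_inner_stdGaussian, gauss1 hr]
  rw [Real.coe_toNNReal _ (by positivity)]

theorem memLp_inner (v : E) : MemLp (fun g : E => inner ℝ g v) 2 (stdGaussian E) := by
  have h1 : (fun g : E => inner ℝ g v) = (innerSL ℝ v : StrongDual ℝ E) := by
    funext g
    rw [innerSL_apply_apply, real_inner_comm]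
  rw [h1]
  exact IsGaussian.memLp_dual _ _ _ (by simp)

theorem integral_inner_sq (v : E) : ∫ g, (inner ℝ g v) ^ 2 ∂(stdGaussian E) = ‖v‖ ^ 2 := by
  have h1 : (fun g : E => inner ℝ g v) = (innerSL ℝ v : StrongDual ℝ E) := by
    funext g
    rw [innerSL_apply_apply, real_inner_comm]
  have h2 := variance_dual_stdGaussian (innerSL ℝ v : StrongDual ℝ E)
  rw [variance_of_integral_eq_zero (by (clear h1 h2; exact Continuous.aemeasurable (by fun_prop))) (integral_strongDual_stdGaussian _),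
    innerSL_apply_norm] at h2
  rw [← h2]
  congr 1
  funext g
  rw [innerSL_apply_apply, real_inner_comm]

theorem integral_abs_inner (v : E) : ∫ g, |inner ℝ g v| ∂(stdGaussian E) ≤ ‖v‖ := by
  have hm := memLp_inner v
  have hi : Integrable (fun g : E => inner ℝ g v) (stdGaussian E) := hm.integrable (by norm_num)
  have hi2 : Integrable (fun g : E => (inner ℝ g v) ^ 2) (stdGaussian E) := hm.integrable_sq
  by_cases hv : ‖v‖ = 0
  · have : v = 0 := norm_eq_zero.mp hv
    subst this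
    simp only [inner_zero_right, abs_zero, integral_zero, norm_zero, Std.le_refl]
  · have hv0 : 0 < ‖v‖ := lt_of_le_of_ne (norm_nonneg _) (Ne.symm hv)
    have h1 : ∀ g : E, |inner ℝ g v| ≤ (inner ℝ g v) ^ 2 / (2 * ‖v‖) + ‖v‖ / 2 := by
      intro g
      have h2 : 0 ≤ (|inner ℝ g v| - ‖v‖) ^ 2 / (2 * ‖v‖) := by positivity
      have h3 : (|inner ℝ g v| - ‖v‖) ^ 2 / (2 * ‖v‖) =
          (inner ℝ g v) ^ 2 / (2 * ‖v‖) + ‖v‖ / 2 - |inner ℝ g v| := by
        have : (inner ℝ g v) ^ 2 = |inner ℝ g v| ^ 2 := (sq_abs _).symm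
        rw [this]
        field_simp
        ring
      linarith only [h3, h2]
    calc ∫ g, |inner ℝ g v| ∂(stdGaussian E)
        ≤ ∫ g, ((inner ℝ g v) ^ 2 / (2 * ‖v‖) + ‖v‖ / 2) ∂(stdGaussian E) :=
          integral_mono hi.abs ((hi2.div_const _).add (integrable_const _)) h1
      _ = ‖v‖ := by
          rw [integral_add (hi2.div_const _) (integrable_const _), integral_div,
            integral_inner_sq, integral_const]
          simp only [probReal_univ, one_smul]
          field_simp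
          ring

theorem indep_inner (v w : E) (h : inner ℝ v w = 0) :
    IndepFun (fun g : E => inner ℝ g v) (fun g : E => inner ℝ g w) (stdGaussian E) := by
  apply HasGaussianLaw.indepFun_of_covariance_eq_zero
  · have h1 : HasGaussianLaw (id : E → E) (stdGaussian E) := IsGaussian.hasGaussianLaw_id
    have h2 := h1.map_fun ((innerSL ℝ v).prod (innerSL ℝ w))
    have h3 : (fun g : E => ((inner ℝ g v : ℝ), (inner ℝ g w : ℝ))) =
        fun g : E => ((innerSL ℝ v).prod (innerSL ℝ w)) (id g) := by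
      funext g
      simp only [real_inner_comm, id_eq, ContinuousLinearMap.prod_apply, innerSL_apply_apply]
    rw [h3]
    exact h2
  · have h1 := covarianceBilin_apply_eq_cov (μ := stdGaussian E)
      IsGaussian.memLp_two_id v w
    rw [covarianceBilin_stdGaussian, innerSL_apply_apply, h] at h1
    rw [h1]
    congr 1
    · funext g
      rw [real_inner_comm]
    · funext g
      rw [real_inner_comm]

theorem integrable_k1 (r b : ℝ) (v : E) :
    Integrable (fun g : E => k1 r b (inner ℝ g v)) (stdGaussian E) := by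
  have hc : Continuous (fun g : E => k1 r b (inner ℝ g v)) :=
    (continuous_k1 r b).comp (by fun_prop)
  refine Integrable.of_bound hc.aestronglyMeasurable 1 (Filter.Eventually.of_forall fun g => ?_)
  rw [Real.norm_eq_abs]
  exact k1_abs_le_one _ _ _

theorem integrable_k1_mul (r b : ℝ) (v v' : E) :
    Integrable (fun g : E => k1 r b (inner ℝ g v) * k1 r b (inner ℝ g v')) (stdGaussian E) := by
  have hc : Continuous (fun g : E => k1 r b (inner ℝ g v) * k1 r b (inner ℝ g v')) :=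
    ((continuous_k1 r b).comp (by fun_prop)).mul ((continuous_k1 r b).comp (by fun_prop))
  refine Integrable.of_bound hc.aestronglyMeasurable 1 (Filter.Eventually.of_forall fun g => ?_)
  rw [Real.norm_eq_abs, abs_mul]
  exact mul_le_one₀ (k1_abs_le_one _ _ _) (abs_nonneg _) (k1_abs_le_one _ _ _)

theorem row_cov {r : ℝ} (hr : 0 < r) (b : ℝ) (v v' : E) (hv : v ≠ 0) :
    |∫ g, k1 r b (inner ℝ g v) * k1 r b (inner ℝ g v') ∂(stdGaussian E) -
      (∫ g, k1 r b (inner ℝ g v) ∂(stdGaussian E)) *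
      (∫ g, k1 r b (inner ℝ g v') ∂(stdGaussian E))| ≤ 2 * |inner ℝ v v'| / (r * ‖v‖) := by
  have hv0 : 0 < ‖v‖ := norm_pos_iff.mpr hv
  set α : ℝ := inner ℝ v v' / ‖v‖ ^ 2 with hα
  set w : E := v' - α • v with hw
  have hvw : inner ℝ v w = 0 := by
    rw [hw, inner_sub_right, inner_smul_right, real_inner_self_eq_norm_sq, hα]
    field_simp
    ring
  have hind := indep_inner v w hvw
  have hprod : ∫ g, k1 r b (inner ℝ g v) * k1 r b (inner ℝ g w) ∂(stdGaussian E) =
      (∫ g, k1 r b (inner ℝ g v) ∂(stdGaussian E)) *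
      (∫ g, k1 r b (inner ℝ g w) ∂(stdGaussian E)) :=
    hind.integral_fun_comp_mul_comp (Measurable.aemeasurable (by (clear r hr b v' hv hv0 α hα w hw hvw hind; fun_prop)))
      (Measurable.aemeasurable (by fun_prop)) (continuous_k1 r b).aestronglyMeasurable
      (continuous_k1 r b).aestronglyMeasurable
  have hdiff : ∀ g : E, |k1 r b (inner ℝ g v') - k1 r b (inner ℝ g w)| ≤
      |α| / r * |inner ℝ g v| := by
    intro g
    refine (k1_lip hr b _ _).trans (le_of_eq ?_)
    rw [hw, inner_sub_right, inner_smul_right]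
    rw [show inner ℝ g v' - (inner ℝ g v' - α * inner ℝ g v) = α * inner ℝ g v by ring, abs_mul]
    ring
  have hi : Integrable (fun g : E => |inner ℝ g v|) (stdGaussian E) :=
    ((memLp_inner v).integrable (by norm_num)).abs
  have hb1 : |∫ g, k1 r b (inner ℝ g v) * (k1 r b (inner ℝ g v') - k1 r b (inner ℝ g w))
      ∂(stdGaussian E)| ≤ |α| / r * ‖v‖ := by
    calc |∫ g, k1 r b (inner ℝ g v) * (k1 r b (inner ℝ g v') - k1 r b (inner ℝ g w))
      ∂(stdGaussian E)| ≤ ∫ g, |α| / r * |inner ℝ g v| ∂(stdGaussian E) := by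
          rw [← Real.norm_eq_abs]
          refine norm_integral_le_of_norm_le (hi.const_mul _)
            (Filter.Eventually.of_forall fun g => ?_)
          rw [Real.norm_eq_abs, abs_mul]
          calc |k1 r b (inner ℝ g v)| * |k1 r b (inner ℝ g v') - k1 r b (inner ℝ g w)|
              ≤ 1 * (|α| / r * |inner ℝ g v|) :=
                mul_le_mul (k1_abs_le_one _ _ _) (hdiff g) (abs_nonneg _) zero_le_one
            _ = _ := one_mul _
      _ = |α| / r * ∫ g, |inner ℝ g v| ∂(stdGaussian E) := integral_const_mul _ _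
      _ ≤ |α| / r * ‖v‖ := mul_le_mul_of_nonneg_left (integral_abs_inner v) (by (clear * - hr; positivity))
  have hb2 : |∫ g, (k1 r b (inner ℝ g v') - k1 r b (inner ℝ g w)) ∂(stdGaussian E)| ≤
      |α| / r * ‖v‖ := by
    calc |∫ g, (k1 r b (inner ℝ g v') - k1 r b (inner ℝ g w)) ∂(stdGaussian E)|
        ≤ ∫ g, |α| / r * |inner ℝ g v| ∂(stdGaussian E) := by
          rw [← Real.norm_eq_abs]
          refine norm_integral_le_of_norm_le (hi.const_mul _)
            (Filter.Eventually.of_forall fun g => ?_)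
          rw [Real.norm_eq_abs]
          exact hdiff g
      _ = |α| / r * ∫ g, |inner ℝ g v| ∂(stdGaussian E) := integral_const_mul _ _
      _ ≤ |α| / r * ‖v‖ := mul_le_mul_of_nonneg_left (integral_abs_inner v) (by (clear * - hr; positivity))
  have hb3 : |∫ g, k1 r b (inner ℝ g v) ∂(stdGaussian E)| ≤ 1 := by
    calc |∫ g, k1 r b (inner ℝ g v) ∂(stdGaussian E)| ≤ ∫ g, (1 : ℝ) ∂(stdGaussian E) := by
          rw [← Real.norm_eq_abs]
          refine norm_integral_le_of_norm_le (integrable_const _)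
            (Filter.Eventually.of_forall fun g => ?_)
          rw [Real.norm_eq_abs]
          exact k1_abs_le_one _ _ _
      _ = 1 := by simp
  have e1 : ∫ g, k1 r b (inner ℝ g v) * (k1 r b (inner ℝ g v') - k1 r b (inner ℝ g w))
      ∂(stdGaussian E) = (∫ g, k1 r b (inner ℝ g v) * k1 r b (inner ℝ g v') ∂(stdGaussian E)) -
        ∫ g, k1 r b (inner ℝ g v) * k1 r b (inner ℝ g w) ∂(stdGaussian E) := by
    rw [← integral_sub (integrable_k1_mul r b v v') (integrable_k1_mul r b v w)]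
    congr 1
    funext g
    ring
  have e2 : ∫ g, (k1 r b (inner ℝ g v') - k1 r b (inner ℝ g w)) ∂(stdGaussian E) =
      (∫ g, k1 r b (inner ℝ g v') ∂(stdGaussian E)) -
        ∫ g, k1 r b (inner ℝ g w) ∂(stdGaussian E) :=
    integral_sub (integrable_k1 r b v') (integrable_k1 r b w)
  rw [e1] at hb1
  rw [e2] at hb2
  have key : (∫ g, k1 r b (inner ℝ g v) * k1 r b (inner ℝ g v') ∂(stdGaussian E)) -
      (∫ g, k1 r b (inner ℝ g v) ∂(stdGaussian E)) *
      (∫ g, k1 r b (inner ℝ g v') ∂(stdGaussian E)) =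
      ((∫ g, k1 r b (inner ℝ g v) * k1 r b (inner ℝ g v') ∂(stdGaussian E)) -
        ∫ g, k1 r b (inner ℝ g v) * k1 r b (inner ℝ g w) ∂(stdGaussian E)) -
      (∫ g, k1 r b (inner ℝ g v) ∂(stdGaussian E)) *
      ((∫ g, k1 r b (inner ℝ g v') ∂(stdGaussian E)) -
        ∫ g, k1 r b (inner ℝ g w) ∂(stdGaussian E)) := by
    rw [hprod]
    ring
  rw [key]
  calc _ ≤ _ := abs_sub _ _
    _ ≤ |α| / r * ‖v‖ + 1 * (|α| / r * ‖v‖) := by
        refine add_le_add hb1 ?_
        rw [abs_mul]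
        exact mul_le_mul hb3 hb2 (abs_nonneg _) zero_le_one
    _ = 2 * |inner ℝ v v'| / (r * ‖v‖) := by
        rw [hα, abs_div, abs_of_pos (by positivity : (0 : ℝ) < ‖v‖ ^ 2)]
        field_simp
        ring

end Row

/-- products of numbers in `[-1, 1]` -/
theorem abs_prod_sub_prod_le {ι : Type*} (s : Finset ι) (A B : ι → ℝ) (hA : ∀ i, |A i| ≤ 1)
    (hB : ∀ i, |B i| ≤ 1) : |∏ i ∈ s, A i - ∏ i ∈ s, B i| ≤ ∑ i ∈ s, |A i - B i| := by
  classical
  induction s using Finset.induction_on with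
  | empty => simp only [Finset.prod_empty, sub_self, abs_zero, Finset.sum_empty, Std.le_refl]
  | insert a s ha ih =>
    rw [Finset.prod_insert ha, Finset.prod_insert ha, Finset.sum_insert ha]
    have h1 : A a * ∏ i ∈ s, A i - B a * ∏ i ∈ s, B i =
        (A a - B a) * ∏ i ∈ s, A i + B a * (∏ i ∈ s, A i - ∏ i ∈ s, B i) := by ring
    have h2 : |∏ i ∈ s, A i| ≤ 1 := by
      rw [Finset.abs_prod]
      exact Finset.prod_le_one (fun i _ => abs_nonneg _) (fun i _ => hA i)
    rw [h1]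
    refine (abs_add_le _ _).trans (add_le_add ?_ ?_)
    · rw [abs_mul]
      calc |A a - B a| * |∏ i ∈ s, A i| ≤ |A a - B a| * 1 :=
            mul_le_mul_of_nonneg_left h2 (abs_nonneg _)
        _ = _ := mul_one _
    · rw [abs_mul]
      calc |B a| * |∏ i ∈ s, A i - ∏ i ∈ s, B i| ≤ 1 * |∏ i ∈ s, A i - ∏ i ∈ s, B i| :=
            mul_le_mul_of_nonneg_right (hB a) (abs_nonneg _)
        _ = |∏ i ∈ s, A i - ∏ i ∈ s, B i| := one_mul _
        _ ≤ _ := ih

/-- mean of the kernel, as a product over the rows -/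
theorem gker_mean_prod {t n : ℕ} (r : ℝ) (b : Fin t → ℝ) (v : EuclideanSpace ℝ (Fin n)) :
    ∫ γ, gker r b γ v ∂(Measure.pi fun _ : Fin t => stdGaussian (EuclideanSpace ℝ (Fin n))) =
      ∏ i, ∫ g, k1 r (b i) (inner ℝ g v) ∂(stdGaussian (EuclideanSpace ℝ (Fin n))) := by
  simp_rw [gker_eq_prod]
  exact integral_fintype_prod_eq_prod (𝕜 := ℝ)
    (fun i (g : EuclideanSpace ℝ (Fin n)) => k1 r (b i) (inner ℝ g v))

/-- TASK V4a: mean of the kernel -/
theorem gker_mean {t n : ℕ} (r : ℝ) (hr : 0 < r) (b : Fin t → ℝ)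
    (v : EuclideanSpace ℝ (Fin n)) :
    ∫ γ, gker r b γ v ∂(Measure.pi fun _ : Fin t =>
      ProbabilityTheory.stdGaussian (EuclideanSpace ℝ (Fin n))) =
    (r ^ 2 / (r ^ 2 + ‖v‖ ^ 2)) ^ ((t : ℝ) / 2) *
      Real.exp (-(∑ i, b i ^ 2) / (2 * (r ^ 2 + ‖v‖ ^ 2))) := by
  rw [gker_mean_prod]
  simp_rw [row_mean hr]
  rw [Finset.prod_mul_distrib, Finset.prod_const, ← Real.exp_sum, Finset.card_univ,
    Fintype.card_fin, ← Real.rpow_natCast, ← Real.rpow_mul (by positivity)]
  congr 2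
  · ring
  · rw [← Finset.sum_div, Finset.sum_neg_distrib]

/-- TASK V4b: covariance of the kernel -/
theorem gker_cov {t n : ℕ} (r : ℝ) (hr : 0 < r) (b : Fin t → ℝ)
    (v v' : EuclideanSpace ℝ (Fin n)) (hv : v ≠ 0) :
    |∫ γ, gker r b γ v * gker r b γ v' ∂(Measure.pi fun _ : Fin t =>
        ProbabilityTheory.stdGaussian (EuclideanSpace ℝ (Fin n))) -
      (∫ γ, gker r b γ v ∂(Measure.pi fun _ : Fin t =>
        ProbabilityTheory.stdGaussian (EuclideanSpace ℝ (Fin n)))) *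
      (∫ γ, gker r b γ v' ∂(Measure.pi fun _ : Fin t =>
        ProbabilityTheory.stdGaussian (EuclideanSpace ℝ (Fin n))))|
    ≤ 2 * t * |inner ℝ v v'| / (r * ‖v‖) := by
  have h1 : ∫ γ, gker r b γ v * gker r b γ v' ∂(Measure.pi fun _ : Fin t =>
      stdGaussian (EuclideanSpace ℝ (Fin n))) =
      ∏ i, ∫ g, k1 r (b i) (inner ℝ g v) * k1 r (b i) (inner ℝ g v')
        ∂(stdGaussian (EuclideanSpace ℝ (Fin n))) := by
    simp_rw [gker_eq_prod, ← Finset.prod_mul_distrib]
    exact integral_fintype_prod_eq_prod (𝕜 := ℝ)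
      (fun i (g : EuclideanSpace ℝ (Fin n)) =>
        k1 r (b i) (inner ℝ g v) * k1 r (b i) (inner ℝ g v'))
  rw [h1, gker_mean_prod, gker_mean_prod, ← Finset.prod_mul_distrib]
  have hle1 : ∀ (bb : ℝ) (w : EuclideanSpace ℝ (Fin n)),
      |∫ g, k1 r bb (inner ℝ g w) ∂(stdGaussian (EuclideanSpace ℝ (Fin n)))| ≤ 1 := by
    intro bb w
    calc |∫ g, k1 r bb (inner ℝ g w) ∂(stdGaussian (EuclideanSpace ℝ (Fin n)))|
        ≤ ∫ g, (1 : ℝ) ∂(stdGaussian (EuclideanSpace ℝ (Fin n))) := by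
          rw [← Real.norm_eq_abs]
          refine norm_integral_le_of_norm_le (integrable_const _)
            (Filter.Eventually.of_forall fun g => ?_)
          rw [Real.norm_eq_abs]
          exact k1_abs_le_one _ _ _
      _ = 1 := by simp
  refine (abs_prod_sub_prod_le _ _ _ (fun i => ?_) (fun i => ?_)).trans ?_
  · calc |∫ g, k1 r (b i) (inner ℝ g v) * k1 r (b i) (inner ℝ g v')
          ∂(stdGaussian (EuclideanSpace ℝ (Fin n)))|
        ≤ ∫ g, (1 : ℝ) ∂(stdGaussian (EuclideanSpace ℝ (Fin n))) := by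
          rw [← Real.norm_eq_abs]
          refine norm_integral_le_of_norm_le (integrable_const _)
            (Filter.Eventually.of_forall fun g => ?_)
          rw [Real.norm_eq_abs, abs_mul]
          exact mul_le_one₀ (k1_abs_le_one _ _ _) (abs_nonneg _) (k1_abs_le_one _ _ _)
      _ = 1 := by simp only [integral_const, probReal_univ, smul_eq_mul, mul_one]
  · rw [abs_mul]
    exact mul_le_one₀ (hle1 _ _) (abs_nonneg _) (hle1 _ _)
  · calc _ ≤ ∑ i : Fin t, 2 * |inner ℝ v v'| / (r * ‖v‖) :=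
          Finset.sum_le_sum fun i _ => row_cov hr (b i) v v' hv
      _ = 2 * t * |inner ℝ v v'| / (r * ‖v‖) := by
          rw [Finset.sum_const, Finset.card_univ, Fintype.card_fin, nsmul_eq_mul]
          ring

end Vale.Agent.P230
end
end
end

section

section

section

/-!
# P230, task V5: an abstract second moment computation
-/

namespace Vale.Agent.P230

open MeasureTheory

theorem second_moment {X Γ : Type*} [MeasurableSpace X] [MeasurableSpace Γ] (μ : Measure X)
    [IsFiniteMeasure μ] (π : Measure Γ) [IsProbabilityMeasure π] (k : X → Γ → ℝ)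
    (hk : StronglyMeasurable (Function.uncurry k)) (hb : ∀ x γ, |k x γ| ≤ 1) (W : ℝ)
    (hW : ∀ᵐ x ∂μ, |∫ x', (∫ γ, k x γ * k x' γ ∂π - (∫ γ, k x γ ∂π) * (∫ γ, k x' γ ∂π)) ∂μ|
      ≤ W) :
    Integrable (fun γ => (∫ x, k x γ ∂μ - ∫ x, ∫ γ, k x γ ∂π ∂μ) ^ 2) π ∧
    ∫ γ, (∫ x, k x γ ∂μ - ∫ x, ∫ γ, k x γ ∂π ∂μ) ^ 2 ∂π ≤ W * μ.real Set.univ := by
  set F : Γ → ℝ := fun γ => ∫ x, k x γ ∂μ with hF
  set m : X → ℝ := fun x => ∫ γ, k x γ ∂π with hm
  set M : ℝ := ∫ x, m x ∂μ with hM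
  have hFm : StronglyMeasurable F := hk.integral_prod_left
  have hmm : StronglyMeasurable m := hk.integral_prod_right
  have hFb : ∀ γ, |F γ| ≤ μ.real Set.univ := by
    intro γ
    have := norm_integral_le_of_norm_le_const (μ := μ) (f := fun x => k x γ) (C := 1)
      (Filter.Eventually.of_forall fun x => by rw [Real.norm_eq_abs]; exact hb x γ)
    rw [Real.norm_eq_abs, one_mul] at this
    exact this
  have hmb : ∀ x, |m x| ≤ 1 := by
    intro x
    have := norm_integral_le_of_norm_le_const (μ := π) (f := fun γ => k x γ) (C := 1)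
      (Filter.Eventually.of_forall fun γ => by rw [Real.norm_eq_abs]; exact hb x γ)
    rw [Real.norm_eq_abs, one_mul, probReal_univ] at this
    exact this
  have hFi : Integrable F π := Integrable.of_bound hFm.aestronglyMeasurable (μ.real Set.univ)
    (Filter.Eventually.of_forall fun γ => by rw [Real.norm_eq_abs]; exact hFb γ)
  have hFi2 : Integrable (fun γ => F γ * F γ) π :=
    Integrable.of_bound (hFm.mul hFm).aestronglyMeasurable (μ.real Set.univ * μ.real Set.univ)
    (Filter.Eventually.of_forall fun γ => by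
      rw [Real.norm_eq_abs, abs_mul]
      exact mul_le_mul (hFb γ) (hFb γ) (abs_nonneg _) measureReal_nonneg)
  have hmi : Integrable m μ := Integrable.of_bound hmm.aestronglyMeasurable 1
    (Filter.Eventually.of_forall fun x => by rw [Real.norm_eq_abs]; exact hmb x)
  have hki : Integrable (Function.uncurry k) (μ.prod π) :=
    Integrable.of_bound hk.aestronglyMeasurable 1
      (Filter.Eventually.of_forall fun p => by rw [Real.norm_eq_abs]; exact hb p.1 p.2)
  -- Fubini for the mean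
  have hFM : ∫ γ, F γ ∂π = M := (integral_integral_swap hki).symm
  have hsq : Integrable (fun γ => (F γ - M) ^ 2) π := by
    have : (fun γ => (F γ - M) ^ 2) = fun γ => F γ * F γ - 2 * M * F γ + M ^ 2 := by
      funext γ; ring
    rw [this]
    exact (hFi2.sub (hFi.const_mul _)).add (integrable_const _)
  refine ⟨hsq, ?_⟩
  -- Fubini for the square
  have hkF : Integrable (Function.uncurry fun x γ => k x γ * F γ) (μ.prod π) := by
    refine Integrable.of_bound (C := μ.real Set.univ) ?_ ?_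
    · exact (hk.mul (hFm.comp_measurable measurable_snd)).aestronglyMeasurable
    · refine Filter.Eventually.of_forall fun p => ?_
      rw [Real.norm_eq_abs]
      change |k p.1 p.2 * F p.2| ≤ _
      rw [abs_mul]
      calc |k p.1 p.2| * |F p.2| ≤ 1 * μ.real Set.univ :=
            mul_le_mul (hb _ _) (hFb _) (abs_nonneg _) zero_le_one
        _ = _ := one_mul _
  have h1 : ∫ γ, F γ * F γ ∂π = ∫ x, ∫ γ, k x γ * F γ ∂π ∂μ := by
    rw [integral_integral_swap hkF]
    congr 1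
    funext γ
    rw [integral_mul_const]
  have hkk : ∀ x, Integrable (Function.uncurry fun x' γ => k x γ * k x' γ) (μ.prod π) := by
    intro x
    refine Integrable.of_bound (C := 1) ?_ ?_
    · have h2 : StronglyMeasurable (fun p : X × Γ => k x p.2) :=
        (hk.comp_measurable measurable_prodMk_left : StronglyMeasurable
          (fun γ => Function.uncurry k (x, γ))).comp_measurable measurable_snd
      exact (h2.mul hk).aestronglyMeasurable
    · refine Filter.Eventually.of_forall fun p => ?_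
      rw [Real.norm_eq_abs]
      change |k x p.2 * k p.1 p.2| ≤ _
      rw [abs_mul]
      exact mul_le_one₀ (hb _ _) (abs_nonneg _) (hb _ _)
  have h2 : ∀ x, ∫ γ, k x γ * F γ ∂π = ∫ x', ∫ γ, k x γ * k x' γ ∂π ∂μ := by
    intro x
    rw [integral_integral_swap (hkk x)]
    congr 1
    funext γ
    rw [integral_const_mul]
  have h3 : M * M = ∫ x, ∫ x', m x * m x' ∂μ ∂μ := by
    simp_rw [integral_const_mul]
    rw [integral_mul_const]
  have hi1 : ∀ x, Integrable (fun x' => ∫ γ, k x γ * k x' γ ∂π) μ :=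
    fun x => (hkk x).integral_prod_left
  have hi2 : ∀ x, Integrable (fun x' => m x * m x') μ := fun x => hmi.const_mul _
  have hi3 : Integrable (fun x => ∫ γ, k x γ * F γ ∂π) μ := hkF.integral_prod_left
  have hi4 : Integrable (fun x => ∫ x', m x * m x' ∂μ) μ := by
    simp_rw [integral_const_mul]
    exact hmi.mul_const _
  have key : ∫ γ, (F γ - M) ^ 2 ∂π =
      ∫ x, (∫ x', (∫ γ, k x γ * k x' γ ∂π - m x * m x') ∂μ) ∂μ := by
    have e1 : ∫ γ, (F γ - M) ^ 2 ∂π = ∫ γ, F γ * F γ ∂π - M * M := by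
      have : (fun γ => (F γ - M) ^ 2) = fun γ => F γ * F γ - 2 * M * F γ + M ^ 2 := by
        funext γ; ring
      have hs1 : Integrable (fun γ => F γ * F γ - 2 * M * F γ) π := hFi2.sub (hFi.const_mul _)
      have hs2 : Integrable (fun γ => 2 * M * F γ) π := hFi.const_mul _
      rw [this, integral_add hs1 (integrable_const _),
        integral_sub hFi2 hs2, integral_const_mul, hFM, integral_const,
        probReal_univ, one_smul]
      ring
    rw [e1, h1, h3, ← integral_sub hi3 hi4]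
    congr 1
    funext x
    rw [h2, integral_sub (hi1 x) (hi2 x)]
  rw [key]
  have := norm_integral_le_of_norm_le_const (μ := μ)
    (f := fun x => ∫ x', (∫ γ, k x γ * k x' γ ∂π - m x * m x') ∂μ) (C := W)
    (by
      filter_upwards [hW] with x hx
      rw [Real.norm_eq_abs]
      exact hx)
  rw [Real.norm_eq_abs] at this
  exact (le_abs_self _).trans this

end Vale.Agent.P230
end
end
end
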