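import Vale.Agent.P230.MathlibUsed
import Vale.Agent.P230.Bdl.B1
import Vale.Agent.P230.Bdl.B2

set_option linter.all false

section

section

section

namespace Vale.Agent.P230

open MeasureTheory

/-- the measurable splitting of the coordinates -/
noncomputable def appendEquiv (N t : ℕ) : (Fin N → ℝ) × (Fin t → ℝ) ≃ᵐ (Fin (N + t) → ℝ) :=
  (MeasurableEquiv.sumPiEquivProdPi (fun _ : Fin N ⊕ Fin t => ℝ)).symm.trans
    (MeasurableEquiv.piCongrLeft (fun _ : Fin (N + t) => ℝ) finSumFinEquiv)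

theorem appendEquiv_apply (N t : ℕ) (q : (Fin N → ℝ) × (Fin t → ℝ)) :
    appendEquiv N t q = Fin.append q.1 q.2 := by
  funext i
  have key : ∀ j : Fin N ⊕ Fin t, appendEquiv N t q (finSumFinEquiv j)
      = Fin.append q.1 q.2 (finSumFinEquiv j) := by
    intro j
    have h1 : appendEquiv N t q (finSumFinEquiv j)
        = (MeasurableEquiv.sumPiEquivProdPi (fun _ : Fin N ⊕ Fin t => ℝ)).symm q j := by
      simp only [appendEquiv, MeasurableEquiv.trans_apply, MeasurableEquiv.coe_piCongrLeft]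
      exact Equiv.piCongrLeft_apply_apply (fun _ : Fin (N + t) => ℝ) finSumFinEquiv _ j
    rw [h1]
    rcases j with j | j
    · simp [MeasurableEquiv.sumPiEquivProdPi]
    · simp [MeasurableEquiv.sumPiEquivProdPi]
  have := key (finSumFinEquiv.symm i)
  simpa using this

theorem measurePreserving_appendEquiv (N t : ℕ) :
    MeasurePreserving (appendEquiv N t) volume volume :=
  (volume_measurePreserving_sumPiEquivProdPi (fun _ : Fin N ⊕ Fin t => ℝ)).symm.trans
    (volume_measurePreserving_piCongrLeft (fun _ : Fin (N + t) => ℝ) finSumFinEquiv)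

/-- TASK P1: product splitting preserves volume -/
theorem volume_append {N t : ℕ} (K : Set (Fin (N + t) → ℝ)) :
    volume {q : (Fin N → ℝ) × (Fin t → ℝ) | Fin.append q.1 q.2 ∈ K} = volume K := by
  have h := (measurePreserving_appendEquiv N t).measure_preimage_equiv K
  rw [← h]
  congr 1
  ext q
  simp only [Set.mem_ofPred_eq, Set.mem_preimage, appendEquiv_apply]

/-- block diagonal matrix in coordinates `Fin (N + t)` -/
noncomputable def blockMat {N t : ℕ} (X : ℝ) (ML : Matrix (Fin t) (Fin t) ℝ) :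
    Matrix (Fin (N + t)) (Fin (N + t)) ℝ :=
  (Matrix.fromBlocks ((1 / X) • (1 : Matrix (Fin N) (Fin N) ℝ)) 0 0 ML).submatrix
    finSumFinEquiv.symm finSumFinEquiv.symm

theorem det_blockMat {N t : ℕ} (X : ℝ) (ML : Matrix (Fin t) (Fin t) ℝ) :
    (blockMat (N := N) X ML).det = (1 / X) ^ N * ML.det := by
  rw [blockMat, Matrix.det_submatrix_equiv_self, Matrix.det_fromBlocks_zero₂₁, Matrix.det_smul]
  simp only [one_div, Fintype.card_fin, inv_pow, Matrix.det_one, mul_one]

theorem blockMat_mulVec {N t : ℕ} (X : ℝ) (ML : Matrix (Fin t) (Fin t) ℝ) (u : Fin N → ℝ)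
    (v : Fin t → ℝ) :
    (blockMat (N := N) X ML).mulVec (Fin.append u v)
      = Fin.append (fun a => u a / X) (ML.mulVec v) := by
  funext i
  refine Fin.addCases (fun a => ?_) (fun a => ?_) i
  · rw [Fin.append_left, Matrix.mulVec, dotProduct, Fin.sum_univ_add]
    simp only [blockMat, Matrix.submatrix_apply, finSumFinEquiv_symm_apply_castAdd,
      finSumFinEquiv_symm_apply_natAdd, Matrix.fromBlocks_apply₁₁, Matrix.fromBlocks_apply₁₂,
      Fin.append_left, Fin.append_right, Matrix.smul_apply, Matrix.zero_apply, zero_mul,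
      Finset.sum_const_zero, add_zero, Matrix.one_apply, smul_eq_mul]
    simp only [mul_ite, mul_one, mul_zero, ite_mul, zero_mul, Finset.sum_ite_eq,
      Finset.mem_univ, if_true]
    ring
  · rw [Fin.append_right, Matrix.mulVec, dotProduct, Fin.sum_univ_add]
    simp only [blockMat, Matrix.submatrix_apply, finSumFinEquiv_symm_apply_castAdd,
      finSumFinEquiv_symm_apply_natAdd, Matrix.fromBlocks_apply₂₁, Matrix.fromBlocks_apply₂₂,
      Fin.append_left, Fin.append_right, Matrix.zero_apply, zero_mul,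
      Finset.sum_const_zero, zero_add]
    rfl

/-- TASK P2: assembling the lattice from the congruence condition -/
theorem covFor_of_prod {N t : ℕ} (K : Set (Fin (N + t) → ℝ)) (c D X : ℝ) (hX : 0 < X)
    (ML : Matrix (Fin t) (Fin t) ℝ) (hML : ML.det ≠ 0) (p : ℕ) [Fact p.Prime]
    (h : Fin N → ZMod p) (hh : h ≠ 0) (g : Fin t → ZMod p)
    (hvol : volume K ≤ ENNReal.ofReal (D * (p / X ^ N * |ML.det|)))
    (hcov : ∀ (y : Fin N → ℝ) (y' : Fin t → ℝ),
      ∃ (s : Fin (⌈c * ((N + t : ℕ) : ℝ)⌉₊ + 1) → Fin N → ℤ)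
        (ζ : Fin (⌈c * ((N + t : ℕ) : ℝ)⌉₊ + 1) → Fin t → ℤ),
        (∀ i, Fin.append (fun a => y a + (s i a : ℝ) / X)
          (y' + ML.mulVec (fun a => (ζ i a : ℝ))) ∈ K) ∧
        (∀ i, ∑ a, h a * (s i a : ZMod p) + ∑ a, g a * (ζ i a : ZMod p) = 0) ∧
        ∀ q : ℕ, q.Prime → (N + t) ^ (20 * (N + t)) < q →
          LinearIndependent (ZMod q)
            (fun i : Fin ⌈c * ((N + t : ℕ) : ℝ)⌉₊ =>
              fun a => ((s i.succ a - s 0 a : ℤ) : ZMod q))) :
    CovFor K c D := by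
  classical
  have hp0 : (0 : ℝ) < p := by exact_mod_cast (Fact.out : p.Prime).pos
  have hH : (Fin.append h g : Fin (N + t) → ZMod p) ≠ 0 := by
    intro h0
    apply hh
    funext a
    have := congrFun h0 (Fin.castAdd t a)
    simpa using this
  obtain ⟨A, hA, hker⟩ := exists_kernel_matrix p (Fin.append h g : Fin (N + t) → ZMod p) hH
  set AR : Matrix (Fin (N + t)) (Fin (N + t)) ℝ := A.map (Int.castRingHom ℝ) with hAR
  have hdetAR : AR.det = (A.det : ℝ) := by
    rw [hAR]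
    exact ((Int.castRingHom ℝ).map_det A).symm
  have habs : |AR.det| = p := by
    rw [hdetAR, ← Int.cast_abs, hA]
    simp
  have hdetM : |(blockMat (N := N) X ML * AR).det| = p / X ^ N * |ML.det| := by
    rw [Matrix.det_mul, abs_mul, habs, det_blockMat, abs_mul, abs_of_pos (by positivity), one_div,
      inv_pow]
    (clear * - hp0 hML hX; field_simp)
  have hmulAR : ∀ w : Fin (N + t) → ℤ, AR.mulVec (fun a => (w a : ℝ))
      = fun a => ((A.mulVec w a : ℤ) : ℝ) := by
    intro w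
    funext a
    have := RingHom.map_mulVec (Int.castRingHom ℝ) A w a
    simp only [Int.coe_castRingHom] at this
    exact this.symm
  refine ⟨blockMat (N := N) X ML * AR, ?_, ?_, ?_⟩
  · have : 0 < |(blockMat (N := N) X ML * AR).det| := by
      rw [hdetM]
      have := abs_pos.2 hML
      (clear * - hp0 hX hML; (clear * - hp0 hX hML; positivity))
    exact abs_pos.1 this
  · rw [hdetM]
    exact hvol
  · intro y
    obtain ⟨s, ζ, h1, h2, h3⟩ := hcov (fun a => y (Fin.castAdd t a)) (fun a => y (Fin.natAdd N a))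
    have hw : ∀ i, ∃ w : Fin (N + t) → ℤ, (Fin.append (s i) (ζ i) : Fin (N + t) → ℤ) = A.mulVec w := by
      intro i
      rw [← hker, Fin.sum_univ_add]
      simp only [Fin.append_left, Fin.append_right]
      exact h2 i
    choose w hw using hw
    refine ⟨w, ?_, ?_⟩
    · intro i
      rw [← Matrix.mulVec_mulVec, hmulAR, ← hw i]
      have e1 : (fun a => (((Fin.append (s i) (ζ i) : Fin (N + t) → ℤ) a : ℤ) : ℝ))
          = Fin.append (fun a => (s i a : ℝ)) (fun a => (ζ i a : ℝ)) := by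
        funext a
        refine Fin.addCases (fun b => ?_) (fun b => ?_) a
        · simp
        · simp
      rw [e1, blockMat_mulVec]
      have e2 : y + Fin.append (fun a => (s i a : ℝ) / X) (ML.mulVec (fun a => (ζ i a : ℝ)))
          = Fin.append (fun a => y (Fin.castAdd t a) + (s i a : ℝ) / X)
            ((fun a => y (Fin.natAdd N a)) + ML.mulVec (fun a => (ζ i a : ℝ))) := by
        funext a
        refine Fin.addCases (fun b => ?_) (fun b => ?_) a
        · simp
        · simp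
      rw [e2]
      exact h1 i
    · intro q hq hlt
      have hind := h3 q hq hlt
      let Aq : Matrix (Fin (N + t)) (Fin (N + t)) (ZMod q) := A.map (Int.castRingHom (ZMod q))
      have hmulAq : ∀ w : Fin (N + t) → ℤ, Aq.mulVec (fun a => (w a : ZMod q))
          = fun a => ((A.mulVec w a : ℤ) : ZMod q) := by
        intro w
        funext a
        have := RingHom.map_mulVec (Int.castRingHom (ZMod q)) A w a
        simp only [Int.coe_castRingHom] at this
        exact this.symm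
      let L : (Fin (N + t) → ZMod q) →ₗ[ZMod q] (Fin N → ZMod q) :=
        (LinearMap.funLeft (ZMod q) (ZMod q) (Fin.castAdd t)).comp Aq.mulVecLin
      apply LinearIndependent.of_comp L
      have e : (L ∘ fun (i : Fin ⌈c * ((N + t : ℕ) : ℝ)⌉₊) => fun a =>
            ((w i.succ a - w 0 a : ℤ) : ZMod q))
          = fun (i : Fin ⌈c * ((N + t : ℕ) : ℝ)⌉₊) => fun a =>
            ((s i.succ a - s 0 a : ℤ) : ZMod q) := by
        funext i a
        show Aq.mulVec (fun a => ((w i.succ a - w 0 a : ℤ) : ZMod q)) (Fin.castAdd t a)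
          = ((s i.succ a - s 0 a : ℤ) : ZMod q)
        have e3 := congrFun (hmulAq (fun a => w i.succ a - w 0 a)) (Fin.castAdd t a)
        rw [e3]
        have e4 : A.mulVec (fun a => w i.succ a - w 0 a) = A.mulVec (w i.succ) - A.mulVec (w 0) := by
          rw [← Matrix.mulVec_sub]
          rfl
        rw [e4, ← hw, ← hw]
        simp
      rw [e]
      exact hind

end Vale.Agent.P230
end
end
end

section

section

section

namespace Vale.Agent.P230

open MeasureTheory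
open scoped Pointwise

/-- TASK SB: the slice body -/
theorem slice_body {N : ℕ} (hN : 1 ≤ N) (X : ℕ) (hX : 1 ≤ X) (ρ R L : ℝ) (hρ : 0 < ρ)
    (hR : 1 ≤ R) (hRX : R ≤ X) (hL : 1 < L) (hL1 : 2 * X / R + 1 ≤ L)
    (hL2 : L ≤ X * ρ / 2 - 1) (T : Set (Fin N → ℝ)) (hT : Convex ℝ T) (hTc : IsCompact T)
    (hTb : ∀ x ∈ T, ∀ i, |x i| ≤ 1) (x₀ : Fin N → ℝ)
    (hx₀ : ∀ x : Fin N → ℝ, (∀ i, 0 ≤ x i ∧ x i ≤ ρ) → x₀ + x ∈ T)
    (g : ℝ) (hg : 0 < g) (hg1 : ENNReal.ofReal g ≤ volume T)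
    (hg2 : volume T ≤ ENNReal.ofReal (2 ^ N * g)) :
    ∃ (Q : Set (Fin N → ℝ)) (w : Fin N → ℤ), NormalizedR Q R ∧
      (∀ z ∈ intPts Q (2 * X), ∀ f : Fin N → ℝ, (∀ i, 0 ≤ f i ∧ f i ≤ 1) →
        (fun i => ((z i : ℝ) + w i + f i) / X) ∈ T) ∧
      ((1 - 1 / L) * (X - R / 2)) ^ N * g ≤ ((intPts Q (2 * X)).card : ℝ) ∧
      ((intPts Q (2 * X)).card : ℝ) ≤ (X + R / 2) ^ N * g := by
  have hX0 : (0 : ℝ) < X := by exact_mod_cast hX
  have hvfin : volume T ≠ ⊤ := hTc.measure_lt_top.ne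
  obtain ⟨v, hvdef⟩ : ∃ v : ℝ, v = (volume T).toReal := ⟨_, rfl⟩
  have hgv : g ≤ v := by
    rw [hvdef]
    exact (ENNReal.ofReal_le_iff_le_toReal hvfin).1 hg1
  have hv0 : 0 < v := lt_of_lt_of_le hg hgv
  have hvg : v ≤ 2 ^ N * g := by
    rw [hvdef]
    exact ENNReal.toReal_le_of_le_ofReal (by positivity) hg2
  have hN0 : N ≠ 0 := by omega
  obtain ⟨μ, hμ0, hμN⟩ : ∃ μ : ℝ, 0 ≤ μ ∧ μ ^ N = g / v :=
    ⟨(g / v) ^ ((N : ℝ)⁻¹), Real.rpow_nonneg (by (clear * - hg hv0; positivity)) _,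
      Real.rpow_inv_natCast_pow (by positivity) hN0⟩
  have hμ1 : μ ≤ 1 := by
    by_contra h
    push Not at h
    have h1 := one_lt_pow₀ h hN0
    rw [hμN, one_lt_div hv0] at h1
    linarith only [hgv, h1]
  have hμ2 : 1 / 2 ≤ μ := by
    by_contra h
    push Not at h
    have h1 := pow_lt_pow_left₀ h hμ0 hN0
    rw [hμN, div_lt_iff₀ hv0, one_div, inv_pow, inv_mul_eq_div, lt_div_iff₀ (by positivity)] at h1
    linarith only [hvg, h1]
  have hμpos : 0 < μ := by linarith only [hμ2]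
  have hx₀T : x₀ ∈ T := by
    have := hx₀ 0 (fun i => ⟨le_rfl, hρ.le⟩)
    simpa using this
  set w : Fin N → ℤ := fun i => ⌈(X : ℝ) * x₀ i⌉ with hw
  set φ : (Fin N → ℝ) → Fin N → ℝ := fun x i => X * ((1 - μ) * x₀ i + μ * x i) - w i with hφ
  set P : Set (Fin N → ℝ) := φ '' T with hP
  have hφc : Continuous φ := by
    simp only [hφ]; fun_prop
  have hPc : IsCompact P := hTc.image hφc
  have hPconv : Convex ℝ P := by
    rintro _ ⟨x, hx, rfl⟩ _ ⟨y, hy, rfl⟩ a b ha hb hab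
    refine ⟨a • x + b • y, hT hx hy ha hb hab, ?_⟩
    ext i
    simp only [hφ, Pi.add_apply, Pi.smul_apply, smul_eq_mul]
    have e : b = 1 - a := by linarith only [hab]
    subst e
    ring
  have hPT : ∀ y ∈ P, (fun i => (y i + w i) / X) ∈ T := by
    rintro _ ⟨x, hx, rfl⟩
    have h1 := hT hx₀T hx (by linarith only [hμ1] : 0 ≤ 1 - μ) hμ0 (by ring)
    have e : (1 - μ) • x₀ + μ • x = fun i => (φ x i + w i) / X := by
      ext i
      simp only [hφ, Pi.add_apply, Pi.smul_apply, smul_eq_mul]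
      field_simp
      ring
    rw [← e]; exact h1
  have hcubeP : ∀ y : Fin N → ℝ, (∀ i, 0 ≤ y i ∧ y i ≤ L) → y ∈ P := by
    intro y hy
    refine ⟨x₀ + fun i => (y i + (w i - X * x₀ i)) / (X * μ), hx₀ _ ?_, ?_⟩
    · intro i
      have h1 : (X : ℝ) * x₀ i ≤ w i := Int.le_ceil _
      have h2 : (w i : ℝ) < X * x₀ i + 1 := Int.ceil_lt_add_one _
      have h3 := hy i
      constructor
      · apply div_nonneg _ (by positivity)
        linarith only [h1, h3]
      · rw [div_le_iff₀ (by (clear * - hX hμ2; positivity))]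
        have h4 : X * ρ / 2 ≤ ρ * (X * μ) := by
          have : X * ρ * (1 / 2) ≤ X * ρ * μ := mul_le_mul_of_nonneg_left hμ2 (by positivity)
          linarith only [this]
        linarith only [hL2, h2, h3, h4]
    · ext i
      simp only [hφ, Pi.add_apply]
      field_simp
      ring
  have hPb : ∀ y ∈ P, ∀ i, |y i| ≤ 2 * X := by
    intro y hy i
    have h1 := hTb _ (hPT y hy) i
    have h2 := hTb _ hx₀T i
    rw [abs_le] at h1 h2
    have h3 : y i + w i ≤ X := by
      have := h1.2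
      rw [div_le_iff₀ hX0] at this
      linarith only [this]
    have h4 : -(X : ℝ) ≤ y i + w i := by
      have := h1.1
      rw [le_div_iff₀ hX0] at this
      linarith only [this]
    have h5 : (w i : ℝ) ≤ X := by
      have : w i ≤ (X : ℤ) := by
        apply Int.ceil_le.2
        push_cast
        nlinarith only [h2]
      exact_mod_cast this
    have h6 : -(X : ℝ) ≤ w i := by
      have h7 : (X : ℝ) * x₀ i ≤ w i := Int.le_ceil _
      nlinarith only [h7, h2]
    rw [abs_le]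
    constructor <;> linarith only [h3, h6, h4, h5]
  set Q : Set (Fin N → ℝ) := {q | ∀ f : Fin N → ℝ, (∀ i, 0 ≤ f i ∧ f i ≤ 1) →
    (fun i => 2 * X * q i + f i) ∈ P} with hQ
  have hQP : ∀ q ∈ Q, (fun i => 2 * (X : ℝ) * q i) ∈ P := by
    intro q hq
    have := hq 0 (fun i => ⟨le_rfl, zero_le_one⟩)
    simpa using this
  have hQb : ∀ q ∈ Q, ∀ i, |q i| ≤ 1 := by
    intro q hq i
    have h1 := hPb _ (hQP q hq) i
    rw [abs_mul, abs_of_pos (by positivity : (0 : ℝ) < 2 * X)] at h1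
    have h2 : 2 * (X : ℝ) * |q i| ≤ 2 * X * 1 := by linarith only [h1]
    exact le_of_mul_le_mul_left h2 (by positivity)
  have hQclosed : IsClosed Q := by
    have : Q = ⋂ f : Fin N → ℝ, ⋂ _ : (∀ i, 0 ≤ f i ∧ f i ≤ 1),
        (fun q : Fin N → ℝ => (fun i => 2 * (X : ℝ) * q i + f i)) ⁻¹' P := by
      ext q
      simp only [hQ, Set.mem_ofPred_eq, Set.mem_iInter, Set.mem_preimage]
    rw [this]
    apply isClosed_iInter; intro f
    apply isClosed_iInter; intro _
    exact hPc.isClosed.preimage (by fun_prop)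
  have hQc : IsCompact Q := by
    have hK : IsCompact (Set.pi Set.univ (fun _ : Fin N => Set.Icc (-1 : ℝ) 1)) :=
      isCompact_univ_pi fun _ => isCompact_Icc
    exact hK.of_isClosed_subset hQclosed (fun q hq i _ => abs_le.1 (hQb q hq i))
  have hQconv : Convex ℝ Q := by
    intro q1 h1 q2 h2 a b ha hb hab f hf
    have := hPconv (h1 f hf) (h2 f hf) ha hb hab
    have e : a • (fun i => 2 * (X : ℝ) * q1 i + f i) + b • (fun i => 2 * (X : ℝ) * q2 i + f i)
        = fun i => 2 * (X : ℝ) * (a • q1 + b • q2) i + f i := by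
      ext i
      simp only [Pi.add_apply, Pi.smul_apply, smul_eq_mul]
      have e : b = 1 - a := by linarith only [hab]
      subst e
      ring
    rw [e] at this
    exact this
  have hQnorm : NormalizedR Q R := by
    refine ⟨hQconv, hQc, ?_, hQb⟩
    intro q hq f hf
    apply hcubeP
    intro i
    have h1 := hq i
    have h2 := hf i
    constructor
    · have : 0 ≤ 2 * (X : ℝ) * q i := mul_nonneg (by positivity) h1.1
      linarith only [h2, this]
    · have h3 : 2 * (X : ℝ) * q i ≤ 2 * X * (1 / R) := mul_le_mul_of_nonneg_left h1.2 (by positivity)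
      have h4 : 2 * (X : ℝ) * (1 / R) = 2 * X / R := by ring
      linarith only [hL1, h2, h3, h4]
  have hvolP : (volume P).toReal = X ^ N * g := by
    have e : P = (fun y => (fun i => X * (1 - μ) * x₀ i - w i) + y) '' ((X * μ) • T) := by
      ext y
      constructor
      · rintro ⟨x, hx, rfl⟩
        refine ⟨(X * μ) • x, Set.smul_mem_smul_set hx, ?_⟩
        ext i
        simp only [hφ, Pi.add_apply, Pi.smul_apply, smul_eq_mul]
        ring
      · rintro ⟨_, ⟨x, hx, rfl⟩, rfl⟩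
        refine ⟨x, hx, ?_⟩
        ext i
        simp only [hφ, Pi.add_apply, Pi.smul_apply, smul_eq_mul]
        ring
    rw [e, Set.image_add_left, measure_preimage_add, volume_smul_toReal T (by (clear * - hX hμ2; positivity)), ← hvdef,
      mul_pow, hμN]
    field_simp
  have h2X : (0 : ℝ) < 2 * X := by positivity
  have hvolQ1 : (volume Q).toReal ≤ (1 / 2) ^ N * g := by
    have hsub : Q ⊆ (1 / (2 * X) : ℝ) • P := by
      intro q hq
      refine ⟨_, hQP q hq, ?_⟩
      ext i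
      simp only [Pi.smul_apply, smul_eq_mul]
      (clear * - hX; field_simp)
    have h1 := ENNReal.toReal_mono (volume_smul_ne_top hPc _) (measure_mono (μ := volume) hsub)
    rw [volume_smul_toReal P (by positivity), hvolP] at h1
    refine h1.trans (le_of_eq ?_)
    rw [← mul_assoc, ← mul_pow]
    congr 2
    field_simp
  have hL0 : 0 < L := by linarith only [hL]
  have h1L : 0 ≤ 1 - 1 / L := by
    rw [sub_nonneg, div_le_one hL0]; exact hL.le
  have hvolQ2 : ((1 - 1 / L) / 2) ^ N * g ≤ (volume Q).toReal := by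
    have hsub : ((1 - 1 / L) / (2 * X) : ℝ) • P ⊆ Q := by
      rintro _ ⟨π, hπ, rfl⟩ f hf
      have h1 : (fun i => L * f i) ∈ P := by
        apply hcubeP
        intro i
        have := hf i
        constructor
        · exact mul_nonneg hL0.le this.1
        · nlinarith only [this, hL]
      have h2 := hPconv hπ h1 h1L (by positivity : 0 ≤ 1 / L) (by ring)
      have e : (1 - 1 / L) • π + (1 / L) • (fun i => L * f i)
          = fun i => 2 * (X : ℝ) * (((1 - 1 / L) / (2 * X) : ℝ) • π) i + f i := by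
        ext i
        simp only [Pi.add_apply, Pi.smul_apply, smul_eq_mul]
        (clear * - hL hX; field_simp)
      rw [← e]; exact h2
    have h1 := ENNReal.toReal_mono hQc.measure_lt_top.ne (measure_mono (μ := volume) hsub)
    rw [volume_smul_toReal P (by (clear * - h1L hX; positivity)), hvolP] at h1
    refine le_trans (le_of_eq ?_) h1
    rw [← mul_assoc, ← mul_pow]
    congr 2
    (clear * - hL hX; field_simp)
  refine ⟨Q, w, hQnorm, ?_, ?_, ?_⟩
  · intro z hz f hf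
    obtain ⟨q, hq, hzq⟩ := (mem_intPts_R hQnorm h2X.le z).1 hz
    have h1 := hPT _ (hq f hf)
    have e : (fun i => ((2 * (X : ℝ) * q i + f i) + w i) / X)
        = fun i => ((z i : ℝ) + w i + f i) / X := by
      ext i
      rw [hzq i]; ring
    rw [← e]; exact h1
  · have h1 := intPts_card_lower_R hR hQnorm (lam := 2 * X) (by linarith only [hRX])
    refine le_trans ?_ h1
    have h2 : 0 ≤ (2 * (X : ℝ) - R) ^ N := pow_nonneg (by linarith only [hRX]) N
    refine le_trans (le_of_eq ?_) (mul_le_mul_of_nonneg_left hvolQ2 h2)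
    rw [← mul_assoc, ← mul_pow]
    congr 2
    ring
  · have h1 := intPts_card_upper_R hR hQnorm (lam := 2 * X) h2X.le
    refine h1.trans ?_
    have h2 : 0 ≤ (2 * (X : ℝ) + R) ^ N := pow_nonneg (by linarith only [hR]) N
    refine (mul_le_mul_of_nonneg_left hvolQ1 h2).trans (le_of_eq ?_)
    rw [← mul_assoc, ← mul_pow]
    congr 2
    ring

end Vale.Agent.P230
end
end
end

section

section

section

namespace Vale.Agent.P230

open Finset

/-- choosing one good first coordinate for finitely many small bad sets -/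
theorem exists_h {N : ℕ} {I : Type*} [Fintype I] (p : ℕ) [Fact p.Prime]
    (bad : I → Finset ((Fin N → ZMod p) × ZMod p)) (ε η : ℝ)
    (hbad : ∀ i, ((bad i).card : ℝ) ≤ ε * (p : ℝ) ^ (N + 1))
    (hη : (Fintype.card I : ℝ) * ε ≤ η) :
    ∃ h : Fin N → ZMod p, ∀ i,
      (((univ.filter (fun u : ZMod p => (h, u) ∈ bad i)).card : ℝ)) ≤ η * p := by
  classical
  by_contra hcon
  push Not at hcon
  have hp0 : (0 : ℝ) < p := by exact_mod_cast (Fact.out : p.Prime).pos
  have hfib : ∀ i, ((bad i).card : ℝ) = ∑ h : Fin N → ZMod p,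
      (((univ.filter (fun u : ZMod p => (h, u) ∈ bad i)).card : ℝ)) := by
    intro i
    rw [← Nat.cast_sum]
    congr 1
    have h1 := Finset.card_eq_sum_card_fiberwise (s := bad i)
      (t := (univ : Finset (Fin N → ZMod p))) (f := fun q => q.1) (fun q _ => by simp)
    rw [h1]
    refine Finset.sum_congr rfl fun h _ => ?_
    refine Finset.card_bij' (fun q _ => q.2) (fun u _ => (h, u)) ?_ ?_ ?_ ?_
    · intro q hq
      simp only [mem_filter] at hq
      simp only [mem_filter, mem_univ, true_and]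
      rw [← hq.2]
      exact hq.1
    · intro u hu
      simp only [mem_filter, mem_univ, true_and] at hu
      simp [hu]
    · intro q hq
      simp only [mem_filter] at hq
      rw [← hq.2]
    · intro u hu
      rfl
  have h1 : ∑ i, ((bad i).card : ℝ) ≤ (Fintype.card I : ℝ) * (ε * (p : ℝ) ^ (N + 1)) := by
    calc ∑ i, ((bad i).card : ℝ) ≤ ∑ _i : I, ε * (p : ℝ) ^ (N + 1) :=
          Finset.sum_le_sum fun i _ => hbad i
      _ = _ := by simp only [sum_const, card_univ, nsmul_eq_mul]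
  have h2 : ∑ _h : Fin N → ZMod p, η * p < ∑ i, ((bad i).card : ℝ) := by
    simp_rw [hfib]
    rw [Finset.sum_comm]
    apply Finset.sum_lt_sum_of_nonempty
    · exact univ_nonempty
    · intro h _
      obtain ⟨i, hi⟩ := hcon h
      refine hi.trans_le ?_
      exact Finset.single_le_sum (f := fun i =>
        (((univ.filter (fun u : ZMod p => (h, u) ∈ bad i)).card : ℝ)))
        (fun i _ => by (clear ε η hbad hη hcon hp0 hfib h1 hi; positivity)) (mem_univ i)
  have h3 : ∑ _h : Fin N → ZMod p, η * p = η * (p : ℝ) ^ (N + 1) := by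
    simp only [sum_const, card_univ, Fintype.card_pi, ZMod.card, prod_const, Fintype.card_fin, nsmul_eq_mul, Nat.cast_pow]
    ring
  rw [h3] at h2
  have h4 : (Fintype.card I : ℝ) * (ε * (p : ℝ) ^ (N + 1)) ≤ η * (p : ℝ) ^ (N + 1) := by
    rw [← mul_assoc]
    gcongr
  linarith only [h1, h2, h4]

end Vale.Agent.P230
end
end
end

section

section

section

namespace Vale.Agent.P230

open MeasureTheory Finset

/-- the numerical conditions under which the inductive step works -/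
structure StepNum (N t n k : ℕ) (c c₂ c₄ η ε L : ℝ) : Prop where
  hNn : N + t = n
  ht : 1 ≤ t
  hn : 2 ≤ n
  hN : 1 ≤ N
  hk : k = ⌈c * t⌉₊
  hc₂ : 0 < c₂
  hexp : 4 * Real.exp (2 * t) ≤ 2 ^ N
  hL : 1 < L
  hL1 : 2 * (n : ℝ) ^ 5 / (N : ℝ) ^ 3 + 1 ≤ L
  hL2 : L ≤ (n : ℝ) ^ 3 / 4 - 1
  hlow : 2 / 3 * ((n : ℝ) ^ 5) ^ N ≤ ((1 - 1 / L) * ((n : ℝ) ^ 5 - (N : ℝ) ^ 3 / 2)) ^ N
  hup : ((n : ℝ) ^ 5 + (N : ℝ) ^ 3 / 2) ^ N ≤ 4 / 3 * ((n : ℝ) ^ 5) ^ N
  hlam1 : (N : ℝ) ^ 5 ≤ 2 * (n : ℝ) ^ 5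
  hlam2 : 2 * (n : ℝ) ^ 5 ≤ (N : ℝ) ^ 6
  hp3 : 3 * c₂ * N * 3 < ((n : ℝ) ^ 3 / 4) ^ N
  hpt : 3 * c₂ * N * (t : ℝ) ^ (20 * t) < ((n : ℝ) ^ 3 / 4) ^ N
  hη1 : η ≤ 1 / 2
  hη0 : 0 ≤ η
  hηε : (n : ℝ) ^ t * (k + 1) * ε ≤ η
  hunion : (n : ℝ) ^ t * (2 * (n : ℝ) ^ 5) ^ N * η ^ (k + 1) < 3 / 2 * c₂ * N
  hrank : ⌈c * n⌉₊ ≤ ⌈c₄ * N⌉₊
  hfact : (⌈c * n⌉₊).factorial * (N * (2 * (2 * n ^ 5)) ^ 2) ^ ⌈c * n⌉₊ ≤ n ^ (20 * n)

open Classical in
/-- the base estimate in dimension `N` -/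
def BaseAt (N : ℕ) (c₂ c₄ ε : ℝ) : Prop :=
  ∀ K : Set (Fin N → ℝ), NormalizedR K ((N : ℝ) ^ 3) → ∀ lam : ℝ, (N : ℝ) ^ 5 ≤ lam →
    lam ≤ (N : ℝ) ^ 6 → ∀ (p : ℕ) [Fact p.Prime], c₂ * N * p ≤ ((intPts K lam).card : ℝ) →
    ((intPts K lam).card : ℝ) ≤ 4 * c₂ * N * p →
    ((univ.filter (fun hu : (Fin N → ZMod p) × ZMod p =>
      ∀ B ⊆ hit p (intPts K lam) hu.1 hu.2, AffInd B → B.card ≤ ⌈c₄ * N⌉₊)).card : ℝ)
    ≤ ε * (p : ℝ) ^ (N + 1)

/-- a prime in a dyadic real interval -/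
theorem exists_prime_real (y : ℝ) (hy : 2 ≤ y) : ∃ p : ℕ, p.Prime ∧ y / 2 < p ∧ (p : ℝ) ≤ y := by
  have hm : ⌊y / 2⌋₊ ≠ 0 := by
    have : 1 ≤ ⌊y / 2⌋₊ := Nat.le_floor (by push_cast; linarith only [hy])
    omega
  obtain ⟨p, hp, h1, h2⟩ := Nat.exists_prime_lt_and_le_two_mul ⌊y / 2⌋₊ hm
  refine ⟨p, hp, ?_, ?_⟩
  · have h3 := Nat.lt_floor_add_one (y / 2)
    have h4 : ((⌊y / 2⌋₊ : ℕ) : ℝ) + 1 ≤ p := by exact_mod_cast h1
    linarith only [h4, h3]
  · have h3 := Nat.floor_le (show 0 ≤ y / 2 by linarith only [hy])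
    have h4 : (p : ℝ) ≤ 2 * (⌊y / 2⌋₊ : ℕ) := by exact_mod_cast h2
    linarith only [h3, h4]


end Vale.Agent.P230
end
end
end

section

section

section

namespace Vale.Agent.P230

namespace Num3

theorem up_aux {x y : ℝ} {N : ℕ} (hx : 100 ≤ x) (hy0 : 0 ≤ y) (hyx : y ≤ x) (hNx : (N : ℝ) = y) :
    (x ^ 5 + y ^ 3 / 2) ^ N ≤ 4 / 3 * (x ^ 5) ^ N := by
  have hx0 : 0 < x := by linarith
  have h1 : x ^ 5 + y ^ 3 / 2 ≤ Real.exp (1 / (2 * x ^ 2)) * x ^ 5 := by
    have e : (1 / (2 * x ^ 2) + 1) * x ^ 5 = x ^ 5 + x ^ 3 / 2 := by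
      field_simp
      ring
    have : y ^ 3 ≤ x ^ 3 := pow_le_pow_left₀ hy0 hyx 3
    calc x ^ 5 + y ^ 3 / 2 ≤ (1 / (2 * x ^ 2) + 1) * x ^ 5 := by rw [e]; linarith only [this]
      _ ≤ _ := by
        apply mul_le_mul_of_nonneg_right (Real.add_one_le_exp _) (by positivity)
  calc (x ^ 5 + y ^ 3 / 2) ^ N ≤ (Real.exp (1 / (2 * x ^ 2)) * x ^ 5) ^ N :=
        pow_le_pow_left₀ (by (clear * - hx hy0; positivity)) h1 N
    _ = Real.exp (N * (1 / (2 * x ^ 2))) * (x ^ 5) ^ N := by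
        rw [mul_pow, ← Real.exp_nat_mul]
    _ ≤ 4 / 3 * (x ^ 5) ^ N := by
        apply mul_le_mul_of_nonneg_right _ (by positivity)
        have h2 : (N : ℝ) * (1 / (2 * x ^ 2)) ≤ 1 / 4 := by
          rw [hNx, mul_one_div, div_le_div_iff₀ (by positivity) (by positivity)]
          nlinarith only [hx, hyx]
        have h3 : Real.exp (1 / 4) ^ 4 = Real.exp 1 := by
          rw [← Real.exp_nat_mul]
          norm_num
        have h4 : Real.exp (1 / 4) ≤ 4 / 3 := by
          by_contra hlt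
          push Not at hlt
          have h5 : (4 / 3 : ℝ) ^ 4 < Real.exp (1 / 4) ^ 4 :=
            pow_lt_pow_left₀ hlt (by norm_num) (by norm_num)
          rw [h3] at h5
          have := Real.exp_one_lt_d9
          norm_num at h5
          linarith only [this, h5]
        exact (Real.exp_le_exp.2 h2).trans h4

theorem sizes_aux {x y : ℝ} (hx : 1000 ≤ x) (hN2 : x / 2 ≤ y) (hyx : y ≤ x) :
    1 < x ^ 3 / 4 - 1 ∧ 2 * x ^ 5 / y ^ 3 + 1 ≤ x ^ 3 / 4 - 1 ∧ y ^ 5 ≤ 2 * x ^ 5 ∧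
      2 * x ^ 5 ≤ y ^ 6 := by
  have hx0 : 0 < x := by linarith only [hx]
  have hy0 : 0 < y := by linarith only [hx, hN2]
  refine ⟨?_, ?_, ?_, ?_⟩
  · have : (1000 : ℝ) ^ 3 ≤ x ^ 3 := pow_le_pow_left₀ (by norm_num) hx 3
    linarith only [this]
  · have e1 : 2 * x ^ 5 / y ^ 3 ≤ 16 * x ^ 2 := by
      rw [div_le_iff₀ (by positivity)]
      have : (x / 2) ^ 3 ≤ y ^ 3 := pow_le_pow_left₀ (by positivity) hN2 3
      calc 2 * x ^ 5 = 16 * x ^ 2 * (x / 2) ^ 3 := by ring
        _ ≤ 16 * x ^ 2 * y ^ 3 := by gcongr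
    have e2 : 1000 * x ^ 2 ≤ x ^ 3 := by
      have : x ^ 3 = x * x ^ 2 := by ring
      rw [this]
      gcongr
    have e3 : 1 ≤ x ^ 2 := by nlinarith only [hx]
    linarith only [e1, e2, e3]
  · have : y ^ 5 ≤ x ^ 5 := pow_le_pow_left₀ (by positivity) hyx 5
    have : 0 < x ^ 5 := by positivity
    linarith
  · have : (x / 2) ^ 6 ≤ y ^ 6 := pow_le_pow_left₀ (by positivity) hN2 6
    calc 2 * x ^ 5 ≤ (x / 128) * (2 * x ^ 5) := by
          have h8 : 1 ≤ x / 128 := by linarith only [hx]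
          have : 0 < 2 * x ^ 5 := by positivity
          linarith only [mul_nonneg (le_of_lt (sub_pos.2 this)) (sub_nonneg.2 hx), this]
      _ = (x / 2) ^ 6 := by ring
      _ ≤ _ := this

end Num3

end Vale.Agent.P230
end
end
end

section

section

section

namespace Vale.Agent.P230

open MeasureTheory Finset

/-- the numerical conditions for the last step, `m` is the number of points of the tree -/
structure StepNumT (N t n m : ℕ) (c₂ η ε L ρ : ℝ) : Prop where
  hNn : N + t = n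
  ht : 1 ≤ t
  hn : 2 ≤ n
  hN : 1 ≤ N
  hm : 1 ≤ m
  hρ : 0 < ρ
  hc₂ : 0 < c₂
  hL : 1 < L
  hL1 : 2 * (n : ℝ) ^ 5 / (N : ℝ) ^ 3 + 1 ≤ L
  hL2 : L ≤ (n : ℝ) ^ 5 * ρ / 2 - 1
  hlow : 2 / 3 * ((n : ℝ) ^ 5) ^ N ≤ ((1 - 1 / L) * ((n : ℝ) ^ 5 - (N : ℝ) ^ 3 / 2)) ^ N
  hup : ((n : ℝ) ^ 5 + (N : ℝ) ^ 3 / 2) ^ N ≤ 4 / 3 * ((n : ℝ) ^ 5) ^ N
  hlam1 : (N : ℝ) ^ 5 ≤ 2 * (n : ℝ) ^ 5
  hlam2 : 2 * (n : ℝ) ^ 5 ≤ (N : ℝ) ^ 6
  hp3 : 3 * c₂ * N * 3 < ((n : ℝ) ^ 5 * (ρ / 2)) ^ N
  hη1 : η ≤ 1 / 2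
  hη0 : 0 ≤ η
  hηε : (n : ℝ) ^ t * 2 ^ t * ε ≤ η
  hMη : 2 ^ (t + 1) * ((n : ℝ) ^ t + 1) * η ≤ 1
  hunion : (2 ^ (t + 1) * ((n : ℝ) ^ t + 1) * η) ^ m * (2 * (n : ℝ) ^ 5) ^ N < 3 / 2 * c₂ * N

/-- the finite data attached to one slice -/
theorem slice_dataT {N t n m : ℕ} {c₂ η ε L ρ : ℝ} (hs : StepNumT N t n m c₂ η ε L ρ)
    (T : Set (Fin N → ℝ)) (hT : Convex ℝ T) (hTc : IsCompact T)
    (hTb : ∀ x ∈ T, ∀ i, |x i| ≤ 1)
    (hx₀ : ∃ x₀ : Fin N → ℝ, ∀ x : Fin N → ℝ, (∀ i, 0 ≤ x i ∧ x i ≤ ρ) → x₀ + x ∈ T)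
    (g : ℝ) (hg : 0 < g) (hg1 : ENNReal.ofReal g ≤ volume T)
    (hg2 : volume T ≤ ENNReal.ofReal (2 ^ N * g)) :
    ∃ (Q : Set (Fin N → ℝ)) (w : Fin N → ℤ), NormalizedR Q ((N : ℝ) ^ 3) ∧
      (∀ z ∈ intPts Q (2 * (n : ℝ) ^ 5), ∀ f : Fin N → ℝ, (∀ i, 0 ≤ f i ∧ f i ≤ 1) →
        (fun i => ((z i : ℝ) + w i + f i) / (n : ℝ) ^ 5) ∈ T) ∧
      2 / 3 * (((n : ℝ) ^ 5) ^ N * g) ≤ ((intPts Q (2 * (n : ℝ) ^ 5)).card : ℝ) ∧
      ((intPts Q (2 * (n : ℝ) ^ 5)).card : ℝ) ≤ 4 / 3 * (((n : ℝ) ^ 5) ^ N * g) := by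
  obtain ⟨x₀, hx₀⟩ := hx₀
  have hn0 : (2 : ℝ) ≤ n := by exact_mod_cast hs.hn
  have hN0 : (1 : ℝ) ≤ N := by exact_mod_cast hs.hN
  have hNn : (N : ℝ) ≤ n := by
    have := hs.hNn
    have h1 : N ≤ n := by omega
    exact_mod_cast h1
  have hX : ((n ^ 5 : ℕ) : ℝ) = (n : ℝ) ^ 5 := by push_cast; rfl
  have h1 := slice_body hs.hN (n ^ 5) (Nat.one_le_pow _ _ (by have := hs.hn; omega))
    ρ ((N : ℝ) ^ 3) L hs.hρ (one_le_pow₀ hN0) ?_ hs.hL ?_ ?_
    T hT hTc hTb x₀ hx₀ g hg hg1 hg2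
  · rw [hX] at h1
    obtain ⟨Q, w, hQ, hin, hlo, hup⟩ := h1
    refine ⟨Q, w, hQ, hin, ?_, ?_⟩
    · refine le_trans ?_ hlo
      have := hs.hlow
      calc 2 / 3 * (((n : ℝ) ^ 5) ^ N * g) = (2 / 3 * ((n : ℝ) ^ 5) ^ N) * g := by ring
        _ ≤ _ := by (clear * - this hg; gcongr)
    · refine hup.trans ?_
      have := hs.hup
      calc _ ≤ (4 / 3 * ((n : ℝ) ^ 5) ^ N) * g := by (clear * - this hg; gcongr)
        _ = _ := by ring
  · rw [hX]
    calc (N : ℝ) ^ 3 ≤ (n : ℝ) ^ 3 := by (clear * - hN0 hNn; gcongr)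
      _ ≤ (n : ℝ) ^ 5 := pow_le_pow_right₀ (by linarith only [hn0]) (by norm_num)
  · rw [hX]
    exact hs.hL1
  · rw [hX]
    exact hs.hL2

/-- bounds for the slice volume -/
theorem g_boundsT {N : ℕ} {ρ : ℝ} (hρ : 0 < ρ) (T : Set (Fin N → ℝ))
    (hTb : ∀ x ∈ T, ∀ i, |x i| ≤ 1)
    (hx₀ : ∃ x₀ : Fin N → ℝ, ∀ x : Fin N → ℝ, (∀ i, 0 ≤ x i ∧ x i ≤ ρ) → x₀ + x ∈ T)
    (g : ℝ) (hg : 0 < g) (hg1 : ENNReal.ofReal g ≤ volume T)
    (hg2 : volume T ≤ ENNReal.ofReal (2 ^ N * g)) :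
    (ρ / 2) ^ N ≤ g ∧ g ≤ 2 ^ N := by
  constructor
  · obtain ⟨x₀, hx₀⟩ := hx₀
    have hsub : Set.Icc x₀ (x₀ + fun _ => ρ) ⊆ T := by
      intro x hx
      have := hx₀ (x - x₀) (fun i => ⟨by
        have := hx.1 i
        simp only [Pi.sub_apply]
        linarith, by
        have := hx.2 i
        simp only [Pi.sub_apply, Pi.add_apply] at *
        linarith⟩)
      simpa using this
    have h1 := (measure_mono hsub).trans hg2
    rw [Real.volume_Icc_pi] at h1
    have h2 : ∏ i : Fin N, ENNReal.ofReal ((x₀ + (fun _ => ρ :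
        Fin N → ℝ)) i - x₀ i) = ENNReal.ofReal (ρ ^ N) := by
      rw [ENNReal.ofReal_pow hρ.le]
      simp only [Pi.add_apply, add_sub_cancel_left, prod_const, card_univ, Fintype.card_fin]
    rw [h2, ENNReal.ofReal_le_ofReal_iff (by positivity)] at h1
    rw [div_pow, div_le_iff₀ (by positivity)]
    linarith only [h1]
  · have hsub : T ⊆ Set.Icc (fun _ => -1) (fun _ => 1) := by
      intro x hx
      exact ⟨fun i => (abs_le.1 (hTb x hx i)).1, fun i => (abs_le.1 (hTb x hx i)).2⟩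
    have h1 := hg1.trans (measure_mono hsub)
    rw [Real.volume_Icc_pi] at h1
    have h2 : ∏ _i : Fin N, ENNReal.ofReal ((1 : ℝ) - -1) = ENNReal.ofReal (2 ^ N) := by
      rw [ENNReal.ofReal_pow (by norm_num)]
      norm_num
    rw [h2, ENNReal.ofReal_le_ofReal_iff (by positivity)] at h1
    exact h1

/-- the choice of the prime -/
theorem choose_primeT {N t n m : ℕ} {c₂ η ε L ρ : ℝ} (hs : StepNumT N t n m c₂ η ε L ρ)
    (g : ℝ) (h1 : (ρ / 2) ^ N ≤ g) (h2 : g ≤ 2 ^ N) :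
    ∃ p : ℕ, p.Prime ∧ 3 / 2 * c₂ * N * p ≤ ((n : ℝ) ^ 5) ^ N * g ∧
      ((n : ℝ) ^ 5) ^ N * g < 3 * c₂ * N * p ∧ 3 < p ∧
      (2 ^ (t + 1) * ((n : ℝ) ^ t + 1) * η) ^ m * p < 1 := by
  have hn0 : (2 : ℝ) ≤ n := by exact_mod_cast hs.hn
  have hn1 : (0 : ℝ) < n := by linarith only [hn0]
  have hN0 : (1 : ℝ) ≤ N := by exact_mod_cast hs.hN
  have hc₂ := hs.hc₂
  have hρ := hs.hρ
  have hcN : 0 < c₂ * N := by positivity
  have hlow : ((n : ℝ) ^ 5 * (ρ / 2)) ^ N ≤ ((n : ℝ) ^ 5) ^ N * g := by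
    rw [mul_pow]
    (clear * - h1 hn0; gcongr)
  have h3 := hs.hp3
  obtain ⟨p, hp, hp1, hp2⟩ := exists_prime_real (((n : ℝ) ^ 5) ^ N * g / (3 / 2 * c₂ * N)) (by
    rw [le_div_iff₀ (by positivity)]
    linarith only [h3, hlow, hcN])
  rw [div_div, div_lt_iff₀ (by positivity)] at hp1
  rw [le_div_iff₀ (by positivity)] at hp2
  have h4 : ((n : ℝ) ^ 5) ^ N * g < 3 * c₂ * N * p := by
    linarith only [hp1]
  have h5 : (3 : ℝ) < p := by
    have : 3 * c₂ * N * 3 < 3 * c₂ * N * p := by linarith only [hlow, h3, h4]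
    exact lt_of_mul_lt_mul_left this (by (clear * - hc₂ hN0; positivity))
  refine ⟨p, hp, by linarith only [hp2], h4, by exact_mod_cast h5, ?_⟩
  have h7 := hs.hunion
  have h8 : 3 / 2 * c₂ * N * p ≤ (2 * (n : ℝ) ^ 5) ^ N := by
    calc 3 / 2 * c₂ * N * p ≤ ((n : ℝ) ^ 5) ^ N * g := by linarith only [hp2]
      _ ≤ ((n : ℝ) ^ 5) ^ N * 2 ^ N := by (clear * - h2 hn0; gcongr)
      _ = _ := by
        rw [← mul_pow]
        congr 1
        ring
  have hη0 := hs.hη0
  have hη : 0 ≤ (2 ^ (t + 1) * ((n : ℝ) ^ t + 1) * η) ^ m := by (clear * - hn0 hη0; positivity)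
  have h9 : (3 / 2 * c₂ * N) * ((2 ^ (t + 1) * ((n : ℝ) ^ t + 1) * η) ^ m * p) <
      (3 / 2 * c₂ * N) * 1 := by
    calc (3 / 2 * c₂ * N) * ((2 ^ (t + 1) * ((n : ℝ) ^ t + 1) * η) ^ m * p)
        = (2 ^ (t + 1) * ((n : ℝ) ^ t + 1) * η) ^ m * (3 / 2 * c₂ * N * p) := by ring
      _ ≤ (2 ^ (t + 1) * ((n : ℝ) ^ t + 1) * η) ^ m * (2 * (n : ℝ) ^ 5) ^ N := by (clear * - h8 hn0 hη0; gcongr)
      _ < _ := by linarith only [h7]
  exact lt_of_mul_lt_mul_left h9 (by (clear * - hc₂ hN0; positivity))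

/-- the covering argument -/
theorem step_coverT {N t n m : ℕ} {c₂ η ε L ρ : ℝ} (hs : StepNumT N t n m c₂ η ε L ρ)
    (K : Set ((Fin N → ℝ) × (Fin t → ℝ))) (A : Set (Fin t → ℝ))
    (T : (Fin t → ℝ) → Set (Fin N → ℝ)) (hTne : ∀ b ∈ A, (T b).Nonempty)
    (hkey : ∀ b ∈ A, ∀ a ∈ A, ∀ x ∈ T b, ∀ x' ∈ T a,
        (x + (1 / (n : ℝ)) • x', b + (1 / (n : ℝ)) • a) ∈ K)
    (ML : Matrix (Fin t) (Fin t) ℝ) (hzcov : ∀ y : Fin t → ℝ, ∃ ζ : Fin t → ℤ,
      y + ML.mulVec (fun a => (ζ a : ℝ)) ∈ A)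
    (P : (Fin t → Fin n) → Finset (Fin t → ℤ))
    (hz : ∀ j, ∀ z ∈ P j, ML.mulVec (fun a => ((j a : ℕ) : ℝ) / n) +
      ML.mulVec (fun a => (z a : ℝ)) ∈ A)
    (Q : (Fin t → Fin n) → (Fin t → ℤ) → Set (Fin N → ℝ))
    (w : (Fin t → Fin n) → (Fin t → ℤ) → Fin N → ℤ)
    (hin : ∀ j, ∀ z ∈ P j, ∀ s ∈ intPts (Q j z) (2 * (n : ℝ) ^ 5), ∀ f : Fin N → ℝ,
      (∀ l, 0 ≤ f l ∧ f l ≤ 1) → (fun l => ((s l : ℝ) + w j z l + f l) / (n : ℝ) ^ 5) ∈
        T (ML.mulVec (fun a => ((j a : ℕ) : ℝ) / n) + ML.mulVec (fun a => (z a : ℝ))))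
    (p : ℕ) (h : Fin N → ZMod p) (g : Fin t → ZMod p)
    (hgood : ∀ j, ∀ u : ZMod p, ∃ z ∈ P j, (hit p (intPts (Q j z) (2 * (n : ℝ) ^ 5)) h
      (u - ∑ a, g a * (z a : ZMod p) - ∑ a, h a * (w j z a : ZMod p))).Nonempty)
    (y : Fin N → ℝ) (y' : Fin t → ℝ) :
    ∃ (s : Fin N → ℤ) (ζ : Fin t → ℤ),
      ((fun a => y a + (s a : ℝ) / (n : ℝ) ^ 5),
        (y' + ML.mulVec (fun a => (ζ a : ℝ)))) ∈ K ∧
      ∑ a, h a * (s a : ZMod p) + ∑ a, g a * (ζ a : ZMod p) = 0 := by
  classical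
  have hn2 := hs.hn
  have hnpos : (0 : ℝ) < n := by
    have : 0 < n := by omega
    exact_mod_cast this
  have hn5 : (0 : ℝ) < (n : ℝ) ^ 5 := by positivity
  obtain ⟨z₀, hz₀⟩ := hzcov ((n : ℝ) • y')
  set a : Fin t → ℝ := (n : ℝ) • y' + ML.mulVec (fun l => (z₀ l : ℝ)) with ha
  have hnz : (0 : ℤ) < n := by exact_mod_cast (by omega : 0 < n)
  set j : Fin t → Fin n := fun l => ⟨((-z₀ l) % n).toNat, by
    have h1 := Int.emod_lt_of_pos (-z₀ l) hnz
    have h2 := Int.emod_nonneg (-z₀ l) hnz.ne'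
    omega⟩ with hj
  set z' : Fin t → ℤ := fun l => (-z₀ l) / n with hz'
  have hdecomp : ∀ l, -(z₀ l : ℝ) = ((j l : ℕ) : ℝ) + n * (z' l : ℝ) := by
    intro l
    have h1 : -z₀ l = (((j l : ℕ) : ℤ)) + n * z' l := by
      have h2 := Int.emod_nonneg (-z₀ l) hnz.ne'
      have h3 := Int.emod_add_mul_ediv (-z₀ l) n
      rw [hj, hz']
      simp only
      rw [Int.toNat_of_nonneg h2]
      exact h3.symm
    have h4 : ((-z₀ l : ℤ) : ℝ) = (((((j l : ℕ) : ℤ)) + n * z' l : ℤ) : ℝ) := by rw [h1]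
    push_cast at h4
    exact h4
  obtain ⟨xa, hxa⟩ := hTne a hz₀
  set e : Fin N → ℤ := fun l => ⌊(n : ℝ) ^ 5 * (y l - xa l / n)⌋ with he
  set f : Fin N → ℝ := fun l => Int.fract ((n : ℝ) ^ 5 * (y l - xa l / n)) with hf
  have hef : ∀ l, (e l : ℝ) + f l = (n : ℝ) ^ 5 * (y l - xa l / n) := by
    intro l
    exact Int.floor_add_fract _
  obtain ⟨z, hzP, s, hs'⟩ := hgood j
    (∑ l, h l * (e l : ZMod p) + ∑ l, g l * (z' l : ZMod p))
  rw [hit, mem_filter] at hs'
  refine ⟨fun l => s l + w j z l - e l, fun l => z l - z' l, ?_, ?_⟩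
  · have h1 := hin j z hzP s hs'.1 f
      (fun l => ⟨Int.fract_nonneg _, (Int.fract_lt_one _).le⟩)
    have h2 := hkey _ (hz j z hzP) a hz₀ _ h1 xa hxa
    convert h2 using 1
    ext l
    · simp only [Pi.add_apply, Pi.smul_apply, smul_eq_mul]
      have h3 := hef l
      push_cast
      have h4 : f l = (n : ℝ) ^ 5 * (y l - xa l / n) - e l := by linarith only [h3]
      rw [h4]
      field_simp
      ring
    · have h5 : (fun l => (((z l - z' l : ℤ)) : ℝ)) =
          (fun l => ((j l : ℕ) : ℝ) / n) + (fun l => (z l : ℝ)) +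
            (1 / (n : ℝ)) • (fun l => (z₀ l : ℝ)) := by
        funext l
        have := hdecomp l
        simp only [Pi.add_apply, Pi.smul_apply, smul_eq_mul]
        push_cast
        have h6 : (z₀ l : ℝ) = -(((j l : ℕ) : ℝ) + n * (z' l : ℝ)) := by linarith only [this]
        rw [h6]
        field_simp
        ring
      rw [h5, Matrix.mulVec_add, Matrix.mulVec_add, Matrix.mulVec_smul, ha]
      simp only [Pi.add_apply, Pi.smul_apply, smul_eq_mul]
      field_simp
      ring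
  · have h1 := hs'.2
    push_cast
    simp only [mul_add, mul_sub, sum_add_distrib, sum_sub_distrib]
    rw [h1]
    ring

end Vale.Agent.P230
end
end
end

section

section

section

namespace Vale.Agent.P230

open MeasureTheory Finset
open scoped Pointwise ENNReal

/-- a kernel lower bound at all points of a large ball forces surjectivity -/
theorem surj_of_kernel {t n : ℕ} (c : ℝ) (ht : 1 ≤ t) (K : Set (Fin n → ℝ))
    (hk : IsCompact K) (hv : 0 < volume K) (G : Matrix (Fin t) (Fin n) ℝ)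
    (hbig : Real.exp (-(2 * (t : ℝ) ^ 5)) <
      c / t * (1 / (t : ℝ) ^ 2) ^ t * Real.exp (-(2 * (t : ℝ))))
    (h : ∀ b : Fin t → ℝ, ∑ i, b i ^ 2 ≤ 4 * t →
      c / t * (volume K).toReal * (1 / (t : ℝ) ^ 2) ^ t * Real.exp (-(∑ i, b i ^ 2) / 2) ≤
        ∫ x in K, Real.exp (-(∑ i, (G.mulVec x i - b i) ^ 2) * (t : ℝ) ^ 4 / 2)) :
    Function.Surjective G.mulVec := by
  classical
  have ht0 : (0 : ℝ) < t := by exact_mod_cast ht
  have hvr : 0 < (volume K).toReal := ENNReal.toReal_pos hv.ne' hk.measure_lt_top.ne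
  by_contra hns
  have hrange : LinearMap.range G.mulVecLin < ⊤ := by
    rw [lt_top_iff_ne_top]
    intro h1
    apply hns
    rw [LinearMap.range_eq_top] at h1
    exact h1
  obtain ⟨f, hf0, hf⟩ := Submodule.exists_le_ker_of_lt_top _ hrange
  set u : Fin t → ℝ := fun i => f (Pi.single i 1) with hu
  have hfu : ∀ x : Fin t → ℝ, f x = ∑ i, u i * x i := by
    intro x
    conv_lhs => rw [LinearMap.pi_apply_eq_sum_univ f x]
    refine Finset.sum_congr rfl fun i _ => ?_
    rw [smul_eq_mul, mul_comm, hu]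
    congr 2
    funext j
    rw [Pi.single_apply]
    simp [eq_comm]
  have hperp : ∀ x : Fin n → ℝ, ∑ i, u i * G.mulVec x i = 0 := by
    intro x
    rw [← hfu]
    have : G.mulVec x ∈ LinearMap.range G.mulVecLin := ⟨x, rfl⟩
    exact hf this
  have husq : 0 < ∑ i, u i ^ 2 := by
    by_contra hcon
    have h1 : ∑ i, u i ^ 2 = 0 := le_antisymm (not_lt.1 hcon) (by (clear * -; positivity))
    apply hf0
    ext i
    rw [Finset.sum_eq_zero_iff_of_nonneg (fun i _ => sq_nonneg _)] at h1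
    have h2 := h1 i (Finset.mem_univ i)
    have h3 : u i = 0 := by simpa using h2
    simpa only [LinearMap.coe_comp, LinearMap.coe_single, Function.comp_apply, LinearMap.zero_comp,     LinearMap.zero_apply, hu] using h3
  set s : ℝ := ∑ i, u i ^ 2 with hs
  set a : ℝ := Real.sqrt (4 * t / s) with ha
  have ha2 : a ^ 2 = 4 * t / s := Real.sq_sqrt (by (clear * - ht husq; (clear * - ht husq; positivity)))
  set b : Fin t → ℝ := fun i => a * u i with hb
  have hbsq : ∑ i, b i ^ 2 = 4 * t := by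
    have : ∑ i, b i ^ 2 = a ^ 2 * s := by
      rw [hs, Finset.mul_sum]
      refine Finset.sum_congr rfl fun i _ => ?_
      simp only [hb]
      ring
    rw [this, ha2]
    (clear * - husq ht; field_simp)
  have hdist : ∀ x : Fin n → ℝ, 4 * (t : ℝ) ≤ ∑ i, (G.mulVec x i - b i) ^ 2 := by
    intro x
    have e : ∑ i, (G.mulVec x i - b i) ^ 2 = ∑ i, (G.mulVec x i) ^ 2 -
        2 * a * ∑ i, u i * G.mulVec x i + ∑ i, b i ^ 2 := by
      rw [Finset.mul_sum, ← Finset.sum_sub_distrib, ← Finset.sum_add_distrib]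
      refine Finset.sum_congr rfl fun i _ => ?_
      simp only [hb]
      ring
    rw [e, hperp, hbsq]
    have : 0 ≤ ∑ i, (G.mulVec x i) ^ 2 := by (clear * -; positivity)
    linarith only [this]
  have h1 := h b hbsq.le
  have h2 : ∫ x in K, Real.exp (-(∑ i, (G.mulVec x i - b i) ^ 2) * (t : ℝ) ^ 4 / 2) ≤
      Real.exp (-(2 * (t : ℝ) ^ 5)) * (volume K).toReal := by
    have h3 : ∫ x in K, Real.exp (-(∑ i, (G.mulVec x i - b i) ^ 2) * (t : ℝ) ^ 4 / 2) ≤
        ∫ _x in K, Real.exp (-(2 * (t : ℝ) ^ 5)) := by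
      apply setIntegral_mono_on
      · refine ContinuousOn.integrableOn_compact hk (Continuous.continuousOn ?_)
        have : ∀ i, Continuous fun x : Fin n → ℝ => G.mulVec x i := fun i =>
          (continuous_apply i).comp (Continuous.matrix_mulVec continuous_const continuous_id)
        fun_prop
      · exact integrableOn_const hk.measure_lt_top.ne
      · exact hk.measurableSet
      · intro x _
        apply Real.exp_le_exp.2
        have h4 := hdist x
        have h5 : (0 : ℝ) ≤ (t : ℝ) ^ 4 := by positivity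
        have h6 : 4 * (t : ℝ) * (t : ℝ) ^ 4 ≤ (∑ i, (G.mulVec x i - b i) ^ 2) * (t : ℝ) ^ 4 := by
          (clear * - h4 ht; gcongr)
        have h7 : 4 * (t : ℝ) * (t : ℝ) ^ 4 = 4 * (t : ℝ) ^ 5 := by ring
        linarith only [h6]
    refine h3.trans (le_of_eq ?_)
    rw [setIntegral_const, smul_eq_mul, mul_comm]
    rfl
  rw [hbsq] at h1
  have h8 := h1.trans h2
  have h9 : c / t * (volume K).toReal * (1 / (t : ℝ) ^ 2) ^ t * Real.exp (-(4 * (t : ℝ)) / 2) =
      (c / t * (1 / (t : ℝ) ^ 2) ^ t * Real.exp (-(2 * (t : ℝ)))) * (volume K).toReal := by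
    rw [show -(4 * (t : ℝ)) / 2 = -(2 * (t : ℝ)) by ring]
    ring
  rw [h9] at h8
  have h10 := le_of_mul_le_mul_right h8 hvr
  linarith only [hbig, h10]

/-- coordinates in which a surjection becomes the last projection -/
theorem exists_coords {N t : ℕ} (G : Matrix (Fin t) (Fin (N + t)) ℝ)
    (hG : Function.Surjective G.mulVec) :
    ∃ A : Matrix (Fin (N + t)) (Fin (N + t)) ℝ, A.det ≠ 0 ∧
      ∀ (x : Fin N → ℝ) (b : Fin t → ℝ), G.mulVec (A.mulVec (Fin.append x b)) = b := by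
  classical
  have hGl : LinearMap.range G.mulVecLin = ⊤ := LinearMap.range_eq_top.2 hG
  obtain ⟨s, hs⟩ := LinearMap.exists_rightInverse_of_surjective G.mulVecLin hGl
  have hfr : Module.finrank ℝ (LinearMap.ker G.mulVecLin) = N := by
    have h1 := LinearMap.finrank_range_add_finrank_ker G.mulVecLin
    rw [hGl, finrank_top] at h1
    simp only [Module.finrank_fin_fun] at h1
    omega
  have e : (Fin N → ℝ) ≃ₗ[ℝ] LinearMap.ker G.mulVecLin :=
    LinearEquiv.ofFinrankEq _ _ (by rw [hfr]; simp only [Module.finrank_fintype_fun_eq_card, Fintype.card_fin])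
  set φ : (Fin (N + t) → ℝ) →ₗ[ℝ] (Fin (N + t) → ℝ) :=
    (LinearMap.ker G.mulVecLin).subtype ∘ₗ e.toLinearMap ∘ₗ
      (LinearMap.funLeft ℝ ℝ (Fin.castAdd t)) + s ∘ₗ (LinearMap.funLeft ℝ ℝ (Fin.natAdd N)) with hφ
  have hφa : ∀ y, φ y = (e (fun i => y (Fin.castAdd t i)) : Fin (N + t) → ℝ) +
      s (fun i => y (Fin.natAdd N i)) := fun y => rfl
  have hgφ : ∀ y, G.mulVec (φ y) = fun i => y (Fin.natAdd N i) := by
    intro y
    rw [hφa, Matrix.mulVec_add]
    have h1 : G.mulVec (e (fun i => y (Fin.castAdd t i)) : Fin (N + t) → ℝ) = 0 :=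
      (e (fun i => y (Fin.castAdd t i))).2
    have h2 : G.mulVec (s (fun i => y (Fin.natAdd N i))) = fun i => y (Fin.natAdd N i) := by
      have := LinearMap.congr_fun hs (fun i => y (Fin.natAdd N i))
      exact this
    rw [h1, h2, zero_add]
  have hinj : Function.Injective φ := by
    rw [← LinearMap.ker_eq_bot, LinearMap.ker_eq_bot']
    intro y hy
    have h1 := hgφ y
    rw [hy, Matrix.mulVec_zero] at h1
    have h2 := hφa y
    rw [hy, ← h1, map_zero, add_zero] at h2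
    have h3 : e (fun i => y (Fin.castAdd t i)) = 0 := Subtype.ext h2.symm
    have h4 : (fun i => y (Fin.castAdd t i)) = 0 := by
      rwa [LinearEquiv.map_eq_zero_iff] at h3
    funext i
    refine Fin.addCases (fun i => ?_) (fun i => ?_) i
    · exact congrFun h4 i
    · exact (congrFun h1 i).symm
  refine ⟨LinearMap.toMatrix' φ, ?_, ?_⟩
  · have h1 : Function.Injective (LinearMap.toMatrix' φ).mulVec := by
      have : (LinearMap.toMatrix' φ).mulVec = φ := by
        funext y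
        exact LinearMap.toMatrix'_mulVec φ y
      rw [this]
      exact hinj
    rw [Matrix.mulVec_injective_iff_isUnit, Matrix.isUnit_iff_isUnit_det] at h1
    exact h1.ne_zero
  · intro x b
    rw [LinearMap.toMatrix'_mulVec, hgφ]
    funext i
    rw [Fin.append_right]

/-- change of variables for functions of the last coordinates -/
theorem kernel_transfer {N t : ℕ} (K₁ : Set (Fin (N + t) → ℝ)) (hk : IsCompact K₁)
    (A : Matrix (Fin (N + t)) (Fin (N + t)) ℝ) (hA : A.det ≠ 0)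
    (G : Matrix (Fin t) (Fin (N + t)) ℝ)
    (hG : ∀ (x : Fin N → ℝ) (b : Fin t → ℝ), G.mulVec (A.mulVec (Fin.append x b)) = b)
    (f : (Fin t → ℝ) → ℝ) (hf : Continuous f) :
    ∫ q in {q : (Fin N → ℝ) × (Fin t → ℝ) | A.mulVec (Fin.append q.1 q.2) ∈ K₁}, f q.2 =
      |A.det|⁻¹ * ∫ x in K₁, f (G.mulVec x) := by
  have h1 := (measurePreserving_appendEquiv N t).setIntegral_preimage_emb
    (appendEquiv N t).measurableEmbedding (fun y => f (G.mulVec (A.mulVec y)))
    {y | A.mulVec y ∈ K₁}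
  have e1 : (appendEquiv N t) ⁻¹' {y | A.mulVec y ∈ K₁} =
      {q : (Fin N → ℝ) × (Fin t → ℝ) | A.mulVec (Fin.append q.1 q.2) ∈ K₁} := by
    ext q
    simp only [Set.mem_preimage, Set.mem_ofPred_eq, appendEquiv_apply]
  have e2 : (fun q : (Fin N → ℝ) × (Fin t → ℝ) =>
      f (G.mulVec (A.mulVec (appendEquiv N t q)))) = fun q => f q.2 := by
    funext q
    rw [appendEquiv_apply, hG]
  rw [e1] at h1
  have h1' : ∫ q in {q : (Fin N → ℝ) × (Fin t → ℝ) | A.mulVec (Fin.append q.1 q.2) ∈ K₁},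
      f q.2 = ∫ y in {y | A.mulVec y ∈ K₁}, f (G.mulVec (A.mulVec y)) := by
    rw [← h1]
    refine setIntegral_congr_fun ?_ ?_
    · rw [← e1]
      apply (appendEquiv N t).measurable
      have hm : Measurable fun y : Fin (N + t) → ℝ => A.mulVec y :=
        (Continuous.matrix_mulVec continuous_const continuous_id).measurable
      exact hm hk.measurableSet
    · intro q _
      exact (congrFun e2 q).symm
  rw [h1']
  have hmap := Real.map_matrix_volume_pi_eq_smul_volume_pi hA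
  have hGc : Continuous fun y : Fin (N + t) → ℝ => f (G.mulVec y) :=
    hf.comp (Continuous.matrix_mulVec continuous_const continuous_id)
  have hAc : Continuous fun y : Fin (N + t) → ℝ => Matrix.toLin' A y := by
    simp only [Matrix.toLin'_apply]
    exact Continuous.matrix_mulVec continuous_const continuous_id
  have h2 := setIntegral_map (μ := volume) (f := fun y : Fin (N + t) → ℝ => f (G.mulVec y))
    (g := Matrix.toLin' A) hk.measurableSet hGc.aestronglyMeasurable hAc.aemeasurable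
  rw [hmap, Measure.restrict_smul, integral_smul_measure] at h2
  have e3 : (Matrix.toLin' A) ⁻¹' K₁ = {y | A.mulVec y ∈ K₁} := by
    ext y
    simp
  rw [e3] at h2
  simp only [Matrix.toLin'_apply] at h2
  rw [← h2, smul_eq_mul, abs_inv, ENNReal.toReal_ofReal (by (clear * - hA; positivity))]

theorem volume_transfer {N t : ℕ} (K₁ : Set (Fin (N + t) → ℝ))
    (A : Matrix (Fin (N + t)) (Fin (N + t)) ℝ) (hA : A.det ≠ 0) :
    volume K₁ = ENNReal.ofReal |A.det| *
      volume {q : (Fin N → ℝ) × (Fin t → ℝ) | A.mulVec (Fin.append q.1 q.2) ∈ K₁} := by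
  have h1 := volume_affine K₁ A 0 hA
  simp only [add_zero] at h1
  rw [h1]
  congr 1
  exact (volume_append {y | A.mulVec y ∈ K₁}).symm

end Vale.Agent.P230
end
end
end

section

section

section

namespace Vale.Agent.P230

namespace NumT

theorem low_aux2 {x y L : ℝ} {N : ℕ} (hx : 100 ≤ x) (hy0 : 0 ≤ y) (hyx : y ≤ x)
    (hNx : (N : ℝ) = y) (hL : 2 * x ^ 2 ≤ L) :
    2 / 3 * (x ^ 5) ^ N ≤ ((1 - 1 / L) * (x ^ 5 - y ^ 3 / 2)) ^ N := by
  have hx0 : 0 < x := by linarith
  have hLpos : 0 < L := lt_of_lt_of_le (by positivity) hL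
  set a : ℝ := 1 / (2 * x ^ 2) with ha
  have ha0 : 0 < a := by positivity
  have h1 : 1 - a ≤ 1 - 1 / L := by
    have : 1 / L ≤ a := one_div_le_one_div_of_le (by positivity) hL
    linarith only [this]
  have h2 : x ^ 5 * (1 - a) ≤ x ^ 5 - y ^ 3 / 2 := by
    have e : x ^ 5 * (1 - a) = x ^ 5 - x ^ 3 / 2 := by
      rw [ha]
      field_simp
    have : y ^ 3 ≤ x ^ 3 := pow_le_pow_left₀ hy0 hyx 3
    rw [e]
    linarith only [this]
  have hax : x ^ 2 * (2 * a) = 1 := by
    rw [ha]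
    field_simp
  have h4 : 2 * a ≤ 1 := by
    have h5 : (1 : ℝ) ≤ x ^ 2 := by nlinarith only [hx]
    nlinarith only [hx, hax]
  have h5 : x ^ 5 * (1 - 2 * a) ≤ (1 - 1 / L) * (x ^ 5 - y ^ 3 / 2) := by
    calc x ^ 5 * (1 - 2 * a) ≤ (1 - a) * (x ^ 5 * (1 - a)) := by
          have e : (1 - a) * (x ^ 5 * (1 - a)) - x ^ 5 * (1 - 2 * a) = x ^ 5 * a ^ 2 := by ring
          have : 0 ≤ x ^ 5 * a ^ 2 := by positivity
          linarith only [this]
      _ ≤ (1 - 1 / L) * (x ^ 5 * (1 - a)) := by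
          apply mul_le_mul_of_nonneg_right h1
          apply mul_nonneg (by positivity)
          linarith only [h4]
      _ ≤ (1 - 1 / L) * (x ^ 5 - y ^ 3 / 2) := by
          apply mul_le_mul_of_nonneg_left h2
          linarith only [h1, h4]
  calc 2 / 3 * (x ^ 5) ^ N ≤ (1 - 2 * a) ^ N * (x ^ 5) ^ N := by
        apply mul_le_mul_of_nonneg_right _ (by positivity)
        have h7 := one_add_mul_le_pow (show (-2 : ℝ) ≤ -(2 * a) by linarith only [h4]) N
        have h8 : (N : ℝ) * (2 * a) ≤ 1 / 3 := by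
          rw [hNx]
          have h9 : x * (2 * a) ≤ 1 / 3 := by
            have h10 : x * (x * (2 * a)) = 1 := by
              rw [← hax]
              ring
            have h11 : 0 ≤ x * (2 * a) := by positivity
            nlinarith only [hx, hax]
          exact le_trans (by gcongr) h9
        calc (2 / 3 : ℝ) ≤ 1 + N * (-(2 * a)) := by linarith only [h8]
          _ ≤ (1 + -(2 * a)) ^ N := h7
          _ = (1 - 2 * a) ^ N := by ring
    _ = (x ^ 5 * (1 - 2 * a)) ^ N := by rw [mul_pow, mul_comm]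
    _ ≤ _ := pow_le_pow_left₀ (mul_nonneg (by positivity) (by linarith only [h4])) h5 N

/-- the basic size estimate for the tree factor -/
theorem tree_aux {x u c₃ y : ℝ} {t : ℕ} (hx0 : 0 < x) (hlog1 : 1 ≤ Real.log x) (hu : (t : ℝ) = u)
    (hut : u ≤ Real.log x) (hc₃ : 0 < c₃) (hN2 : x / 2 ≤ y)
    (h2 : (Real.log x + 2) * (Real.log x + 2) ≤ c₃ * x / 8) :
    2 ^ (t + 1) * (x ^ t + 1) ≤ Real.exp (c₃ * y / 4) := by
  have hu0 : 0 ≤ u := by rw [← hu]; (clear * -; positivity)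
  have hxt : x ^ t = Real.exp (u * Real.log x) := by
    rw [← hu, Real.exp_nat_mul, Real.exp_log hx0]
  have he2 : (2 : ℝ) ≤ Real.exp 1 := by
    have := Real.exp_one_gt_d9
    linarith only [this]
  have h2t : (2 : ℝ) ^ (t + 1) ≤ Real.exp (u + 1) := by
    calc (2 : ℝ) ^ (t + 1) ≤ (Real.exp 1) ^ (t + 1) := by (clear * - he2; gcongr)
      _ = Real.exp (u + 1) := by
        rw [← Real.exp_nat_mul]
        congr 1
        push_cast
        rw [hu]
        ring
  have h1 : 1 ≤ x ^ t := by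
    rw [hxt]
    exact Real.one_le_exp (by positivity)
  have h3 : x ^ t + 1 ≤ Real.exp (1 + u * Real.log x) := by
    rw [Real.exp_add, ← hxt]
    linarith only [mul_nonneg (sub_nonneg.2 he2) (sub_nonneg.2 h1), h1, he2]
  calc 2 ^ (t + 1) * (x ^ t + 1) ≤ Real.exp (u + 1) * Real.exp (1 + u * Real.log x) := by
        (clear * - h2t h3 hx0; gcongr)
    _ = Real.exp (u + 2 + u * Real.log x) := by
        rw [← Real.exp_add]
        congr 1
        ring
    _ ≤ Real.exp (c₃ * y / 4) := by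
        apply Real.exp_le_exp.2
        have e1 : u + 2 + u * Real.log x ≤ (Real.log x + 2) * (Real.log x + 2) := by
          linarith only [mul_nonneg (sub_nonneg.2 hlog1) (sub_nonneg.2 hut), hut, hlog1]
        have e2 : c₃ * x / 8 ≤ c₃ * y / 4 := by
          have : c₃ * (x / 2) ≤ c₃ * y := by (clear * - hN2 hc₃; gcongr)
          linarith only [this]
        linarith only [h2, e1, e2]

theorem union_aux2 {x y c₂ c₃ B M : ℝ} {N m : ℕ} (hx : 1000 ≤ x) (hc₂ : 0 < c₂)
    (hc₃ : 0 < c₃) (hN2 : x / 2 ≤ y) (hy : (N : ℝ) = y) (hB0 : 0 ≤ B)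
    (hB : B ≤ Real.exp (c₃ * y / 4)) (hm : 28 * Real.log x / c₃ ≤ m)
    (hM : M = Real.exp (-c₃ * y / 2))
    (h3 : Real.exp (-x / 4) < 3 / 2 * c₂) :
    (B * M) ^ m * (2 * x ^ 5) ^ N < 3 / 2 * c₂ * y := by
  have hx0 : 0 < x := by linarith only [hx]
  have hy0 : 0 < y := by linarith only [hx, hN2]
  have hlog1 : 1 ≤ Real.log x := by
    rw [Real.le_log_iff_exp_le hx0]
    have := Real.exp_one_lt_d9
    linarith only [hx, this]
  have e1 : (2 * x ^ 5) ^ N ≤ Real.exp (y * (6 * Real.log x)) := by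
    rw [← hy, Real.exp_nat_mul]
    apply pow_le_pow_left₀ (by positivity)
    rw [show (6 : ℝ) * Real.log x = ((6 : ℕ) : ℝ) * Real.log x by norm_num, Real.exp_nat_mul,
      Real.exp_log hx0]
    calc 2 * x ^ 5 ≤ x * x ^ 5 := by
          apply mul_le_mul_of_nonneg_right _ (by positivity)
          linarith only [hx]
      _ = x ^ 6 := by ring
  have hBM : B * M ≤ Real.exp (-(c₃ * y / 4)) := by
    rw [hM]
    calc B * Real.exp (-c₃ * y / 2) ≤ Real.exp (c₃ * y / 4) * Real.exp (-c₃ * y / 2) := by (clear * - hB; gcongr)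
      _ = Real.exp (-(c₃ * y / 4)) := by
        rw [← Real.exp_add]
        congr 1
        ring
  have hM0 : 0 ≤ M := by rw [hM]; positivity
  have e2 : (B * M) ^ m ≤ Real.exp (-(7 * y * Real.log x)) := by
    calc (B * M) ^ m ≤ (Real.exp (-(c₃ * y / 4))) ^ m :=
          pow_le_pow_left₀ (by (clear * - hB0 hM0; positivity)) hBM m
      _ = Real.exp (m * (-(c₃ * y / 4))) := by rw [← Real.exp_nat_mul]
      _ ≤ Real.exp (-(7 * y * Real.log x)) := by
          apply Real.exp_le_exp.2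
          have h4 : 28 * Real.log x / c₃ * (c₃ * y / 4) ≤ m * (c₃ * y / 4) := by (clear * - hm hc₃ hy0; gcongr)
          have h5 : 28 * Real.log x / c₃ * (c₃ * y / 4) = 7 * y * Real.log x := by
            field_simp
            norm_num
          linarith only [h4, h5]
  calc (B * M) ^ m * (2 * x ^ 5) ^ N
      ≤ Real.exp (-(7 * y * Real.log x)) * Real.exp (y * (6 * Real.log x)) := by (clear * - e2 e1 hx; gcongr)
    _ = Real.exp (-(y * Real.log x)) := by
        rw [← Real.exp_add]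
        congr 1
        ring
    _ ≤ Real.exp (-x / 4) := by
        apply Real.exp_le_exp.2
        have e7 : x / 4 * 1 ≤ y * Real.log x := by
          apply mul_le_mul _ hlog1 (by norm_num) hy0.le
          linarith only [hN2, hx]
        linarith only [e7]
    _ < 3 / 2 * c₂ := h3
    _ ≤ 3 / 2 * c₂ * y := by
        have : (1 : ℝ) ≤ y := by linarith only [hx, hN2]
        have h8 : 0 < 3 / 2 * c₂ := by positivity
        linarith only [mul_nonneg (le_of_lt (sub_pos.2 hc₂)) (sub_nonneg.2 hN2), mul_nonneg (le_of_lt (sub_pos.2 hc₂)) (sub_nonneg.2 hx), hc₂]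

theorem eventually_aux2 (c₂ c₃ : ℝ) (hc₂ : 0 < c₂) (hc₃ : 0 < c₃) :
    ∃ n₀ : ℕ, ∀ n ≥ n₀, Real.log (n : ℝ) ≤ (n : ℝ) / 1000 ∧
      (Real.log (n : ℝ) + 2) * (Real.log (n : ℝ) + 2) ≤ c₃ * (n : ℝ) / 8 ∧
      Real.exp (-(n : ℝ) / 4) < 3 / 2 * c₂ ∧ 36 * c₂ + 1 ≤ (n : ℝ) ∧ 1000 ≤ (n : ℝ) := by
  have ev1 : ∀ᶠ x : ℝ in Filter.atTop, Real.log x ≤ x / 1000 := by
    have h2 := Real.isLittleO_log_id_atTop.def (show (0 : ℝ) < 1 / 1000 by norm_num)
    filter_upwards [h2, Filter.eventually_ge_atTop (400 : ℝ)] with x hx hx0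
    rw [Real.norm_eq_abs, Real.norm_eq_abs] at hx
    have h3 := le_abs_self (Real.log x)
    rw [id, abs_of_nonneg (show 0 ≤ x by linarith only [hx0])] at hx
    linarith only [hx, h3]
  have ev2 : ∀ᶠ x : ℝ in Filter.atTop,
      (Real.log x + 2) * (Real.log x + 2) ≤ c₃ * x / 8 := by
    have h := (Real.isLittleO_pow_log_id_atTop (n := 2)).def
      (show (0 : ℝ) < c₃ / 72 by positivity)
    filter_upwards [h, Filter.eventually_ge_atTop (Real.exp 1)] with x hx hx0
    have hlog : 1 ≤ Real.log x := by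
      rw [Real.le_log_iff_exp_le (lt_of_lt_of_le (Real.exp_pos 1) hx0)]
      exact hx0
    have hx1 : 0 < x := lt_of_lt_of_le (Real.exp_pos 1) hx0
    rw [Real.norm_eq_abs, Real.norm_eq_abs, abs_of_nonneg (by positivity), id,
      abs_of_pos hx1] at hx
    calc (Real.log x + 2) * (Real.log x + 2) ≤ 9 * (Real.log x) ^ 2 := by nlinarith only [hlog]
      _ ≤ 9 * (c₃ / 72 * x) := by (clear * - hx; gcongr)
      _ = c₃ * x / 8 := by ring
  have ev3 : ∀ᶠ x : ℝ in Filter.atTop, Real.exp (-x / 4) < 3 / 2 * c₂ := by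
    have h : Filter.Tendsto (fun x : ℝ => Real.exp (-x / 4)) Filter.atTop (nhds 0) := by
      apply Real.tendsto_exp_atBot.comp
      have : (fun x : ℝ => -x / 4) = fun x : ℝ => (-(1 / 4 : ℝ)) * x := by
        funext x; ring
      rw [this]
      exact Filter.tendsto_id.const_mul_atTop_of_neg (by norm_num)
    exact h.eventually_lt_const (by positivity)
  have ev4 : ∀ᶠ x : ℝ in Filter.atTop, 36 * c₂ + 1 ≤ x := Filter.eventually_ge_atTop _
  have ev6 : ∀ᶠ x : ℝ in Filter.atTop, 1000 ≤ x := Filter.eventually_ge_atTop _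
  exact Filter.eventually_atTop.1
    (tendsto_natCast_atTop_atTop.eventually
      (ev1.and (ev2.and (ev3.and (ev4.and ev6)))))

end NumT

theorem exists_stepNumT (c₂ c₃ : ℝ) (hc₂ : 0 < c₂) (hc₃ : 0 < c₃) : ∃ n₁ : ℕ, ∀ n ≥ n₁,
    ∀ t N m : ℕ, 1 ≤ t → (t : ℝ) ≤ Real.log n → N + t = n → 28 * Real.log n / c₃ ≤ m →
      StepNumT N t n m c₂ (Real.exp (-c₃ * N / 2)) (Real.exp (-c₃ * N))
        ((n : ℝ) ^ 5 * (1 / (8 * Real.sqrt t * (n : ℝ) ^ 2)) / 2 - 1)
        (1 / (8 * Real.sqrt t * (n : ℝ) ^ 2)) := by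
  obtain ⟨n₀, hn₀⟩ := NumT.eventually_aux2 c₂ c₃ hc₂ hc₃
  refine ⟨n₀, fun n hn t N m ht htlog hN hm => ?_⟩
  obtain ⟨h1, h2, h3, h4, h6⟩ := hn₀ n hn
  have hx0 : (0 : ℝ) < n := by linarith only [h6]
  have hlog1 : 1 ≤ Real.log (n : ℝ) := by
    rw [Real.le_log_iff_exp_le hx0]
    have := Real.exp_one_lt_d9
    linarith only [h6, this]
  have htr : (1 : ℝ) ≤ t := by exact_mod_cast ht
  have hst1 : 1 ≤ Real.sqrt t := by
    rw [Real.one_le_sqrt]
    exact htr
  have hstt : Real.sqrt t ≤ t := by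
    rw [Real.sqrt_le_left (by linarith only [])]
    nlinarith only [htr]
  have hstn : Real.sqrt t ≤ (n : ℝ) / 1000 := by linarith only [htlog, h1, hstt]
  have hNr : (N : ℝ) = n - t := by
    rw [← hN]
    push_cast
    ring
  have hN2 : (n : ℝ) / 2 ≤ N := by rw [hNr]; linarith only [h1, htlog]
  have hNx : (N : ℝ) ≤ n := by rw [hNr]; linarith only []
  have hn1000 : 1000 ≤ n := by exact_mod_cast h6
  have hN1 : 1 ≤ N := by
    have : (0 : ℝ) < N := by linarith only [htlog, h1, h6, hNr]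
    exact_mod_cast this
  have hm1 : 1 ≤ m := by
    have h7 : 0 < 28 * Real.log n / c₃ := by positivity
    have : (0 : ℝ) < m := lt_of_lt_of_le h7 hm
    exact_mod_cast this
  set u : ℝ := Real.sqrt t with hu
  have hu0 : 0 < u := by linarith only [hst1]
  set ρ : ℝ := 1 / (8 * u * (n : ℝ) ^ 2) with hρ
  have hρ0 : 0 < ρ := by positivity
  have hkey : 62 * (n : ℝ) ^ 2 ≤ (n : ℝ) ^ 5 * ρ / 2 := by
    have e : (n : ℝ) ^ 5 * ρ / 2 = (n : ℝ) ^ 3 / (16 * u) := by
      rw [hρ]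
      field_simp
      norm_num
    rw [e, le_div_iff₀ (by positivity)]
    calc 62 * (n : ℝ) ^ 2 * (16 * u) ≤ 62 * (n : ℝ) ^ 2 * (16 * ((n : ℝ) / 1000)) := by (clear * - hstn hn1000; gcongr)
      _ = (62 * 16 / 1000) * (n : ℝ) ^ 3 := by ring
      _ ≤ 1 * (n : ℝ) ^ 3 := by
        apply mul_le_mul_of_nonneg_right _ (by positivity)
        norm_num
      _ = (n : ℝ) ^ 3 := one_mul _
  have hn2 : (1000 : ℝ) ≤ (n : ℝ) ^ 2 := by nlinarith only [h6]
  have hLbig : 61 * (n : ℝ) ^ 2 ≤ (n : ℝ) ^ 5 * ρ / 2 - 1 := by linarith only [hn2, hkey]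
  obtain ⟨s1, s2, s3, s4⟩ := Num3.sizes_aux h6 hN2 hNx
  have htree := NumT.tree_aux (t := t) hx0 hlog1 rfl htlog hc₃ hN2 h2
  have hBpos : (0 : ℝ) ≤ 2 ^ (t + 1) * ((n : ℝ) ^ t + 1) := by positivity
  refine
    { hNn := hN
      ht := ht
      hn := by omega
      hN := hN1
      hm := hm1
      hρ := hρ0
      hc₂ := hc₂
      hL := by linarith only [hn2, hkey]
      hL1 := ?_
      hL2 := le_refl _
      hlow := NumT.low_aux2 (by linarith only [h6]) (by positivity) hNx rfl (by linarith only [hkey, hn2])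
      hup := Num3.up_aux (by linarith only [h6]) (by positivity) hNx rfl
      hlam1 := s3
      hlam2 := s4
      hp3 := ?_
      hη1 := ?_
      hη0 := (Real.exp_pos _).le
      hηε := ?_
      hMη := ?_
      hunion := NumT.union_aux2 h6 hc₂ hc₃ hN2 rfl hBpos htree hm rfl h3 }
  · -- hL1
    have hy0 : (0 : ℝ) < N := by linarith only [htlog, h1, h6, hNr]
    have e1 : 2 * (n : ℝ) ^ 5 / (N : ℝ) ^ 3 ≤ 16 * (n : ℝ) ^ 2 := by
      rw [div_le_iff₀ (by positivity)]
      have : ((n : ℝ) / 2) ^ 3 ≤ (N : ℝ) ^ 3 := pow_le_pow_left₀ (by positivity) hN2 3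
      calc 2 * (n : ℝ) ^ 5 = 16 * (n : ℝ) ^ 2 * ((n : ℝ) / 2) ^ 3 := by ring
        _ ≤ 16 * (n : ℝ) ^ 2 * (N : ℝ) ^ 3 := by (clear * - this hn1000; gcongr)
    linarith only [e1, hn2, hkey]
  · -- hp3
    have e1 : (n : ℝ) ^ 2 ≤ (n : ℝ) ^ 5 * (ρ / 2) := by
      have : (n : ℝ) ^ 5 * (ρ / 2) = (n : ℝ) ^ 5 * ρ / 2 := by ring
      rw [this]
      linarith only [hn2, hkey]
    have e2 : (n : ℝ) ^ 5 * (ρ / 2) ≤ ((n : ℝ) ^ 5 * (ρ / 2)) ^ N :=
      le_self_pow₀ (by linarith only [hkey, hn2]) (by (clear * - hN1; omega))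
    calc 3 * c₂ * N * 3 = 9 * c₂ * N := by ring
      _ ≤ 9 * c₂ * n := by (clear * - hNx hc₂; gcongr)
      _ < n * n := by
        apply mul_lt_mul_of_pos_right _ hx0
        linarith only [h4]
      _ = (n : ℝ) ^ 2 := by ring
      _ ≤ _ := e1.trans e2
  · -- hη1
    have hB1 : (4 : ℝ) ≤ 2 ^ (t + 1) * ((n : ℝ) ^ t + 1) := by
      have e1 : (2 : ℝ) ≤ 2 ^ (t + 1) := le_self_pow₀ (by norm_num) (by omega)
      have e2 : (1 : ℝ) ≤ (n : ℝ) ^ t := one_le_pow₀ (by linarith only [h6])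
      calc (4 : ℝ) = 2 * (1 + 1) := by norm_num
        _ ≤ 2 ^ (t + 1) * ((n : ℝ) ^ t + 1) := by (clear * - e1 e2; gcongr)
    have e3 : Real.exp (-c₃ * N / 2) = (Real.exp (c₃ * N / 4))⁻¹ * (Real.exp (c₃ * N / 4))⁻¹ := by
      rw [← Real.exp_neg, ← Real.exp_add]
      congr 1
      ring
    rw [e3]
    have e4 : (Real.exp (c₃ * N / 4))⁻¹ ≤ 1 / 4 := by
      rw [inv_le_comm₀ (Real.exp_pos _) (by norm_num)]
      norm_num
      linarith only [htree, hB1]
    have e5 : 0 ≤ (Real.exp (c₃ * N / 4))⁻¹ := by positivity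
    calc (Real.exp (c₃ * N / 4))⁻¹ * (Real.exp (c₃ * N / 4))⁻¹ ≤ 1 / 4 * (1 / 4) :=
          mul_le_mul e4 e4 e5 (by norm_num)
      _ ≤ 1 / 2 := by norm_num
  · -- hηε
    have e1 : (n : ℝ) ^ t * 2 ^ t ≤ 2 ^ (t + 1) * ((n : ℝ) ^ t + 1) := by
      have e2 : (0 : ℝ) ≤ (n : ℝ) ^ t := by positivity
      have e3 : (0 : ℝ) < 2 ^ t := by positivity
      calc (n : ℝ) ^ t * 2 ^ t ≤ ((n : ℝ) ^ t + 1) * (2 ^ t * 2) := by
            apply mul_le_mul _ _ e3.le (by positivity)
            · linarith only []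
            · linarith only [e3]
        _ = 2 ^ (t + 1) * ((n : ℝ) ^ t + 1) := by
            rw [pow_succ]
            ring
    calc (n : ℝ) ^ t * 2 ^ t * Real.exp (-c₃ * N)
        ≤ Real.exp (c₃ * N / 4) * Real.exp (-c₃ * N) := by
          gcongr
          exact e1.trans htree
      _ = Real.exp (c₃ * N / 4 + -c₃ * N) := (Real.exp_add _ _).symm
      _ ≤ Real.exp (-c₃ * N / 2) := by
          apply Real.exp_le_exp.2
          have : 0 ≤ c₃ * N := by positivity
          linarith only [this]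
  · -- hMη
    calc 2 ^ (t + 1) * ((n : ℝ) ^ t + 1) * Real.exp (-c₃ * N / 2)
        ≤ Real.exp (c₃ * N / 4) * Real.exp (-c₃ * N / 2) := by (clear * - htree; gcongr)
      _ = Real.exp (c₃ * N / 4 + -c₃ * N / 2) := (Real.exp_add _ _).symm
      _ ≤ Real.exp 0 := by
          apply Real.exp_le_exp.2
          have : 0 ≤ c₃ * N := by positivity
          linarith only [this]
      _ = 1 := Real.exp_zero

end Vale.Agent.P230
end
end
end

section

section

section

namespace Vale.Agent.P230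

open MeasureTheory
open scoped Pointwise ENNReal

theorem ThetaL_le_of_cov {n : ℕ} (hn : 1 ≤ n) {c D : ℝ} (h : Cov n c D) :
    ThetaL n ≤ ENNReal.ofReal D := by
  unfold ThetaL
  refine iSup_le fun K => iSup_le fun hKk => iSup_le fun hKc => iSup_le fun hKi => ?_
  have hcont : Continuous (WithLp.toLp 2 : (Fin n → ℝ) → EuclideanSpace ℝ (Fin n)) :=
    PiLp.continuous_toLp 2 _
  let e : EuclideanSpace ℝ (Fin n) ≃L[ℝ] (Fin n → ℝ) := EuclideanSpace.equiv (Fin n) ℝ
  have he : (WithLp.toLp 2 : (Fin n → ℝ) → EuclideanSpace ℝ (Fin n)) ⁻¹' K = e '' K := by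
    ext x
    constructor
    · intro hx
      exact ⟨_, hx, rfl⟩
    · rintro ⟨y, hy, rfl⟩
      exact hy
  have h1 : CovFor ((WithLp.toLp 2 : (Fin n → ℝ) → EuclideanSpace ℝ (Fin n)) ⁻¹' K) c D := by
    apply h
    · rw [he]
      exact hKc.linear_image e.toLinearMap
    · rw [he]
      exact hKk.image e.continuous
    · rw [he]
      have h2 := e.toHomeomorph.image_interior K
      have h3 : (e.toHomeomorph '' K) = e '' K := rfl
      rw [← h3, ← h2]
      exact hKi.image _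
  obtain ⟨L, hL1, hL2, hL3, hL4⟩ := covFor_lattice hn h1
  have hpos : 0 < ZLattice.covolume L volume := ZLattice.covolume_pos L volume
  unfold thetaL
  have hcov : K + (L : Set (EuclideanSpace ℝ (Fin n))) = Set.univ := by
    rw [Set.eq_univ_iff_forall]
    intro x
    obtain ⟨l, hl, hx⟩ := hL3 x
    exact Set.mem_add.2 ⟨x - l, hx, l, hl, by abel⟩
  refine (iInf_le_of_le L (iInf_le_of_le hL1 (iInf_le_of_le hL2 (iInf_le_of_le hcov le_rfl)))).trans ?_
  rw [ENNReal.div_le_iff (by simpa only [ne_eq, ENNReal.ofReal_eq_zero, not_le] using hpos) ENNReal.ofReal_ne_top,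
    ← ENNReal.ofReal_mul' hpos.le]
  exact hL4

end Vale.Agent.P230
end
end
end

section

section

section

namespace Vale.Agent.P230

open MeasureTheory Finset
open scoped Pointwise ENNReal

theorem ball_num_a (c t : ℝ) (ht : 8 ≤ t) (m : ℕ) (hm : (m : ℝ) = t) (hc : 0 < c)
    (hlogc : -t ≤ Real.log c) :
    Real.exp (-(2 * t ^ 5)) < c / t * (1 / t ^ 2) ^ m * Real.exp (-(2 * t)) := by
  have ht0 : 0 < t := by linarith only [ht]
  have hlogt : Real.log t ≤ t := by
    have := Real.log_le_sub_one_of_pos ht0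
    linarith only [this]
  have e : c / t * (1 / t ^ 2) ^ m * Real.exp (-(2 * t)) =
      Real.exp (Real.log c - Real.log t - 2 * t * Real.log t - 2 * t) := by
    rw [Real.exp_sub, Real.exp_sub, Real.exp_sub, Real.exp_log hc, Real.exp_log ht0,
      Real.exp_neg]
    have : Real.exp (2 * t * Real.log t) = (t ^ 2) ^ m := by
      rw [show 2 * t * Real.log t = Real.log t * ((2 * m : ℕ) : ℝ) by
          push_cast
          rw [hm]
          ring,
        ← Real.rpow_def_of_pos ht0, Real.rpow_natCast, pow_mul]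
    rw [this, one_div, inv_pow]
    (clear * - ht hc; field_simp)
  rw [e]
  apply Real.exp_lt_exp.2
  have h1 : t * Real.log t ≤ t * t := by (clear * - hlogt ht; gcongr)
  have h2 : t ^ 5 = t * (t * (t * (t * t))) := by ring
  have h3 : 8 * t ≤ t * t := by gcongr
  have h4 : t * (8 * t) ≤ t * (t * t) := by (clear * - h3 ht; gcongr)
  have h5 : t * (t * (8 * t)) ≤ t * (t * (t * t)) := by (clear * - h4 ht; gcongr)
  have h6 : t * (t * (t * (8 * t))) ≤ t * (t * (t * (t * t))) := by (clear * - h5 ht; gcongr)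
  rw [h2]
  linarith only [h6, h5, h4, h3, h1, hlogt, hlogc, ht]

theorem ball_num_b (n t E : ℝ) (ht : 8 ≤ t) (h4 : 64 * t ≤ n) (hE1 : 1 / 2 ≤ E) (hE2 : E ≤ 2) :
    E * ((1 + 1 / n) / (1 - 1 / n)) ^ 2 ≤ 3 ∧ 1 / 2 ≤ E * ((1 + 1 / n) / (1 - 1 / n)) ^ 2 ∧
      Real.exp (E * ((1 + 1 / n) / (1 - 1 / n)) ^ 2 * t / 2) ≤ 3 * Real.exp (E * t / 2) := by
  have hnpos : (0 : ℝ) < n := by linarith only [ht, h4]
  set δ : ℝ := 1 / n with hδ
  have hδ0 : 0 < δ := by positivity
  have hδt : 64 * t * δ ≤ 1 := by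
    rw [hδ, mul_one_div, div_le_one hnpos]
    exact h4
  have hδ2 : 64 * 8 * δ ≤ 1 := le_trans (by (clear * - ht hnpos; gcongr)) hδt
  have hδ1 : δ ≤ 1 / 2 := by (clear * - hδ0 hδ2; linarith only [hδ2, hδ0])
  have h1δ' : (0 : ℝ) < 1 - δ := by linarith only [hδ2]
  have hq : (1 + δ) / (1 - δ) ≤ 1 + 4 * δ := by
    rw [div_le_iff₀ h1δ']
    nlinarith only [ht, hδ0, hδt]
  have hq1 : 1 ≤ (1 + δ) / (1 - δ) := by
    rw [le_div_iff₀ h1δ']
    linarith only [hδ0]
  have hq2 : ((1 + δ) / (1 - δ)) ^ 2 ≤ 1 + 16 * δ := by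
    calc ((1 + δ) / (1 - δ)) ^ 2 ≤ (1 + 4 * δ) ^ 2 := by (clear * - hnpos h1δ' hq; gcongr)
      _ ≤ 1 + 16 * δ := by nlinarith only [ht, hδ0, hδt]
  have hq3 : 1 ≤ ((1 + δ) / (1 - δ)) ^ 2 := one_le_pow₀ hq1
  have hE' : E * ((1 + δ) / (1 - δ)) ^ 2 ≤ E + 32 * δ := by
    calc E * ((1 + δ) / (1 - δ)) ^ 2 ≤ E * (1 + 16 * δ) := by (clear * - hq2 hE1; gcongr)
      _ = E + E * (16 * δ) := by ring
      _ ≤ E + 2 * (16 * δ) := by (clear * - hE2 hnpos; gcongr)
      _ = _ := by ring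
  refine ⟨by linarith only [hE2, hδ2, hE'], ?_, ?_⟩
  · calc (1 : ℝ) / 2 ≤ E * 1 := by linarith only [hE1]
      _ ≤ _ := by (clear * - hq3 hE1; gcongr)
  · calc Real.exp (E * ((1 + δ) / (1 - δ)) ^ 2 * t / 2)
        ≤ Real.exp (1 + E * t / 2) := by
          apply Real.exp_le_exp.2
          have h1 : E * ((1 + δ) / (1 - δ)) ^ 2 * t ≤ (E + 32 * δ) * t := by (clear * - hE' ht; gcongr)
          have h2 : (E + 32 * δ) * t = E * t + 32 * t * δ := by ring
          linarith only [hδt, h1]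
      _ = Real.exp 1 * Real.exp (E * t / 2) := Real.exp_add _ _
      _ ≤ 3 * Real.exp (E * t / 2) := by
          gcongr
          have := Real.exp_one_lt_d9
          linarith only [this]

theorem four_le_exp_two : (4 : ℝ) ≤ Real.exp 2 := by
  have h5 : Real.exp 2 = Real.exp 1 * Real.exp 1 := by
    rw [← Real.exp_add]
    norm_num
  have h6 := Real.exp_one_gt_d9
  rw [h5]
  nlinarith only [h6]

theorem two_pi_le_exp_two : 2 * Real.pi ≤ Real.exp 2 := by
  have h2 := Real.pi_lt_d2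
  have h5 : Real.exp 2 = Real.exp 1 * Real.exp 1 := by
    rw [← Real.exp_add]
    norm_num
  have h6 := Real.exp_one_gt_d9
  rw [h5]
  nlinarith

theorem ball_num_c (c : ℝ) (hc : 0 < c) (t N : ℕ) (ht : 8 ≤ t) (hlogc : -(t : ℝ) ≤ Real.log c)
    (hN63 : 63 * (t : ℝ) ≤ N) (E' : ℝ) (hE' : E' ≤ 3) :
    3 * 4 ^ t * (4 * t / c * (2 * Real.pi) ^ ((t : ℝ) / 2) *
        Real.exp (E' * t / 2)) ^ 2 ≤ 2 ^ N := by
  have ht8 : (8 : ℝ) ≤ t := by exact_mod_cast ht
  have ht0 : (0 : ℝ) < t := by linarith only [ht8]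
  have hlogt : Real.log t ≤ t := by
    have := Real.log_le_sub_one_of_pos ht0
    linarith only [this]
  have hE'3 : E' * t / 2 ≤ 2 * t := by
    have : E' * t ≤ 3 * t := by gcongr
    linarith only [this]
  have hpi : (2 * Real.pi) ^ ((t : ℝ) / 2) ≤ Real.exp t := by
    calc (2 * Real.pi) ^ ((t : ℝ) / 2) ≤ (Real.exp 2) ^ ((t : ℝ) / 2) :=
          Real.rpow_le_rpow (by positivity) two_pi_le_exp_two (by positivity)
      _ = Real.exp t := by
          rw [← Real.exp_mul]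
          congr 1
          ring
  have hc4 : 4 * t / c ≤ Real.exp (2 + 2 * t) := by
    have h1 : 4 * t / c = Real.exp (Real.log 4 + Real.log t - Real.log c) := by
      rw [Real.exp_sub, Real.exp_add, Real.exp_log ht0, Real.exp_log hc,
        Real.exp_log (by norm_num : (0 : ℝ) < 4)]
    rw [h1]
    apply Real.exp_le_exp.2
    have h2 : Real.log 4 ≤ 2 := by
      have : Real.log 4 = 2 * Real.log 2 := by
        rw [show (4 : ℝ) = 2 ^ 2 by norm_num, Real.log_pow]
        push_cast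
        ring
      rw [this]
      have := Real.log_two_lt_d9
      linarith only [this]
    linarith only [hlogc, hlogt, h2]
  have h34 : (3 : ℝ) * 4 ^ t ≤ Real.exp (2 + 2 * t) := by
    have h1 : (3 : ℝ) ≤ Real.exp 2 := by
      have := four_le_exp_two
      linarith only [this]
    have h2 : (4 : ℝ) ^ t ≤ Real.exp (2 * t) := by
      calc (4 : ℝ) ^ t ≤ (Real.exp 2) ^ t := pow_le_pow_left₀ (by norm_num) four_le_exp_two t
        _ = Real.exp (2 * t) := by
          rw [← Real.exp_nat_mul]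
          congr 1
          ring
    rw [Real.exp_add]
    exact mul_le_mul h1 h2 (by positivity) (by positivity)
  have hfin : 3 * 4 ^ t * (4 * t / c * (2 * Real.pi) ^ ((t : ℝ) / 2) *
      Real.exp (E' * t / 2)) ^ 2 ≤ Real.exp (6 + 12 * t) := by
    have hin : 4 * t / c * (2 * Real.pi) ^ ((t : ℝ) / 2) * Real.exp (E' * t / 2) ≤
        Real.exp (2 + 2 * t) * Real.exp t * Real.exp (2 * t) := by
      apply mul_le_mul _ (Real.exp_le_exp.2 hE'3) (by positivity) (by positivity)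
      exact mul_le_mul hc4 hpi (by positivity) (by positivity)
    calc 3 * 4 ^ t * (4 * t / c * (2 * Real.pi) ^ ((t : ℝ) / 2) *
      Real.exp (E' * t / 2)) ^ 2
        ≤ Real.exp (2 + 2 * t) * (Real.exp (2 + 2 * t) * Real.exp t * Real.exp (2 * t)) ^ 2 := by
          apply mul_le_mul h34 _ (by positivity) (by positivity)
          apply pow_le_pow_left₀ (by positivity) hin
      _ = Real.exp (6 + 12 * t) := by
          rw [← Real.exp_add, ← Real.exp_add, sq, ← Real.exp_add, ← Real.exp_add]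
          congr 1
          ring
  refine hfin.trans ?_
  have h2N : (2 : ℝ) ^ N = Real.exp (N * Real.log 2) := by
    rw [mul_comm, ← Real.rpow_def_of_pos (by norm_num), Real.rpow_natCast]
  rw [h2N]
  apply Real.exp_le_exp.2
  have hl2 := Real.log_two_gt_d9
  have : (N : ℝ) * (1 / 2) ≤ N * Real.log 2 := by
    apply mul_le_mul_of_nonneg_left _ (by (clear * -; positivity))
    linarith only [hl2]
  linarith only [this, ht8, hN63]

/-- numeric facts for the ball lemma -/
theorem ball_numeric (c : ℝ) (hc : 0 < c) : ∃ t₀ : ℕ, 1 ≤ t₀ ∧ ∀ t ≥ t₀,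
    Real.exp (-(2 * (t : ℝ) ^ 5)) < c / t * (1 / (t : ℝ) ^ 2) ^ t * Real.exp (-(2 * (t : ℝ))) ∧
    ∀ N n : ℕ, N + t = n → Real.exp ((t : ℝ) ^ 3) ≤ n → ∀ E : ℝ, 1 / 2 ≤ E → E ≤ 2 →
      2 ≤ n ∧ E * ((1 + 1 / (n : ℝ)) / (1 - 1 / (n : ℝ))) ^ 2 ≤ 3 ∧
      1 / 2 ≤ E * ((1 + 1 / (n : ℝ)) / (1 - 1 / (n : ℝ))) ^ 2 ∧
      Real.exp (E * ((1 + 1 / (n : ℝ)) / (1 - 1 / (n : ℝ))) ^ 2 * t / 2) ≤
        3 * Real.exp (E * t / 2) ∧
      3 * 4 ^ t * (4 * t / c * (2 * Real.pi) ^ ((t : ℝ) / 2) *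
        Real.exp (E * ((1 + 1 / (n : ℝ)) / (1 - 1 / (n : ℝ))) ^ 2 * t / 2)) ^ 2 ≤ 2 ^ N := by
  refine ⟨max 8 ⌈|Real.log c|⌉₊, by simp only [le_sup_iff, Nat.one_le_ofNat, Nat.one_le_ceil_iff, abs_pos, ne_eq, Real.log_eq_zero, not_or, true_or], ?_⟩
  intro t ht
  have ht8 : 8 ≤ t := (le_max_left _ _).trans ht
  have htr : (8 : ℝ) ≤ t := by exact_mod_cast ht8
  have hlogc : |Real.log c| ≤ t :=
    (Nat.le_ceil _).trans (by exact_mod_cast (le_max_right _ _).trans ht)
  rw [abs_le] at hlogc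
  refine ⟨ball_num_a c t htr t rfl hc hlogc.1, ?_⟩
  intro N n hNn hexp E hE1 hE2
  have h3 : (t : ℝ) ^ 3 + 1 ≤ n := (Real.add_one_le_exp _).trans hexp
  have ht2 : 64 ≤ (t : ℝ) ^ 2 := by nlinarith only [htr]
  have h4 : 64 * (t : ℝ) ≤ n := by
    have h5 : (t : ℝ) ^ 3 = (t : ℝ) ^ 2 * t := by ring
    have h6 : 64 * (t : ℝ) ≤ (t : ℝ) ^ 2 * t := by gcongr
    linarith only [h3, h6]
  obtain ⟨h7, h8, h9⟩ := ball_num_b n t E htr h4 hE1 hE2
  refine ⟨?_, h7, h8, h9, ?_⟩
  · have : (2 : ℝ) ≤ n := by linarith only [htr, h4]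
    exact_mod_cast this
  · refine ball_num_c c hc t N ht8 hlogc.1 ?_ _ h7
    have hNr : (N : ℝ) = n - t := by
      rw [← hNn]
      push_cast
      ring
    rw [hNr]
    linarith only [h4]

end Vale.Agent.P230
end
end
end

section

section

section

/-!
# From Gaussian kernel averages to slices over a ball
-/

open MeasureTheory Set
open scoped ENNReal

namespace Vale.Agent.P230

/-- TASK V6a: a closed convex set meeting all small balls centred in a ball -/
theorem ball_subset_of_meets {t : ℕ} (S : Set (Fin t → ℝ)) (hc : Convex ℝ S) (hcl : IsClosed S)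
    (R ε : ℝ) (hε : 0 < ε) (hR : ε ≤ R)
    (h : ∀ b : Fin t → ℝ, ∑ i, b i ^ 2 ≤ R ^ 2 → ∃ y ∈ S, ∑ i, (y i - b i) ^ 2 ≤ ε ^ 2)
    (x : Fin t → ℝ) (hx : ∑ i, x i ^ 2 ≤ (R - ε) ^ 2) : x ∈ S := by
  by_contra hxS
  obtain ⟨f, u, hf1, hf2⟩ := geometric_hahn_banach_closed_point hc hcl hxS
  set θ : Fin t → ℝ := fun i => f (Pi.single i 1) with hθ
  have hf : ∀ y : Fin t → ℝ, f y = ∑ i, y i * θ i := by
    intro y
    have hy : y = ∑ i, y i • (Pi.single i (1 : ℝ) : Fin t → ℝ) := by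
      ext j
      rw [Finset.sum_apply, Finset.sum_eq_single j]
      · simp
      · intro i _ hij
        simp [hij.symm]
      · intro h; exact absurd (Finset.mem_univ j) h
    conv_lhs => rw [hy]
    rw [map_sum]
    refine Finset.sum_congr rfl fun i _ => ?_
    rw [map_smul, smul_eq_mul]
  set q := ∑ i, θ i ^ 2 with hq
  have hq0 : 0 ≤ q := Finset.sum_nonneg fun i _ => sq_nonneg _
  have hqpos : 0 < q := by
    rcases hq0.eq_or_lt with h0 | h0
    · exfalso
      have hθ0 : ∀ i, θ i = 0 := by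
        intro i
        have := (Finset.sum_eq_zero_iff_of_nonneg (fun i _ => sq_nonneg (θ i))).1 h0.symm i
          (Finset.mem_univ i)
        exact pow_eq_zero_iff two_ne_zero |>.1 this
      obtain ⟨y, hy, -⟩ := h 0 (by simp only [Pi.zero_apply]; simp only [ne_eq, OfNat.ofNat_ne_zero, not_false_eq_true, zero_pow, Finset.sum_const_zero]; (clear * -; positivity))
      have h1 := hf1 y hy
      rw [hf] at h1 hf2
      simp only [hθ0, mul_zero, Finset.sum_const_zero] at h1 hf2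
      linarith only [h1, hf2]
    · exact h0
  set r := Real.sqrt q with hr
  have hrpos : 0 < r := Real.sqrt_pos.2 hqpos
  have hr2 : r ^ 2 = q := Real.sq_sqrt hq0
  -- the centre
  set b : Fin t → ℝ := fun i => x i + ε / r * θ i with hb
  have hxx0 : 0 ≤ ∑ i, x i ^ 2 := Finset.sum_nonneg fun i _ => sq_nonneg _
  have hxθ : (∑ i, x i * θ i) ≤ (R - ε) * r := by
    have cs : (∑ i, x i * θ i) ^ 2 ≤ ((R - ε) * r) ^ 2 := by
      rw [mul_pow, hr2]
      exact (Finset.sum_mul_sq_le_sq_mul_sq _ _ _).trans (mul_le_mul_of_nonneg_right hx hq0)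
    exact (abs_le_of_sq_le_sq' cs (mul_nonneg (by linarith only [hR]) hrpos.le)).2
  have hbb : ∑ i, b i ^ 2 ≤ R ^ 2 := by
    have e : ∑ i, b i ^ 2 = ∑ i, x i ^ 2 + 2 * (ε / r) * (∑ i, x i * θ i) + (ε / r) ^ 2 * q := by
      rw [hq, Finset.mul_sum, Finset.mul_sum, ← Finset.sum_add_distrib, ← Finset.sum_add_distrib]
      refine Finset.sum_congr rfl fun i _ => ?_
      simp only [hb]; ring
    rw [e]
    have e2 : (ε / r) ^ 2 * q = ε ^ 2 := by
      rw [← hr2]; (clear * - hrpos hε; field_simp)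
    have e3 : 2 * (ε / r) * (∑ i, x i * θ i) ≤ 2 * (ε / r) * ((R - ε) * r) :=
      mul_le_mul_of_nonneg_left hxθ (by (clear * - hε hqpos; (clear * - hε hqpos; positivity)))
    have e4 : 2 * (ε / r) * ((R - ε) * r) = 2 * ε * (R - ε) := by (clear * - hrpos hε; field_simp)
    rw [e2]
    linarith only [e4, e3, hx]
  obtain ⟨y, hy, hyb⟩ := h b hbb
  have h1 := hf1 y hy
  -- lower bound for f y
  have hd : -(ε * r) ≤ ∑ i, (y i - b i) * θ i := by
    have cs : (∑ i, (y i - b i) * θ i) ^ 2 ≤ (ε * r) ^ 2 := by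
      rw [mul_pow, hr2]
      exact (Finset.sum_mul_sq_le_sq_mul_sq _ _ _).trans (mul_le_mul_of_nonneg_right hyb hq0)
    exact (abs_le_of_sq_le_sq' cs (by (clear * - hε hqpos; (clear * - hε hqpos; positivity)))).1
  have e5 : ∑ i, (y i - b i) * θ i = f y - f x - ε / r * q := by
    rw [hf, hf, hq, Finset.mul_sum, ← Finset.sum_sub_distrib, ← Finset.sum_sub_distrib]
    refine Finset.sum_congr rfl fun i _ => ?_
    simp only [hb]; ring
  have e6 : ε / r * q = ε * r := by
    rw [← hr2]; field_simp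
  rw [e5, e6] at hd
  linarith only [hf2, h1, hd]

namespace SliceBall

/-- the Gaussian kernel in the last coordinates -/
noncomputable def ker {t : ℕ} (b b' : Fin t → ℝ) : ℝ :=
  Real.exp (-(∑ i, (b' i - b i) ^ 2) * (t : ℝ) ^ 4 / 2)

theorem continuous_ker {t : ℕ} (b : Fin t → ℝ) : Continuous (ker b) := by
  unfold ker; fun_prop

theorem ker_pos {t : ℕ} (b b' : Fin t → ℝ) : 0 < ker b b' := Real.exp_pos _

variable {N t : ℕ} {K : Set ((Fin N → ℝ) × (Fin t → ℝ))}

/-- Fubini -/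
theorem lint_eq (hk : IsCompact K) (f : (Fin t → ℝ) → ℝ≥0∞) (hf : Measurable f) :
    ∫⁻ q in K, f q.2 = ∫⁻ b', f b' * slc K b' := by
  rw [← lintegral_indicator hk.measurableSet]
  have hm : Measurable (K.indicator fun q : (Fin N → ℝ) × (Fin t → ℝ) => f q.2) :=
    (hf.comp measurable_snd).indicator hk.measurableSet
  rw [Measure.volume_eq_prod, lintegral_prod_symm _ hm.aemeasurable]
  refine lintegral_congr fun b' => ?_
  have hs : MeasurableSet {x : Fin N → ℝ | (x, b') ∈ K} :=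
    (hk.isClosed.preimage (Continuous.prodMk_left b')).measurableSet
  have : ∀ x : Fin N → ℝ, K.indicator (fun q : (Fin N → ℝ) × (Fin t → ℝ) => f q.2) (x, b') =
      {x : Fin N → ℝ | (x, b') ∈ K}.indicator (fun _ => f b') x := by
    intro x
    by_cases h : (x, b') ∈ K
    · rw [indicator_of_mem h, indicator_of_mem (by exact h)]
    · rw [indicator_of_notMem h, indicator_of_notMem (by exact h)]
  simp only [this]
  rw [lintegral_indicator hs, lintegral_const, Measure.restrict_apply_univ]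
  rfl

theorem integral_eq (hk : IsCompact K) (b : Fin t → ℝ) :
    ∫ q in K, ker b q.2 = (∫⁻ b', ENNReal.ofReal (ker b b') * slc K b').toReal := by
  have hc : Continuous (fun q : (Fin N → ℝ) × (Fin t → ℝ) => ker b q.2) :=
    (continuous_ker b).comp continuous_snd
  have h0 : 0 ≤ᵐ[volume.restrict K] (fun q : (Fin N → ℝ) × (Fin t → ℝ) => ker b q.2) :=
    Filter.Eventually.of_forall fun q => (ker_pos b q.2).le
  rw [integral_eq_lintegral_of_nonneg_ae h0 hc.aestronglyMeasurable,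
    lint_eq hk (fun b' => ENNReal.ofReal (ker b b'))
      ((continuous_ker b).measurable.ennreal_ofReal)]

/-- integral of the kernel -/
theorem lint_ker (ht : 1 ≤ t) (b : Fin t → ℝ) :
    ∫⁻ b', ENNReal.ofReal (ker b b') =
      ENNReal.ofReal (Real.sqrt (2 * Real.pi) ^ t * (1 / (t : ℝ) ^ 2) ^ t) := by
  have htR : (0 : ℝ) < t := by exact_mod_cast ht
  have e : ∀ b' : Fin t → ℝ, ker b b' = ∏ i, Real.exp (-((t : ℝ) ^ 4 / 2) * (b' i - b i) ^ 2) := by
    intro b'
    unfold ker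
    rw [← Real.exp_sum]
    congr 1
    rw [← Finset.mul_sum]
    ring
  have hint : Integrable (fun b' : Fin t → ℝ => ker b b') := by
    simp only [e]
    refine Integrable.fintype_prod (f := fun i (y : ℝ) => Real.exp (-((t : ℝ) ^ 4 / 2) * (y - b i) ^ 2))
      fun i => ?_
    exact (integrable_exp_neg_mul_sq (b := (t : ℝ) ^ 4 / 2) (by positivity)).comp_sub_right (b i)
  rw [← ofReal_integral_eq_lintegral_ofReal hint
    (Filter.Eventually.of_forall fun b' => (ker_pos b b').le)]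
  congr 1
  simp only [e]
  rw [integral_fintype_prod_volume_eq_prod
    (f := fun i (y : ℝ) => Real.exp (-((t : ℝ) ^ 4 / 2) * (y - b i) ^ 2))]
  have e2 : ∀ i, ∫ y : ℝ, Real.exp (-((t : ℝ) ^ 4 / 2) * (y - b i) ^ 2) =
      Real.sqrt (2 * Real.pi) * (1 / (t : ℝ) ^ 2) := by
    intro i
    rw [integral_sub_right_eq_self (fun y : ℝ => Real.exp (-((t : ℝ) ^ 4 / 2) * y ^ 2)) (b i),
      integral_gaussian]
    have : Real.pi / ((t : ℝ) ^ 4 / 2) = (2 * Real.pi) * (1 / (t : ℝ) ^ 2) ^ 2 := by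
      field_simp
    rw [this, Real.sqrt_mul (by positivity), Real.sqrt_sq (by positivity)]
  simp only [e2]
  rw [Finset.prod_const, Finset.card_univ, Fintype.card_fin, mul_pow]

/-- some slice near `b` is large -/
theorem exists_slice (ht : 1 ≤ t) (hk : IsCompact K) (b : Fin t → ℝ)
    {A g : ℝ} (hg : 0 ≤ g)
    (hA : A * (volume K).toReal ≤ ∫ q in K, ker b q.2)
    (hlt : g * (Real.sqrt (2 * Real.pi) ^ t * (1 / (t : ℝ) ^ 2) ^ t) +
      Real.exp (-((t : ℝ) ^ 2 / 2)) * (volume K).toReal < A * (volume K).toReal) :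
    ∃ b' : Fin t → ℝ, ENNReal.ofReal g ≤ slc K b' ∧ ∑ i, (b' i - b i) ^ 2 ≤ (1 / (t : ℝ)) ^ 2 := by
  have htR : (0 : ℝ) < t := by exact_mod_cast ht
  by_contra hcon
  push Not at hcon
  have hbd : ∀ b' : Fin t → ℝ, ENNReal.ofReal (ker b b') * slc K b' ≤
      ENNReal.ofReal (ker b b') * ENNReal.ofReal g +
        ENNReal.ofReal (Real.exp (-((t : ℝ) ^ 2 / 2))) * slc K b' := by
    intro b'
    by_cases hs : slc K b' ≤ ENNReal.ofReal g
    · exact le_add_right (mul_le_mul_right hs _)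
    · have h1 := hcon b' (not_le.1 hs).le
      refine le_add_left (mul_le_mul_left (ENNReal.ofReal_le_ofReal ?_) _)
      unfold ker
      rw [Real.exp_le_exp]
      have h2 : (1 / (t : ℝ)) ^ 2 * (t : ℝ) ^ 4 = (t : ℝ) ^ 2 := by (clear * - ht; field_simp)
      have h3 : (0 : ℝ) ≤ (t : ℝ) ^ 4 := by positivity
      have h4 := mul_le_mul_of_nonneg_right h1.le h3
      linarith only [h4, h2]
  have h1 := lintegral_mono (μ := volume) hbd
  have hms : Measurable (fun b' : Fin t → ℝ => slc K b') :=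
    measurable_of_Ici fun c => (slc_closed hk c).measurableSet
  have hmk : Measurable (fun b' : Fin t → ℝ => ENNReal.ofReal (ker b b')) :=
    (continuous_ker b).measurable.ennreal_ofReal
  rw [lintegral_add_left (hmk.mul_const _), lintegral_mul_const _ hmk, lint_ker ht,
    lintegral_const_mul _ hms] at h1
  have hvol : ∫⁻ b', slc K b' = volume K := by
    have := lint_eq hk (fun _ => 1) measurable_const
    simp only [one_mul, lintegral_const, Measure.restrict_apply_univ] at this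
    exact this.symm
  rw [hvol] at h1
  have hKf : volume K ≠ ∞ := hk.measure_lt_top.ne
  have h2 := ENNReal.toReal_mono (by
    rw [ENNReal.add_ne_top]
    exact ⟨ENNReal.mul_ne_top ENNReal.ofReal_ne_top ENNReal.ofReal_ne_top,
      ENNReal.mul_ne_top ENNReal.ofReal_ne_top hKf⟩) h1
  rw [← integral_eq hk, ENNReal.toReal_add
    (ENNReal.mul_ne_top ENNReal.ofReal_ne_top ENNReal.ofReal_ne_top)
    (ENNReal.mul_ne_top ENNReal.ofReal_ne_top hKf), ENNReal.toReal_mul, ENNReal.toReal_mul,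
    ENNReal.toReal_ofReal (by positivity), ENNReal.toReal_ofReal hg,
    ENNReal.toReal_ofReal (Real.exp_pos _).le] at h2
  linarith only [hA, hlt, h2]

theorem convex_level (hc : Convex ℝ K) (hk : IsCompact K) (g : ℝ≥0∞) :
    Convex ℝ {b | g ≤ slc K b} := by
  refine convex_of_closed_midpoint (slc_closed hk g) ?_
  intro x hx y hy
  have h := slc_mul_le hc hk x y
  have e : (fun i => (x i + y i) / 2) = (1 / 2 : ℝ) • (x + y) := by
    ext i; simp only [one_div, Pi.smul_apply, Pi.add_apply, smul_eq_mul]; ring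
  rw [e] at h
  have h2 : g * g ≤ slc K ((1 / 2 : ℝ) • (x + y)) ^ 2 := (mul_le_mul' hx hy).trans h
  rw [← sq] at h2
  by_contra hcon
  have h3 : slc K ((1 / 2 : ℝ) • (x + y)) < g := not_le.1 hcon
  exact absurd (ENNReal.pow_right_strictMono two_ne_zero h3) (not_lt.2 h2)

/-- numbers -/
theorem numbers (c : ℝ) (hc : 0 < c) : ∃ t₀ : ℕ, 32 ≤ t₀ ∧ ∀ t : ℕ, t₀ ≤ t →
    Real.exp (-((t : ℝ) ^ 2 / 2)) < 1 / 2 * (c / t * (1 / (t : ℝ) ^ 2) ^ t * Real.exp (-(4 * t) / 2)) := by
  obtain ⟨m, hm⟩ := exists_nat_ge (|Real.log (c / 2)| + 3)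
  refine ⟨max m 32, le_max_right _ _, fun t ht => ?_⟩
  have ht32 : (32 : ℝ) ≤ t := by exact_mod_cast (le_max_right _ _).trans ht
  have htm : (m : ℝ) ≤ t := by exact_mod_cast (le_max_left _ _).trans ht
  have htR : (0 : ℝ) < t := by linarith only [ht32]
  have e : 1 / 2 * (c / t * (1 / (t : ℝ) ^ 2) ^ t * Real.exp (-(4 * t) / 2)) =
      Real.exp (Real.log (c / 2) - Real.log t - 2 * t * Real.log t - 2 * t) := by
    have e1 : (1 / (t : ℝ) ^ 2) ^ t = Real.exp (-(2 * t * Real.log t)) := by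
      rw [Real.exp_neg, one_div, inv_pow, inv_inj, ← pow_mul]
      rw [show 2 * (t : ℝ) * Real.log t = ((2 * t : ℕ) : ℝ) * Real.log t by push_cast; ring,
        Real.exp_nat_mul, Real.exp_log htR]
    have e2 : Real.exp (Real.log (c / 2) - Real.log t - 2 * t * Real.log t - 2 * t) =
        Real.exp (Real.log (c / 2)) * Real.exp (-Real.log t) * Real.exp (-(2 * t * Real.log t)) *
          Real.exp (-(2 * t)) := by
      rw [← Real.exp_add, ← Real.exp_add, ← Real.exp_add]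
      congr 1
    rw [e1, e2, Real.exp_log (by positivity), Real.exp_neg (Real.log t), Real.exp_log htR]
    have e3 : -(4 * (t : ℝ)) / 2 = -(2 * t) := by ring
    rw [e3]
    ring
  rw [e, Real.exp_lt_exp]
  have hlog : Real.log t ≤ t / 16 + 3 := by
    have h1 : Real.log t = Real.log (t / 16) + Real.log 16 := by
      rw [← Real.log_mul (by positivity) (by norm_num)]
      congr 1; ring
    have h2 := Real.log_le_sub_one_of_pos (show (0 : ℝ) < t / 16 by positivity)
    have h3 : Real.log 16 ≤ 4 := by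
      rw [show (16 : ℝ) = 2 ^ (4 : ℕ) by norm_num, Real.log_pow]
      have := Real.log_two_lt_d9
      push_cast
      linarith only [this]
    linarith only [h1, h2, h3]
  have h1 : -|Real.log (c / 2)| ≤ Real.log (c / 2) := neg_abs_le _
  have h2 : 2 * (t : ℝ) * Real.log t ≤ 2 * t * (t / 16 + 3) :=
    mul_le_mul_of_nonneg_left hlog (by positivity)
  nlinarith only [hm, ht32, htm, h1, h2]

theorem rpow_eq (t : ℕ) : (2 * Real.pi) ^ (-(t : ℝ) / 2) = (Real.sqrt (2 * Real.pi) ^ t)⁻¹ := by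
  have hpi : (0 : ℝ) < 2 * Real.pi := by positivity
  rw [show -(t : ℝ) / 2 = -((1 / 2 : ℝ) * t) by ring, Real.rpow_neg hpi.le, Real.rpow_mul hpi.le,
    Real.rpow_natCast, Real.sqrt_eq_rpow]

end SliceBall

open SliceBall

/-- TASK V6b: from kernel averages to slices over a ball -/
theorem slices_of_kernel (c : ℝ) (hc : 0 < c) : ∃ t₀ : ℕ, ∀ t ≥ t₀, ∀ (N : ℕ)
    (K : Set ((Fin N → ℝ) × (Fin t → ℝ))), Convex ℝ K → IsCompact K → 0 < volume K →
    (∀ b : Fin t → ℝ, ∑ i, b i ^ 2 ≤ 4 * t →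
      c / t * (volume K).toReal * (1 / (t : ℝ) ^ 2) ^ t * Real.exp (-(∑ i, b i ^ 2) / 2) ≤
        ∫ q in K, Real.exp (-(∑ i, (q.2 i - b i) ^ 2) * (t : ℝ) ^ 4 / 2)) →
    ∀ E : ℝ, 1 / 2 ≤ E → E ≤ 3 → ∀ b : Fin t → ℝ, ∑ i, b i ^ 2 ≤ E * t →
      c / (4 * t) * (2 * Real.pi) ^ (-(t : ℝ) / 2) * Real.exp (-(E * t) / 2) *
        (volume K).toReal ≤ (volume {x | (x, b) ∈ K}).toReal := by
  obtain ⟨t₀, ht₀, hnum⟩ := numbers c hc
  refine ⟨t₀, fun t ht N K hcv hk hV hker E hE1 hE2 b hb => ?_⟩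
  have ht1 : 1 ≤ t := by omega
  have ht32 : (32 : ℝ) ≤ t := by exact_mod_cast ht₀.trans ht
  have htR : (0 : ℝ) < t := by linarith only [ht32]
  set V := (volume K).toReal with hVdef
  have hKf : volume K ≠ ∞ := hk.measure_lt_top.ne
  have V0 : 0 < V := ENNReal.toReal_pos hV.ne' hKf
  set G := Real.sqrt (2 * Real.pi) ^ t with hG
  have hGpos : 0 < G := by positivity
  set R := Real.sqrt (E * t) with hR
  have hR2 : R ^ 2 = E * t := Real.sq_sqrt (by (clear * - hE1 ht1; positivity))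
  have hR0 : 0 ≤ R := Real.sqrt_nonneg _
  set R₀ := R + 1 / t with hR₀
  -- size of R
  have hRt : R ≤ 0.31 * t := by
    refine (pow_le_pow_iff_left₀ hR0 (by positivity) two_ne_zero).1 ?_
    rw [hR2]
    nlinarith only [ht32, hE2]
  have hdiff : R₀ ^ 2 ≤ E * t + 0.63 := by
    have e : R₀ ^ 2 = R ^ 2 + 2 * (R / t) + (1 / t) ^ 2 := by
      rw [hR₀]; field_simp; ring
    have h1 : R / t ≤ 0.31 := by
      rw [div_le_iff₀ htR]; exact hRt
    have h2 : (1 / (t : ℝ)) ≤ 1 / 32 := one_div_le_one_div_of_le (by norm_num) ht32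
    have h3 : (0 : ℝ) ≤ 1 / t := by positivity
    have h4 : (1 / (t : ℝ)) ^ 2 ≤ (1 / 32) ^ 2 := pow_le_pow_left₀ h3 h2 2
    rw [e, hR2]
    norm_num at h4 ⊢
    linarith only [h4, h1]
  have hR4 : R₀ ^ 2 ≤ 4 * t := by nlinarith only [ht32, hdiff, hE2]
  -- the level
  set g₀ : ℝ := 1 / 2 * (c / t) * G⁻¹ * Real.exp (-(R₀ ^ 2) / 2) * V with hg₀
  have hg0 : 0 ≤ g₀ := by (clear * - hc ht1 V0; positivity)
  have hball := ball_subset_of_meets {b | ENNReal.ofReal g₀ ≤ slc K b}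
    (convex_level hcv hk _) (slc_closed hk _) R₀ (1 / t) (by positivity) (by linarith only [hR0]) (by
      intro b hb
      have hb4 : ∑ i, b i ^ 2 ≤ 4 * t := hb.trans hR4
      have hkb := hker b hb4
      set β := ∑ i, b i ^ 2 with hβ
      obtain ⟨b', h1, h2⟩ := exists_slice ht1 hk b
        (A := c / t * (1 / (t : ℝ) ^ 2) ^ t * Real.exp (-β / 2)) (g := g₀) hg0 (by
          refine le_trans (le_of_eq ?_) hkb
          ring) (by
          have e1 : g₀ * (G * (1 / (t : ℝ) ^ 2) ^ t) =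
              1 / 2 * (c / t * (1 / (t : ℝ) ^ 2) ^ t * Real.exp (-(R₀ ^ 2) / 2)) * V := by
            rw [hg₀]; (clear * - hGpos ht1 V0 hc; field_simp)
          have e2 : Real.exp (-(R₀ ^ 2) / 2) ≤ Real.exp (-β / 2) := by
            rw [Real.exp_le_exp]; linarith only [hb]
          have e3 : Real.exp (-(4 * t) / 2) ≤ Real.exp (-β / 2) := by
            rw [Real.exp_le_exp]; linarith only [hR4, hb]
          have e4 := hnum t ht
          have e5 : (0 : ℝ) < c / t * (1 / (t : ℝ) ^ 2) ^ t := by positivity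
          have e6 := mul_le_mul_of_nonneg_left e2 e5.le
          have e7 := mul_le_mul_of_nonneg_left e3 e5.le
          have e8 : 1 / 2 * (c / t * (1 / (t : ℝ) ^ 2) ^ t * Real.exp (-(R₀ ^ 2) / 2)) +
              Real.exp (-((t : ℝ) ^ 2 / 2)) < c / t * (1 / (t : ℝ) ^ 2) ^ t * Real.exp (-β / 2) := by
            linarith only [e4, e6, e7]
          have e9 := mul_lt_mul_of_pos_right e8 V0
          rw [add_mul, ← e1] at e9
          exact e9)
      exact ⟨b', h1, h2⟩) b (by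
      rw [hR₀, add_sub_cancel_right, hR2]; exact hb)
  have hfin : slc K b ≠ ∞ := by
    have hcomp : IsCompact {x : Fin N → ℝ | (x, b) ∈ K} := by
      have hcl : IsClosed {x : Fin N → ℝ | (x, b) ∈ K} :=
        hk.isClosed.preimage (Continuous.prodMk_left b)
      refine (hk.image continuous_fst).of_isClosed_subset hcl ?_
      intro x hx
      exact ⟨(x, b), hx, rfl⟩
    exact hcomp.measure_lt_top.ne
  have h1 : g₀ ≤ (slc K b).toReal := (ENNReal.ofReal_le_iff_le_toReal hfin).1 hball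
  refine le_trans ?_ h1
  rw [rpow_eq, hg₀]
  have e1 : 1 / 2 * Real.exp (-(E * t) / 2) ≤ Real.exp (-(R₀ ^ 2) / 2) := by
    have h2 : Real.exp (-(E * t) / 2 - 0.315) ≤ Real.exp (-(R₀ ^ 2) / 2) := by
      rw [Real.exp_le_exp]; linarith only [hdiff]
    rw [sub_eq_add_neg, Real.exp_add] at h2
    have h3 := Real.add_one_le_exp (-0.315 : ℝ)
    have h4 := Real.exp_pos (-(E * t) / 2)
    nlinarith only [h2, h4, h3]
  have e2 : (0 : ℝ) ≤ c / t * G⁻¹ * V := by (clear * - hc ht1 V0; positivity)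
  calc c / (4 * t) * G⁻¹ * Real.exp (-(E * t) / 2) * V
      = 1 / 2 * (c / t * G⁻¹ * V) * (1 / 2 * Real.exp (-(E * t) / 2)) := by
        field_simp; ring
    _ ≤ 1 / 2 * (c / t * G⁻¹ * V) * Real.exp (-(R₀ ^ 2) / 2) :=
        mul_le_mul_of_nonneg_left e1 (by positivity)
    _ = _ := by ring

end Vale.Agent.P230
end
end
end

section

section

/-!
# P230 / LB / ProbBridge : the modules LB07-LB10 from `TL/Prob`, `TL/Pair`, `TL/Levels`
(helper234, helper602)
-/

set_option linter.all false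

namespace Vale.Agent.P230.LB

open Finset

section
variable {T : Type} [Fintype T] [DecidableEq T]

theorem wt_eq_TL (p : T → ℝ) (J : Finset T) : wt p J = _root_.P230.TL.wt p J := by
  unfold wt _root_.P230.TL.wt
  rw [Finset.prod_ite]
  congr 1
  · exact Finset.prod_congr (by ext; simp only [subset_univ, filter_mem_eq_of_subset]) fun _ _ => rfl
  · exact Finset.prod_congr (by ext; simp only [mem_compl, mem_filter, mem_univ, true_and]) fun _ _ => rfl

theorem Pr_eq_TL (p : T → ℝ) (A : Finset T → Prop) : Pr p A = _root_.P230.TL.Pr p A := by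
  unfold Pr _root_.P230.TL.Pr _root_.P230.TL.Ex _root_.P230.TL.ind
  refine Finset.sum_congr rfl fun J _ => ?_
  rw [wt_eq_TL]
  split_ifs <;> simp

theorem isP {p : T → ℝ} (h0 : ∀ τ, 0 ≤ p τ) (h1 : ∀ τ, p τ ≤ 1) : _root_.P230.TL.IsP p :=
  fun τ => ⟨h0 τ, h1 τ⟩

end

theorem wtSum : Stmt.WtSum := by
  intro T _ _ p
  simp only [wt_eq_TL]
  exact _root_.P230.TL.sum_wt p

theorem prEmpty : Stmt.PrEmpty := by
  intro T _ _ p R
  rw [Pr_eq_TL, ← _root_.P230.TL.Pr_none]
  refine _root_.P230.TL.Pr_congr fun S => ?_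
  rw [Finset.disjoint_right]

theorem harris : Stmt.Harris := by
  intro T _ _ p h0 h1 A B hA hB
  simp only [Pr_eq_TL]
  exact _root_.P230.TL.harris (isP h0 h1) (fun _ _ h => hA _ _ h) (fun _ _ h => hB _ _ h)

theorem clustersProb : Stmt.ClustersProb := by
  intro T _ _ p h0 h1 k A S q hA hS hq
  simp only [Pr_eq_TL] at hq ⊢
  have h := _root_.P230.TL.clusters (isP h0 h1) A S hS (fun g J J' hJ => hA g J J' hJ) hq
  refine h.trans ?_
  rcases Nat.eq_zero_or_pos k with rfl | hk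
  · simp
  have hq1 : q ≤ 1 := (hq ⟨0, hk⟩).trans (_root_.P230.TL.Pr_le_one (isP h0 h1) _)
  have h2 : 1 - q ≤ Real.exp (-q) := by linarith only [Real.add_one_le_exp (-q)]
  calc (1 - q) ^ k ≤ Real.exp (-q) ^ k := pow_le_pow_left₀ (by linarith only [hq1]) h2 k
    _ = Real.exp (-(k * q)) := by rw [← Real.exp_nat_mul]; congr 1; ring

/-- a variant of `_root_.P230.TL.cond_abs` with several chosen atoms -/
theorem cond_abs' {T : Type} [Fintype T] [DecidableEq T] {p : T → ℝ}
    (hp : _root_.P230.TL.IsP p) {α : Type} (Z : Finset α) (R R₁ : α → Finset T)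
    (hR : ∀ z ∈ Z, R z ⊆ R₁ z) (I : Finset T) {c : ℝ} (hc0 : 0 < c)
    (h : ∀ t ∈ I, c ≤ _root_.P230.TL.Pr p (fun S => ∀ z ∈ Z, t ∈ R z → ∃ s ∈ R₁ z, s ∈ S))
    (S : Finset T) :
    _root_.P230.TL.Pr p (fun S' => _root_.P230.TL.AllHit Z R (_root_.P230.TL.glue I S S')) ≤
      c⁻¹ ^ (S ∩ I).card * _root_.P230.TL.Pr p (_root_.P230.TL.AllHit Z R₁) := by
  classical
  set F := S ∩ I with hF
  let E1 : Finset T → Prop := fun S' => ∀ z ∈ Z, (∀ t ∈ F, t ∉ R z) → ∃ t ∈ R₁ z, t ∈ S'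
  let E2 : T → Finset T → Prop := fun t S' => ∀ z ∈ Z, t ∈ R z → ∃ s ∈ R₁ z, s ∈ S'
  have hE1 : _root_.P230.TL.Incr E1 :=
    fun _ _ hs hS z hz hzF => (hS z hz hzF).imp fun _ ht => ⟨ht.1, hs ht.2⟩
  have hE2 : ∀ t, _root_.P230.TL.Incr (E2 t) :=
    fun t _ _ hs hS z hz hzF => (hS z hz hzF).imp fun _ ht => ⟨ht.1, hs ht.2⟩
  have s1 : _root_.P230.TL.Pr p
      (fun S' => _root_.P230.TL.AllHit Z R (_root_.P230.TL.glue I S S')) ≤
      _root_.P230.TL.Pr p E1 := by
    refine _root_.P230.TL.Pr_mono hp fun S' hS' z hz hzF => ?_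
    obtain ⟨t, ht, htS⟩ := hS' z hz
    rw [_root_.P230.TL.mem_glue] at htS
    rcases htS with ⟨hI, hS⟩ | ⟨_, hS⟩
    · exact absurd ht (hzF t (by rw [hF]; exact Finset.mem_inter.2 ⟨hS, hI⟩))
    · exact ⟨t, hR z hz ht, hS⟩
  have s2 : _root_.P230.TL.Pr p E1 * c ^ F.card ≤
      _root_.P230.TL.Pr p (_root_.P230.TL.AllHit Z R₁) := by
    have hcard : c ^ F.card ≤ ∏ t ∈ F, _root_.P230.TL.Pr p (E2 t) := by
      rw [← Finset.prod_const]
      refine Finset.prod_le_prod (fun _ _ => hc0.le) fun t ht => h t ?_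
      rw [hF] at ht
      exact (Finset.mem_inter.1 ht).2
    calc _root_.P230.TL.Pr p E1 * c ^ F.card
        ≤ _root_.P230.TL.Pr p E1 * ∏ t ∈ F, _root_.P230.TL.Pr p (E2 t) :=
          mul_le_mul_of_nonneg_left hcard (_root_.P230.TL.Pr_nonneg hp _)
      _ ≤ _root_.P230.TL.Pr p E1 * _root_.P230.TL.Pr p (fun S => ∀ t ∈ F, E2 t S) :=
          mul_le_mul_of_nonneg_left (_root_.P230.TL.harris_prod hp F E2 fun t _ => hE2 t)
            (_root_.P230.TL.Pr_nonneg hp _)
      _ ≤ _root_.P230.TL.Pr p (fun S => E1 S ∧ ∀ t ∈ F, E2 t S) :=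
          _root_.P230.TL.harris hp hE1 (_root_.P230.TL.Incr.all fun t _ => hE2 t)
      _ ≤ _root_.P230.TL.Pr p (_root_.P230.TL.AllHit Z R₁) := by
          refine _root_.P230.TL.Pr_mono hp fun S' hS' z hz => ?_
          by_cases hzF : ∀ t ∈ F, t ∉ R z
          · exact hS'.1 z hz hzF
          · push Not at hzF
            obtain ⟨t, htF, htR⟩ := hzF
            exact hS'.2 t htF z hz htR
  have hcp : 0 < c ^ F.card := pow_pos hc0 _
  rw [inv_pow, inv_mul_eq_div, le_div_iff₀ hcp]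
  exact (mul_le_mul_of_nonneg_right s1 hcp.le).trans s2

theorem pairLemma : Stmt.PairLemma := by
  intro T _ _ p h0 h1 α _ Z Z' R Rp R' Rp' I c hc0 hc1 hR hR' hI h h'
  have hp := isP h0 h1
  have conv : ∀ (J K : Finset T), (J ∩ K).Nonempty ↔ ∃ t ∈ K, t ∈ J := by
    intro J K
    constructor
    · rintro ⟨t, ht⟩
      exact ⟨t, (Finset.mem_inter.1 ht).2, (Finset.mem_inter.1 ht).1⟩
    · rintro ⟨t, h1, h2⟩
      exact ⟨t, Finset.mem_inter.2 ⟨h2, h1⟩⟩
  simp only [conv, Pr_eq_TL] at h h' ⊢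
  set P1 := _root_.P230.TL.Pr p (_root_.P230.TL.AllHit Z Rp) with hP1
  set P2 := _root_.P230.TL.Pr p (_root_.P230.TL.AllHit Z' Rp') with hP2
  have hP10 : 0 ≤ P1 := _root_.P230.TL.Pr_nonneg hp _
  have hP20 : 0 ≤ P2 := _root_.P230.TL.Pr_nonneg hp _
  have hcinv : 1 ≤ c⁻¹ := (one_le_inv₀ hc0).2 hc1
  have key : ∀ S, _root_.P230.TL.Pr p
      (fun S' => _root_.P230.TL.AllHit Z R (_root_.P230.TL.glue I S S') ∧
        _root_.P230.TL.AllHit Z' R' (_root_.P230.TL.glue I S S')) ≤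
      P1 * P2 * (c⁻¹ ^ 2) ^ (S ∩ I).card := by
    intro S
    have hd : Disjoint (Z.biUnion R \ I) (Z'.biUnion R' \ I) := by
      rw [Finset.disjoint_left]
      intro t ht ht'
      rw [Finset.mem_sdiff, Finset.mem_biUnion] at ht ht'
      exact ht.2 (hI t ht.1 ht'.1)
    rw [_root_.P230.TL.Pr_and_of_disjoint hd (_root_.P230.TL.evOn_glue I S Z R)
      (_root_.P230.TL.evOn_glue I S Z' R')]
    have h1 := cond_abs' hp Z R Rp hR I hc0 h S
    have h2 := cond_abs' hp Z' R' Rp' hR' I hc0 h' S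
    calc _ ≤ (c⁻¹ ^ (S ∩ I).card * P1) * (c⁻¹ ^ (S ∩ I).card * P2) :=
          mul_le_mul h1 h2 (_root_.P230.TL.Pr_nonneg hp _) (mul_nonneg (by positivity) hP10)
      _ = _ := by rw [← pow_mul, mul_comm 2, pow_mul]; ring
  refine (_root_.P230.TL.Pr_le_of_resample hp I
    (fun S => _root_.P230.TL.AllHit Z R S ∧ _root_.P230.TL.AllHit Z' R' S) _ key).trans ?_
  rw [_root_.P230.TL.Ex_mul_left]
  have h3 := _root_.P230.TL.Ex_pow_card_le hp I (a := c⁻¹ ^ 2) (one_le_pow₀ hcinv)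
  have hsum : 0 ≤ ∑ t ∈ I, p t := Finset.sum_nonneg fun t _ => (hp t).1
  have h4 : Real.exp ((c⁻¹ ^ 2 - 1) * ∑ t ∈ I, p t) ≤ Real.exp (c⁻¹ ^ 2 * ∑ t ∈ I, p t) := by
    apply Real.exp_le_exp.2
    linarith only [hsum]
  exact mul_le_mul_of_nonneg_left (h3.trans h4) (mul_nonneg hP10 hP20)

theorem clusterProb : Stmt.ClusterProb := by
  intro T _ _ p h0 h1 α Y L A H m1 bad _ hL hH hY hmono hA0 hbad hpair hm1
  classical
  have hp := isP h0 h1
  simp only [Pr_eq_TL] at hA0 hpair ⊢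
  have h := _root_.P230.TL.levels hp Y hY L (by omega) (fun y j => A j y)
    (fun y hy j hj S hS => hmono j hj y hy S hS) (fun y => Y.filter (bad y)) m1 H hbad
    (fun y hy y' hy' hb j hj => by
      have := hpair j hj y hy y' hy' (fun hb' => hb (Finset.mem_filter.2 ⟨hy', hb'⟩))
      rwa [mul_assoc] at this)
    hA0 hm1
  refine le_trans ?_ h
  rw [Real.exp_neg]
  refine inv_anti₀ (by positivity) ?_
  have hx : 0 ≤ 2 * (H / (L : ℝ)) := by positivity
  have e1 : Real.exp (2 * H / L + 2) = Real.exp (1 + 2 * (H / L)) * Real.exp 1 := by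
    rw [← Real.exp_add]; congr 1; ring
  rw [e1]
  have h2 : 2 ≤ Real.exp 1 := by
    have := Real.add_one_le_exp (1 : ℝ)
    linarith only [this]
  have h3 : 1 ≤ Real.exp (1 + 2 * (H / L)) := Real.one_le_exp (by linarith only [hx])
  nlinarith only [h2, h3]

end Vale.Agent.P230.LB
end
end

section

section

/-!
# Side statements for the lower bound: `Θ_T ≥ 1`, comparison with lattice coverings

* `thetaT_ge_one : Stmt.ThetaTGeOne`
* `latLe : Stmt.LatLe`
* `ThetaT_le_ThetaL`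
-/

namespace Vale.Agent.P230.LB

open MeasureTheory Filter
open scoped Pointwise Topology

/-! ### Cubes -/

theorem side_volume_cube (n : ℕ) {R : ℝ} (hR : 0 ≤ R) :
    volume (cube n R) = ENNReal.ofReal ((2 * R) ^ n) := by
  have h1 : cube n R = (@WithLp.ofLp 2 (Fin n → ℝ)) ⁻¹'
      (Set.Icc (fun _ : Fin n => -R) (fun _ : Fin n => R)) := by
    ext x
    simp only [cube, Set.mem_ofPred_eq, Set.mem_preimage, Set.mem_Icc, Pi.le_def, abs_le]
    constructor
    · intro h
      exact ⟨fun i => (h i).1, fun i => (h i).2⟩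
    · intro h i
      exact ⟨h.1 i, h.2 i⟩
  rw [h1, (PiLp.volume_preserving_ofLp (Fin n)).measure_preimage
    measurableSet_Icc.nullMeasurableSet, Real.volume_Icc_pi]
  simp only [sub_neg_eq_add, Finset.prod_const, Finset.card_univ, Fintype.card_fin]
  rw [← two_mul, ENNReal.ofReal_pow (by (clear * - hR; positivity))]

theorem side_cube_subset_ball (n : ℕ) {R : ℝ} (hR : 0 ≤ R) :
    cube n R ⊆ Metric.closedBall (0 : E n) (Real.sqrt n * R) := by
  intro x hx
  rw [mem_closedBall_zero_iff, EuclideanSpace.norm_eq]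
  have h1 : ∑ i : Fin n, ‖x i‖ ^ 2 ≤ (n : ℝ) * R ^ 2 := by
    calc ∑ i : Fin n, ‖x i‖ ^ 2 ≤ ∑ _i : Fin n, R ^ 2 := by
          refine Finset.sum_le_sum fun i _ => ?_
          have h2 : ‖x i‖ ≤ R := by
            rw [Real.norm_eq_abs]
            exact hx i
          exact pow_le_pow_left₀ (norm_nonneg _) h2 2
      _ = (n : ℝ) * R ^ 2 := by simp only [Finset.sum_const, Finset.card_univ, Fintype.card_fin, nsmul_eq_mul]
  calc Real.sqrt (∑ i : Fin n, ‖x i‖ ^ 2) ≤ Real.sqrt ((n : ℝ) * R ^ 2) :=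
        Real.sqrt_le_sqrt h1
    _ = Real.sqrt n * R := by
        rw [Real.sqrt_mul (Nat.cast_nonneg n), Real.sqrt_sq hR]

theorem side_abs_apply_le {n : ℕ} (x : E n) (i : Fin n) : |x i| ≤ ‖x‖ := by
  have h := PiLp.norm_apply_le x i
  rwa [Real.norm_eq_abs] at h

/-- the intersection of a locally finite set with a cube is finite -/
theorem side_finite_inter_cube {n : ℕ} {X : Set (E n)} (hX : LocFin X) {R : ℝ} (hR : 0 ≤ R) :
    (X ∩ cube n R).Finite :=
  (hX (Real.sqrt n * R)).subset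
    (Set.inter_subset_inter_right X (side_cube_subset_ball n hR))

/-! ### The limit of the volume quotients -/

theorem side_tendsto_quot (n : ℕ) (d : ℝ) :
    Tendsto (fun R : ℝ => ENNReal.ofReal ((2 * (R + d)) ^ n) / ENNReal.ofReal ((2 * R) ^ n))
      atTop (𝓝 1) := by
  have h1 : Tendsto (fun R : ℝ => (1 + d * R⁻¹) ^ n) atTop (𝓝 1) := by
    have h2 : Tendsto (fun R : ℝ => (1 + d * R⁻¹) ^ n) atTop (𝓝 ((1 + d * 0) ^ n)) := by
      refine Tendsto.pow ?_ n
      exact tendsto_const_nhds.add (tendsto_const_nhds.mul tendsto_inv_atTop_zero)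
    simpa only [mul_zero, add_zero, one_pow] using h2
  have h3 : Tendsto (fun R : ℝ => ENNReal.ofReal ((1 + d * R⁻¹) ^ n)) atTop
      (𝓝 (ENNReal.ofReal 1)) := ENNReal.tendsto_ofReal h1
  rw [ENNReal.ofReal_one] at h3
  refine h3.congr' ?_
  filter_upwards [eventually_gt_atTop (0 : ℝ)] with R hR
  have h4 : (0 : ℝ) < (2 * R) ^ n := by positivity
  rw [← ENNReal.ofReal_div_of_pos h4]
  congr 1
  rw [← div_pow]
  congr 1
  field_simp

/-! ### Coverings have density at least one -/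

theorem side_cover {n : ℕ} {K X : Set (E n)} {d : ℝ} (hd : 0 ≤ d) (hK : ∀ w ∈ K, ‖w‖ ≤ d)
    (hX : LocFin X) (hcov : K + X = Set.univ) {R : ℝ} (hR : d ≤ R) :
    ENNReal.ofReal ((2 * (R - d)) ^ n) ≤ volume K * ((X ∩ cube n R).encard : ENNReal) := by
  have hR0 : 0 ≤ R := hd.trans hR
  have hfin : (X ∩ cube n R).Finite := side_finite_inter_cube hX hR0
  have hsub : cube n (R - d) ⊆ ⋃ x ∈ hfin.toFinset, (fun w => x + w) '' K := by
    intro y hy
    have hy' : y ∈ K + X := by rw [hcov]; exact Set.mem_univ y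
    obtain ⟨w, hw, x, hx, hwx⟩ := Set.mem_add.mp hy'
    have hxc : x ∈ cube n R := by
      intro i
      have h1 : x i = y i - w i := by
        rw [← hwx]
        simp
      have h2 : |y i| ≤ R - d := hy i
      have h3 : |w i| ≤ d := (side_abs_apply_le w i).trans (hK w hw)
      rw [h1]
      calc |y i - w i| ≤ |y i| + |w i| := abs_sub _ _
        _ ≤ R := by linarith only [h2, h3]
    refine Set.mem_iUnion₂.mpr ⟨x, ?_, w, hw, ?_⟩
    · rw [Set.Finite.mem_toFinset]
      exact ⟨hx, hxc⟩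
    · change x + w = y
      rw [← hwx, add_comm]
  calc ENNReal.ofReal ((2 * (R - d)) ^ n) = volume (cube n (R - d)) :=
        (side_volume_cube n (by linarith only [hR])).symm
    _ ≤ volume (⋃ x ∈ hfin.toFinset, (fun w => x + w) '' K) := measure_mono hsub
    _ ≤ ∑ x ∈ hfin.toFinset, volume ((fun w => x + w) '' K) := measure_biUnion_finset_le _ _
    _ = ∑ _x ∈ hfin.toFinset, volume K := by
        refine Finset.sum_congr rfl fun x _ => ?_
        rw [Set.image_add_left]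
        exact measure_preimage_add volume (-x) K
    _ = volume K * ((X ∩ cube n R).encard : ENNReal) := by
        rw [Finset.sum_const, nsmul_eq_mul, mul_comm, hfin.encard_eq_coe_toFinset_card]
        simp only [ENat.toENNReal_coe]

theorem side_one_le {n : ℕ} {K X : Set (E n)} {d : ℝ} (hd : 0 ≤ d) (hK : ∀ w ∈ K, ‖w‖ ≤ d)
    (hX : LocFin X) (hcov : K + X = Set.univ) : 1 ≤ volume K * upDens X := by
  have hKfin : volume K ≠ ⊤ := by
    refine ne_top_of_le_ne_top ?_ (measure_mono (t := Metric.closedBall (0 : E n) d) ?_)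
    · exact (isCompact_closedBall (0 : E n) d).measure_lt_top.ne
    · intro w hw
      rw [mem_closedBall_zero_iff]
      exact hK w hw
  rw [upDens, ← ENNReal.limsup_const_mul_of_ne_top hKfin]
  have h1 := (side_tendsto_quot n (-d)).limsup_eq
  rw [← h1]
  refine limsup_le_limsup ?_
  filter_upwards [eventually_ge_atTop d] with R hR
  have h2 := side_cover hd hK hX hcov hR
  rw [← mul_div_assoc]
  refine ENNReal.div_le_div_right ?_ _
  rw [← sub_eq_add_neg]
  exact h2

/-- every translative covering has density at least one -/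
theorem thetaT_ge_one : Stmt.ThetaTGeOne := by
  intro n _
  have h1 : (1 : ENNReal) ≤ thetaT (Metric.closedBall (0 : E n) 1) := by
    refine le_iInf fun X => le_iInf fun hX => le_iInf fun hcov => ?_
    refine side_one_le (d := 1) zero_le_one ?_ hX hcov
    intro w hw
    rwa [mem_closedBall_zero_iff] at hw
  refine h1.trans ?_
  unfold ThetaT
  refine le_iSup_of_le (Metric.closedBall (0 : E n) 1) ?_
  refine le_iSup_of_le (convex_closedBall (0 : E n) 1) ?_
  refine le_iSup_of_le (isCompact_closedBall (0 : E n) 1) ?_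
  refine le_iSup_of_le ?_ le_rfl
  exact ⟨0, Metric.ball_subset_interior_closedBall (Metric.mem_ball_self one_pos)⟩

/-! ### Lattices -/

theorem side_locFin_lattice {n : ℕ} (L : Submodule ℤ (E n)) [DiscreteTopology L] :
    LocFin (L : Set (E n)) := by
  intro R
  rw [Set.inter_comm]
  refine Metric.finite_isBounded_inter_isClosed DiscreteTopology.isDiscrete
    Metric.isBounded_closedBall ?_
  rw [← Submodule.coe_toAddSubgroup]
  have : DiscreteTopology L.toAddSubgroup := inferInstanceAs (DiscreteTopology L)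
  exact AddSubgroup.isClosed_of_discrete

theorem side_lattice_count {n : ℕ} (L : Submodule ℤ (E n)) [DiscreteTopology L]
    [IsZLattice ℝ L] : ∃ d : ℝ, 0 ≤ d ∧ ∀ R : ℝ, 0 ≤ R →
      (((L : Set (E n)) ∩ cube n R).encard : ENNReal) *
        ENNReal.ofReal (ZLattice.covolume L volume) ≤ ENNReal.ofReal ((2 * (R + d)) ^ n) := by
  set b := Module.Free.chooseBasis ℤ L with hb
  set F : Set (E n) := ZSpan.fundamentalDomain (b.ofZLatticeBasis ℝ) with hF
  have hFdom : IsAddFundamentalDomain L F (volume : Measure (E n)) :=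
    ZLattice.isAddFundamentalDomain b volume
  have hFbdd : Bornology.IsBounded F := ZSpan.fundamentalDomain_isBounded _
  have hFmeas : MeasurableSet F := ZSpan.fundamentalDomain_measurableSet _
  obtain ⟨d, hd0, hd⟩ : ∃ d : ℝ, 0 < d ∧ ∀ w ∈ F, ‖w‖ ≤ d := hFbdd.exists_pos_norm_le
  refine ⟨d, hd0.le, fun R hR => ?_⟩
  have hcov : ENNReal.ofReal (ZLattice.covolume L volume) = volume F := by
    rw [ZLattice.covolume_eq_measure_fundamentalDomain L volume hFdom, Measure.real,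
      ENNReal.ofReal_toReal]
    exact hFbdd.measure_lt_top.ne
  have hfin : ((L : Set (E n)) ∩ cube n R).Finite :=
    side_finite_inter_cube (side_locFin_lattice L) hR
  rw [hcov]
  have hdisj : ∀ x ∈ hfin.toFinset, ∀ y ∈ hfin.toFinset, x ≠ y →
      Disjoint ((fun w => x + w) '' F) ((fun w => y + w) '' F) := by
    intro x hx y hy hxy
    rw [Set.Finite.mem_toFinset] at hx hy
    rw [Set.disjoint_left]
    rintro z ⟨w, hw, hwz⟩ ⟨v, hv, hvz⟩
    simp only at hwz hvz
    have hspan : Submodule.span ℤ (Set.range (b.ofZLatticeBasis ℝ)) = L :=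
      b.ofZLatticeBasis_span ℝ
    have hnx : -x ∈ Submodule.span ℤ (Set.range (b.ofZLatticeBasis ℝ)) := by
      rw [hspan]
      exact neg_mem hx.1
    have hny : -y ∈ Submodule.span ℤ (Set.range (b.ofZLatticeBasis ℝ)) := by
      rw [hspan]
      exact neg_mem hy.1
    have hx1 : (⟨-x, hnx⟩ : Submodule.span ℤ (Set.range (b.ofZLatticeBasis ℝ))) +ᵥ z ∈ F := by
      have h1 : (⟨-x, hnx⟩ : Submodule.span ℤ (Set.range (b.ofZLatticeBasis ℝ))) +ᵥ z = w := by
        rw [Submodule.vadd_def, vadd_eq_add, ← hwz]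
        exact neg_add_cancel_left x w
      rw [h1]
      exact hw
    have hy1 : (⟨-y, hny⟩ : Submodule.span ℤ (Set.range (b.ofZLatticeBasis ℝ))) +ᵥ z ∈ F := by
      have h1 : (⟨-y, hny⟩ : Submodule.span ℤ (Set.range (b.ofZLatticeBasis ℝ))) +ᵥ z = v := by
        rw [Submodule.vadd_def, vadd_eq_add, ← hvz]
        exact neg_add_cancel_left y v
      rw [h1]
      exact hv
    have huniq := (ZSpan.exist_unique_vadd_mem_fundamentalDomain (b.ofZLatticeBasis ℝ) z).unique
      hx1 hy1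
    have h2 : -x = -y := congrArg Subtype.val huniq
    exact hxy (neg_injective h2)
  calc (((L : Set (E n)) ∩ cube n R).encard : ENNReal) * volume F
      = ∑ x ∈ hfin.toFinset, volume ((fun w => x + w) '' F) := by
        rw [hfin.encard_eq_coe_toFinset_card]
        have h1 : ∀ x ∈ hfin.toFinset, volume ((fun w => x + w) '' F) = volume F := by
          intro x _
          rw [Set.image_add_left]
          exact measure_preimage_add volume (-x) F
        rw [Finset.sum_congr rfl h1, Finset.sum_const, nsmul_eq_mul]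
        simp only [ENat.toENNReal_coe]
    _ = volume (⋃ x ∈ hfin.toFinset, (fun w => x + w) '' F) := by
        rw [measure_biUnion_finset]
        · intro x hx y hy hxy
          exact hdisj x hx y hy hxy
        · intro x _
          rw [Set.image_add_left]
          exact hFmeas.preimage (measurable_const_add (-x))
    _ ≤ volume (cube n (R + d)) := by
        refine measure_mono ?_
        intro z hz
        obtain ⟨x, hx, w, hw, hwz⟩ := Set.mem_iUnion₂.mp hz
        rw [Set.Finite.mem_toFinset] at hx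
        intro i
        have h1 : z i = x i + w i := by
          rw [← hwz]
          simp
        have h2 : |x i| ≤ R := hx.2 i
        have h3 : |w i| ≤ d := (side_abs_apply_le w i).trans (hd w hw)
        rw [h1]
        calc |x i + w i| ≤ |x i| + |w i| := abs_add_le _ _
          _ ≤ R + d := add_le_add h2 h3
    _ = ENNReal.ofReal ((2 * (R + d)) ^ n) := side_volume_cube n (by linarith only [hd0, hR])

theorem side_upDens_lattice {n : ℕ} (L : Submodule ℤ (E n)) [DiscreteTopology L]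
    [IsZLattice ℝ L] :
    upDens (L : Set (E n)) ≤ (ENNReal.ofReal (ZLattice.covolume L volume))⁻¹ := by
  obtain ⟨d, hd0, hd⟩ := side_lattice_count L
  set c : ENNReal := ENNReal.ofReal (ZLattice.covolume L volume) with hc
  have hc0 : c ≠ 0 := by
    rw [hc]
    simpa only [ne_eq, ENNReal.ofReal_eq_zero, not_le] using ZLattice.covolume_pos L volume
  have hct : c ≠ ⊤ := ENNReal.ofReal_ne_top
  have h1 : Tendsto (fun R : ℝ => ENNReal.ofReal ((2 * (R + d)) ^ n) /
      ENNReal.ofReal ((2 * R) ^ n) * c⁻¹) atTop (𝓝 (1 * c⁻¹)) :=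
    ENNReal.Tendsto.mul_const (side_tendsto_quot n d) (Or.inl one_ne_zero)
  rw [one_mul] at h1
  rw [← h1.limsup_eq, upDens]
  refine limsup_le_limsup ?_
  filter_upwards [eventually_ge_atTop (0 : ℝ)] with R hR
  have h2 := hd R hR
  have h3 : (((L : Set (E n)) ∩ cube n R).encard : ENNReal) ≤
      ENNReal.ofReal ((2 * (R + d)) ^ n) * c⁻¹ := by
    rw [← div_eq_mul_inv, ENNReal.le_div_iff_mul_le (Or.inl hc0) (Or.inl hct)]
    exact h2
  calc (((L : Set (E n)) ∩ cube n R).encard : ENNReal) / ENNReal.ofReal ((2 * R) ^ n)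
      ≤ ENNReal.ofReal ((2 * (R + d)) ^ n) * c⁻¹ / ENNReal.ofReal ((2 * R) ^ n) :=
        ENNReal.div_le_div_right h3 _
    _ = ENNReal.ofReal ((2 * (R + d)) ^ n) / ENNReal.ofReal ((2 * R) ^ n) * c⁻¹ := by
        rw [div_eq_mul_inv, div_eq_mul_inv]
        ring

/-- a lattice covering is a translative covering -/
theorem latLe : Stmt.LatLe := by
  intro n _ K
  unfold Vale.Agent.P230.thetaL
  refine le_iInf fun L => le_iInf fun hL => le_iInf fun hZ => le_iInf fun hcov => ?_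
  have h1 : thetaT K ≤ volume K * upDens (L : Set (E n)) := by
    unfold thetaT
    exact iInf_le_of_le (L : Set (E n)) (iInf_le_of_le (side_locFin_lattice L)
      (iInf_le_of_le hcov le_rfl))
  refine h1.trans ?_
  rw [div_eq_mul_inv]
  exact mul_le_mul_right (side_upDens_lattice L) _

end Vale.Agent.P230.LB
end
end

section

section

/-!
# The lower bound `Theta_T(n) ≥ c n log n`: all modules together
-/

namespace Vale.Agent.P230.LB

theorem evLower_main : Stmt.EvLower :=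
  evLower harris prEmpty (facetL0 (twoCut capUpper) (oneCut capLower))

theorem evPair_main : Stmt.EvPair :=
  evPair pairLemma prEmpty (twoCut capUpper) (facetL1 capUpper capLower) numLev

theorem fixedX_main : Stmt.FixedX :=
  fixedX849 clusterProb clustersProb evLower_main evPair_main evDep (suppDisj zeroCut) numLev

theorem lowerT_main : Stmt.LowerT :=
  lowerT
    (existsBody (clusterLemma numCluster) fixedX_main existsAtoms
      (existsNorm capUpper capLowerPow) (expVol prEmpty) wtSum numUnion)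
    (window (windowAvg avgLemma)) netLemma

end Vale.Agent.P230.LB
end
end

section

section

/-!
# Closing file
-/

namespace Vale.Agent.P230.LB

open MeasureTheory
open scoped Pointwise

theorem orders : ∃ c C : ℝ, 0 < c ∧ 0 < C ∧ ∀ n : ℕ, 2 ≤ n →
      ENNReal.ofReal (c * n * Real.log n) ≤ ThetaT n ∧
        ThetaT n ≤ ENNReal.ofReal (C * n * Real.log n) ∧
          ENNReal.ofReal (c * n * Real.log n) ≤ Vale.Agent.P230.ThetaL n :=
  orders_of lowerT_main thetaT_ge_one rogersT latLe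

theorem no_linear : ¬ ∃ C : ℝ, ∀ n : ℕ, 1 ≤ n → ∀ K : Set (E n), Convex ℝ K →
      IsCompact K → (interior K).Nonempty → thetaT K ≤ ENNReal.ofReal (C * n) :=
  no_linear_of (lowerT_all lowerT_main thetaT_ge_one)

end Vale.Agent.P230.LB
end
end

section

section

section

/-! Equidistribution modulo `M` of one column. -/

namespace Vale.Agent.P230

open Finset

namespace Equi

/-- centred indicator -/
noncomputable def gd (M d : ℕ) (x : Fin M) : ℝ := (if (x : ℕ) = d then 1 else 0) - 1 / M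

lemma sum_gd {M d : ℕ} (hd : d < M) : ∑ x : Fin M, gd M d x = 0 := by
  unfold gd
  have hM : (M : ℝ) ≠ 0 := by
    have : 0 < M := by omega
    positivity
  have h : ∑ x : Fin M, (if (x : ℕ) = d then (1 : ℝ) else 0) = 1 := by
    rw [Finset.sum_eq_single (⟨d, hd⟩ : Fin M)]
    · simp
    · intro b _ hb
      rw [if_neg]
      intro h
      exact hb (Fin.ext h)
    · simp only [mem_univ, not_true_eq_false, ↓reduceIte, one_ne_zero, imp_self]
  rw [Finset.sum_sub_distrib, h]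
  simp only [one_div, sum_const, card_univ, Fintype.card_fin, nsmul_eq_mul]
  field_simp
  ring

lemma abs_gd_le {M d : ℕ} (hM : 1 ≤ M) (x : Fin M) : |gd M d x| ≤ 1 := by
  unfold gd
  have h1 : (1 : ℝ) ≤ M := by exact_mod_cast hM
  have h2 : 0 < (1 : ℝ) / M := by positivity
  have h3 : (1 : ℝ) / M ≤ 1 := by
    rw [div_le_one (by linarith only [h1])]
    exact h1
  split_ifs
  · rw [abs_le]
    constructor <;> linarith only [h2, h3]
  · rw [abs_le]
    constructor <;> linarith only [h2, h3]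

lemma orth {M d L : ℕ} (hd : d < M) (j j' : Fin L) (hj : j ≠ j') :
    ∑ v : Fin L → Fin M, gd M d (v j) * gd M d (v j') = 0 := by
  have key := Finset.prod_univ_sum (fun _ : Fin L => (Finset.univ : Finset (Fin M)))
    (fun a x => if a = j ∨ a = j' then gd M d x else 1)
  rw [Fintype.piFinset_univ] at key
  have h1 : ∏ i : Fin L, ∑ x : Fin M, (if i = j ∨ i = j' then gd M d x else 1) = 0 := by
    apply Finset.prod_eq_zero (Finset.mem_univ j)
    simp only [true_or, ↓reduceIte, sum_gd hd]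
  rw [h1] at key
  rw [key]
  apply Finset.sum_congr rfl
  intro v _
  rw [← Finset.mul_prod_erase _ _ (Finset.mem_univ j)]
  rw [← Finset.mul_prod_erase _ _ (Finset.mem_erase.mpr ⟨Ne.symm hj, Finset.mem_univ j'⟩)]
  rw [Finset.prod_eq_one]
  · simp
  · intro a ha
    rw [Finset.mem_erase, Finset.mem_erase] at ha
    rw [if_neg]
    rintro (h | h)
    · exact ha.2.1 h
    · exact ha.1 h

/-- Bessel inequality -/
lemma bessel {I J : Type*} [Fintype I] [Fintype J] [DecidableEq J] (g : J → I → ℝ) (f : I → ℝ)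
    (N : ℝ) (hN : 0 ≤ N) (hg : ∀ j, ∑ i, g j i ^ 2 ≤ N)
    (ho : ∀ j j', j ≠ j' → ∑ i, g j i * g j' i = 0) (hf : ∑ i, f i ^ 2 ≤ N) :
    ∑ j, (∑ i, f i * g j i) ^ 2 ≤ N * N := by
  set a : J → ℝ := fun j => ∑ i, f i * g j i with ha
  set S : ℝ := ∑ j, a j ^ 2 with hS
  have hS0 : 0 ≤ S := Finset.sum_nonneg fun _ _ => sq_nonneg _
  have h1 : S = ∑ i, f i * ∑ j, a j * g j i := by
    rw [hS]
    simp_rw [Finset.mul_sum]
    rw [Finset.sum_comm]
    apply Finset.sum_congr rfl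
    intro j _
    rw [pow_two]
    conv_lhs => rw [ha]
    simp only
    rw [Finset.sum_mul]
    apply Finset.sum_congr rfl
    intro i _
    ring
  have h2 : ∑ i, (∑ j, a j * g j i) ^ 2 = ∑ j, a j ^ 2 * ∑ i, g j i ^ 2 := by
    have : ∀ i, (∑ j, a j * g j i) ^ 2 = ∑ j, ∑ j', (a j * g j i) * (a j' * g j' i) := by
      intro i
      rw [pow_two, Finset.sum_mul_sum]
    simp_rw [this]
    rw [Finset.sum_comm]
    apply Finset.sum_congr rfl
    intro j _
    rw [Finset.sum_comm]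
    rw [Finset.sum_eq_single j]
    · rw [Finset.mul_sum]
      apply Finset.sum_congr rfl
      intro i _
      ring
    · intro j' _ hj'
      have : ∀ i, (a j * g j i) * (a j' * g j' i) = (a j * a j') * (g j i * g j' i) := by
        intro i; ring
      simp_rw [this]
      rw [← Finset.mul_sum, ho j j' (Ne.symm hj'), mul_zero]
    · simp only [mem_univ, not_true_eq_false, IsEmpty.forall_iff]
  have h3 : ∑ i, (∑ j, a j * g j i) ^ 2 ≤ N * S := by
    rw [h2, hS, Finset.mul_sum]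
    apply Finset.sum_le_sum
    intro j _
    rw [mul_comm]
    exact mul_le_mul_of_nonneg_right (hg j) (sq_nonneg _)
  have h4 : S ^ 2 ≤ N * (N * S) := by
    rw [h1]
    refine (Finset.sum_mul_sq_le_sq_mul_sq _ _ _).trans ?_
    rw [← h1]
    have : 0 ≤ ∑ i, (∑ j, a j * g j i) ^ 2 := Finset.sum_nonneg fun _ _ => sq_nonneg _
    exact mul_le_mul hf h3 this hN
  by_contra hcon
  push Not at hcon
  have hpos : 0 < S := lt_of_le_of_lt (mul_nonneg hN hN) hcon
  linarith only [mul_pos (sub_pos.2 hcon) (sub_pos.2 hcon), mul_nonneg (mul_self_nonneg (N : ℝ)) (le_of_lt (sub_pos.2 hcon)), h4]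

end Equi

open Equi

theorem equi (M : ℕ) (hM : 1 ≤ M) (η : ℝ) (hη : 0 < η) : ∃ L : ℕ, 1 ≤ L ∧ ∀ q : ℕ, 1 ≤ q →
    ∀ s : (Fin L → Fin M) × Fin q → ℕ, ∃ j : Fin L, ∀ k : ℕ, k < M →
      |((Finset.univ.filter (fun i : (Fin L → Fin M) × Fin q =>
        (s i + (i.1 j : ℕ)) % M = k)).card : ℝ) / (M ^ L * q) - 1 / M| ≤ η := by
  obtain ⟨L, hL⟩ := exists_nat_ge ((M : ℝ) ^ 4 / η ^ 2 + 1)
  have hM0 : (0 : ℝ) < M := by
    have : 0 < M := by omega
    positivity
  have hL1 : (1 : ℝ) ≤ L := by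
    have : 0 ≤ (M : ℝ) ^ 4 / η ^ 2 := by positivity
    linarith only [this, hL]
  have hL1' : 1 ≤ L := by exact_mod_cast hL1
  have hLη : (M : ℝ) ^ 4 ≤ η ^ 2 * L := by
    have : (M : ℝ) ^ 4 / η ^ 2 ≤ L := by linarith only [hL]
    rw [div_le_iff₀ (by positivity)] at this
    linarith only [this]
  refine ⟨L, hL1', ?_⟩
  intro q hq s
  set N : ℝ := (M : ℝ) ^ L * q with hN
  have hq0 : (0 : ℝ) < q := by
    have : 0 < q := by omega
    positivity
  have hN0 : 0 < N := by positivity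
  have hcard : (Fintype.card ((Fin L → Fin M) × Fin q) : ℝ) = N := by
    simp only [Fintype.card_prod, Fintype.card_pi, Fintype.card_fin, prod_const, card_univ, Nat.cast_mul, Nat.cast_pow, hN]
  -- coefficients
  let a : ℕ → ℕ → Fin L → ℝ := fun c d j =>
    ∑ i : (Fin L → Fin M) × Fin q, (if s i % M = c then (1 : ℝ) else 0) * gd M d (i.1 j)
  have hB : ∀ c d, d < M → ∑ j, (a c d j) ^ 2 ≤ N * N := by
    intro c d hd
    apply bessel (I := (Fin L → Fin M) × Fin q) (fun j i => gd M d (i.1 j))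
      (fun i => if s i % M = c then (1 : ℝ) else 0) N hN0.le
    · intro j
      calc ∑ i : (Fin L → Fin M) × Fin q, gd M d (i.1 j) ^ 2
          ≤ ∑ i : (Fin L → Fin M) × Fin q, (1 : ℝ) := by
            apply Finset.sum_le_sum
            intro i _
            rw [sq_le_one_iff_abs_le_one]
            exact abs_gd_le hM _
        _ = N := by
          rw [Finset.sum_const, Finset.card_univ, nsmul_eq_mul, mul_one, hcard]
    · intro j j' hj
      rw [Fintype.sum_prod_type]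
      simp only
      simp_rw [Finset.sum_const]
      rw [← Finset.smul_sum, orth hd j j' hj, smul_zero]
    · calc ∑ i : (Fin L → Fin M) × Fin q, (if s i % M = c then (1 : ℝ) else 0) ^ 2
          ≤ ∑ i : (Fin L → Fin M) × Fin q, (1 : ℝ) := by
            apply Finset.sum_le_sum
            intro i _
            split_ifs <;> norm_num
        _ = N := by
          rw [Finset.sum_const, Finset.card_univ, nsmul_eq_mul, mul_one, hcard]
  -- total
  have hT : ∑ j : Fin L, ∑ c ∈ Finset.range M, ∑ d ∈ Finset.range M, (a c d j) ^ 2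
      ≤ ∑ j : Fin L, ((M : ℝ) * M * (N * N) / L) := by
    rw [Finset.sum_comm]
    have e1 : ∀ c ∈ Finset.range M, ∑ j : Fin L, ∑ d ∈ Finset.range M, (a c d j) ^ 2
        ≤ M * (N * N) := by
      intro c _
      rw [Finset.sum_comm]
      calc ∑ d ∈ Finset.range M, ∑ j : Fin L, (a c d j) ^ 2
          ≤ ∑ d ∈ Finset.range M, N * N := by
            apply Finset.sum_le_sum
            intro d hd
            exact hB c d (Finset.mem_range.mp hd)
        _ = M * (N * N) := by simp only [sum_const, card_range, nsmul_eq_mul]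
    calc ∑ c ∈ Finset.range M, ∑ j : Fin L, ∑ d ∈ Finset.range M, (a c d j) ^ 2
        ≤ ∑ c ∈ Finset.range M, (M : ℝ) * (N * N) := Finset.sum_le_sum e1
      _ = ∑ j : Fin L, ((M : ℝ) * M * (N * N) / L) := by
        rw [Finset.sum_const, Finset.sum_const, Finset.card_range, Finset.card_univ,
          Fintype.card_fin, nsmul_eq_mul, nsmul_eq_mul]
        field_simp
  have hne : (Finset.univ : Finset (Fin L)).Nonempty := ⟨⟨0, by omega⟩, Finset.mem_univ _⟩
  obtain ⟨j, _, hj⟩ := Finset.exists_le_of_sum_le hne hT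
  refine ⟨j, ?_⟩
  intro k hk
  have hacd : ∀ c < M, ∀ d < M, |a c d j| ≤ η * N / M := by
    intro c hc d hd
    have h1 : (a c d j) ^ 2 ≤ (M : ℝ) * M * (N * N) / L := by
      refine le_trans ?_ hj
      refine le_trans ?_ (Finset.single_le_sum
        (f := fun c => ∑ d ∈ Finset.range M, (a c d j) ^ 2)
        (fun _ _ => Finset.sum_nonneg fun _ _ => sq_nonneg _) (Finset.mem_range.mpr hc))
      exact Finset.single_le_sum (f := fun d => (a c d j) ^ 2)
        (fun _ _ => sq_nonneg _) (Finset.mem_range.mpr hd)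
    apply abs_le_of_sq_le_sq _ (by positivity)
    refine h1.trans ?_
    rw [div_pow, div_le_div_iff₀ (by positivity) (by positivity)]
    have e : (M : ℝ) * M * (N * N) * (M : ℝ) ^ 2 = (M : ℝ) ^ 4 * N ^ 2 := by ring
    rw [e]
    calc (M : ℝ) ^ 4 * N ^ 2 ≤ (η ^ 2 * L) * N ^ 2 :=
          mul_le_mul_of_nonneg_right hLη (sq_nonneg N)
      _ = (η * N) ^ 2 * L := by ring
  -- deviation
  have hdev : ((Finset.univ.filter (fun i : (Fin L → Fin M) × Fin q =>
        (s i + (i.1 j : ℕ)) % M = k)).card : ℝ) - N / M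
      = ∑ c ∈ Finset.range M, a c ((k + M - c) % M) j := by
    have e0 : ((Finset.univ.filter (fun i : (Fin L → Fin M) × Fin q =>
        (s i + (i.1 j : ℕ)) % M = k)).card : ℝ) - N / M
        = ∑ i : (Fin L → Fin M) × Fin q,
          ((if (s i + (i.1 j : ℕ)) % M = k then (1 : ℝ) else 0) - 1 / M) := by
      rw [Finset.sum_sub_distrib, Finset.sum_const, Finset.card_univ, nsmul_eq_mul, hcard,
        Finset.sum_boole]
      ring
    rw [e0]
    simp only [a]
    rw [Finset.sum_comm]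
    apply Finset.sum_congr rfl
    intro i _
    rw [Finset.sum_eq_single (s i % M)]
    · rw [if_pos rfl, one_mul, gd]
      congr 1
      have hiff : (s i + (i.1 j : ℕ)) % M = k ↔ (i.1 j : ℕ) = (k + M - s i % M) % M := by
        have hv : (i.1 j : ℕ) < M := (i.1 j).isLt
        have hs : s i % M < M := Nat.mod_lt _ (by omega)
        have e1 : (s i + (i.1 j : ℕ)) % M = (s i % M + (i.1 j : ℕ)) % M := by
          rw [Nat.mod_add_mod]
        rw [e1]
        generalize s i % M = c at hs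
        generalize (i.1 j : ℕ) = v at hv
        rcases lt_or_ge (c + v) M with h | h
        · rw [Nat.mod_eq_of_lt h]
          rcases lt_or_ge k c with h' | h'
          · rw [Nat.mod_eq_of_lt (by omega)]
            omega
          · have : k + M - c = (k - c) + M := by (clear * - hk hs h'; omega)
            rw [this, Nat.add_mod_right, Nat.mod_eq_of_lt (by (clear * - hk h' this; omega))]
            (clear * - h'; omega)
        · have h1 : (c + v) % M = c + v - M := by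
            rw [Nat.mod_eq_sub_mod h, Nat.mod_eq_of_lt (by (clear * - hs hv h; omega))]
          rw [h1]
          rcases lt_or_ge k c with h' | h'
          · rw [Nat.mod_eq_of_lt (by omega)]
            (clear * - hs h; omega)
          · have : k + M - c = (k - c) + M := by (clear * - hM hv h'; omega)
            rw [this, Nat.add_mod_right, Nat.mod_eq_of_lt (by (clear * - hk hv h h' this; omega))]
            omega
      simp only [hiff]
    · intro c _ hc
      rw [if_neg (Ne.symm hc), zero_mul]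
    · intro h
      exact absurd (Finset.mem_range.mpr (Nat.mod_lt _ (by omega))) h
  have hfin : |((Finset.univ.filter (fun i : (Fin L → Fin M) × Fin q =>
        (s i + (i.1 j : ℕ)) % M = k)).card : ℝ) - N / M| ≤ η * N := by
    rw [hdev]
    calc |∑ c ∈ Finset.range M, a c ((k + M - c) % M) j|
        ≤ ∑ c ∈ Finset.range M, |a c ((k + M - c) % M) j| := Finset.abs_sum_le_sum_abs _ _
      _ ≤ ∑ c ∈ Finset.range M, η * N / M := by
        apply Finset.sum_le_sum
        intro c hc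
        exact hacd c (Finset.mem_range.mp hc) _ (Nat.mod_lt _ (by omega))
      _ = η * N := by
        rw [Finset.sum_const, Finset.card_range, nsmul_eq_mul]
        (clear * - hM hN0 hη; field_simp)
  have e5 : ((Finset.univ.filter (fun i : (Fin L → Fin M) × Fin q =>
        (s i + (i.1 j : ℕ)) % M = k)).card : ℝ) / N - 1 / M
      = (((Finset.univ.filter (fun i : (Fin L → Fin M) × Fin q =>
        (s i + (i.1 j : ℕ)) % M = k)).card : ℝ) - N / M) / N := by
    field_simp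
  rw [e5, abs_div, abs_of_pos hN0, div_le_iff₀ hN0]
  exact hfin

end Vale.Agent.P230
end
end
end

section

section

section

/-!
# A thin shell of large mass
-/

open MeasureTheory Set
open scoped ENNReal

namespace Vale.Agent.P230

namespace Scale

open Mom

/-- `K` cut to a shell -/
def sh {n : ℕ} (K : Set (Fin n → ℝ)) (a b : ℝ) : Set (Fin n → ℝ) :=
  {x ∈ K | a ≤ sqn x ∧ sqn x ≤ b}

theorem isCompact_sh {n : ℕ} {K : Set (Fin n → ℝ)} (hk : IsCompact K) (a b : ℝ) :
    IsCompact (sh K a b) := by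
  have : sh K a b = K ∩ ({x | a ≤ sqn x} ∩ {x | sqn x ≤ b}) := rfl
  rw [this]
  exact hk.inter_right ((isClosed_le continuous_const continuous_sqn).inter
    (isClosed_le continuous_sqn continuous_const))

/-- Markov: the mass far away -/
theorem markov {n : ℕ} (hn : 1 ≤ n) {K : Set (Fin n → ℝ)} (hk : IsCompact K)
    (h : ∫ x in K, sqn x ≤ n * (volume K).toReal) (c : ℝ) :
    c * (volume {x ∈ K | c * n ≤ sqn x}).toReal ≤ (volume K).toReal := by
  set S : Set (Fin n → ℝ) := {x ∈ K | c * n ≤ sqn x} with hS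
  have cS : IsCompact S := by
    have : S = K ∩ {x | c * n ≤ sqn x} := rfl
    rw [this]
    exact hk.inter_right (isClosed_le continuous_const continuous_sqn)
  have intq : IntegrableOn (fun x : Fin n → ℝ => sqn x) K :=
    (continuous_sqn.continuousOn).integrableOn_compact hk
  have h2 : ∫ x in S, sqn x ≤ ∫ x in K, sqn x :=
    setIntegral_mono_set intq (Filter.Eventually.of_forall fun x => sqn_nonneg x)
      (Filter.Eventually.of_forall fun x hx => hx.1)
  have h3 : ∫ _x in S, (c * n : ℝ) ≤ ∫ x in S, sqn x := by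
    refine setIntegral_mono_on ?_ (intq.mono_set fun x hx => hx.1) cS.measurableSet ?_
    · exact integrableOn_const cS.measure_lt_top.ne
    · intro x hx
      exact hx.2
  rw [setIntegral_const, smul_eq_mul] at h3
  have hnR : (0 : ℝ) < n := by exact_mod_cast hn
  have h4 : (n : ℝ) * (c * (volume S).toReal) ≤ n * (volume K).toReal := by
    have := h3.trans (h2.trans h)
    have e : (n : ℝ) * (c * (volume S).toReal) = volume.real S * (c * n) := by
      rw [Measure.real]; ring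
    rw [e]; exact this
  exact le_of_mul_le_mul_left h4 hnR

/-- Paley-Zygmund type lower bound -/
theorem mass_ge {n : ℕ} (hn : 1 ≤ n) {K : Set (Fin n → ℝ)} (hk : IsCompact K) {C : ℝ} (hC : 0 < C)
    (h : ∫ x in K, sqn x = n * (volume K).toReal)
    (h4 : ∫ x in K, sqn x ^ 2 ≤ C * n ^ 2 * (volume K).toReal) :
    (15 / 16) ^ 2 * (volume K).toReal ≤
      C * (volume {x ∈ K | 1 / 16 * n ≤ sqn x}).toReal := by
  set V := (volume K).toReal with hV
  have V0 : 0 ≤ V := ENNReal.toReal_nonneg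
  set S : Set (Fin n → ℝ) := {x ∈ K | 1 / 16 * n ≤ sqn x} with hS
  have hnR : (0 : ℝ) < n := by exact_mod_cast hn
  have cS : IsCompact S := by
    have : S = K ∩ {x | 1 / 16 * (n : ℝ) ≤ sqn x} := rfl
    rw [this]
    exact hk.inter_right (isClosed_le continuous_const continuous_sqn)
  have hSK : S ⊆ K := fun x hx => hx.1
  have intq : IntegrableOn (fun x : Fin n → ℝ => sqn x) K :=
    (continuous_sqn.continuousOn).integrableOn_compact hk
  have intq2 : IntegrableOn (fun x : Fin n → ℝ => sqn x ^ 2) K :=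
    ((continuous_sqn.pow 2).continuousOn).integrableOn_compact hk
  -- lower bound for the integral over S
  have h1 : 15 / 16 * (n * V) ≤ ∫ x in S, sqn x := by
    have hsplit := integral_inter_add_sdiff (μ := volume) (f := fun x : Fin n → ℝ => sqn x)
      (s := K) cS.measurableSet intq
    have hi : K ∩ S = S := inter_eq_right.2 hSK
    rw [hi] at hsplit
    have h2 : ∫ x in K \ S, sqn x ≤ 1 / 16 * n * V := by
      have h3 : ∫ x in K \ S, sqn x ≤ ∫ _x in K \ S, (1 / 16 * n : ℝ) := by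
        refine setIntegral_mono_on (intq.mono_set sdiff_subset) ?_
          (hk.measurableSet.diff cS.measurableSet) ?_
        · exact integrableOn_const
            (ne_top_of_le_ne_top hk.measure_lt_top.ne (measure_mono sdiff_subset))
        · intro x hx
          by_contra hcon
          exact hx.2 ⟨hx.1, (not_le.1 hcon).le⟩
      rw [setIntegral_const, smul_eq_mul] at h3
      refine h3.trans ?_
      have h5 : volume.real (K \ S) ≤ V :=
        ENNReal.toReal_mono hk.measure_lt_top.ne (measure_mono sdiff_subset)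
      nlinarith only [h5]
    linarith only [h, hsplit, h2]
  -- Cauchy-Schwarz on S, in the form of a nonnegative square
  have h2 : ∫ x in S, sqn x ^ 2 ≤ C * n ^ 2 * V :=
    (setIntegral_mono_set intq2 (Filter.Eventually.of_forall fun x => sq_nonneg _)
      (Filter.Eventually.of_forall hSK)).trans h4
  set W := (volume S).toReal with hW
  have W0 : 0 ≤ W := ENNReal.toReal_nonneg
  have sq : ∀ l : ℝ, 0 ≤ (∫ x in S, sqn x ^ 2) - 2 * l * (∫ x in S, sqn x) + l ^ 2 * W := by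
    intro l
    have e : (∫ x in S, (sqn x - l) ^ 2) =
        (∫ x in S, sqn x ^ 2) - 2 * l * (∫ x in S, sqn x) + l ^ 2 * W := by
      have e1 : ∀ x : Fin n → ℝ, (sqn x - l) ^ 2 = (sqn x ^ 2 - 2 * l * sqn x) + l ^ 2 := by
        intro x; ring
      simp only [e1]
      have i1 : Integrable (fun x : Fin n → ℝ => sqn x ^ 2) (volume.restrict S) :=
        intq2.mono_set hSK
      have i2 : Integrable (fun x : Fin n → ℝ => 2 * l * sqn x) (volume.restrict S) :=
        (intq.mono_set hSK).const_mul (2 * l)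
      have i3 : Integrable (fun _ : Fin n → ℝ => l ^ 2) (volume.restrict S) :=
        integrableOn_const cS.measure_lt_top.ne
      have i4 : Integrable (fun x : Fin n → ℝ => sqn x ^ 2 - 2 * l * sqn x) (volume.restrict S) :=
        i1.sub i2
      rw [integral_add i4 i3, integral_sub i1 i2, integral_const_mul, setIntegral_const,
        smul_eq_mul, mul_comm (volume.real S)]
      rfl
    rw [← e]
    exact integral_nonneg fun x => sq_nonneg _
  -- choose l = 16/15 * C * n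
  have h5 := sq (16 / 15 * C * n)
  have h6 : 15 / 16 * (n * V) * (2 * (16 / 15 * C * n)) ≤
      (∫ x in S, sqn x) * (2 * (16 / 15 * C * n)) :=
    mul_le_mul_of_nonneg_right h1 (by positivity)
  have h7 : 0 ≤ C * n ^ 2 * V - 2 * C * n ^ 2 * V + (16 / 15) ^ 2 * C ^ 2 * n ^ 2 * W := by
    linarith
  have h8 : 0 ≤ (C * n ^ 2) * ((16 / 15) ^ 2 * (C * W) - V) := by linarith only [h7]
  have h9 : 0 ≤ (16 / 15) ^ 2 * (C * W) - V := by
    by_contra hneg
    have : (C * n ^ 2) * ((16 / 15) ^ 2 * (C * W) - V) < 0 :=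
      mul_neg_of_pos_of_neg (by positivity) (not_le.1 hneg)
    linarith only [h2, h5, h6, this]
  linarith only [h9]

theorem pow_grow {t : ℕ} (ht : 1 ≤ t) (j : ℕ) : (2 : ℝ) ^ j ≤ (1 + 1 / t) ^ (t * j) := by
  have htR : (0 : ℝ) < t := by exact_mod_cast ht
  rw [pow_mul]
  refine pow_le_pow_left₀ (by norm_num) ?_ j
  have h := one_add_mul_le_pow (a := 1 / (t : ℝ)) (by
    have : (0 : ℝ) ≤ 1 / t := by positivity
    linarith only [this]) t
  have e : (1 : ℝ) + t * (1 / t) = 2 := by field_simp; norm_num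
  rw [e] at h
  exact h

theorem pow_small {t : ℕ} (ht : 1 ≤ t) (j : ℕ) : (1 + 1 / t : ℝ) ^ (t * j) ≤ Real.exp j := by
  have htR : (0 : ℝ) < t := by exact_mod_cast ht
  have h : (1 + 1 / t : ℝ) ≤ Real.exp (1 / t) := by
    have := Real.add_one_le_exp (1 / (t : ℝ))
    linarith only [this]
  calc (1 + 1 / t : ℝ) ^ (t * j) ≤ Real.exp (1 / t) ^ (t * j) := pow_le_pow_left₀ (by positivity) h _
    _ = Real.exp j := by
      rw [← Real.exp_nat_mul]
      congr 1
      push_cast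
      (clear * - ht; field_simp)

/-- covering of an interval by short ones -/
theorem cover (u q : ℝ) (f : ℕ → ℝ) (h0 : f 0 * u ≤ q) (m : ℕ) (h1 : q ≤ f (m + 1) * u) :
    ∃ k ≤ m, f k * u ≤ q ∧ q ≤ f (k + 1) * u := by
  induction m with
  | zero => exact ⟨0, le_rfl, h0, h1⟩
  | succ m ih =>
    by_cases h : q ≤ f (m + 1) * u
    · obtain ⟨k, hk, h2⟩ := ih h
      exact ⟨k, by omega, h2⟩
    · exact ⟨m + 1, le_rfl, (not_le.1 h).le, h1⟩

end Scale

open Mom Scale

/-- TASK V3: a thin shell of large mass -/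
theorem scale_select : ∃ c C : ℝ, 0 < c ∧ 1 ≤ C ∧ ∀ (n t : ℕ) (_ : 1 ≤ n) (_ : 1 ≤ t)
    (K : Set (Fin n → ℝ)), Convex ℝ K → IsCompact K →
    (∀ i, ∫ x in K, x i ^ 2 = (volume K).toReal) →
    ∃ s : ℝ, c ≤ s ∧ s ≤ C ∧ c / t * (volume K).toReal ≤
      (volume {x ∈ K | s * n ≤ ∑ i, x i ^ 2 ∧ ∑ i, x i ^ 2 ≤ s * (1 + 1 / t) * n}).toReal := by
  obtain ⟨C₀, hC₀, hmom⟩ := fourth_moment
  obtain ⟨j₀, hj₀⟩ := pow_unbounded_of_one_lt (64 * C₀) (y := (2 : ℝ)) (by norm_num)
  set j := j₀ + 1 with hj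
  have hjpos : 1 ≤ j := by omega
  have h2j : 64 * C₀ ≤ (2 : ℝ) ^ j := by
    have : (2 : ℝ) ^ j₀ ≤ 2 ^ j := pow_le_pow_right₀ (by norm_num) (by omega)
    linarith only [hj₀, this]
  have hjR : (0 : ℝ) < j := by exact_mod_cast hjpos
  refine ⟨min (1 / (2 * C₀ * j)) (1 / 16), Real.exp j, by positivity,
    Real.one_le_exp (by positivity), ?_⟩
  intro n t hn ht K hc hk hK
  have hnR : (0 : ℝ) < n := by exact_mod_cast hn
  have htR : (0 : ℝ) < t := by exact_mod_cast ht
  set V := (volume K).toReal with hV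
  have V0 : 0 ≤ V := ENNReal.toReal_nonneg
  have int1 : ∀ i, IntegrableOn (fun x : Fin n → ℝ => x i ^ 2) K := fun i =>
    (Continuous.continuousOn (by fun_prop)).integrableOn_compact hk
  have sec : ∫ x in K, sqn x = n * V := by
    unfold sqn
    rw [integral_finsetSum _ fun i _ => int1 i, Finset.sum_congr rfl fun i _ => hK i]
    simp only [Finset.sum_const, Finset.card_univ, Fintype.card_fin, nsmul_eq_mul]
  have four : ∫ x in K, sqn x ^ 2 ≤ C₀ * n ^ 2 * V := hmom n hn K hc hk fun i => (hK i).le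
  have lo := mass_ge hn hk hC₀ sec four
  have hi := markov hn hk sec.le (4 * C₀)
  set a := (volume {x ∈ K | 1 / 16 * n ≤ sqn x}).toReal with ha
  set b := (volume {x ∈ K | 4 * C₀ * n ≤ sqn x}).toReal with hb
  have cA : IsCompact {x ∈ K | 1 / 16 * (n : ℝ) ≤ sqn x} :=
    hk.inter_right (isClosed_le continuous_const continuous_sqn)
  have cB : IsCompact {x ∈ K | 4 * C₀ * (n : ℝ) ≤ sqn x} :=
    hk.inter_right (isClosed_le continuous_const continuous_sqn)
  have mid : V / (2 * C₀) ≤ (volume (sh K (1 / 16 * n) (4 * C₀ * n))).toReal := by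
    have hsub : {x ∈ K | 1 / 16 * (n : ℝ) ≤ sqn x} ⊆
        sh K (1 / 16 * n) (4 * C₀ * n) ∪ {x ∈ K | 4 * C₀ * (n : ℝ) ≤ sqn x} := by
      rintro x ⟨hx, hx2⟩
      rcases le_total (sqn x) (4 * C₀ * n) with h | h
      · exact Or.inl ⟨hx, hx2, h⟩
      · exact Or.inr ⟨hx, h⟩
    have cM := isCompact_sh hk (1 / 16 * (n : ℝ)) (4 * C₀ * n)
    have h1 : volume {x ∈ K | 1 / 16 * (n : ℝ) ≤ sqn x} ≤
        volume (sh K (1 / 16 * n) (4 * C₀ * n)) + volume {x ∈ K | 4 * C₀ * (n : ℝ) ≤ sqn x} :=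
      (measure_mono hsub).trans (measure_union_le _ _)
    have h2 := ENNReal.toReal_mono (by
      rw [ENNReal.add_ne_top]; exact ⟨cM.measure_lt_top.ne, cB.measure_lt_top.ne⟩) h1
    rw [ENNReal.toReal_add cM.measure_lt_top.ne cB.measure_lt_top.ne] at h2
    rw [div_le_iff₀ (by positivity)]
    linarith only [mul_nonneg (le_of_lt (sub_pos.2 hC₀)) (sub_nonneg.2 h2), hi, lo, V0]
  set f : ℕ → ℝ := fun k => (1 + 1 / t) ^ k / 16 with hf
  obtain ⟨m, hm⟩ : ∃ m, t * j = m + 1 := ⟨t * j - 1, by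
    have : 1 ≤ t * j := Nat.mul_pos ht hjpos
    (clear * - this; omega)⟩
  have hfm : 4 * C₀ ≤ f (m + 1) := by
    have := pow_grow ht j
    simp only [hf]
    rw [← hm]
    linarith only [this, h2j]
  have hcov : sh K (1 / 16 * n) (4 * C₀ * n) ⊆
      ⋃ k ∈ Finset.range (m + 1), sh K (f k * n) (f (k + 1) * n) := by
    rintro x ⟨hx, hx1, hx2⟩
    obtain ⟨k, hk1, hk2⟩ := cover n (sqn x) f (by simp only [hf, pow_zero]; exact hx1) m
      (hx2.trans (mul_le_mul_of_nonneg_right hfm hnR.le))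
    rw [mem_iUnion₂]
    exact ⟨k, Finset.mem_range.2 (by omega), hx, hk2⟩
  have hsum : V / (2 * C₀) ≤
      ∑ k ∈ Finset.range (m + 1), (volume (sh K (f k * n) (f (k + 1) * n))).toReal := by
    refine mid.trans ?_
    rw [← ENNReal.toReal_sum fun k _ => (isCompact_sh hk _ _).measure_lt_top.ne]
    refine ENNReal.toReal_mono ?_ ((measure_mono hcov).trans (measure_biUnion_finset_le _ _))
    exact (ENNReal.sum_lt_top.2 fun k _ => (isCompact_sh hk _ _).measure_lt_top).ne
  obtain ⟨k, hkm, hk2⟩ := Finset.exists_le_of_sum_le (s := Finset.range (m + 1))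
    (f := fun _ => V / (2 * C₀) / (m + 1))
    (g := fun k => (volume (sh K (f k * n) (f (k + 1) * n))).toReal) (by simp only [Finset.nonempty_range_iff, ne_eq, Nat.add_eq_zero_iff, one_ne_zero, and_false, not_false_eq_true]) (by
      rw [Finset.sum_const, Finset.card_range, nsmul_eq_mul]
      refine le_trans (le_of_eq ?_) hsum
      push_cast
      (clear * - hC₀; field_simp))
  have hkm := Finset.mem_range.1 hkm
  refine ⟨f k, (min_le_right _ _).trans ?_, ?_, ?_⟩
  · have : (1 : ℝ) ≤ (1 + 1 / t) ^ k := one_le_pow₀ (by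
      have : (0 : ℝ) ≤ 1 / t := by positivity
      linarith only [this])
    simp only [hf]
    linarith only [this]
  · have h1 : (1 + 1 / t : ℝ) ^ k ≤ (1 + 1 / t) ^ (t * j) := pow_le_pow_right₀ (by
      have : (0 : ℝ) ≤ 1 / t := by positivity
      linarith only [this]) (by (clear * - hm hkm; omega))
    have h2 := pow_small ht j
    have h3 : (0 : ℝ) ≤ (1 + 1 / t) ^ k := by positivity
    simp only [hf]
    linarith only [h3, h2, h1]
  · have e1 : sh K (f k * n) (f (k + 1) * n) =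
        {x ∈ K | f k * n ≤ ∑ i, x i ^ 2 ∧ ∑ i, x i ^ 2 ≤ f k * (1 + 1 / t) * n} := by
      have : f (k + 1) = f k * (1 + 1 / t) := by
        simp only [hf]; rw [pow_succ]; ring
      rw [this]
      rfl
    rw [← e1]
    refine le_trans ?_ hk2
    have e2 : V / (2 * C₀) / (m + 1) = 1 / (2 * C₀ * j) / t * V := by
      have : ((m : ℝ) + 1) = t * j := by exact_mod_cast hm.symm
      rw [this]
      (clear * - hjpos ht hC₀; field_simp)
    rw [e2]
    refine mul_le_mul_of_nonneg_right ?_ V0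
    exact div_le_div_of_nonneg_right (min_le_left _ _) htR.le

end Vale.Agent.P230
end
end
end

section

section

section

/-!
# P230, task V5: a good projection
-/

namespace Vale.Agent.P230

open MeasureTheory ProbabilityTheory

theorem gker_nonneg {t : ℕ} {V : Type*} [NormedAddCommGroup V] [InnerProductSpace ℝ V]
    (r : ℝ) (b : Fin t → ℝ) (γ : Fin t → V) (v : V) : 0 ≤ gker r b γ v := (Real.exp_pos _).le

theorem gker_le_one {t : ℕ} {V : Type*} [NormedAddCommGroup V] [InnerProductSpace ℝ V]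
    (r : ℝ) (b : Fin t → ℝ) (γ : Fin t → V) (v : V) : gker r b γ v ≤ 1 := by
  rw [gker_eq_prod]
  exact Finset.prod_le_one (fun i _ => k1_nonneg _ _ _) (fun i _ => k1_le_one _ _ _)

theorem gker_abs_le_one {t : ℕ} {V : Type*} [NormedAddCommGroup V] [InnerProductSpace ℝ V]
    (r : ℝ) (b : Fin t → ℝ) (γ : Fin t → V) (v : V) : |gker r b γ v| ≤ 1 := by
  rw [abs_of_nonneg (gker_nonneg _ _ _ _)]
  exact gker_le_one _ _ _ _

/-- the kernel is Lipschitz in `b` -/
theorem gker_lip {t : ℕ} {V : Type*} [NormedAddCommGroup V] [InnerProductSpace ℝ V]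
    {r : ℝ} (hr : 0 < r) (b b' : Fin t → ℝ) (h : ℝ) (hb : ∀ i, |b i - b' i| ≤ h)
    (γ : Fin t → V) (v : V) : |gker r b γ v - gker r b' γ v| ≤ t * h / r := by
  rw [gker_eq_prod, gker_eq_prod]
  refine (abs_prod_sub_prod_le _ _ _ (fun i => k1_abs_le_one _ _ _)
    (fun i => k1_abs_le_one _ _ _)).trans ?_
  calc ∑ i : Fin t, |k1 r (b i) (inner ℝ (γ i) v) - k1 r (b' i) (inner ℝ (γ i) v)|
      ≤ ∑ i : Fin t, h / r := by
        refine Finset.sum_le_sum fun i _ => ?_
        have e1 : k1 r (b i) (inner ℝ (γ i) v) = k1 r 0 (inner ℝ (γ i) v - b i) := by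
          unfold k1; simp only [sub_zero]
        have e2 : k1 r (b' i) (inner ℝ (γ i) v) = k1 r 0 (inner ℝ (γ i) v - b' i) := by
          unfold k1; simp only [sub_zero]
        rw [e1, e2]
        refine (k1_lip hr _ _ _).trans ?_
        refine div_le_div_of_nonneg_right ?_ hr.le
        rw [show inner ℝ (γ i) v - b i - (inner ℝ (γ i) v - b' i) = -(b i - b' i) by ring,
          abs_neg]
        exact hb i
    _ = t * h / r := by
        rw [Finset.sum_const, Finset.card_univ, Fintype.card_fin, nsmul_eq_mul]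
        ring

/-- second moments of linear forms in isotropic position -/
theorem iso_form {n : ℕ} (K : Set (Fin n → ℝ)) (hk : IsCompact K)
    (hiso : ∀ i j, ∫ x in K, x i * x j = if i = j then (volume K).toReal else 0)
    (u : Fin n → ℝ) :
    ∫ x in K, (∑ i, u i * x i) ^ 2 = (∑ i, u i ^ 2) * (volume K).toReal := by
  have hint : ∀ i j, Integrable (fun x : Fin n → ℝ => u i * u j * (x i * x j))
      (volume.restrict K) := by
    intro i j
    exact ContinuousOn.integrableOn_compact hk (by (clear * -; fun_prop))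
  have h1 : (fun x : Fin n → ℝ => (∑ i, u i * x i) ^ 2) =
      fun x => ∑ i, ∑ j, u i * u j * (x i * x j) := by
    funext x
    rw [sq, Finset.sum_mul_sum]
    refine Finset.sum_congr rfl fun i _ => Finset.sum_congr rfl fun j _ => by ring
  rw [h1, integral_finsetSum _ (fun i _ => integrable_finsetSum _ fun j _ => hint i j)]
  have h2 : ∀ i : Fin n, ∫ x in K, ∑ j, u i * u j * (x i * x j) =
      u i ^ 2 * (volume K).toReal := by
    intro i
    rw [integral_finsetSum _ (fun j _ => hint i j)]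
    simp_rw [integral_const_mul, hiso]
    simp only [mul_ite, mul_zero, Finset.sum_ite_eq, Finset.mem_univ, if_true]
    ring
  simp_rw [h2]
  rw [Finset.sum_mul]

theorem norm_scaled {n : ℕ} (a : ℝ) (x : Fin n → ℝ) :
    ‖(a • WithLp.toLp 2 x : EuclideanSpace ℝ (Fin n))‖ ^ 2 = a ^ 2 * ∑ i, x i ^ 2 := by
  rw [norm_smul, mul_pow, EuclideanSpace.real_norm_sq_eq, Real.norm_eq_abs, sq_abs]

theorem inner_scaled {n : ℕ} (a : ℝ) (u : EuclideanSpace ℝ (Fin n)) (x : Fin n → ℝ) :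
    inner ℝ u (a • WithLp.toLp 2 x : EuclideanSpace ℝ (Fin n)) = a * ∑ i, u i * x i := by
  rw [inner_smul_right, PiLp.inner_apply]
  congr 1
  refine Finset.sum_congr rfl fun i _ => ?_
  simp [mul_comm]

/-- covariance bound on the shell -/
theorem shell_cov {n t : ℕ} (hn : 1 ≤ n) (ht : 1 ≤ t) (K : Set (Fin n → ℝ)) (hk : IsCompact K)
    (hiso : ∀ i j, ∫ x in K, x i * x j = if i = j then (volume K).toReal else 0)
    (s : ℝ) (hs : 0 < s) (b : Fin t → ℝ) (S : Set (Fin n → ℝ)) (hSK : S ⊆ K)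
    (x : Fin n → ℝ)
    (hx1 : s * n ≤ ∑ i, x i ^ 2) (hx2 : ∑ i, x i ^ 2 ≤ s * (1 + 1 / t) * n) :
    |∫ x' in S, (∫ γ, gker (1 / (t : ℝ) ^ 2) b γ
            ((1 / Real.sqrt (n * s)) • WithLp.toLp 2 x : EuclideanSpace ℝ (Fin n)) *
          gker (1 / (t : ℝ) ^ 2) b γ
            ((1 / Real.sqrt (n * s)) • WithLp.toLp 2 x' : EuclideanSpace ℝ (Fin n))
          ∂(Measure.pi fun _ : Fin t => stdGaussian (EuclideanSpace ℝ (Fin n))) -
        (∫ γ, gker (1 / (t : ℝ) ^ 2) b γ
            ((1 / Real.sqrt (n * s)) • WithLp.toLp 2 x : EuclideanSpace ℝ (Fin n))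
          ∂(Measure.pi fun _ : Fin t => stdGaussian (EuclideanSpace ℝ (Fin n)))) *
        (∫ γ, gker (1 / (t : ℝ) ^ 2) b γ
            ((1 / Real.sqrt (n * s)) • WithLp.toLp 2 x' : EuclideanSpace ℝ (Fin n))
          ∂(Measure.pi fun _ : Fin t => stdGaussian (EuclideanSpace ℝ (Fin n)))))| ≤
      2 * (t : ℝ) ^ 3 * ((volume K).toReal * (1 / s + 1 / 2) / Real.sqrt n) := by
  set a : ℝ := 1 / Real.sqrt (n * s) with ha
  have hn0 : (0 : ℝ) < n := by exact_mod_cast hn
  have ht0 : (0 : ℝ) < t := by exact_mod_cast ht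
  have hsq : 0 < Real.sqrt n := Real.sqrt_pos.mpr hn0
  have hsqn : Real.sqrt n * Real.sqrt n = n := Real.mul_self_sqrt hn0.le
  have ha2 : a ^ 2 = 1 / (n * s) := by
    rw [ha, div_pow, Real.sq_sqrt (by positivity), one_pow]
  set v : EuclideanSpace ℝ (Fin n) := a • WithLp.toLp 2 x with hv
  have hv2 : ‖v‖ ^ 2 = (∑ i, x i ^ 2) / (n * s) := by
    rw [hv, norm_scaled, ha2]; ring
  have hv1 : 1 ≤ ‖v‖ ^ 2 := by
    rw [hv2, le_div_iff₀ (by positivity)]
    linarith only [hx1]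
  have hvle : ‖v‖ ^ 2 ≤ 2 := by
    rw [hv2, div_le_iff₀ (by positivity)]
    have h1 : (1 : ℝ) / t ≤ 1 := by
      rw [div_le_one ht0]; exact_mod_cast ht
    have h2 : s * (1 + 1 / t) * n ≤ s * 2 * n := by
      have : (1 : ℝ) + 1 / t ≤ 2 := by linarith only [h1]
      (clear * - this hs hn; gcongr)
    linarith only [h2, hx2]
  have hvn : 1 ≤ ‖v‖ := by
    have := norm_nonneg v
    nlinarith only [hv1, this]
  have hv0 : v ≠ 0 := by
    intro h
    rw [h, norm_zero] at hvn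
    linarith only [hvn]
  have hr : (0 : ℝ) < 1 / (t : ℝ) ^ 2 := by positivity
  have hcompS : IntegrableOn (fun x' : Fin n → ℝ => (∑ i, v i * x' i) ^ 2) K :=
    ContinuousOn.integrableOn_compact hk (by (clear * -; fun_prop))
  have hKfin : volume K ≠ ⊤ := hk.measure_lt_top.ne
  have hSfin : volume S ≠ ⊤ := ((measure_mono hSK).trans_lt hk.measure_lt_top).ne
  have hSi : IntegrableOn (fun x' : Fin n → ℝ => (∑ i, v i * x' i) ^ 2) S :=
    hcompS.mono_set hSK
  have hci : IntegrableOn (fun _ : Fin n → ℝ => 1 / Real.sqrt n) S := by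
    rw [integrableOn_const_iff]
    right
    exact hSfin.lt_top
  set g : (Fin n → ℝ) → ℝ := fun x' => (t : ℝ) ^ 3 *
    (Real.sqrt n * (a ^ 2 * (∑ i, v i * x' i) ^ 2) + 1 / Real.sqrt n) with hg
  have hgi : IntegrableOn g S := (((hSi.const_mul (a ^ 2)).const_mul (Real.sqrt n)).add
    hci).const_mul ((t : ℝ) ^ 3)
  have hbound : ∀ x' : Fin n → ℝ, ‖(∫ γ, gker (1 / (t : ℝ) ^ 2) b γ v *
          gker (1 / (t : ℝ) ^ 2) b γ (a • WithLp.toLp 2 x' : EuclideanSpace ℝ (Fin n))
          ∂(Measure.pi fun _ : Fin t => stdGaussian (EuclideanSpace ℝ (Fin n)))) -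
        (∫ γ, gker (1 / (t : ℝ) ^ 2) b γ v
          ∂(Measure.pi fun _ : Fin t => stdGaussian (EuclideanSpace ℝ (Fin n)))) *
        (∫ γ, gker (1 / (t : ℝ) ^ 2) b γ (a • WithLp.toLp 2 x' : EuclideanSpace ℝ (Fin n))
          ∂(Measure.pi fun _ : Fin t => stdGaussian (EuclideanSpace ℝ (Fin n))))‖ ≤ g x' := by
    intro x'
    rw [Real.norm_eq_abs]
    refine (gker_cov _ hr b v _ hv0).trans ?_
    set w : ℝ := inner ℝ v (a • WithLp.toLp 2 x' : EuclideanSpace ℝ (Fin n)) with hw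
    have hw2 : w ^ 2 = a ^ 2 * (∑ i, v i * x' i) ^ 2 := by
      rw [hw, inner_scaled, mul_pow]
    have h1 : 2 * t * |w| / (1 / (t : ℝ) ^ 2 * ‖v‖) ≤ 2 * (t : ℝ) ^ 3 * |w| := by
      rw [div_le_iff₀ (by positivity)]
      have : 2 * (t : ℝ) ^ 3 * |w| * (1 / (t : ℝ) ^ 2 * ‖v‖) = 2 * t * |w| * ‖v‖ := by
        (clear * - hv0 ht; field_simp)
      rw [this]
      linarith only [mul_nonneg (sub_nonneg.2 hvn) (sub_nonneg.2 (mul_nonneg ht0.le (abs_nonneg w)))]
    refine h1.trans ?_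
    have h2 : 2 * |w| ≤ Real.sqrt n * w ^ 2 + 1 / Real.sqrt n := by
      have h3 : 0 ≤ (Real.sqrt n * |w| - 1) ^ 2 / Real.sqrt n := by (clear * - hn; positivity)
      have h4 : (Real.sqrt n * |w| - 1) ^ 2 / Real.sqrt n =
          Real.sqrt n * w ^ 2 + 1 / Real.sqrt n - 2 * |w| := by
        rw [← sq_abs w]
        field_simp
        ring
      linarith only [h3, h4]
    rw [hg]
    simp only
    rw [← hw2]
    have h5 : (0 : ℝ) ≤ (t : ℝ) ^ 3 := by positivity
    linarith only [mul_nonneg (sub_nonneg.2 h2) (sub_nonneg.2 h5)]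
  have hmain := norm_integral_le_of_norm_le (μ := volume.restrict S) hgi
    (Filter.Eventually.of_forall hbound)
  rw [Real.norm_eq_abs] at hmain
  refine hmain.trans ?_
  have e1 : ∫ x' in S, g x' = (t : ℝ) ^ 3 * (Real.sqrt n * (a ^ 2 *
      ∫ x' in S, (∑ i, v i * x' i) ^ 2) + (volume S).toReal * (1 / Real.sqrt n)) := by
    rw [hg, integral_const_mul, integral_add ((hSi.const_mul (a ^ 2)).const_mul (Real.sqrt n)) hci,
      integral_const_mul, integral_const_mul, setIntegral_const]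
    rfl
  rw [e1]
  have h6 : ∫ x' in S, (∑ i, v i * x' i) ^ 2 ≤ 2 * (volume K).toReal := by
    calc ∫ x' in S, (∑ i, v i * x' i) ^ 2 ≤ ∫ x' in K, (∑ i, v i * x' i) ^ 2 :=
          setIntegral_mono_set hcompS (Filter.Eventually.of_forall fun x' => sq_nonneg _)
            (Filter.Eventually.of_forall hSK)
      _ = (∑ i, v i ^ 2) * (volume K).toReal := iso_form K hk hiso _
      _ = ‖v‖ ^ 2 * (volume K).toReal := by rw [EuclideanSpace.real_norm_sq_eq]
      _ ≤ 2 * (volume K).toReal := mul_le_mul_of_nonneg_right hvle ENNReal.toReal_nonneg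
  have h7 : (volume S).toReal ≤ (volume K).toReal := ENNReal.toReal_mono hKfin (measure_mono hSK)
  calc (t : ℝ) ^ 3 * (Real.sqrt n * (a ^ 2 *
      ∫ x' in S, (∑ i, v i * x' i) ^ 2) + (volume S).toReal * (1 / Real.sqrt n))
      ≤ (t : ℝ) ^ 3 * (Real.sqrt n * (a ^ 2 * (2 * (volume K).toReal)) +
        (volume K).toReal * (1 / Real.sqrt n)) := by (clear * - h6 hn hs h7 ht; gcongr)
    _ = 2 * (t : ℝ) ^ 3 * ((volume K).toReal * (1 / s + 1 / 2) / Real.sqrt n) := by
        rw [ha2]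
        have : (n : ℝ) = Real.sqrt n * Real.sqrt n := hsqn.symm
        field_simp
        rw [Real.sq_sqrt hn0.le]
        ring

/-- pointwise lower bound for the mean -/
theorem mean_lower {t n : ℕ} (ht : 1 ≤ t) (b : Fin t → ℝ) (v : EuclideanSpace ℝ (Fin n))
    (hv1 : 1 ≤ ‖v‖ ^ 2) (hv2 : ‖v‖ ^ 2 ≤ 1 + 1 / t) :
    (1 / (t : ℝ) ^ 2) ^ t * Real.exp (-1) * Real.exp (-(∑ i, b i ^ 2) / 2) ≤
      ∫ γ, gker (1 / (t : ℝ) ^ 2) b γ v ∂(Measure.pi fun _ : Fin t =>
        stdGaussian (EuclideanSpace ℝ (Fin n))) := by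
  have ht0 : (0 : ℝ) < t := by exact_mod_cast ht
  have ht1 : (1 : ℝ) ≤ t := by exact_mod_cast ht
  set r : ℝ := 1 / (t : ℝ) ^ 2 with hr
  have hr0 : 0 < r := by positivity
  rw [gker_mean r hr0]
  have hS0 : 0 ≤ ∑ i, b i ^ 2 := Finset.sum_nonneg fun i _ => sq_nonneg _
  have h1 : r ^ t * Real.exp (-1) ≤ (r ^ 2 / (r ^ 2 + ‖v‖ ^ 2)) ^ ((t : ℝ) / 2) := by
    have hr4 : r ^ 2 ≤ 1 / t := by
      rw [hr, div_pow, one_pow, ← pow_mul]
      apply one_div_le_one_div_of_le ht0
      calc (t : ℝ) = t ^ 1 := (pow_one _).symm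
        _ ≤ (t : ℝ) ^ (2 * 2) := pow_le_pow_right₀ ht1 (by norm_num)
    have h2 : r ^ 2 * Real.exp (-(2 / t)) ≤ r ^ 2 / (r ^ 2 + ‖v‖ ^ 2) := by
      rw [Real.exp_neg, ← div_eq_mul_inv]
      apply div_le_div_of_nonneg_left (by positivity) (by positivity)
      have h3 := Real.add_one_le_exp (2 / (t : ℝ))
      have h4 : (2 : ℝ) / t = 1 / t + 1 / t := by ring
      linarith only [h4, h3, hr4, hv2]
    have h5 : (r ^ 2 * Real.exp (-(2 / t))) ^ ((t : ℝ) / 2) = r ^ t * Real.exp (-1) := by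
      rw [Real.mul_rpow (by positivity) (Real.exp_pos _).le, ← Real.exp_mul,
        ← Real.rpow_natCast r 2, ← Real.rpow_mul hr0.le]
      congr 1
      · rw [← Real.rpow_natCast r t]
        congr 1
        push_cast
        ring
      · congr 1
        field_simp
    rw [← h5]
    exact Real.rpow_le_rpow (by positivity) h2 (by positivity)
  have h6 : Real.exp (-(∑ i, b i ^ 2) / 2) ≤
      Real.exp (-(∑ i, b i ^ 2) / (2 * (r ^ 2 + ‖v‖ ^ 2))) := by
    apply Real.exp_le_exp.mpr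
    rw [neg_div, neg_div, neg_le_neg_iff]
    apply div_le_div_of_nonneg_left hS0 (by norm_num)
    nlinarith only [hv1]
  exact mul_le_mul h1 h6 (Real.exp_pos _).le (by positivity)

/-- rounding towards zero -/
theorem round_zero (h a : ℝ) (hh : 0 < h) : ∃ z : ℤ, |a - h * z| ≤ h ∧ (h * z) ^ 2 ≤ a ^ 2 := by
  rcases le_or_gt 0 a with ha | ha
  · refine ⟨⌊a / h⌋, ?_, ?_⟩
    · have h1 := Int.floor_le (a / h)
      have h2 := (Int.lt_floor_add_one (a / h)).le
      rw [le_div_iff₀ hh] at h1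
      rw [div_le_iff₀ hh] at h2
      rw [abs_le]
      constructor <;> linarith
    · have h1 := Int.floor_le (a / h)
      rw [le_div_iff₀ hh] at h1
      have h3 : (0 : ℝ) ≤ ⌊a / h⌋ := by
        exact_mod_cast Int.floor_nonneg.mpr (by positivity)
      have h4 : 0 ≤ h * (⌊a / h⌋ : ℝ) := by positivity
      linarith [mul_nonneg (sub_nonneg.2 h1) (sub_nonneg.2 h4), mul_nonneg (sub_nonneg.2 h1) (sub_nonneg.2 h1)]
  · refine ⟨⌈a / h⌉, ?_, ?_⟩
    · have h1 := Int.le_ceil (a / h)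
      have h2 := (Int.ceil_lt_add_one (a / h)).le
      rw [div_le_iff₀ hh] at h1
      have h2' : (⌈a / h⌉ : ℝ) - 1 ≤ a / h := by linarith only [h2]
      rw [le_div_iff₀ hh] at h2'
      rw [abs_le]
      constructor <;> nlinarith only [h2', hh, h1]
    · have h1 := Int.le_ceil (a / h)
      rw [div_le_iff₀ hh] at h1
      have h3 : ((⌈a / h⌉ : ℤ) : ℝ) ≤ 0 := by
        have : ⌈a / h⌉ ≤ 0 := by
          rw [Int.ceil_le]
          push_cast
          exact div_nonpos_of_nonpos_of_nonneg ha.le hh.le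
        exact_mod_cast this
      have h4 : h * (⌈a / h⌉ : ℝ) ≤ 0 := mul_nonpos_of_nonneg_of_nonpos hh.le h3
      nlinarith only [h1, h4]

/-- size of the net -/
theorem net_card (t : ℕ) (ht5 : 5 ≤ t) :
    ((Fintype.piFinset fun _ : Fin t => Finset.Icc (-(2 * (t : ℤ) * (t : ℤ) ^ (4 * t)))
      (2 * (t : ℤ) * (t : ℤ) ^ (4 * t))).card : ℝ) ≤ (t : ℝ) ^ ((4 * t + 2) * t) := by
  have ht1' : (1 : ℝ) ≤ t := by exact_mod_cast (by omega : 1 ≤ t)
  have ht0 : (0 : ℝ) < t := by linarith only [ht1']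
  set N₀ : ℤ := 2 * (t : ℤ) * (t : ℤ) ^ (4 * t) with hN₀
  rw [Fintype.card_piFinset, Finset.prod_const, Finset.card_univ, Fintype.card_fin,
    Int.card_Icc]
  have h1 : (((N₀ + 1 - -N₀).toNat : ℕ) : ℝ) ≤ (t : ℝ) ^ (4 * t + 2) := by
    have h2 : (0 : ℤ) ≤ N₀ + 1 - -N₀ := by
      have : (0 : ℤ) ≤ N₀ := by (clear * - ht5; positivity)
      linarith only [this]
    have h3 : (((N₀ + 1 - -N₀).toNat : ℕ) : ℝ) = 2 * N₀ + 1 := by
      have : (((N₀ + 1 - -N₀).toNat : ℕ) : ℤ) = N₀ + 1 - -N₀ := Int.toNat_of_nonneg h2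
      have h4 : ((((N₀ + 1 - -N₀).toNat : ℕ) : ℤ) : ℝ) = ((N₀ + 1 - -N₀ : ℤ) : ℝ) := by
        rw [this]
      rw [Int.cast_natCast] at h4
      rw [h4]
      push_cast
      ring
    rw [h3, hN₀]
    push_cast
    have h5 : (1 : ℝ) ≤ (t : ℝ) ^ (4 * t) := one_le_pow₀ ht1'
    have h6 : (5 : ℝ) ≤ t := by exact_mod_cast ht5
    have h7 : (t : ℝ) ^ (4 * t + 2) = (t : ℝ) ^ (4 * t) * (t * t) := by ring
    rw [h7]
    nlinarith only [h6, mul_le_mul h5 ht1' zero_le_one (by linarith : (0 : ℝ) ≤ (t : ℝ) ^ (4 * t))]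
  push_cast
  rw [pow_mul]
  exact pow_le_pow_left₀ (by (clear * -; positivity)) h1 _

/-- rounding a point of the ball to the net -/
theorem net_round (t : ℕ) (ht1 : 1 ≤ t) (b : Fin t → ℝ) (hb : ∑ i, b i ^ 2 ≤ 4 * t) :
    ∃ z : Fin t → ℤ, z ∈ (Fintype.piFinset fun _ : Fin t =>
        Finset.Icc (-(2 * (t : ℤ) * (t : ℤ) ^ (4 * t))) (2 * (t : ℤ) * (t : ℤ) ^ (4 * t))) ∧
      (∀ i, |b i - 1 / (t : ℝ) ^ (4 * t) * z i| ≤ 1 / (t : ℝ) ^ (4 * t)) ∧
      ∑ i, (1 / (t : ℝ) ^ (4 * t) * z i) ^ 2 ≤ ∑ i, b i ^ 2 := by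
  have ht0 : (0 : ℝ) < t := by exact_mod_cast ht1
  have ht1' : (1 : ℝ) ≤ t := by exact_mod_cast ht1
  set h : ℝ := 1 / (t : ℝ) ^ (4 * t) with hh
  have hh0 : 0 < h := by positivity
  choose z hz1 hz2 using fun i => round_zero h (b i) hh0
  refine ⟨z, ?_, hz1, Finset.sum_le_sum fun i _ => hz2 i⟩
  rw [Fintype.mem_piFinset]
  intro i
  rw [Finset.mem_Icc]
  have h1 : (h * (z i : ℝ)) ^ 2 ≤ (2 * t) ^ 2 := by
    calc (h * (z i : ℝ)) ^ 2 ≤ b i ^ 2 := hz2 i
      _ ≤ ∑ j, b j ^ 2 := Finset.single_le_sum (f := fun j => b j ^ 2)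
          (fun j _ => sq_nonneg _) (Finset.mem_univ i)
      _ ≤ 4 * t := hb
      _ ≤ (2 * t) ^ 2 := by nlinarith only [ht1']
  have h2 := abs_le_of_sq_le_sq' h1 (by positivity)
  have h3 : (t : ℝ) ^ (4 * t) * h = 1 := by
    rw [hh]; field_simp
  have h4 : ((z i : ℤ) : ℝ) = (t : ℝ) ^ (4 * t) * (h * z i) := by
    rw [← mul_assoc, h3, one_mul]
  have h5 : (0 : ℝ) < (t : ℝ) ^ (4 * t) := by positivity
  constructor
  · have : ((-(2 * (t : ℤ) * (t : ℤ) ^ (4 * t)) : ℤ) : ℝ) ≤ z i := by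
      rw [h4]; push_cast
      have := mul_le_mul_of_nonneg_left h2.1 h5.le
      linarith only [this]
    exact_mod_cast this
  · have : ((z i : ℤ) : ℝ) ≤ ((2 * (t : ℤ) * (t : ℤ) ^ (4 * t) : ℤ) : ℝ) := by
      rw [h4]; push_cast
      have := mul_le_mul_of_nonneg_left h2.2 h5.le
      linarith only [this]
    exact_mod_cast this

/-- numerical conditions -/
theorem pickG_num (c₀ D : ℝ) (hc₀ : 0 < c₀) (hD : 0 < D) : ∃ t₀ : ℕ, ∀ t ≥ t₀, 5 ≤ t ∧
    (t : ℝ) ^ ((4 * t + 2) * t) * (2 * (t : ℝ) ^ 3 * D / Real.exp ((t : ℝ) ^ 3 / 2)) ≤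
      (1 / 4 * (c₀ / t * ((1 / (t : ℝ) ^ 2) ^ t * Real.exp (-1) * Real.exp (-(2 * t))))) ^ 2 ∧
    (t : ℝ) * (1 / (t : ℝ) ^ (4 * t)) / (1 / (t : ℝ) ^ 2) ≤
      1 / 4 * (c₀ / t * ((1 / (t : ℝ) ^ 2) ^ t * Real.exp (-1) * Real.exp (-(2 * t)))) := by
  have hlog : ∀ᶠ x : ℝ in Filter.atTop, Real.log x ≤ 1 / 100 * x := by
    have := Real.isLittleO_log_id_atTop.bound (show (0 : ℝ) < 1 / 100 by norm_num)
    filter_upwards [this, Filter.eventually_ge_atTop (1 : ℝ)] with x hx hx1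
    rw [Real.norm_eq_abs, Real.norm_eq_abs, id, abs_of_nonneg (Real.log_nonneg hx1),
      abs_of_nonneg (by linarith only [hx1])] at hx
    exact hx
  have hlog4 : ∀ᶠ x : ℝ in Filter.atTop, 4 ≤ Real.log x :=
    Real.tendsto_log_atTop.eventually_ge_atTop 4
  have hc1 : ∀ᶠ x : ℝ in Filter.atTop, Real.log (32 * D / c₀ ^ 2) + 2 ≤ x :=
    Filter.eventually_ge_atTop _
  have hc2 : ∀ᶠ x : ℝ in Filter.atTop, Real.log (4 / c₀) + 1 + 16 ≤ x :=
    Filter.eventually_ge_atTop _
  have h5 : ∀ᶠ x : ℝ in Filter.atTop, (100 : ℝ) ≤ x := Filter.eventually_ge_atTop _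
  have hall := (hlog.and (hlog4.and (hc1.and (hc2.and h5))))
  have hnat := tendsto_natCast_atTop_atTop (R := ℝ) |>.eventually hall
  obtain ⟨t₀, ht₀⟩ := Filter.eventually_atTop.mp hnat
  refine ⟨t₀, fun t ht => ?_⟩
  obtain ⟨hL, hL4, hC1, hC2, ht100⟩ := ht₀ t ht
  have ht0 : (0 : ℝ) < t := by linarith only [hL, hL4]
  set L : ℝ := Real.log t with hLdef
  have hpow : ∀ k : ℕ, (t : ℝ) ^ k = Real.exp (k * L) := by
    intro k
    rw [hLdef, mul_comm, Real.exp_mul, Real.exp_log ht0, Real.rpow_natCast]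
  have hL0 : 0 ≤ L := by linarith only [hL4]
  refine ⟨by exact_mod_cast (by linarith only [hL4, hL] : (5 : ℝ) ≤ t), ?_, ?_⟩
  · have hR : (1 / 4 * (c₀ / t * ((1 / (t : ℝ) ^ 2) ^ t * Real.exp (-1) *
        Real.exp (-(2 * t))))) ^ 2 =
        c₀ ^ 2 / 16 * Real.exp (-(2 * L + 4 * t * L + 2 + 4 * t)) := by
      have e1 : (1 / 4 * (c₀ / t * ((1 / (t : ℝ) ^ 2) ^ t * Real.exp (-1) *
        Real.exp (-(2 * t))))) = c₀ / 4 * (Real.exp (-(L + 2 * t * L + 1 + 2 * t))) := by
        have e2 : (1 : ℝ) / t = Real.exp (-L) := by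
          rw [Real.exp_neg, hLdef, Real.exp_log ht0, one_div]
        have e3 : (1 / (t : ℝ) ^ 2) ^ t = Real.exp (-(2 * t * L)) := by
          rw [one_div, inv_pow, ← pow_mul, hpow, ← Real.exp_neg]
          congr 1
          push_cast
          ring
        rw [e3, div_eq_mul_one_div c₀, e2]
        rw [show -(L + 2 * t * L + 1 + 2 * t) = -L + -(2 * t * L) + -1 + -(2 * t) by ring,
          Real.exp_add, Real.exp_add, Real.exp_add]
        ring
      rw [e1, mul_pow, ← Real.exp_nat_mul]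
      congr 1
      · ring
      · congr 1
        push_cast
        ring
    have hLft : (t : ℝ) ^ ((4 * t + 2) * t) *
        (2 * (t : ℝ) ^ 3 * D / Real.exp ((t : ℝ) ^ 3 / 2)) =
        2 * D * Real.exp ((4 * t + 2) * t * L + 3 * L - (t : ℝ) ^ 3 / 2) := by
      rw [hpow ((4 * t + 2) * t), hpow 3, Real.exp_sub, Real.exp_add]
      push_cast
      ring
    rw [hR, hLft]
    have h6 : 32 * D / c₀ ^ 2 ≤ Real.exp ((t : ℝ) - 2) := by
      rw [← Real.log_le_iff_le_exp (by positivity)]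
      linarith only [hC1]
    have h7 : 2 * D = c₀ ^ 2 / 16 * (32 * D / c₀ ^ 2) := by
      field_simp
      ring
    rw [h7, mul_assoc]
    refine mul_le_mul_of_nonneg_left ?_ (by positivity)
    calc 32 * D / c₀ ^ 2 * Real.exp ((4 * t + 2) * t * L + 3 * L - (t : ℝ) ^ 3 / 2)
        ≤ Real.exp ((t : ℝ) - 2) * Real.exp ((4 * t + 2) * t * L + 3 * L - (t : ℝ) ^ 3 / 2) :=
          mul_le_mul_of_nonneg_right h6 (Real.exp_pos _).le
      _ = Real.exp ((t : ℝ) - 2 + ((4 * t + 2) * t * L + 3 * L - (t : ℝ) ^ 3 / 2)) := by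
          rw [← Real.exp_add]
      _ ≤ _ := by
          apply Real.exp_le_exp.mpr
          have ha : (4 * (t : ℝ) + 2) * t * L ≤ (4 * (t : ℝ) + 2) * t * (1 / 100 * t) :=
            mul_le_mul_of_nonneg_left hL (by (clear * - ht100; positivity))
          have hb : 4 * (t : ℝ) * L ≤ 4 * t * (1 / 100 * t) :=
            mul_le_mul_of_nonneg_left hL (by (clear * - ht100; positivity))
          have ht2 : (100 : ℝ) * t ^ 2 ≤ t ^ 3 := by linarith only [mul_nonneg (sq_nonneg (↑t : ℝ)) (sub_nonneg.2 ht100)]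
          have ht1 : (100 : ℝ) * t ≤ t ^ 2 := by nlinarith only [ht100]
          nlinarith only [hL, ht1]
  · have e1 : (t : ℝ) * (1 / (t : ℝ) ^ (4 * t)) / (1 / (t : ℝ) ^ 2) =
        Real.exp (3 * L - 4 * t * L) := by
      have : (t : ℝ) * (1 / (t : ℝ) ^ (4 * t)) / (1 / (t : ℝ) ^ 2) =
          (t : ℝ) ^ 3 / (t : ℝ) ^ (4 * t) := by
        (clear * - ht100; field_simp)
      rw [this, hpow 3, hpow (4 * t), ← Real.exp_sub]
      congr 1
      push_cast
      ring
    have e2 : 1 / 4 * (c₀ / t * ((1 / (t : ℝ) ^ 2) ^ t * Real.exp (-1) *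
        Real.exp (-(2 * t)))) = c₀ / 4 * (Real.exp (-(L + 2 * t * L + 1 + 2 * t))) := by
      have e2 : (1 : ℝ) / t = Real.exp (-L) := by
        rw [Real.exp_neg, hLdef, Real.exp_log ht0, one_div]
      have e3 : (1 / (t : ℝ) ^ 2) ^ t = Real.exp (-(2 * t * L)) := by
        rw [one_div, inv_pow, ← pow_mul, hpow, ← Real.exp_neg]
        congr 1
        push_cast
        ring
      rw [e3, div_eq_mul_one_div c₀, e2]
      rw [show -(L + 2 * t * L + 1 + 2 * t) = -L + -(2 * t * L) + -1 + -(2 * t) by ring,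
        Real.exp_add, Real.exp_add, Real.exp_add]
      ring
    rw [e1, e2]
    have h6 : 4 / c₀ ≤ Real.exp ((t : ℝ) - 17) := by
      rw [← Real.log_le_iff_le_exp (by (clear * - hc₀; positivity))]
      linarith only [hC2]
    have h7 : 1 ≤ c₀ / 4 * Real.exp ((t : ℝ) - 17) := by
      calc (1 : ℝ) = c₀ / 4 * (4 / c₀) := by field_simp
        _ ≤ _ := mul_le_mul_of_nonneg_left h6 (by positivity)
    calc Real.exp (3 * L - 4 * t * L) = 1 * Real.exp (3 * L - 4 * t * L) := (one_mul _).symm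
      _ ≤ c₀ / 4 * Real.exp ((t : ℝ) - 17) * Real.exp (3 * L - 4 * t * L) :=
          mul_le_mul_of_nonneg_right h7 (Real.exp_pos _).le
      _ = c₀ / 4 * Real.exp ((t : ℝ) - 17 + (3 * L - 4 * t * L)) := by
          rw [mul_assoc, ← Real.exp_add]
      _ ≤ _ := by
          refine mul_le_mul_of_nonneg_left (Real.exp_le_exp.mpr ?_) (by positivity)
          have ha : (2 * (t : ℝ) - 4) * 4 ≤ (2 * (t : ℝ) - 4) * L :=
            mul_le_mul_of_nonneg_left hL4 (by linarith only [hL, hL4])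
          linarith only [ha]

/-- TASK V5: a good projection -/
theorem pick_G : ∃ c : ℝ, 0 < c ∧ ∃ t₀ : ℕ, ∀ t ≥ t₀, ∀ n : ℕ, Real.exp ((t : ℝ) ^ 3) ≤ n →
    ∀ K : Set (Fin n → ℝ), Convex ℝ K → IsCompact K → 0 < volume K →
    (∀ i j, ∫ x in K, x i * x j = if i = j then (volume K).toReal else 0) →
    ∃ G : Matrix (Fin t) (Fin n) ℝ, ∀ b : Fin t → ℝ, ∑ i, b i ^ 2 ≤ 4 * t →
      c / t * (volume K).toReal * (1 / (t : ℝ) ^ 2) ^ t * Real.exp (-(∑ i, b i ^ 2) / 2) ≤
        ∫ x in K, Real.exp (-(∑ i, (G.mulVec x i - b i) ^ 2) * (t : ℝ) ^ 4 / 2) := by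
  classical
  obtain ⟨c₀, C₀, hc₀, hC₀, hshell⟩ := scale_select
  obtain ⟨t₀, hnum⟩ := pickG_num c₀ (1 / c₀ + 1 / 2) hc₀ (by (clear * - hc₀; positivity))
  refine ⟨c₀ * Real.exp (-1) / 2, by positivity, t₀, ?_⟩
  intro t ht n hn K hKc hKk hKpos hiso
  obtain ⟨ht5, hn1, hn2⟩ := hnum t ht
  have ht1 : 1 ≤ t := by omega
  have ht0 : (0 : ℝ) < t := by exact_mod_cast ht1
  have ht1' : (1 : ℝ) ≤ t := by exact_mod_cast ht1
  have hn0 : (0 : ℝ) < n := lt_of_lt_of_le (Real.exp_pos _) hn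
  have hn1' : 1 ≤ n := by
    have : 0 < n := by exact_mod_cast hn0
    omega
  have hiso1 : ∀ i, ∫ x in K, x i ^ 2 = (volume K).toReal := by
    intro i
    have := hiso i i
    rw [if_pos rfl] at this
    rw [← this]
    congr 1
    funext x
    ring
  obtain ⟨s, hs1, hs2, hmass⟩ := hshell n t hn1' ht1 K hKc hKk hiso1
  have hs0 : 0 < s := lt_of_lt_of_le hc₀ hs1
  set V : ℝ := (volume K).toReal with hV
  have hV0 : 0 < V := ENNReal.toReal_pos hKpos.ne' hKk.measure_lt_top.ne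
  set S : Set (Fin n → ℝ) :=
    {x ∈ K | s * n ≤ ∑ i, x i ^ 2 ∧ ∑ i, x i ^ 2 ≤ s * (1 + 1 / t) * n} with hS
  have hSK : S ⊆ K := fun x hx => hx.1
  have hSm : MeasurableSet S := by
    have h1 : S = K ∩ ({x | s * n ≤ ∑ i, x i ^ 2} ∩ {x | ∑ i, x i ^ 2 ≤ s * (1 + 1 / t) * n}) :=
      rfl
    rw [h1]
    refine hKk.isClosed.measurableSet.inter (IsClosed.measurableSet ?_ |>.inter
      (IsClosed.measurableSet ?_))
    · exact isClosed_le (by fun_prop) (by fun_prop)
    · exact isClosed_le (by fun_prop) (by fun_prop)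
  have hSfin : volume S < ⊤ := (measure_mono hSK).trans_lt hKk.measure_lt_top
  have : IsFiniteMeasure (volume.restrict S) := ⟨by rw [Measure.restrict_apply_univ]; exact hSfin⟩
  set a : ℝ := 1 / Real.sqrt (n * s) with ha
  have ha2 : a ^ 2 = 1 / (n * s) := by
    rw [ha, div_pow, Real.sq_sqrt (by (clear * - hn1' hs0; positivity)), one_pow]
  set π : Measure (Fin t → EuclideanSpace ℝ (Fin n)) :=
    Measure.pi fun _ : Fin t => stdGaussian (EuclideanSpace ℝ (Fin n)) with hπ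
  set r : ℝ := 1 / (t : ℝ) ^ 2 with hr
  have hr0 : 0 < r := by positivity
  set k : (Fin t → ℝ) → (Fin n → ℝ) → (Fin t → EuclideanSpace ℝ (Fin n)) → ℝ :=
    fun b x γ => gker r b γ (a • WithLp.toLp 2 x : EuclideanSpace ℝ (Fin n)) with hk
  have hkm : ∀ b, StronglyMeasurable (Function.uncurry (k b)) := by
    intro b
    have : Continuous (Function.uncurry (k b)) := by
      rw [hk]
      unfold gker Function.uncurry
      fun_prop
    exact this.stronglyMeasurable
  have hkb : ∀ b x γ, |k b x γ| ≤ 1 := fun b x γ => gker_abs_le_one _ _ _ _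
  set W : ℝ := 2 * (t : ℝ) ^ 3 * (V * (1 / s + 1 / 2) / Real.sqrt n) with hW
  have hW0 : 0 ≤ W := by (clear * - ht5 hV0 hs0 hn1'; positivity)
  have hcov : ∀ b, ∀ᵐ x ∂(volume.restrict S),
      |∫ x' in S, (∫ γ, k b x γ * k b x' γ ∂π - (∫ γ, k b x γ ∂π) * (∫ γ, k b x' γ ∂π))| ≤ W := by
    intro b
    refine (ae_restrict_iff' hSm).mpr (Filter.Eventually.of_forall fun x hx => ?_)
    exact shell_cov hn1' ht1 K hKk hiso s hs0 b S hSK x hx.2.1 hx.2.2
  have hsm := fun b => second_moment (volume.restrict S) π (k b) (hkm b) (hkb b) W (hcov b)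
  -- mean
  set F : (Fin t → ℝ) → (Fin t → EuclideanSpace ℝ (Fin n)) → ℝ :=
    fun b γ => ∫ x in S, k b x γ with hF
  set M : (Fin t → ℝ) → ℝ := fun b => ∫ x in S, ∫ γ, k b x γ ∂π with hM
  set m₀ : ℝ := (1 / (t : ℝ) ^ 2) ^ t * Real.exp (-1) with hm₀
  have hm₀0 : 0 < m₀ := by positivity
  have hmean : ∀ b, c₀ / t * V * (m₀ * Real.exp (-(∑ i, b i ^ 2) / 2)) ≤ M b := by
    intro b
    have h1 : (m₀ * Real.exp (-(∑ i, b i ^ 2) / 2)) * (volume S).toReal ≤ M b := by
      have h2 : Integrable (fun x => ∫ γ, k b x γ ∂π) (volume.restrict S) := by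
        have h3 : Integrable (Function.uncurry (k b)) ((volume.restrict S).prod π) :=
          Integrable.of_bound (hkm b).aestronglyMeasurable 1
            (Filter.Eventually.of_forall fun p => by rw [Real.norm_eq_abs]; exact hkb _ _ _)
        exact h3.integral_prod_left
      have h4 : ∫ x in S, (m₀ * Real.exp (-(∑ i, b i ^ 2) / 2)) ≤ M b := by
        refine setIntegral_mono_on (integrableOn_const hSfin.ne) h2 hSm ?_
        intro x hx
        refine mean_lower ht1 b _ ?_ ?_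
        · rw [norm_scaled, ha2, div_mul_eq_mul_div, one_mul, le_div_iff₀ (by (clear * - hn1' hs0; positivity))]
          linarith only [hx.2.1]
        · rw [norm_scaled, ha2, div_mul_eq_mul_div, one_mul, div_le_iff₀ (by (clear * - hn1' hs0; positivity))]
          linarith only [hx.2.2]
      rw [setIntegral_const, smul_eq_mul] at h4
      calc (m₀ * Real.exp (-(∑ i, b i ^ 2) / 2)) * (volume S).toReal
          = volume.real S * (m₀ * Real.exp (-(∑ i, b i ^ 2) / 2)) := by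
            rw [mul_comm]; rfl
        _ ≤ M b := h4
    refine le_trans ?_ h1
    rw [mul_comm (m₀ * Real.exp (-(∑ i, b i ^ 2) / 2))]
    exact mul_le_mul_of_nonneg_right hmass (by positivity)
  -- the net
  set h : ℝ := 1 / (t : ℝ) ^ (4 * t) with hh
  have hh0 : 0 < h := by positivity
  set N₀ : ℤ := 2 * (t : ℤ) * (t : ℤ) ^ (4 * t) with hN₀
  set B : Finset (Fin t → ℤ) := Fintype.piFinset fun _ : Fin t => Finset.Icc (-N₀) N₀ with hB
  have hBcard : (B.card : ℝ) ≤ (t : ℝ) ^ ((4 * t + 2) * t) := net_card t ht5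
  set pt : (Fin t → ℤ) → (Fin t → ℝ) := fun z i => h * z i with hpt
  have hsum : Integrable (fun γ => ∑ z ∈ B, (F (pt z) γ - M (pt z)) ^ 2) π :=
    integrable_finsetSum _ fun z _ => (hsm (pt z)).1
  obtain ⟨γ, hγ⟩ := exists_le_integral hsum
  have htot : ∑ z ∈ B, (F (pt z) γ - M (pt z)) ^ 2 ≤
      (V * (1 / 4 * (c₀ / t * (m₀ * Real.exp (-(2 * t)))))) ^ 2 := by
    refine hγ.trans ?_
    rw [integral_finsetSum _ fun z _ => (hsm (pt z)).1]
    calc ∑ z ∈ B, ∫ γ, (F (pt z) γ - M (pt z)) ^ 2 ∂π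
        ≤ ∑ z ∈ B, W * (volume.restrict S).real Set.univ :=
          Finset.sum_le_sum fun z _ => (hsm (pt z)).2
      _ = B.card * (W * (volume S).toReal) := by
          rw [Finset.sum_const, nsmul_eq_mul, measureReal_restrict_apply_univ]
          rfl
      _ ≤ (t : ℝ) ^ ((4 * t + 2) * t) * (W * V) := by
          refine mul_le_mul hBcard (mul_le_mul_of_nonneg_left ?_ hW0) (by (clear * - ht5 hV0 hs0 hn1'; positivity))
            (by positivity)
          exact ENNReal.toReal_mono hKk.measure_lt_top.ne (measure_mono hSK)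
      _ ≤ (t : ℝ) ^ ((4 * t + 2) * t) * (2 * (t : ℝ) ^ 3 * (1 / c₀ + 1 / 2) /
            Real.exp ((t : ℝ) ^ 3 / 2)) * V ^ 2 := by
          rw [mul_assoc ((t : ℝ) ^ ((4 * t + 2) * t))]
          refine mul_le_mul_of_nonneg_left ?_ (by positivity)
          have h1 : Real.exp ((t : ℝ) ^ 3 / 2) ≤ Real.sqrt n := by
            apply Real.le_sqrt_of_sq_le
            rw [← Real.exp_nat_mul]
            refine le_trans (le_of_eq ?_) hn
            congr 1
            push_cast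
            ring
          have h2 : 1 / s ≤ 1 / c₀ := one_div_le_one_div_of_le hc₀ hs1
          have h3 : W * V = 2 * (t : ℝ) ^ 3 * (1 / s + 1 / 2) / Real.sqrt n * V ^ 2 := by
            rw [hW]; ring
          rw [h3]
          refine mul_le_mul_of_nonneg_right ?_ (by (clear * - hV0; positivity))
          apply div_le_div₀ (by positivity) _ (Real.exp_pos _) h1
          (clear * - h2 ht5; gcongr)
      _ ≤ (1 / 4 * (c₀ / t * (m₀ * Real.exp (-(2 * t))))) ^ 2 * V ^ 2 :=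
          mul_le_mul_of_nonneg_right hn1 (by (clear * - hV0; positivity))
      _ = _ := by ring
  -- each point of the net is good
  have hgood : ∀ z ∈ B, M (pt z) - V * (1 / 4 * (c₀ / t * (m₀ * Real.exp (-(2 * t))))) ≤
      F (pt z) γ := by
    intro z hz
    have h1 : (F (pt z) γ - M (pt z)) ^ 2 ≤
        (V * (1 / 4 * (c₀ / t * (m₀ * Real.exp (-(2 * t)))))) ^ 2 :=
      (Finset.single_le_sum (f := fun z => (F (pt z) γ - M (pt z)) ^ 2)
        (fun z _ => sq_nonneg _) hz).trans htot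
    have h2 := abs_le_of_sq_le_sq' h1 (by (clear * - hV0 hc₀ ht5; positivity))
    linarith only [h2]
  refine ⟨Matrix.of fun i j => a * γ i j, fun b hb => ?_⟩
  -- round b
  obtain ⟨z, hzB, hz1, hb'⟩ := net_round t ht1 b hb
  have hFi : ∀ b : Fin t → ℝ, Integrable (fun x => k b x γ) (volume.restrict S) := by
    intro b
    refine Integrable.of_bound (C := 1) ?_ (Filter.Eventually.of_forall fun x => by
      rw [Real.norm_eq_abs]; exact hkb _ _ _)
    exact ((hkm b).comp_measurable (measurable_prodMk_right (y := γ))).aestronglyMeasurable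
  have hlip : |F b γ - F (pt z) γ| ≤ V * (t * h / r) := by
    have h1 : F b γ - F (pt z) γ = ∫ x in S, (k b x γ - k (pt z) x γ) :=
      (integral_sub (hFi b) (hFi (pt z))).symm
    rw [h1, ← Real.norm_eq_abs]
    have h2 := norm_integral_le_of_norm_le_const (μ := volume.restrict S)
      (f := fun x => k b x γ - k (pt z) x γ) (C := t * h / r)
      (Filter.Eventually.of_forall fun x => by
        rw [Real.norm_eq_abs]
        exact gker_lip hr0 b (pt z) h hz1 γ _)
    refine h2.trans ?_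
    rw [mul_comm, measureReal_restrict_apply_univ]
    refine mul_le_mul_of_nonneg_right ?_ (by positivity)
    exact ENNReal.toReal_mono hKk.measure_lt_top.ne (measure_mono hSK)
  have hfin : ∫ x in S, k b x γ ≤ ∫ x in K, Real.exp (-(∑ i,
      ((Matrix.of fun i j => a * γ i j).mulVec x i - b i) ^ 2) * (t : ℝ) ^ 4 / 2) := by
    have heq : ∀ x, k b x γ = Real.exp (-(∑ i,
        ((Matrix.of fun i j => a * γ i j).mulVec x i - b i) ^ 2) * (t : ℝ) ^ 4 / 2) := by
      intro x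
      rw [hk]
      simp only
      unfold gker
      congr 1
      have h1 : ∀ i, inner ℝ (γ i) (a • WithLp.toLp 2 x : EuclideanSpace ℝ (Fin n)) =
          (Matrix.of fun i j => a * γ i j).mulVec x i := by
        intro i
        rw [inner_scaled, Matrix.mulVec, dotProduct, Finset.mul_sum]
        refine Finset.sum_congr rfl fun j _ => ?_
        rw [Matrix.of_apply]
        ring
      simp_rw [h1]
      rw [hr]
      (clear * - ht5; field_simp)
    simp_rw [← heq]
    refine setIntegral_mono_set ?_ (Filter.Eventually.of_forall fun x => gker_nonneg _ _ _ _)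
      (Filter.Eventually.of_forall hSK)
    refine ContinuousOn.integrableOn_compact hKk ?_
    have : Continuous (fun x => k b x γ) := by
      rw [hk]
      unfold gker
      fun_prop
    exact this.continuousOn
  refine le_trans ?_ hfin
  change _ ≤ F b γ
  have hg := hgood z hzB
  have hm := hmean (pt z)
  have hl := (abs_le.mp hlip).1
  have hE : Real.exp (-(2 * t)) ≤ Real.exp (-(∑ i, b i ^ 2) / 2) := by
    apply Real.exp_le_exp.mpr
    linarith only [hb]
  have hE2 : Real.exp (-(∑ i, b i ^ 2) / 2) ≤ Real.exp (-(∑ i, (pt z) i ^ 2) / 2) := by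
    apply Real.exp_le_exp.mpr
    linarith only [hb']
  set e : ℝ := Real.exp (-(∑ i, b i ^ 2) / 2) with he
  have h1 : c₀ / t * V * (m₀ * e) ≤ M (pt z) := le_trans (by (clear * - hE2 ht5 hc₀ hV0; gcongr)) hm
  have h2 : V * (1 / 4 * (c₀ / t * (m₀ * Real.exp (-(2 * t))))) ≤
      1 / 4 * (c₀ / t * V * (m₀ * e)) := by
    calc V * (1 / 4 * (c₀ / t * (m₀ * Real.exp (-(2 * t))))) ≤
        V * (1 / 4 * (c₀ / t * (m₀ * e))) := by (clear * - hE ht5 hc₀ hV0; gcongr)
      _ = _ := by ring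
  have h3 : V * (t * h / r) ≤ 1 / 4 * (c₀ / t * V * (m₀ * e)) :=
    (mul_le_mul_of_nonneg_left hn2 hV0.le).trans h2
  have h4 : c₀ * Real.exp (-1) / 2 / t * V * (1 / (t : ℝ) ^ 2) ^ t * e =
      1 / 2 * (c₀ / t * V * (m₀ * e)) := by
    rw [hm₀]; ring
  rw [h4]
  linarith only [hg, hl, h1, h2, h3]

end Vale.Agent.P230
end
end
end

section

section

section

namespace Vale.Agent.P230

open MeasureTheory Finset

/-- the geometric input of the last step: good coordinates with large slices over a ball -/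
def BallData (N t n : ℕ) (E ρ W : ℝ) : Prop :=
  ∀ K₀ : Set (Fin (N + t) → ℝ), Convex ℝ K₀ → IsCompact K₀ → (interior K₀).Nonempty →
    ∃ (A₀ : Matrix (Fin (N + t)) (Fin (N + t)) ℝ) (v₀ : Fin (N + t) → ℝ)
      (T : (Fin t → ℝ) → Set (Fin N → ℝ)) (g : ℝ), A₀.det ≠ 0 ∧ 0 < g ∧
      (∀ b : Fin t → ℝ, ∑ i, b i ^ 2 ≤ E * t →
        Convex ℝ (T b) ∧ IsCompact (T b) ∧ (∀ x ∈ T b, ∀ i, |x i| ≤ 1) ∧
        (∃ x₀ : Fin N → ℝ, ∀ x : Fin N → ℝ, (∀ i, 0 ≤ x i ∧ x i ≤ ρ) → x₀ + x ∈ T b) ∧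
        ENNReal.ofReal g ≤ volume (T b) ∧ volume (T b) ≤ ENNReal.ofReal (2 ^ N * g)) ∧
      volume {x : Fin (N + t) → ℝ | A₀.mulVec x + v₀ ∈ K₀} ≤ ENNReal.ofReal (W * g) ∧
      ∀ b : Fin t → ℝ, ∑ i, b i ^ 2 ≤ E * t → ∀ a : Fin t → ℝ, ∑ i, a i ^ 2 ≤ E * t →
        ∀ x ∈ T b, ∀ x' ∈ T a,
          A₀.mulVec (Fin.append (x + (1 / (n : ℝ)) • x') (b + (1 / (n : ℝ)) • a)) + v₀ ∈ K₀

/-- the lattice input of the last step -/
def TreeData (t m : ℕ) (E : ℝ) (ML : Matrix (Fin t) (Fin t) ℝ) : Prop :=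
  ∀ y : Fin t → ℝ, ∃ (z₀ : Fin t → ℤ) (P : Finset (Fin t → ℤ)),
    m ≤ P.card ∧ (∀ z ∈ P, ∀ a, z a = z₀ a ∨ z a = z₀ a + 1) ∧
    ∀ z ∈ P, ∑ i, (y i + ML.mulVec (fun a => (z a : ℝ)) i) ^ 2 ≤ E * t

theorem step_tree {N t n m : ℕ} {c₂ c₄ η ε L ρ W E : ℝ} (hs : StepNumT N t n m c₂ η ε L ρ)
    (hbase : BaseAt N c₂ c₄ ε) (hW : 0 ≤ W) (hball : BallData N t n E ρ W)
    (ML : Matrix (Fin t) (Fin t) ℝ) (hML : ML.det ≠ 0) (htree : TreeData t m E ML) :
    Cov n 0 (3 * c₂ * N * W / |ML.det|) := by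
  classical
  have hNn := hs.hNn
  subst hNn
  set n := N + t with hn
  have hn2 := hs.hn
  have hnpos : (0 : ℝ) < n := by
    have : 0 < n := by (clear * - hn2; omega)
    exact_mod_cast this
  have hn5 : (0 : ℝ) < (n : ℝ) ^ 5 := by (clear * - hn2; positivity)
  have hN0 : (1 : ℝ) ≤ N := by exact_mod_cast hs.hN
  have hc₂ := hs.hc₂
  intro K₀ hK₀c hK₀k hK₀i
  obtain ⟨A₀, v₀, T, g, hA₀, hg, hT, hvol, hkey⟩ := hball K₀ hK₀c hK₀k hK₀i
  apply CovFor.affine A₀ v₀ hA₀
  set K : Set (Fin n → ℝ) := {x : Fin n → ℝ | A₀.mulVec x + v₀ ∈ K₀} with hK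
  set Kp : Set ((Fin N → ℝ) × (Fin t → ℝ)) := {q | Fin.append q.1 q.2 ∈ K} with hKp
  set A : Set (Fin t → ℝ) := {b | ∑ i, b i ^ 2 ≤ E * t} with hA
  choose z₀ P hPcard hPcube hPball using fun j : Fin t → Fin n =>
    htree (ML.mulVec (fun a => ((j a : ℕ) : ℝ) / n))
  have hzcov : ∀ y : Fin t → ℝ, ∃ ζ : Fin t → ℤ, y + ML.mulVec (fun a => (ζ a : ℝ)) ∈ A := by
    intro y
    obtain ⟨_, P, hP, _, hP2⟩ := htree y
    have : P.Nonempty := Finset.card_pos.1 (lt_of_lt_of_le hs.hm hP)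
    obtain ⟨z, hz⟩ := this
    exact ⟨z, hP2 z hz⟩
  have hz : ∀ j, ∀ z ∈ P j, ML.mulVec (fun a => ((j a : ℕ) : ℝ) / n) +
      ML.mulVec (fun a => (z a : ℝ)) ∈ A := fun j z hz => hPball j z hz
  have hdata : ∀ (j : Fin t → Fin n) (z : Fin t → ℤ),
      ∃ (Q : Set (Fin N → ℝ)) (w : Fin N → ℤ), z ∈ P j → (NormalizedR Q ((N : ℝ) ^ 3) ∧
      (∀ s ∈ intPts Q (2 * (n : ℝ) ^ 5), ∀ f : Fin N → ℝ, (∀ l, 0 ≤ f l ∧ f l ≤ 1) →
        (fun l => ((s l : ℝ) + w l + f l) / (n : ℝ) ^ 5) ∈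
        T (ML.mulVec (fun a => ((j a : ℕ) : ℝ) / n) + ML.mulVec (fun a => (z a : ℝ)))) ∧
      2 / 3 * (((n : ℝ) ^ 5) ^ N * g) ≤ ((intPts Q (2 * (n : ℝ) ^ 5)).card : ℝ) ∧
      ((intPts Q (2 * (n : ℝ) ^ 5)).card : ℝ) ≤ 4 / 3 * (((n : ℝ) ^ 5) ^ N * g)) := by
    intro j z
    by_cases hzP : z ∈ P j
    · obtain ⟨h1, h2, h3, h4, h5, h6⟩ := hT _ (hz j z hzP)
      obtain ⟨Q, w, hQ⟩ := slice_dataT hs _ h1 h2 h3 h4 g hg h5 h6
      exact ⟨Q, w, fun _ => hQ⟩
    · exact ⟨∅, 0, fun h => absurd h hzP⟩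
  choose Q w hQw using hdata
  -- a point of the ball
  obtain ⟨b₀, hb₀⟩ : ∃ b, b ∈ A := by
    obtain ⟨ζ, hζ⟩ := hzcov 0
    exact ⟨_, hζ⟩
  have hgb : (ρ / 2) ^ N ≤ g ∧ g ≤ 2 ^ N := by
    obtain ⟨h1, h2, h3, h4, h5, h6⟩ := hT b₀ hb₀
    exact g_boundsT hs.hρ _ h3 h4 g hg h5 h6
  obtain ⟨p, hp, hp1, hp2, hp3, hpη⟩ := choose_primeT hs g hgb.1 hgb.2
  have hfact : Fact p.Prime := ⟨hp⟩
  have hp0 : (0 : ℝ) < p := by exact_mod_cast hp.pos
  -- the bad sets
  set bad : (Fin t → Fin n) × (Fin t → Fin 2) → Finset ((Fin N → ZMod p) × ZMod p) := fun ji =>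
    if (fun a => z₀ ji.1 a + ((ji.2 a : ℕ) : ℤ)) ∈ P ji.1 then
      univ.filter (fun hu : (Fin N → ZMod p) × ZMod p =>
        ∀ B ⊆ hit p (intPts (Q ji.1 (fun a => z₀ ji.1 a + ((ji.2 a : ℕ) : ℤ)))
          (2 * (n : ℝ) ^ 5)) hu.1 hu.2, AffInd B → B.card ≤ ⌈c₄ * N⌉₊) else ∅ with hbaddef
  have hε0 : 0 ≤ ε := by
    by_contra hneg
    have h1 := hbase
    have hj : ∃ j : Fin t → Fin n, True := ⟨fun _ => ⟨0, by omega⟩, trivial⟩
    obtain ⟨j, _⟩ := hj
    obtain ⟨z, hzP⟩ : (P j).Nonempty := Finset.card_pos.1 (lt_of_lt_of_le hs.hm (hPcard j))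
    obtain ⟨hQ, hin, hlo, hup⟩ := hQw j z hzP
    have := hbase (Q j z) hQ (2 * (n : ℝ) ^ 5) hs.hlam1 hs.hlam2 p (by linarith only [hp1, hlo]) (by linarith only [hup, hp2])
    have h2 : (0 : ℝ) ≤ ε * (p : ℝ) ^ (N + 1) := le_trans (by (clear * - hfact; positivity)) this
    have h3 : ε * (p : ℝ) ^ (N + 1) < 0 := mul_neg_of_neg_of_pos (by linarith only [hneg]) (by (clear * - hp3; positivity))
    linarith only [this, h3]
  have hbad : ∀ ji, ((bad ji).card : ℝ) ≤ ε * (p : ℝ) ^ (N + 1) := by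
    intro ji
    rw [hbaddef]
    simp only
    split_ifs with hin'
    · obtain ⟨hQ, hin, hlo, hup⟩ := hQw ji.1 _ hin'
      have := hbase _ hQ (2 * (n : ℝ) ^ 5) hs.hlam1 hs.hlam2 p (by linarith only [hlo, hp1]) (by linarith only [hp2, hup])
      convert this
    · simp only [card_empty, Nat.cast_zero]
      (clear * - hε0 hp3; positivity)
  have hI : (Fintype.card ((Fin t → Fin n) × (Fin t → Fin 2)) : ℝ) = (n : ℝ) ^ t * 2 ^ t := by
    simp only [Fintype.card_prod, Fintype.card_pi, Fintype.card_fin, prod_const, card_univ, Nat.cast_mul, Nat.cast_pow, Nat.cast_ofNat]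
  obtain ⟨h, hh⟩ := exists_h p bad ε η hbad (by rw [hI]; exact hs.hηε)
  -- every point of the cube has a good code
  have hcode : ∀ (j : Fin t → Fin n) (z : Fin t → ℤ), z ∈ P j → ∃ e : Fin t → Fin 2,
      (fun a => z₀ j a + ((e a : ℕ) : ℤ)) = z := by
    intro j z hzP
    refine ⟨fun a => if z a = z₀ j a then 0 else 1, ?_⟩
    funext a
    rcases hPcube j z hzP a with h1 | h1
    · simp only [h1, ↓reduceIte, Fin.isValue, Fin.coe_ofNat_eq_mod, Nat.zero_mod, CharP.cast_eq_zero, add_zero]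
    · have : z a ≠ z₀ j a := by (clear * - h1; omega)
      simp only [h1, add_eq_left, one_ne_zero, ↓reduceIte, Fin.isValue, Fin.coe_ofNat_eq_mod, Nat.mod_succ, Nat.cast_one]
  have hbad' : ∀ (j : Fin t → Fin n) (z : Fin t → ℤ), z ∈ P j →
      (((univ.filter (fun u : ZMod p => ∀ B ⊆ hit p (intPts (Q j z) (2 * (n : ℝ) ^ 5)) h u,
        AffInd B → B.card ≤ ⌈c₄ * N⌉₊)).card : ℝ)) ≤ η * p := by
    intro j z hzP
    obtain ⟨e, rfl⟩ := hcode j z hzP
    refine le_trans (le_of_eq ?_) (hh (j, e))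
    congr 2
    ext u
    rw [hbaddef]
    simp only [if_pos hzP, mem_filter, mem_univ, true_and]
  -- `h ≠ 0`
  have hne : h ≠ 0 := by
    intro h0
    have hj : ∃ j : Fin t → Fin n, True := ⟨fun _ => ⟨0, by omega⟩, trivial⟩
    obtain ⟨j, _⟩ := hj
    obtain ⟨z, hzP⟩ : (P j).Nonempty := Finset.card_pos.1 (lt_of_lt_of_le hs.hm (hPcard j))
    have h1 := hbad' j z hzP
    have h2 : (univ : Finset (ZMod p)).erase 0 ⊆
        univ.filter (fun u : ZMod p => ∀ B ⊆ hit p (intPts (Q j z) (2 * (n : ℝ) ^ 5)) h u,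
          AffInd B → B.card ≤ ⌈c₄ * N⌉₊) := by
      intro u hu
      rw [mem_erase] at hu
      simp only [mem_filter, mem_univ, true_and]
      intro B hB _
      have h3 : B = ∅ := by
        rw [Finset.eq_empty_iff_forall_notMem]
        intro s hs'
        have := hB hs'
        rw [hit, mem_filter, h0] at this
        simp only [Pi.zero_apply, zero_mul, sum_const_zero] at this
        exact hu.1 this.2.symm
      rw [h3]
      simp only [card_empty, zero_le]
    have h4 := Finset.card_le_card h2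
    rw [Finset.card_erase_of_mem (mem_univ _), card_univ, ZMod.card] at h4
    have h5 : ((p - 1 : ℕ) : ℝ) ≤ η * p := le_trans (by exact_mod_cast h4) h1
    rw [Nat.cast_sub hp.one_lt.le] at h5
    have h6 := hs.hη1
    have h7 : (3 : ℝ) < p := by exact_mod_cast hp3
    push_cast at h5
    nlinarith only [h7, h5, h6]
  -- the second coordinate
  set U : (Fin t → Fin n) → (Fin t → ℤ) → Finset (ZMod p) := fun j z =>
    univ.filter (fun u : ZMod p => ∀ B ⊆ hit p (intPts (Q j z) (2 * (n : ℝ) ^ 5)) h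
      (u - ∑ a, h a * (w j z a : ZMod p)), AffInd B → B.card ≤ ⌈c₄ * N⌉₊) with hU
  have hUcard : ∀ j, ∀ z ∈ P j, ((U j z).card : ℝ) ≤ η * p := by
    intro j z hzP
    refine le_trans (le_of_eq ?_) (hbad' j z hzP)
    congr 1
    refine Finset.card_bij' (fun u _ => u - ∑ a, h a * (w j z a : ZMod p))
      (fun u _ => u + ∑ a, h a * (w j z a : ZMod p)) ?_ ?_ ?_ ?_
    · intro u hu
      simp only [hU, mem_filter, mem_univ, true_and] at hu ⊢
      exact hu
    · intro u hu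
      simp only [hU, mem_filter, mem_univ, true_and] at hu ⊢
      simpa only [add_sub_cancel_right] using hu
    · intro u _
      simp only [sub_add_cancel]
    · intro u _
      simp only [add_sub_cancel_right]
  have hcardJ : (Fintype.card (Fin t → Fin n) : ℝ) = (n : ℝ) ^ t := by simp only [Fintype.card_pi, Fintype.card_fin, prod_const, card_univ, Nat.cast_pow]
  obtain ⟨gg, hgg⟩ := exists_g_tree p z₀ P hPcube m hs.hm hPcard U η hs.hη0 hUcard
    (by rw [hcardJ]; exact hs.hMη) (by rw [hcardJ]; exact hpη)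
  -- conclusion
  refine covFor_of_prod K 0 _ ((n : ℝ) ^ 5) hn5 ML hML p h hne gg ?_ ?_
  · have hdet : 0 < |ML.det| := abs_pos.2 hML
    refine hvol.trans (ENNReal.ofReal_le_ofReal ?_)
    have h1 : g ≤ 3 * c₂ * N * p / ((n : ℝ) ^ 5) ^ N := by
      rw [le_div_iff₀ (by (clear * - hn2; positivity))]
      linarith only [hp2]
    calc W * g ≤ W * (3 * c₂ * N * p / ((n : ℝ) ^ 5) ^ N) := by (clear * - h1 hW; gcongr)
      _ = _ := by
        (clear * - hML hn2 hp3 hN0 hc₂; field_simp)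
  · intro y y'
    have h0 := step_coverT hs Kp A T (fun b hb => ?_)
      (fun b hb a ha x hx x' hx' => hkey b hb a ha x hx x' hx') ML hzcov P hz Q w
      (fun j z hzP => (hQw j z hzP).2.1) p h gg ?_ y y'
    · obtain ⟨s, ζ, h1, h2⟩ := h0
      refine ⟨fun _ => s, fun _ => ζ, fun _ => h1, fun _ => h2, fun q _ _ => ?_⟩
      have : IsEmpty (Fin ⌈(0 : ℝ) * ((N + t : ℕ) : ℝ)⌉₊) := by
        simp only [zero_mul, Nat.ceil_zero]
        exact Fin.isEmpty
      exact linearIndependent_empty_type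
    · obtain ⟨_, _, _, ⟨x₀, hx₀⟩, _⟩ := hT b hb
      exact ⟨x₀ + 0, hx₀ 0 (fun i => ⟨le_rfl, hs.hρ.le⟩)⟩
    · intro j u
      obtain ⟨z, hzP, hz'⟩ := hgg j u
      refine ⟨z, hzP, ?_⟩
      simp only [hU, mem_filter, mem_univ, true_and] at hz'
      push Not at hz'
      obtain ⟨B, hB, _, hBc⟩ := hz'
      have : B.Nonempty := Finset.card_pos.1 (by omega)
      exact this.mono hB

end Vale.Agent.P230
end
end
end

section

section

section

/-! A lattice all of whose translates contain many points of a binary cube in a ball. -/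

namespace Vale.Agent.P230

open Finset

namespace Tree

section Prob

variable {I : Type*} [Fintype I] [DecidableEq I]

/-- product weight -/
noncomputable def pw (w : I → Bool → ℝ) (ω : I → Bool) : ℝ := ∏ i, w i (ω i)

lemma sum_pw_prod (w f : I → Bool → ℝ) :
    ∑ ω : I → Bool, pw w ω * ∏ i, f i (ω i) = ∏ i, ∑ b, w i b * f i b := by
  have key := Finset.prod_univ_sum (fun _ : I => (Finset.univ : Finset Bool))
    (fun a x => w a x * f a x)
  rw [Fintype.piFinset_univ] at key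
  rw [key]
  apply Finset.sum_congr rfl
  intro ω _
  rw [pw, ← Finset.prod_mul_distrib]

lemma sum_pw (w : I → Bool → ℝ) (hw : ∀ i, ∑ b, w i b = 1) : ∑ ω : I → Bool, pw w ω = 1 := by
  have h := sum_pw_prod w (fun _ _ => 1)
  simp only [Finset.prod_const_one, mul_one] at h
  rw [h]
  exact Finset.prod_eq_one fun i _ => hw i

lemma sum_pw_two (w : I → Bool → ℝ) (g : I → Bool → ℝ) (hg : ∀ i, ∑ b, w i b * g i b = 0)
    (i j : I) (hij : i ≠ j) : ∑ ω : I → Bool, pw w ω * (g i (ω i) * g j (ω j)) = 0 := by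
  have h := sum_pw_prod w (fun a b => if a = i ∨ a = j then g a b else 1)
  have h1 : ∀ ω : I → Bool, ∏ a, (if a = i ∨ a = j then g a (ω a) else 1)
      = g i (ω i) * g j (ω j) := by
    intro ω
    rw [← Finset.mul_prod_erase _ _ (Finset.mem_univ i)]
    rw [← Finset.mul_prod_erase _ _ (Finset.mem_erase.mpr ⟨Ne.symm hij, Finset.mem_univ j⟩)]
    rw [Finset.prod_eq_one]
    · simp
    · intro a ha
      rw [Finset.mem_erase, Finset.mem_erase] at ha
      rw [if_neg]
      rintro (h | h)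
      · exact ha.2.1 h
      · exact ha.1 h
  simp only [h1] at h
  rw [h]
  apply Finset.prod_eq_zero (Finset.mem_univ i)
  simp only [true_or, if_true]
  exact hg i

omit [DecidableEq I] in
lemma pw_nonneg (w : I → Bool → ℝ) (hw0 : ∀ i b, 0 ≤ w i b) (ω : I → Bool) : 0 ≤ pw w ω :=
  Finset.prod_nonneg fun i _ => hw0 i _

lemma var_bound (w g : I → Bool → ℝ) (hw : ∀ i, ∑ b, w i b = 1) (hw0 : ∀ i b, 0 ≤ w i b)
    (hg : ∀ i, ∑ b, w i b * g i b = 0) (B : ℝ) (hB : ∀ i b, |g i b| ≤ B) :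
    ∑ ω : I → Bool, pw w ω * (∑ i, g i (ω i)) ^ 2 ≤ Fintype.card I * B ^ 2 := by
  have e1 : ∀ ω : I → Bool, pw w ω * (∑ i, g i (ω i)) ^ 2
      = ∑ i, ∑ j, pw w ω * (g i (ω i) * g j (ω j)) := by
    intro ω
    rw [pow_two, Finset.sum_mul_sum, Finset.mul_sum]
    simp_rw [Finset.mul_sum]
  simp_rw [e1]
  rw [Finset.sum_comm]
  have e2 : ∀ i, ∑ ω : I → Bool, ∑ j, pw w ω * (g i (ω i) * g j (ω j)) ≤ B ^ 2 := by
    intro i
    rw [Finset.sum_comm, Finset.sum_eq_single i]
    · calc ∑ ω : I → Bool, pw w ω * (g i (ω i) * g i (ω i))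
          ≤ ∑ ω : I → Bool, pw w ω * B ^ 2 := by
            apply Finset.sum_le_sum
            intro ω _
            apply mul_le_mul_of_nonneg_left _ (pw_nonneg w hw0 ω)
            rw [← pow_two]
            exact sq_le_sq' (by linarith [(abs_le.mp (hB i (ω i))).1]) (abs_le.mp (hB i (ω i))).2
        _ = B ^ 2 := by rw [← Finset.sum_mul, sum_pw w hw, one_mul]
    · intro j _ hj
      exact sum_pw_two w g hg i j (Ne.symm hj)
    · simp only [mem_univ, not_true_eq_false, IsEmpty.forall_iff]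
  calc ∑ i, ∑ ω : I → Bool, ∑ j, pw w ω * (g i (ω i) * g j (ω j))
      ≤ ∑ i : I, B ^ 2 := Finset.sum_le_sum fun i _ => e2 i
    _ = Fintype.card I * B ^ 2 := by simp only [sum_const, card_univ, nsmul_eq_mul]

lemma cheb (w g : I → Bool → ℝ) (hw : ∀ i, ∑ b, w i b = 1) (hw0 : ∀ i b, 0 ≤ w i b)
    (hg : ∀ i, ∑ b, w i b * g i b = 0) (B : ℝ) (hB : ∀ i b, |g i b| ≤ B) (δ : ℝ) (hδ : 0 < δ)
    (hI : 0 < Fintype.card I) (hT : 4 * B ^ 2 ≤ δ ^ 2 * Fintype.card I) :
    ∑ ω : I → Bool with δ * Fintype.card I < |∑ i, g i (ω i)|, pw w ω ≤ 1 / 4 := by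
  set T : ℝ := ((Fintype.card I : ℕ) : ℝ) with hTdef
  have hT0 : 0 < T := by rw [hTdef]; exact_mod_cast hI
  have h1 : (δ * T) ^ 2 * ∑ ω : I → Bool with δ * T < |∑ i, g i (ω i)|, pw w ω
      ≤ T * B ^ 2 := by
    rw [Finset.mul_sum]
    refine le_trans ?_ (var_bound w g hw hw0 hg B hB)
    refine le_trans ?_ (Finset.sum_le_sum_of_subset_of_nonneg
      (Finset.filter_subset (fun ω : I → Bool => δ * T < |∑ i, g i (ω i)|) Finset.univ)
      (fun ω _ _ => mul_nonneg (pw_nonneg w hw0 ω) (sq_nonneg _)))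
    apply Finset.sum_le_sum
    intro ω hω
    rw [Finset.mem_filter] at hω
    rw [mul_comm]
    apply mul_le_mul_of_nonneg_left _ (pw_nonneg w hw0 ω)
    rw [← sq_abs (∑ i, g i (ω i))]
    exact pow_le_pow_left₀ (by positivity) hω.2.le 2
  set S := ∑ ω : I → Bool with δ * T < |∑ i, g i (ω i)|, pw w ω with hS
  have h2 : 4 * (T * B ^ 2) ≤ (δ * T) ^ 2 := by
    calc 4 * (T * B ^ 2) = T * (4 * B ^ 2) := by ring
      _ ≤ T * (δ ^ 2 * T) := mul_le_mul_of_nonneg_left hT hT0.le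
      _ = (δ * T) ^ 2 := by ring
  have h3 : 0 < (δ * T) ^ 2 := by positivity
  by_contra hcon
  push Not at hcon
  have : (δ * T) ^ 2 * (1 / 4) < (δ * T) ^ 2 * S := mul_lt_mul_of_pos_left hcon h3
  linarith only [h1, h2, this]

/-- the typical set -/
lemma typical (w c : I → Bool → ℝ) (B δ : ℝ) (hδ : 0 < δ) (hw0 : ∀ i b, 0 < w i b)
    (hw : ∀ i, ∑ b, w i b = 1) (hc : ∀ i b, |c i b| ≤ B)
    (hl : ∀ i b, |Real.log (w i b)| ≤ B) (hI : 0 < Fintype.card I)
    (hT : 16 * B ^ 2 ≤ δ ^ 2 * Fintype.card I) :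
    ∃ P : Finset (I → Bool),
      1 / 2 * Real.exp (∑ i, ∑ b, -(w i b * Real.log (w i b)) - δ * Fintype.card I) ≤ P.card ∧
      ∀ ω ∈ P, ∑ i, c i (ω i) ≤ ∑ i, ∑ b, w i b * c i b + δ * Fintype.card I := by
  have hw0' : ∀ i b, 0 ≤ w i b := fun i b => (hw0 i b).le
  set T : ℝ := ((Fintype.card I : ℕ) : ℝ) with hTdef
  have hT0 : 0 < T := by rw [hTdef]; exact_mod_cast hI
  -- centring
  have hcen : ∀ f : I → Bool → ℝ, (∀ i b, |f i b| ≤ B) →
      ∑ ω : I → Bool with δ * T < |∑ i, (f i (ω i) - ∑ b, w i b * f i b)|, pw w ω ≤ 1 / 4 := by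
    intro f hf
    have hmean : ∀ i, |∑ b, w i b * f i b| ≤ B := by
      intro i
      calc |∑ b, w i b * f i b| ≤ ∑ b, |w i b * f i b| := Finset.abs_sum_le_sum_abs _ _
        _ ≤ ∑ b, w i b * B := by
          apply Finset.sum_le_sum
          intro b _
          rw [abs_mul, abs_of_pos (hw0 i b)]
          exact mul_le_mul_of_nonneg_left (hf i b) (hw0' i b)
        _ = B := by rw [← Finset.sum_mul, hw i, one_mul]
    apply cheb w (fun i b => f i b - ∑ b, w i b * f i b) hw hw0' _ (2 * B) _ δ hδ hI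
    · rw [← hTdef]
      calc 4 * (2 * B) ^ 2 = 16 * B ^ 2 := by ring
        _ ≤ _ := hT
    · intro i
      simp only [mul_sub]
      rw [Finset.sum_sub_distrib, ← Finset.sum_mul, hw i, one_mul, sub_self]
    · intro i b
      calc |f i b - ∑ b, w i b * f i b| ≤ |f i b| + |∑ b, w i b * f i b| := abs_sub _ _
        _ ≤ 2 * B := by linarith only [hf i b, hmean i]
  have hA := hcen c hc
  have hL := hcen (fun i b => -Real.log (w i b)) (fun i b => by rw [abs_neg]; exact hl i b)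
  set SA := Finset.univ.filter (fun ω : I → Bool =>
    δ * T < |∑ i, (c i (ω i) - ∑ b, w i b * c i b)|) with hSA
  set SL := Finset.univ.filter (fun ω : I → Bool =>
    δ * T < |∑ i, (-Real.log (w i (ω i)) - ∑ b, w i b * -Real.log (w i b))|) with hSL
  set P := Finset.univ.filter (fun ω : I → Bool => ω ∉ SA ∧ ω ∉ SL) with hP
  set H := ∑ i, ∑ b, -(w i b * Real.log (w i b)) with hH
  refine ⟨P, ?_, ?_⟩
  · have h1 : 1 / 2 ≤ ∑ ω ∈ P, pw w ω := by
      have h2 : (1 : ℝ) = ∑ ω ∈ P, pw w ω + ∑ ω ∈ Pᶜ, pw w ω := by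
        rw [Finset.sum_add_sum_compl, sum_pw w hw]
      have h3 : ∑ ω ∈ Pᶜ, pw w ω ≤ ∑ ω ∈ SA, pw w ω + ∑ ω ∈ SL, pw w ω := by
        have hsub : Pᶜ ⊆ SA ∪ SL := by
          intro ω hω
          rw [Finset.mem_compl, hP, Finset.mem_filter] at hω
          rw [Finset.mem_union]
          by_contra hcon
          push Not at hcon
          exact hω ⟨Finset.mem_univ _, hcon.1, hcon.2⟩
        refine (Finset.sum_le_sum_of_subset_of_nonneg hsub
          (fun ω _ _ => pw_nonneg w hw0' ω)).trans ?_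
        have := Finset.sum_union_inter (s₁ := SA) (s₂ := SL) (f := fun ω => pw w ω)
        have h5 : 0 ≤ ∑ ω ∈ SA ∩ SL, pw w ω := Finset.sum_nonneg fun ω _ => pw_nonneg w hw0' ω
        linarith only [this, h5]
      linarith only [hA, hL, h2, h3]
    have h4 : ∀ ω ∈ P, pw w ω ≤ Real.exp (-(H - δ * T)) := by
      intro ω hω
      rw [hP, Finset.mem_filter] at hω
      have h5 : ω ∉ SL := hω.2.2
      rw [hSL, Finset.mem_filter] at h5
      push Not at h5
      have h6 := h5 (Finset.mem_univ _)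
      have h7 := (abs_le.mp h6).1
      rw [Finset.sum_sub_distrib] at h7
      have h8 : pw w ω = Real.exp (∑ i, Real.log (w i (ω i))) := by
        rw [Real.exp_sum, pw]
        apply Finset.prod_congr rfl
        intro i _
        rw [Real.exp_log (hw0 i _)]
      rw [h8]
      apply Real.exp_le_exp.mpr
      rw [Finset.sum_neg_distrib] at h7
      have h9 : ∑ i, ∑ b, w i b * -Real.log (w i b) = H := by
        rw [hH]
        apply Finset.sum_congr rfl
        intro i _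
        apply Finset.sum_congr rfl
        intro b _
        ring
      rw [h9] at h7
      linarith only [h7]
    have h10 : ∑ ω ∈ P, pw w ω ≤ P.card * Real.exp (-(H - δ * T)) := by
      calc ∑ ω ∈ P, pw w ω ≤ ∑ ω ∈ P, Real.exp (-(H - δ * T)) := Finset.sum_le_sum h4
        _ = P.card * Real.exp (-(H - δ * T)) := by rw [Finset.sum_const, nsmul_eq_mul]
    have h11 : 1 / 2 ≤ P.card * Real.exp (-(H - δ * T)) := h1.trans h10
    rw [Real.exp_neg, ← div_eq_mul_inv, le_div_iff₀ (Real.exp_pos _)] at h11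
    exact h11
  · intro ω hω
    rw [hP, Finset.mem_filter] at hω
    have h5 : ω ∉ SA := hω.2.1
    rw [hSA, Finset.mem_filter] at h5
    push Not at h5
    have h6 := h5 (Finset.mem_univ _)
    have h7 := (abs_le.mp h6).2
    rw [Finset.sum_sub_distrib] at h7
    linarith only [h7]

end Prob


/-- weight table -/
def wt (k : ℕ) : ℕ :=
  if k < 64 then 525 else if k < 115 then 480 else if k < 152 then 420 else if k < 200 then 336
  else if k < 248 then 224 else if k < 285 then 140 else if k < 336 then 80 else 35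

lemma wt_cases (k : ℕ) : wt k = 525 ∨ wt k = 480 ∨ wt k = 420 ∨ wt k = 336 ∨ wt k = 224 ∨
    wt k = 140 ∨ wt k = 80 ∨ wt k = 35 := by
  unfold wt
  split_ifs <;> simp

/-- weights -/
noncomputable def ww (k : ℕ) (b : Bool) : ℝ :=
  if b then (wt k : ℝ) / 560 else (560 - (wt k : ℝ)) / 560

/-- costs -/
noncomputable def cw (k : ℕ) (b : Bool) : ℝ :=
  if b then (13 / 2000) ^ 2 * ((k : ℝ) + 1) ^ 2 else (13 / 2000) ^ 2 * (400 - (k : ℝ)) ^ 2

lemma ww_bounds (k : ℕ) (b : Bool) : 1 / 16 ≤ ww k b ∧ ww k b ≤ 1 := by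
  unfold ww
  rcases wt_cases k with h | h | h | h | h | h | h | h <;> rw [h] <;> cases b <;> norm_num

lemma ww_sum (k : ℕ) : ∑ b, ww k b = 1 := by
  rw [Fintype.sum_bool]
  unfold ww
  simp only [↓reduceIte, Bool.false_eq_true]
  ring

lemma abs_log_ww (k : ℕ) (b : Bool) : |Real.log (ww k b)| ≤ 7 := by
  obtain ⟨h1, h2⟩ := ww_bounds k b
  have h0 : 0 < ww k b := by linarith only [h1]
  rw [abs_le]
  constructor
  · have h3 := Real.log_le_log (by norm_num) h1
    have h4 : Real.log (1 / 16) = -(4 * Real.log 2) := by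
      rw [one_div, Real.log_inv]
      have : (16 : ℝ) = 2 ^ 4 := by norm_num
      rw [this, Real.log_pow]
      norm_num
    rw [h4] at h3
    have := Real.log_two_lt_d9
    linarith only [h3, this]
  · have := Real.log_nonpos h0.le h2
    linarith only [this]

lemma cw_bounds (k : ℕ) (hk : k < 400) (b : Bool) : 0 ≤ cw k b ∧ cw k b ≤ 7 := by
  have hk1 : (k : ℝ) + 1 ≤ 400 := by exact_mod_cast hk
  have hk0 : (0 : ℝ) ≤ k := by (clear * -; positivity)
  unfold cw
  cases b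
  · simp only [Bool.false_eq_true, if_false]
    constructor
    · (clear * -; positivity)
    · nlinarith only [hk1]
  · simp only [if_true]
    constructor
    · (clear * -; positivity)
    · nlinarith only [hk1]

/-- sum of costs -/
lemma sum_cost_nat : ∑ k ∈ Finset.range 400, (wt k * (k + 1) ^ 2 + (560 - wt k) * (400 - k) ^ 2)
    = 5302307512 := by
  (clear * -; decide +kernel)

lemma sum_cost : ∑ k ∈ Finset.range 400, ∑ b, ww k b * cw k b ≤ 400 * 1.0002 := by
  have h1 : ∀ k ∈ Finset.range 400, ∑ b, ww k b * cw k b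
      = (13 / 2000) ^ 2 / 560 * ((wt k * (k + 1) ^ 2 + (560 - wt k) * (400 - k) ^ 2 : ℕ) : ℝ) := by
    intro k hk
    have hk' : k < 400 := Finset.mem_range.mp hk
    have hw : wt k ≤ 560 := by
      rcases wt_cases k with h | h | h | h | h | h | h | h <;> rw [h] <;> norm_num
    rw [Fintype.sum_bool]
    unfold ww cw
    simp only [if_true, Bool.false_eq_true, if_false]
    push_cast [Nat.cast_sub hw, Nat.cast_sub hk'.le]
    ring
  rw [Finset.sum_congr rfl h1, ← Finset.mul_sum, ← Nat.cast_sum, sum_cost_nat]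
  norm_num

/-- entropy -/
noncomputable def hw (k : ℕ) : ℝ := ∑ b, -(ww k b * Real.log (ww k b))

lemma hw_nonneg (k : ℕ) : 0 ≤ hw k := by
  unfold hw
  apply Finset.sum_nonneg
  intro b _
  obtain ⟨h1, h2⟩ := ww_bounds k b
  have h3 := Real.log_nonpos (by linarith only [h1]) h2
  nlinarith only [h3, h1]

lemma hw_le (k : ℕ) : hw k ≤ 7 := by
  unfold hw
  calc ∑ b, -(ww k b * Real.log (ww k b)) ≤ ∑ b, ww k b * 7 := by
        apply Finset.sum_le_sum
        intro b _
        have h1 := (abs_le.mp (abs_log_ww k b)).1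
        have h2 := (ww_bounds k b).1
        linarith only [mul_nonneg (sub_nonneg.2 h1) (sub_nonneg.2 h2), mul_nonneg (mul_self_nonneg (1 : ℝ)) (sub_nonneg.2 h1)]
    _ = 7 := by rw [← Finset.sum_mul, ww_sum, one_mul]

/-- entropy as a function of the weight -/
noncomputable def gw (w : ℕ) : ℝ :=
  -((w : ℝ) / 560 * Real.log ((w : ℝ) / 560))
    - ((560 - (w : ℝ)) / 560 * Real.log ((560 - (w : ℝ)) / 560))

lemma hw_eq (k : ℕ) : hw k = gw (wt k) := by
  unfold hw gw
  rw [Fintype.sum_bool]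
  unfold ww
  simp only [↓reduceIte, Bool.false_eq_true]
  ring

lemma log7 : Real.log 2 + 7 * Real.log 3 - 4 * Real.log 5 ≤ Real.log 7 := by
  have h : Real.log (4374 / 625) ≤ Real.log 7 := Real.log_le_log (by norm_num) (by norm_num)
  have h2 : Real.log (4374 / 625) = Real.log 2 + 7 * Real.log 3 - 4 * Real.log 5 := by
    rw [Real.log_div (by norm_num) (by norm_num)]
    have e1 : (4374 : ℝ) = 2 * 3 ^ 7 := by norm_num
    have e2 : (625 : ℝ) = 5 ^ 4 := by norm_num
    rw [e1, e2, Real.log_mul (by norm_num) (by norm_num), Real.log_pow, Real.log_pow]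
    norm_num
  linarith

lemma gw_525 : gw 525 = 4 * Real.log 2 - 15 / 16 * (Real.log 3 + Real.log 5) := by
  unfold gw
  have e1 : ((525 : ℕ) : ℝ) / 560 = 3 * 5 / 2 ^ 4 := by norm_num
  have e2 : (560 - ((525 : ℕ) : ℝ)) / 560 = 1 / 2 ^ 4 := by norm_num
  rw [e1, e2, Real.log_div (by norm_num) (by norm_num), Real.log_div (by norm_num) (by norm_num),
    Real.log_mul (by norm_num) (by norm_num), Real.log_pow, Real.log_one]
  push_cast
  ring

lemma gw_35 : gw 35 = 4 * Real.log 2 - 15 / 16 * (Real.log 3 + Real.log 5) := by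
  unfold gw
  have e2 : (560 - ((35 : ℕ) : ℝ)) / 560 = 3 * 5 / 2 ^ 4 := by norm_num
  have e1 : ((35 : ℕ) : ℝ) / 560 = 1 / 2 ^ 4 := by norm_num
  rw [e1, e2, Real.log_div (by norm_num) (by norm_num), Real.log_div (by norm_num) (by norm_num),
    Real.log_mul (by norm_num) (by norm_num), Real.log_pow, Real.log_one]
  push_cast
  ring

lemma gw_480 : gw 480 = Real.log 7 - 6 / 7 * (Real.log 2 + Real.log 3) := by
  unfold gw
  have e1 : ((480 : ℕ) : ℝ) / 560 = 2 * 3 / 7 := by norm_num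
  have e2 : (560 - ((480 : ℕ) : ℝ)) / 560 = 1 / 7 := by norm_num
  rw [e1, e2, Real.log_div (by norm_num) (by norm_num), Real.log_div (by norm_num) (by norm_num),
    Real.log_mul (by norm_num) (by norm_num), Real.log_one]
  ring

lemma gw_80 : gw 80 = Real.log 7 - 6 / 7 * (Real.log 2 + Real.log 3) := by
  unfold gw
  have e2 : (560 - ((80 : ℕ) : ℝ)) / 560 = 2 * 3 / 7 := by norm_num
  have e1 : ((80 : ℕ) : ℝ) / 560 = 1 / 7 := by norm_num
  rw [e1, e2, Real.log_div (by norm_num) (by norm_num), Real.log_div (by norm_num) (by norm_num),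
    Real.log_mul (by norm_num) (by norm_num), Real.log_one]
  ring

lemma gw_420 : gw 420 = 2 * Real.log 2 - 3 / 4 * Real.log 3 := by
  unfold gw
  have e1 : ((420 : ℕ) : ℝ) / 560 = 3 / 2 ^ 2 := by norm_num
  have e2 : (560 - ((420 : ℕ) : ℝ)) / 560 = 1 / 2 ^ 2 := by norm_num
  rw [e1, e2, Real.log_div (by norm_num) (by norm_num), Real.log_div (by norm_num) (by norm_num),
    Real.log_pow, Real.log_one]
  push_cast
  ring

lemma gw_140 : gw 140 = 2 * Real.log 2 - 3 / 4 * Real.log 3 := by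
  unfold gw
  have e2 : (560 - ((140 : ℕ) : ℝ)) / 560 = 3 / 2 ^ 2 := by norm_num
  have e1 : ((140 : ℕ) : ℝ) / 560 = 1 / 2 ^ 2 := by norm_num
  rw [e1, e2, Real.log_div (by norm_num) (by norm_num), Real.log_div (by norm_num) (by norm_num),
    Real.log_pow, Real.log_one]
  push_cast
  ring

lemma gw_336 : gw 336 = Real.log 5 - 2 / 5 * Real.log 2 - 3 / 5 * Real.log 3 := by
  unfold gw
  have e1 : ((336 : ℕ) : ℝ) / 560 = 3 / 5 := by norm_num
  have e2 : (560 - ((336 : ℕ) : ℝ)) / 560 = 2 / 5 := by (clear * -; norm_num)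
  rw [e1, e2, Real.log_div (by norm_num) (by norm_num), Real.log_div (by norm_num) (by norm_num)]
  ring

lemma gw_224 : gw 224 = Real.log 5 - 2 / 5 * Real.log 2 - 3 / 5 * Real.log 3 := by
  unfold gw
  have e2 : (560 - ((224 : ℕ) : ℝ)) / 560 = 3 / 5 := by norm_num
  have e1 : ((224 : ℕ) : ℝ) / 560 = 2 / 5 := by (clear * -; norm_num)
  rw [e1, e2, Real.log_div (by (clear * -; norm_num)) (by norm_num), Real.log_div (by norm_num) (by norm_num)]
  ring

lemma image_wt : (Finset.range 400).image wt = {525, 480, 420, 336, 224, 140, 80, 35} := by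
  (clear * -; decide +kernel)

lemma sum_entropy : 400 * 0.4448 ≤ ∑ k ∈ Finset.range 400, hw k := by
  have h1 : ∑ k ∈ Finset.range 400, hw k = ∑ k ∈ Finset.range 400, gw (wt k) :=
    Finset.sum_congr rfl fun k _ => hw_eq k
  rw [h1, Finset.sum_comp gw wt, image_wt]
  have c1 : #{a ∈ Finset.range 400 | wt a = 525} = 64 := by (clear * -; decide +kernel)
  have c2 : #{a ∈ Finset.range 400 | wt a = 480} = 51 := by decide +kernel
  have c3 : #{a ∈ Finset.range 400 | wt a = 420} = 37 := by decide +kernel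
  have c4 : #{a ∈ Finset.range 400 | wt a = 336} = 48 := by (clear * -; decide +kernel)
  have c5 : #{a ∈ Finset.range 400 | wt a = 224} = 48 := by decide +kernel
  have c6 : #{a ∈ Finset.range 400 | wt a = 140} = 37 := by (clear * -; decide +kernel)
  have c7 : #{a ∈ Finset.range 400 | wt a = 80} = 51 := by decide +kernel
  have c8 : #{a ∈ Finset.range 400 | wt a = 35} = 64 := by (clear * -; decide +kernel)
  have e : ∑ b ∈ ({525, 480, 420, 336, 224, 140, 80, 35} : Finset ℕ),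
      #{a ∈ Finset.range 400 | wt a = b} • gw b = 64 * gw 525 + 51 * gw 480 + 37 * gw 420
        + 48 * gw 336 + 48 * gw 224 + 37 * gw 140 + 51 * gw 80 + 64 * gw 35 := by
    rw [Finset.sum_insert (by decide), Finset.sum_insert (by decide),
      Finset.sum_insert (by decide), Finset.sum_insert (by decide),
      Finset.sum_insert (by decide), Finset.sum_insert (by decide),
      Finset.sum_insert (by decide), Finset.sum_singleton, c1, c2, c3, c4, c5, c6, c7, c8]
    simp only [nsmul_eq_mul]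
    push_cast
    ring
  rw [e, gw_525, gw_480, gw_420, gw_336, gw_224, gw_140, gw_80, gw_35]
  have := log7
  have := Real.log_two_gt_d9
  have := Real.log_two_lt_d9
  have := Real.log_three_gt_d9
  have := Real.log_three_lt_d9
  have := Real.log_five_gt_d9
  have := Real.log_five_lt_d9
  norm_num
  (clear h1 c1 c2 c3 c4 c5 c6 c7 c8 e; linarith)

lemma log_two_pi : Real.log (2 * Real.pi) ≤ 1.8379 := by
  have h1 := Real.pi_lt_d6
  have h0 := Real.pi_pos
  have h2 : Real.log (2 * Real.pi) = Real.log (25 / 4) + Real.log (2 * Real.pi / (25 / 4)) := by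
    rw [← Real.log_mul (by (clear * -; norm_num)) (by (clear * -; positivity))]
    congr 1
    field_simp
  have h3 : Real.log (2 * Real.pi / (25 / 4)) ≤ 2 * Real.pi / (25 / 4) - 1 :=
    Real.log_le_sub_one_of_pos (by positivity)
  have h4 : Real.log (25 / 4) = 2 * Real.log 5 - 2 * Real.log 2 := by
    have e1 : (25 : ℝ) / 4 = 5 ^ 2 / 2 ^ 2 := by norm_num
    rw [e1, Real.log_div (by norm_num) (by norm_num), Real.log_pow, Real.log_pow]
    norm_num
  have := Real.log_two_gt_d9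
  have := Real.log_five_lt_d9
  rw [h2, h4]
  norm_num at *
  linarith

lemma log_a : 0.9547 ≤ Real.log (13 / 5) := by
  have h2 : Real.log (13 / 5) = Real.log (5 / 2) + Real.log (26 / 25) := by
    rw [← Real.log_mul (by norm_num) (by norm_num)]
    congr 1
    norm_num
  have h3 := Real.one_sub_inv_le_log_of_pos (show (0 : ℝ) < 26 / 25 by norm_num)
  have h4 : Real.log (5 / 2) = Real.log 5 - Real.log 2 :=
    Real.log_div (by norm_num) (by norm_num)
  have := Real.log_two_lt_d9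
  have := Real.log_five_gt_d9
  rw [h2, h4]
  norm_num at *
  linarith


section ClassSum

variable {I : Type*} [Fintype I]

lemma class_sum_eq (M : ℕ) (κ : I → ℕ) (hκ : ∀ i, κ i < M) (F : ℕ → ℝ) :
    ∑ i, F (κ i) = ∑ k ∈ Finset.range M, ((Finset.univ.filter fun i => κ i = k).card : ℝ) * F k := by
  have h1 : ∀ i, F (κ i) = ∑ k ∈ Finset.range M, if κ i = k then F k else 0 := by
    intro i
    rw [Finset.sum_ite_eq]
    rw [if_pos (Finset.mem_range.mpr (hκ i))]
  rw [Finset.sum_congr rfl fun i _ => h1 i, Finset.sum_comm]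
  apply Finset.sum_congr rfl
  intro k _
  rw [← Finset.sum_filter, Finset.sum_const, nsmul_eq_mul]

lemma class_sum_le (M : ℕ) (hM : 1 ≤ M) (κ : I → ℕ) (hκ : ∀ i, κ i < M) (F : ℕ → ℝ)
    (N η B : ℝ) (hN : 0 < N) (hη : 0 ≤ η)
    (hc : ∀ k < M, |((Finset.univ.filter fun i => κ i = k).card : ℝ) / N - 1 / M| ≤ η)
    (hF : ∀ k < M, 0 ≤ F k ∧ F k ≤ B) :
    ∑ i, F (κ i) ≤ N * ((∑ k ∈ Finset.range M, F k) / M + η * M * B) := by
  have hM0 : (0 : ℝ) < M := by
    have : 0 < M := by omega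
    exact_mod_cast this
  rw [class_sum_eq M κ hκ F]
  calc ∑ k ∈ Finset.range M, ((Finset.univ.filter fun i => κ i = k).card : ℝ) * F k
      ≤ ∑ k ∈ Finset.range M, (N / M * F k + N * η * B) := by
        apply Finset.sum_le_sum
        intro k hk
        have hk' := Finset.mem_range.mp hk
        have h1 := (abs_le.mp (hc k hk')).2
        have h2 : ((Finset.univ.filter fun i => κ i = k).card : ℝ) ≤ N * (1 / M + η) := by
          have : ((Finset.univ.filter fun i => κ i = k).card : ℝ) / N ≤ 1 / M + η := by linarith only [h1]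
          rwa [div_le_iff₀ hN, mul_comm] at this
        obtain ⟨h3, h4⟩ := hF k hk'
        calc ((Finset.univ.filter fun i => κ i = k).card : ℝ) * F k
            ≤ (N * (1 / M + η)) * F k := mul_le_mul_of_nonneg_right h2 h3
          _ = N / M * F k + N * η * F k := by ring
          _ ≤ N / M * F k + N * η * B := by
            have : N * η * F k ≤ N * η * B := mul_le_mul_of_nonneg_left h4 (by (clear * - hN hη; positivity))
            linarith only [this]
    _ = N * ((∑ k ∈ Finset.range M, F k) / M + η * M * B) := by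
        rw [Finset.sum_add_distrib, ← Finset.mul_sum, Finset.sum_const, Finset.card_range,
          nsmul_eq_mul]
        ring

lemma class_sum_ge (M : ℕ) (hM : 1 ≤ M) (κ : I → ℕ) (hκ : ∀ i, κ i < M) (F : ℕ → ℝ)
    (N η B : ℝ) (hN : 0 < N) (hη : 0 ≤ η)
    (hc : ∀ k < M, |((Finset.univ.filter fun i => κ i = k).card : ℝ) / N - 1 / M| ≤ η)
    (hF : ∀ k < M, 0 ≤ F k ∧ F k ≤ B) :
    N * ((∑ k ∈ Finset.range M, F k) / M - η * M * B) ≤ ∑ i, F (κ i) := by
  have hM0 : (0 : ℝ) < M := by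
    have : 0 < M := by omega
    exact_mod_cast this
  rw [class_sum_eq M κ hκ F]
  calc N * ((∑ k ∈ Finset.range M, F k) / M - η * M * B)
      = ∑ k ∈ Finset.range M, (N / M * F k - N * η * B) := by
        rw [Finset.sum_sub_distrib, ← Finset.mul_sum, Finset.sum_const, Finset.card_range,
          nsmul_eq_mul]
        ring
    _ ≤ ∑ k ∈ Finset.range M, ((Finset.univ.filter fun i => κ i = k).card : ℝ) * F k := by
        apply Finset.sum_le_sum
        intro k hk
        have hk' := Finset.mem_range.mp hk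
        have h1 := (abs_le.mp (hc k hk')).1
        have h2 : N * (1 / M - η) ≤ ((Finset.univ.filter fun i => κ i = k).card : ℝ) := by
          have : 1 / M - η ≤ ((Finset.univ.filter fun i => κ i = k).card : ℝ) / N := by linarith only [h1]
          rwa [le_div_iff₀ hN, mul_comm] at this
        obtain ⟨h3, h4⟩ := hF k hk'
        calc N / M * F k - N * η * B ≤ N / M * F k - N * η * F k := by
              have : N * η * F k ≤ N * η * B := mul_le_mul_of_nonneg_left h4 (by (clear * - hN hη; positivity))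
              linarith only [this]
          _ = (N * (1 / M - η)) * F k := by ring
          _ ≤ _ := mul_le_mul_of_nonneg_right h2 h3

end ClassSum

/-- low index type -/
abbrev Lo (L q : ℕ) : Type := (Fin L → Fin 400) × Fin q

/-- the lattice basis -/
noncomputable def AA (L q : ℕ) : Matrix (Fin L ⊕ Lo L q) (Fin L ⊕ Lo L q) ℝ :=
  Matrix.fromBlocks 1 0 (Matrix.of fun (i : Lo L q) (j : Fin L) => 13 / 2000 * ((i.1 j : ℕ) : ℝ))
    ((13 / 5 : ℝ) • (1 : Matrix (Lo L q) (Lo L q) ℝ))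

lemma det_AA (L q : ℕ) : (AA L q).det = (13 / 5 : ℝ) ^ (400 ^ L * q) := by
  unfold AA
  rw [Matrix.det_fromBlocks_zero₁₂, Matrix.det_one, one_mul, Matrix.det_smul, Matrix.det_one,
    mul_one]
  congr 1
  simp only [Fintype.card_prod, Fintype.card_pi, Fintype.card_fin, prod_const, card_univ]

lemma AA_top (L q : ℕ) (z : Fin L ⊕ Lo L q → ℝ) (j : Fin L) :
    (AA L q).mulVec z (Sum.inl j) = z (Sum.inl j) := by
  unfold AA
  rw [Matrix.fromBlocks_mulVec]
  simp only [Matrix.one_mulVec, Matrix.zero_mulVec, add_zero, Sum.elim_inl, Function.comp_apply]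

lemma AA_low (L q : ℕ) (z : Fin L ⊕ Lo L q → ℝ) (i : Lo L q) :
    (AA L q).mulVec z (Sum.inr i) = 13 / 2000 * ∑ j, ((i.1 j : ℕ) : ℝ) * z (Sum.inl j)
      + 13 / 5 * z (Sum.inr i) := by
  unfold AA
  rw [Matrix.fromBlocks_mulVec]
  simp only [Sum.elim_inr, Pi.add_apply, Matrix.smul_mulVec, Matrix.one_mulVec, Pi.smul_apply,
    smul_eq_mul, Function.comp_apply]
  congr 1
  rw [Matrix.mulVec, dotProduct, Finset.mul_sum]
  apply Finset.sum_congr rfl
  intro j _
  simp only [Matrix.of_apply, Function.comp_apply]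
  ring

lemma core (L q : ℕ) (hL : 1 ≤ L) (hq : 1 ≤ q)
    (hequi : ∀ s : Lo L q → ℕ, ∃ j : Fin L, ∀ k : ℕ, k < 400 →
      |((Finset.univ.filter (fun i : Lo L q => (s i + (i.1 j : ℕ)) % 400 = k)).card : ℝ)
        / ((400 : ℕ) ^ L * q) - 1 / (400 : ℕ)| ≤ 1 / 10 ^ 7)
    (hbig : (10 : ℝ) ^ 10 * (L + 1) ≤ (400 : ℝ) ^ L * q)
    (y : Fin L ⊕ Lo L q → ℝ) :
    ∃ (z₀ : Fin L ⊕ Lo L q → ℤ) (P : Finset (Fin L ⊕ Lo L q → ℤ)),
      Real.exp (0.444 * (L + (400 : ℝ) ^ L * q)) ≤ P.card ∧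
      (∀ z ∈ P, ∀ a, z a = z₀ a ∨ z a = z₀ a + 1) ∧
      ∀ z ∈ P, ∑ i, (y i + (AA L q).mulVec (fun a => (z a : ℝ)) i) ^ 2
        ≤ 1.0011 * (L + (400 : ℝ) ^ L * q) := by
  classical
  set N : ℝ := (400 : ℝ) ^ L * q with hN
  have hN0 : 0 < N := by
    have : 0 < q := by omega
    positivity
  have hcardI : (Fintype.card (Lo L q) : ℝ) = N := by
    simp only [Fintype.card_prod, Fintype.card_pi, Fintype.card_fin, prod_const, card_univ, Nat.cast_mul, Nat.cast_pow, Nat.cast_ofNat, hN]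
  -- top part
  let zt : Fin L → ℤ := fun j => -⌊y (Sum.inl j)⌋ - 1
  -- base phases
  let b : Lo L q → ℝ := fun i =>
    (y (Sum.inr i) + 13 / 2000 * ∑ j, ((i.1 j : ℕ) : ℝ) * (zt j : ℝ)) * (2000 / 13)
  let n : Lo L q → ℤ := fun i => ⌊b i⌋
  let s : Lo L q → ℕ := fun i => (n i % 400).toNat
  obtain ⟨j, hj⟩ := hequi s
  let κ : Lo L q → ℕ := fun i => (s i + (i.1 j : ℕ)) % 400
  have hκ : ∀ i, κ i < 400 := fun i => Nat.mod_lt _ (by norm_num)
  -- integer decomposition
  let D : Lo L q → ℤ := fun i => (n i + (i.1 j : ℕ)) / 400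
  have hD : ∀ i, n i + ((i.1 j : ℕ) : ℤ) = 400 * D i + κ i := by
    intro i
    have h1 : ((s i : ℕ) : ℤ) = n i % 400 :=
      Int.toNat_of_nonneg (Int.emod_nonneg _ (by norm_num))
    have h2 : ((κ i : ℕ) : ℤ) = (n i + ((i.1 j : ℕ) : ℤ)) % 400 := by
      change (((s i + (i.1 j : ℕ)) % 400 : ℕ) : ℤ) = _
      push_cast
      rw [h1, Int.emod_add_emod]
    rw [h2]
    change _ = 400 * ((n i + ((i.1 j : ℕ) : ℤ)) / 400) + _
    rw [Int.mul_ediv_add_emod]
  let ztop : Fin L → ℤ := fun a => zt a + if a = j then 1 else 0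
  let z0 : Fin L ⊕ Lo L q → ℤ := Sum.elim ztop (fun i => -D i - 1)
  let zz : (Lo L q → Bool) → (Fin L ⊕ Lo L q → ℤ) := fun ω =>
    Sum.elim ztop (fun i => -D i - 1 + if ω i then 1 else 0)
  have hzz : Function.Injective zz := by
    intro ω ω' h
    funext i
    have h1 := congrFun h (Sum.inr i)
    simp only [zz, Sum.elim_inr] at h1
    cases h2 : ω i <;> cases h3 : ω' i <;> simp only [h2, h3, if_true, Bool.false_eq_true,
      if_false] at h1 ⊢ <;> omega
  -- typical set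
  obtain ⟨P, hP1, hP2⟩ := typical (I := Lo L q) (fun i => ww (κ i)) (fun i => cw (κ i)) 7
    (3 / 10000) (by norm_num)
    (fun i b => by have := (ww_bounds (κ i) b).1; linarith only [this])
    (fun i => ww_sum (κ i))
    (fun i b => by
      obtain ⟨h1, h2⟩ := cw_bounds (κ i) (hκ i) b
      rw [abs_of_nonneg h1]
      exact h2)
    (fun i b => abs_log_ww (κ i) b)
    (by
      have : (0 : ℝ) < Fintype.card (Lo L q) := by rw [hcardI]; exact hN0
      exact_mod_cast this)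
    (by
      rw [hcardI]
      have : (0 : ℝ) ≤ L := by positivity
      norm_num at hbig ⊢
      linarith only [hbig])
  rw [hcardI] at hP1 hP2
  have hcl : ∀ k < 400, |((Finset.univ.filter fun i => κ i = k).card : ℝ) / N - 1 / (400 : ℕ)|
      ≤ 1 / 10 ^ 7 := by
    intro k hk
    have := hj k hk
    push_cast at this ⊢
    exact this
  have hL0 : (0 : ℝ) ≤ L := by positivity
  have hL1 : (1 : ℝ) ≤ L := by exact_mod_cast hL
  refine ⟨z0, P.image zz, ?_, ?_, ?_⟩
  · rw [Finset.card_image_of_injective _ hzz]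
    refine le_trans ?_ hP1
    have h1 := class_sum_ge 400 (by norm_num) κ hκ hw N (1 / 10 ^ 7) 7 hN0 (by norm_num) hcl
      (fun k _ => ⟨hw_nonneg k, hw_le k⟩)
    have h2 := sum_entropy
    have h3 : ∑ i, ∑ b, -(ww (κ i) b * Real.log (ww (κ i) b)) = ∑ i, hw (κ i) := rfl
    rw [h3]
    have h4 : N * (0.4448 - 1 / 10 ^ 7 * 400 * 7) ≤ ∑ i, hw (κ i) := by
      refine le_trans ?_ h1
      apply mul_le_mul_of_nonneg_left _ hN0.le
      have : (0.4448 : ℝ) ≤ (∑ k ∈ Finset.range 400, hw k) / (400 : ℕ) := by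
        rw [le_div_iff₀ (by norm_num)]
        push_cast
        linarith only [h2]
      push_cast at this ⊢
      linarith only [h2]
    have h5 : Real.exp (-1) ≤ 1 / 2 := by
      rw [Real.exp_neg, inv_eq_one_div]
      apply one_div_le_one_div_of_le (by norm_num)
      have := Real.exp_one_gt_d9
      linarith only [this]
    calc Real.exp (0.444 * (L + N))
        ≤ Real.exp (-1) * Real.exp (∑ i, hw (κ i) - 3 / 10000 * N) := by
          rw [← Real.exp_add]
          apply Real.exp_le_exp.mpr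
          norm_num at h4 hbig ⊢
          linarith only [hbig, h4]
      _ ≤ 1 / 2 * Real.exp (∑ i, hw (κ i) - 3 / 10000 * N) := by
          apply mul_le_mul_of_nonneg_right h5 (Real.exp_pos _).le
  · intro z hz a
    rw [Finset.mem_image] at hz
    obtain ⟨ω, _, rfl⟩ := hz
    cases a with
    | inl a => left; rfl
    | inr i =>
      simp only [zz, z0, Sum.elim_inr]
      cases ω i <;> simp
  · intro z hz
    rw [Finset.mem_image] at hz
    obtain ⟨ω, hω, rfl⟩ := hz
    rw [Fintype.sum_sum_type]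
    have htop : ∑ a : Fin L, (y (Sum.inl a)
        + (AA L q).mulVec (fun c => (zz ω c : ℝ)) (Sum.inl a)) ^ 2 ≤ L := by
      calc ∑ a : Fin L, (y (Sum.inl a)
            + (AA L q).mulVec (fun c => (zz ω c : ℝ)) (Sum.inl a)) ^ 2
          ≤ ∑ a : Fin L, (1 : ℝ) := by
            apply Finset.sum_le_sum
            intro a _
            rw [AA_top]
            have e1 : ((zz ω (Sum.inl a) : ℤ) : ℝ)
                = -(⌊y (Sum.inl a)⌋ : ℝ) - 1 + (if a = j then 1 else 0) := by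
              simp only [zz, ztop, zt, Sum.elim_inl]
              push_cast
              split_ifs <;> simp
            rw [e1]
            have h1 := Int.floor_le (y (Sum.inl a))
            have h2 := Int.lt_floor_add_one (y (Sum.inl a))
            rw [sq_le_one_iff_abs_le_one, abs_le]
            split_ifs <;> constructor <;> linarith only [h1, h2]
        _ = L := by simp only [sum_const, card_univ, Fintype.card_fin, nsmul_eq_mul, mul_one]
    have hlow : ∑ i : Lo L q, (y (Sum.inr i)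
        + (AA L q).mulVec (fun c => (zz ω c : ℝ)) (Sum.inr i)) ^ 2
        ≤ ∑ i, cw (κ i) (ω i) := by
      apply Finset.sum_le_sum
      intro i _
      rw [AA_low]
      have e1 : ∑ c, ((i.1 c : ℕ) : ℝ) * ((zz ω (Sum.inl c) : ℤ) : ℝ)
          = ∑ c, ((i.1 c : ℕ) : ℝ) * (zt c : ℝ) + ((i.1 j : ℕ) : ℝ) := by
        have : ∀ c, ((i.1 c : ℕ) : ℝ) * ((zz ω (Sum.inl c) : ℤ) : ℝ)
            = ((i.1 c : ℕ) : ℝ) * (zt c : ℝ) + if c = j then ((i.1 c : ℕ) : ℝ) else 0 := by
          intro c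
          simp only [zz, ztop, Sum.elim_inl]
          split_ifs <;> push_cast <;> ring
        rw [Finset.sum_congr rfl fun c _ => this c, Finset.sum_add_distrib,
          Finset.sum_ite_eq' Finset.univ j (fun c => ((i.1 c : ℕ) : ℝ))]
        simp only [mem_univ, ↓reduceIte]
      have e2 : ((zz ω (Sum.inr i) : ℤ) : ℝ) = -(D i : ℝ) - 1 + (if ω i then 1 else 0) := by
        simp only [zz, Sum.elim_inr]
        push_cast
        split_ifs <;> simp
      rw [e1, e2]
      have hb : y (Sum.inr i) + 13 / 2000 * ∑ c, ((i.1 c : ℕ) : ℝ) * (zt c : ℝ)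
          = 13 / 2000 * b i := by
        simp only [b]
        ring
      have hfl1 := Int.floor_le (b i)
      have hfl2 := Int.lt_floor_add_one (b i)
      have hDr : (n i : ℝ) + ((i.1 j : ℕ) : ℝ) = 400 * (D i : ℝ) + (κ i : ℝ) := by
        exact_mod_cast hD i
      have hn : ((⌊b i⌋ : ℤ) : ℝ) = (n i : ℝ) := rfl
      rw [hn] at hfl1 hfl2
      have hκ1 : (κ i : ℝ) + 1 ≤ 400 := by exact_mod_cast hκ i
      have hκ0 : (0 : ℝ) ≤ (κ i : ℝ) := by (clear * -; positivity)
      have e3 : y (Sum.inr i) + (13 / 2000 * (∑ c, ((i.1 c : ℕ) : ℝ) * (zt c : ℝ)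
          + ((i.1 j : ℕ) : ℝ)) + 13 / 5 * (-(D i : ℝ) - 1 + (if ω i then 1 else 0)))
          = 13 / 2000 * ((b i - n i) + κ i + (if ω i then 0 else -400)) := by
        have h1 : (if ω i then (0 : ℝ) else -400) = 400 * (-1 + (if ω i then 1 else 0)) := by
          split_ifs <;> norm_num
        rw [h1]
        linear_combination hb + 13 / 2000 * hDr
      rw [e3, mul_pow]
      unfold cw
      cases ω i
      · simp only [Bool.false_eq_true, if_false]
        apply mul_le_mul_of_nonneg_left _ (by norm_num)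
        have h5 : |b i - n i + κ i + -400| ≤ |400 - (κ i : ℝ)| := by
          rw [abs_of_nonpos (by linarith only [hfl2, hκ1]), abs_of_nonneg (by linarith only [hκ1])]
          linarith only [hfl1]
        exact sq_le_sq.mpr h5
      · simp only [if_true, add_zero]
        apply mul_le_mul_of_nonneg_left _ (by norm_num)
        have h5 : |b i - n i + κ i| ≤ |(κ i : ℝ) + 1| := by
          rw [abs_of_nonneg (by linarith only [hfl1]), abs_of_nonneg (by linarith only [])]
          linarith only [hfl2]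
        exact sq_le_sq.mpr h5
    have h1 := hP2 ω hω
    have h2 := class_sum_le 400 (by norm_num) κ hκ (fun k => ∑ b, ww k b * cw k b) N
      (1 / 10 ^ 7) 7 hN0 (by (clear * -; norm_num)) hcl
      (fun k hk => by
        constructor
        · apply Finset.sum_nonneg
          intro b _
          exact mul_nonneg (by have := (ww_bounds k b).1; linarith only [this]) (cw_bounds k hk b).1
        · calc ∑ b, ww k b * cw k b ≤ ∑ b, ww k b * 7 := by
                apply Finset.sum_le_sum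
                intro b _
                exact mul_le_mul_of_nonneg_left (cw_bounds k hk b).2
                  (by have := (ww_bounds k b).1; linarith only [this])
            _ = 7 := by rw [← Finset.sum_mul, ww_sum, one_mul])
    have h3 := sum_cost
    have h4 : ∑ i, ∑ b, ww (κ i) b * cw (κ i) b ≤ N * (1.0002 + 1 / 10 ^ 7 * 400 * 7) := by
      refine h2.trans ?_
      apply mul_le_mul_of_nonneg_left _ hN0.le
      have : (∑ k ∈ Finset.range 400, ∑ b, ww k b * cw k b) / (400 : ℕ) ≤ (1.0002 : ℝ) := by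
        rw [div_le_iff₀ (by norm_num)]
        push_cast
        linarith only [h3]
      push_cast at this ⊢
      linarith only [h3]
    norm_num at h4 hbig h1 ⊢
    linarith only [h1, hbig, h4, hlow, htop]

end Tree

open Vale.Agent.P230.Tree

theorem tree_lattice : ∃ Q V E : ℝ, 0 < Q ∧ V ≤ 1.049 * Q ∧ 1 / 2 ≤ E ∧ E ≤ 2 ∧
    ∃ L m q₀ : ℕ, 1 ≤ m ∧ ∀ q ≥ q₀, ∀ t : ℕ, t = L + m * q →
      ∃ ML : Matrix (Fin t) (Fin t) ℝ, ML.det ≠ 0 ∧
        (2 * Real.pi) ^ ((t : ℝ) / 2) * Real.exp (E * t / 2) ≤ Real.exp (V * t) * |ML.det| ∧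
        ∀ y : Fin t → ℝ, ∃ (z₀ : Fin t → ℤ) (P : Finset (Fin t → ℤ)),
          Real.exp (Q * t) ≤ P.card ∧ (∀ z ∈ P, ∀ a, z a = z₀ a ∨ z a = z₀ a + 1) ∧
          ∀ z ∈ P, ∑ i, (y i + ML.mulVec (fun a => (z a : ℝ)) i) ^ 2 ≤ E * t := by
  obtain ⟨L, hL, hequi⟩ := equi 400 (by norm_num) (1 / 10 ^ 7) (by norm_num)
  refine ⟨0.444, 0.4655, 1.0011, by norm_num, by norm_num, by norm_num, by norm_num,
    L, 400 ^ L, 10 ^ 10 * (L + 1), Nat.one_le_pow _ _ (by norm_num), ?_⟩
  intro q hq t ht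
  have hq1 : 1 ≤ q := by
    refine le_trans ?_ hq
    exact Nat.one_le_iff_ne_zero.mpr (by positivity)
  set N : ℝ := (400 : ℝ) ^ L * q with hN
  have hN0 : 0 < N := by
    have : 0 < q := by omega
    positivity
  have htr : (t : ℝ) = L + N := by
    rw [ht, hN]
    push_cast
    ring
  have hbig : (10 : ℝ) ^ 10 * (L + 1) ≤ N := by
    have h1 : ((10 ^ 10 * (L + 1) : ℕ) : ℝ) ≤ q := by exact_mod_cast hq
    push_cast at h1
    have h2 : (1 : ℝ) ≤ (400 : ℝ) ^ L := one_le_pow₀ (by norm_num)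
    have h3 : (0 : ℝ) ≤ q := by positivity
    rw [hN]
    nlinarith only [h1, h2]
  have hcard : Fintype.card (Fin L ⊕ Lo L q) = t := by
    rw [ht]
    simp only [Fintype.card_sum, Fintype.card_fin, Fintype.card_prod, Fintype.card_pi, prod_const, card_univ, Nat.add_left_cancel_iff]
  let e : (Fin L ⊕ Lo L q) ≃ Fin t := Fintype.equivFinOfCardEq hcard
  refine ⟨Matrix.reindex e e (AA L q), ?_, ?_, ?_⟩
  · rw [Matrix.det_reindex_self, det_AA]
    positivity
  · rw [Matrix.det_reindex_self, det_AA, abs_of_pos (by positivity)]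
    have h1 : (2 * Real.pi) ^ ((t : ℝ) / 2) = Real.exp (Real.log (2 * Real.pi) * (t / 2)) := by
      rw [Real.rpow_def_of_pos (by positivity)]
    have h2 : (13 / 5 : ℝ) ^ (400 ^ L * q) = Real.exp (N * Real.log (13 / 5)) := by
      rw [← Real.rpow_natCast, Real.rpow_def_of_pos (by norm_num), mul_comm]
      push_cast
      rfl
    rw [h1, h2, ← Real.exp_add, ← Real.exp_add]
    apply Real.exp_le_exp.mpr
    have h3 := log_two_pi
    have h4 := log_a
    have hL0 : (0 : ℝ) ≤ L := by positivity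
    have h5 : Real.log (2 * Real.pi) * (t / 2) ≤ 1.8379 * (t / 2) :=
      mul_le_mul_of_nonneg_right h3 (by (clear * -; positivity))
    have h6 : N * 0.9547 ≤ N * Real.log (13 / 5) := mul_le_mul_of_nonneg_left h4 hN0.le
    rw [htr] at h5 ⊢
    norm_num at h5 h6 hbig ⊢
    linarith only [hbig, h6, h5]
  · intro y
    obtain ⟨z0, P, h1, h2, h3⟩ := core L q hL hq1 (hequi q hq1) hbig (y ∘ e)
    have hinj : Function.Injective (fun z : Fin L ⊕ Lo L q → ℤ => z ∘ e.symm) := by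
      intro z z' h
      funext a
      have := congrFun h (e a)
      simpa using this
    refine ⟨z0 ∘ e.symm, P.map ⟨fun z => z ∘ e.symm, hinj⟩, ?_, ?_, ?_⟩
    · rw [Finset.card_map, htr]
      exact h1
    · intro z hz a
      rw [Finset.mem_map] at hz
      obtain ⟨z', hz', rfl⟩ := hz
      exact h2 z' hz' (e.symm a)
    · intro z hz
      rw [Finset.mem_map] at hz
      obtain ⟨z', hz', rfl⟩ := hz
      rw [htr]
      refine le_trans (le_of_eq ?_) (h3 z' hz')
      rw [← e.sum_comp]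
      apply Finset.sum_congr rfl
      intro i _
      have h5 : (Matrix.reindex e e (AA L q)).mulVec (fun a => ((z' (e.symm a) : ℤ) : ℝ)) (e i)
          = (AA L q).mulVec (fun a => (z' a : ℝ)) i := by
        rw [Matrix.reindex_apply, Matrix.submatrix_mulVec_equiv]
        simp only [Function.comp_apply, Equiv.symm_apply_apply, Equiv.symm_symm]
        congr 1
        funext a
        simp
      change (y (e i) + (Matrix.reindex e e (AA L q)).mulVec
        (fun a => ((z' (e.symm a) : ℤ) : ℝ)) (e i)) ^ 2 = _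
      rw [h5]
      rfl

end Vale.Agent.P230
end
end
end

section

section

section

namespace Vale.Agent.P230

open MeasureTheory Finset

end Vale.Agent.P230
end
end
end

section

section

section

namespace Vale.Agent.P230

open MeasureTheory Finset

theorem baseAt_of_single : ∃ c₂ c₃ c₄ : ℝ, 0 < c₂ ∧ 0 < c₃ ∧ 0 < c₄ ∧ c₄ ≤ 1 ∧
    ∃ N₀ : ℕ, ∀ N ≥ N₀, BaseAt N c₂ c₄ (Real.exp (-c₃ * N)) := by
  obtain ⟨c₂, c₃, c₄, h2, h3, h4, h41, N₀, h⟩ := base_single
  refine ⟨c₂, c₃, c₄, h2, h3, h4, h41, N₀, fun N hN K hK lam hl1 hl2 p hp h5 h6 => ?_⟩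
  exact h N hN K hK lam hl1 hl2 p h5 h6

end Vale.Agent.P230
end
end
end

section

section

section

namespace Vale.Agent.P230

open MeasureTheory Finset Filter

end Vale.Agent.P230
end
end
end

section

section

section

namespace Vale.Agent.P230

open MeasureTheory Finset
open scoped Pointwise ENNReal

theorem ball_shrink : ∃ C : ℝ, 0 < C ∧ ∃ t₀ : ℕ, ∀ t ≥ t₀, ∀ N n : ℕ, N + t = n →
    Real.exp ((t : ℝ) ^ 3) ≤ n → ∀ E : ℝ, 1 / 2 ≤ E → E ≤ 2 →
    ∀ K₀ : Set (Fin (N + t) → ℝ), Convex ℝ K₀ → IsCompact K₀ → (interior K₀).Nonempty →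
    ∃ (A₀ : Matrix (Fin (N + t)) (Fin (N + t)) ℝ) (v₀ : Fin (N + t) → ℝ)
      (T : (Fin t → ℝ) → Set (Fin N → ℝ)) (g : ℝ), A₀.det ≠ 0 ∧ 0 < g ∧
      (∀ b : Fin t → ℝ, ∑ i, b i ^ 2 ≤ E * t →
        Convex ℝ (T b) ∧ IsCompact (T b) ∧ (∀ x ∈ T b, ∀ i, |x i| ≤ 1) ∧
        (∃ x₀ : Fin N → ℝ, ∀ x : Fin N → ℝ,
          (∀ i, 0 ≤ x i ∧ x i ≤ 1 / (8 * Real.sqrt t * (n : ℝ) ^ 2)) → x₀ + x ∈ T b) ∧
        ENNReal.ofReal g ≤ volume (T b) ∧ volume (T b) ≤ ENNReal.ofReal (2 ^ N * g)) ∧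
      volume {x : Fin (N + t) → ℝ | A₀.mulVec x + v₀ ∈ K₀} ≤
        ENNReal.ofReal (C * t * (2 * Real.pi) ^ ((t : ℝ) / 2) * Real.exp (E * t / 2) * g) ∧
      ∀ b : Fin t → ℝ, ∑ i, b i ^ 2 ≤ E * t → ∀ a : Fin t → ℝ, ∑ i, a i ^ 2 ≤ E * t →
        ∀ x ∈ T b, ∀ x' ∈ T a,
          A₀.mulVec (Fin.append (x + (1 / (n : ℝ)) • x') (b + (1 / (n : ℝ)) • a)) + v₀ ∈ K₀ := by
  obtain ⟨c, hc, t₁, hpick⟩ := pick_G
  obtain ⟨t₂, hslice⟩ := slices_of_kernel c hc
  obtain ⟨t₃, ht₃, hnum⟩ := ball_numeric c hc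
  refine ⟨36 / c, by positivity, max t₁ (max t₂ t₃), ?_⟩
  intro t ht N n hNn hexp E hE1 hE2 K₀ hK₀c hK₀k hK₀i
  have ht1 : t ≥ t₁ := (le_max_left _ _).trans ht
  have ht2 : t ≥ t₂ := (le_max_left _ _).trans ((le_max_right _ _).trans ht)
  have ht3 : t ≥ t₃ := (le_max_right _ _).trans ((le_max_right _ _).trans ht)
  have ht1' : 1 ≤ t := ht₃.trans ht3
  have ht0 : (0 : ℝ) < t := by exact_mod_cast ht1'
  obtain ⟨hbig, hnum2⟩ := hnum t ht3
  obtain ⟨hn2, hE'3, hE'h, hexpE, hpow⟩ := hnum2 N n hNn hexp E hE1 hE2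
  -- the position with identity moments
  obtain ⟨A₁, hA₁, hiso⟩ := exists_isotropic K₀ hK₀c hK₀k hK₀i
  set K₁ : Set (Fin (N + t) → ℝ) := {x | A₁.mulVec x ∈ K₀} with hK₁
  have hA₁u : IsUnit A₁.det := isUnit_iff_ne_zero.2 hA₁
  have hK₁c : Convex ℝ K₁ := by
    intro x hx y hy a b ha hb hab
    have h1 := hK₀c hx hy ha hb hab
    rw [← Matrix.mulVec_smul, ← Matrix.mulVec_smul, ← Matrix.mulVec_add] at h1
    exact h1
  have hK₁k : IsCompact K₁ := by
    have e : K₁ = (fun y => A₁⁻¹.mulVec y) '' K₀ := by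
      ext x
      constructor
      · intro hx
        refine ⟨_, hx, ?_⟩
        simp only
        rw [Matrix.mulVec_mulVec, Matrix.nonsing_inv_mul A₁ hA₁u, Matrix.one_mulVec]
      · rintro ⟨y, hy, rfl⟩
        rw [hK₁, Set.mem_ofPred_eq, Matrix.mulVec_mulVec, Matrix.mul_nonsing_inv A₁ hA₁u,
          Matrix.one_mulVec]
        exact hy
    rw [e]
    exact hK₀k.image (Continuous.matrix_mulVec continuous_const continuous_id)
  have hvolK₀ : 0 < volume K₀ := hK₀i.mono interior_subset |> fun _ =>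
    lt_of_lt_of_le (isOpen_interior.measure_pos volume hK₀i) (measure_mono interior_subset)
  have hvolK₁ : 0 < volume K₁ := by
    have h1 := volume_affine K₀ A₁ 0 hA₁
    simp only [add_zero] at h1
    rw [h1] at hvolK₀
    rw [pos_iff_ne_zero]
    intro h0
    rw [← hK₁, h0, mul_zero] at hvolK₀
    exact lt_irrefl _ hvolK₀
  -- the projection
  obtain ⟨G, hG⟩ := hpick t ht1 (N + t) (by rw [hNn]; exact hexp) K₁ hK₁c hK₁k hvolK₁ hiso
  have hGs := surj_of_kernel c ht1' K₁ hK₁k hvolK₁ G hbig hG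
  obtain ⟨A₂, hA₂, hGA⟩ := exists_coords G hGs
  set K₂ : Set ((Fin N → ℝ) × (Fin t → ℝ)) := {q | A₂.mulVec (Fin.append q.1 q.2) ∈ K₁} with hK₂
  have haff₂ : AffEq K₀ K₂ := by
    refine ⟨A₁ * A₂, 0, ?_, ?_⟩
    · rw [Matrix.det_mul]
      exact mul_ne_zero hA₁ hA₂
    · ext q
      simp only [hK₂, hK₁, Set.mem_ofPred_eq, add_zero, Matrix.mulVec_mulVec]
  have hK₂c : Convex ℝ K₂ := haff₂.convex hK₀c
  have hK₂k : IsCompact K₂ := haff₂.compact hK₀k
  have hvt := volume_transfer K₁ A₂ hA₂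
  rw [← hK₂] at hvt
  have hvolK₂ : 0 < volume K₂ := by
    rw [pos_iff_ne_zero]
    intro h0
    rw [hvt, h0, mul_zero] at hvolK₁
    exact lt_irrefl _ hvolK₁
  have hdet2 : 0 < |A₂.det| := abs_pos.2 hA₂
  have hvr : (volume K₁).toReal = |A₂.det| * (volume K₂).toReal := by
    rw [hvt, ENNReal.toReal_mul, ENNReal.toReal_ofReal hdet2.le]
  have hker : ∀ b : Fin t → ℝ, ∑ i, b i ^ 2 ≤ 4 * t →
      c / t * (volume K₂).toReal * (1 / (t : ℝ) ^ 2) ^ t * Real.exp (-(∑ i, b i ^ 2) / 2) ≤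
        ∫ q in K₂, Real.exp (-(∑ i, (q.2 i - b i) ^ 2) * (t : ℝ) ^ 4 / 2) := by
    intro b hb
    have h1 := kernel_transfer K₁ hK₁k A₂ hA₂ G hGA
      (fun y => Real.exp (-(∑ i, (y i - b i) ^ 2) * (t : ℝ) ^ 4 / 2)) (by (clear * -; fun_prop))
    rw [← hK₂] at h1
    rw [h1, ← div_eq_inv_mul, le_div_iff₀ hdet2]
    refine le_trans (le_of_eq ?_) (hG b hb)
    rw [hvr]
    ring
  -- slices over the larger ball
  set E' : ℝ := E * ((1 + 1 / (n : ℝ)) / (1 - 1 / (n : ℝ))) ^ 2 with hE'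
  have hsl := hslice t ht2 N K₂ hK₂c hK₂k hvolK₂ hker E' hE'h hE'3
  set W : ℝ := 4 * t / c * (2 * Real.pi) ^ ((t : ℝ) / 2) * Real.exp (E' * t / 2) with hW
  have hpi : (0 : ℝ) < (2 * Real.pi) ^ ((t : ℝ) / 2) := by
    apply Real.rpow_pos_of_pos
    positivity
  have hW0 : 0 < W := by
    rw [hW]
    positivity
  have hWinv : c / (4 * t) * (2 * Real.pi) ^ (-(t : ℝ) / 2) * Real.exp (-(E' * t) / 2) = W⁻¹ := by
    rw [hW, mul_inv, mul_inv, ← Real.exp_neg, ← Real.rpow_neg (by positivity), inv_div]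
    congr 2
    · congr 1
      ring
    · ring
  rw [hWinv] at hsl
  have hvK₂r : 0 < (volume K₂).toReal := ENNReal.toReal_pos hvolK₂.ne' hK₂k.measure_lt_top.ne
  set g₂ : ℝ := W⁻¹ * (volume K₂).toReal with hg₂
  have hg₂0 : 0 < g₂ := by (clear * - ht1' hc hvK₂r; positivity)
  have hslE : ∀ b : Fin t → ℝ, ∑ i, b i ^ 2 ≤ E' * t →
      ENNReal.ofReal g₂ ≤ volume {x : Fin N → ℝ | (x, b) ∈ K₂} := by
    intro b hb
    have h1 := hsl b hb
    rw [ENNReal.ofReal_le_iff_le_toReal]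
    · exact h1
    · exact (slc_lt_top hK₂k b).ne
  have hE'0 : 0 < E' * t := by
    have : (0 : ℝ) < E' := by linarith only [hE'h]
    (clear * - hE'h ht1'; positivity)
  have hR : Real.sqrt (E' * t) ^ 2 = E' * t := Real.sq_sqrt hE'0.le
  obtain ⟨B, S, w, hB, hbd, hsimp⟩ := normalize_slices ht1' K₂ hK₂c hK₂k (Real.sqrt (E' * t))
    (Real.sqrt_pos.2 hE'0) (by
      intro b hb
      rw [hR] at hb
      exact lt_of_lt_of_le (ENNReal.ofReal_pos.2 hg₂0) (hslE b hb))
  rw [hR] at hbd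
  have haff₄ := haff₂.fiber B hB S w
  set K₄ : Set ((Fin N → ℝ) × (Fin t → ℝ)) := {q | (B.mulVec q.1 + S.mulVec q.2 + w, q.2) ∈ K₂}
    with hK₄
  have hK₄c : Convex ℝ K₄ := haff₄.convex hK₀c
  have hK₄k : IsCompact K₄ := haff₄.compact hK₀k
  have hdetB : 0 < |B.det| := abs_pos.2 hB
  have hvf := volume_fiber hK₂k B hB S w hK₄k
  rw [← hK₄] at hvf
  set g₄ : ℝ := g₂ / |B.det| with hg₄
  have hg₄0 : 0 < g₄ := by (clear * - ht1' hc hvK₂r hB; positivity)
  have hg24 : g₂ = |B.det| * g₄ := by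
    rw [hg₄]
    (clear * - hB hg₂0; field_simp)
  have hlow : ∀ b : Fin t → ℝ, ∑ i, b i ^ 2 ≤ E' * t →
      ENNReal.ofReal g₄ ≤ volume {x : Fin N → ℝ | (x, b) ∈ K₄} := by
    intro b hb
    have h1 := hslE b hb
    have h2 := slc_fiber K₂ B hB S w b
    rw [← hK₄] at h2
    unfold slc at h2
    rw [h2, hg24, ENNReal.ofReal_mul hdetB.le] at h1
    rwa [ENNReal.mul_le_mul_iff_right (by simpa only [ne_eq, ENNReal.ofReal_eq_zero, abs_nonpos_iff] using hB) ENNReal.ofReal_ne_top] at h1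
  have hvolK₄ : volume K₄ = ENNReal.ofReal (W * g₄) := by
    have h1 : (volume K₂).toReal = |B.det| * (volume K₄).toReal := by
      rw [hvf, ENNReal.toReal_mul, ENNReal.toReal_ofReal hdetB.le]
    have h2 : W * g₄ = (volume K₄).toReal := by
      rw [hg₄, hg₂, h1]
      (clear * - hW0 hB; field_simp)
    rw [h2, ENNReal.ofReal_toReal hK₄k.measure_lt_top.ne]
  obtain ⟨T, hT, hTinc⟩ := shrinkB ht1' hn2 hNn K₄ hK₄c hK₄k E E' g₄ W (by linarith only [hE'h]) le_rfl hg₄0
    hW0.le hpow hbd hsimp hlow hvolK₄.le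
  obtain ⟨A₀, v₀, hA₀, hKeq⟩ := haff₄
  refine ⟨A₀, v₀, T, g₄ / 3, hA₀, by (clear * - ht1' hc hvK₂r hB; (clear * - ht1' hc hvK₂r hB; positivity)), hT, ?_, ?_⟩
  · have h1 := volume_append {x : Fin (N + t) → ℝ | A₀.mulVec x + v₀ ∈ K₀}
    have h2 : {q : (Fin N → ℝ) × (Fin t → ℝ) |
        Fin.append q.1 q.2 ∈ {x : Fin (N + t) → ℝ | A₀.mulVec x + v₀ ∈ K₀}} = K₄ := hKeq.symm
    rw [← h1, h2, hvolK₄]
    apply ENNReal.ofReal_le_ofReal
    calc W * g₄ = 4 * t / c * (2 * Real.pi) ^ ((t : ℝ) / 2) * Real.exp (E' * t / 2) * g₄ := by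
          rw [hW]
      _ ≤ 4 * t / c * (2 * Real.pi) ^ ((t : ℝ) / 2) * (3 * Real.exp (E * t / 2)) * g₄ := by
          (clear * - hexpE ht1' hc hvK₂r hB; gcongr)
      _ = _ := by
          ring
  · intro b hb a ha x hx x' hx'
    have h1 := hTinc b hb a ha x hx x' hx'
    rw [hKeq] at h1
    exact h1

end Vale.Agent.P230
end
end
end

section

section

section

namespace Vale.Agent.P230

open MeasureTheory

theorem volume_le_of_normalized {n : ℕ} (K : Set (Fin n → ℝ)) (A : Matrix (Fin n) (Fin n) ℝ)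
    (v : Fin n → ℝ) (hA : A.det ≠ 0)
    (hb : ∀ x : Fin n → ℝ, A.mulVec x + v ∈ K → ∀ i, |x i| ≤ 1) :
    volume K ≤ ENNReal.ofReal (2 ^ n * |A.det|) := by
  classical
  set C : Set (Fin n → ℝ) := Set.pi Set.univ (fun _ => Set.Icc (-1 : ℝ) 1) with hC
  have hvC : volume C = 2 ^ n := by
    rw [hC, volume_pi_pi]
    simp only [Real.volume_Icc]
    (clear * -; norm_num)
  have hsub : K ⊆ (fun x => v + x) '' (Matrix.toLin' A '' C) := by
    intro y hy
    have hunit : IsUnit A.det := isUnit_iff_ne_zero.2 hA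
    have hy2 : A.mulVec (A⁻¹.mulVec (y - v)) + v = y := by
      rw [Matrix.mulVec_mulVec, Matrix.mul_nonsing_inv _ hunit, Matrix.one_mulVec]
      simp
    refine ⟨y - v, ⟨A⁻¹.mulVec (y - v), ?_, ?_⟩, by simp⟩
    · rw [hC, Set.mem_univ_pi]
      intro i
      have := hb (A⁻¹.mulVec (y - v)) (by rw [hy2]; exact hy) i
      rw [abs_le] at this
      exact this
    · rw [Matrix.toLin'_apply, Matrix.mulVec_mulVec, Matrix.mul_nonsing_inv _ hunit,
        Matrix.one_mulVec]
  calc volume K ≤ volume ((fun x => v + x) '' (Matrix.toLin' A '' C)) := measure_mono hsub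
    _ = volume (Matrix.toLin' A '' C) := by
        rw [Set.image_add_left, measure_preimage_add]
    _ = ENNReal.ofReal |LinearMap.det (Matrix.toLin' A)| * volume C :=
        Measure.addHaar_image_linearMap _ _ _
    _ = ENNReal.ofReal (2 ^ n * |A.det|) := by
        rw [LinearMap.det_toLin', hvC, mul_comm, ENNReal.ofReal_mul (by positivity)]
        congr 1
        rw [ENNReal.ofReal_pow (by norm_num)]
        simp

/-- TASK S -/
theorem cov_small (n : ℕ) (hn : 1 ≤ n) (c : ℝ) (hc : c ≤ 1) : Cov n c ((4 * n : ℝ) ^ n) := by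
  classical
  intro K hconv hcomp hint
  obtain ⟨A, v, hA, hin, hout⟩ := exists_normalization K hconv hcomp hint
  have hn' : (0 : ℝ) < n := by exact_mod_cast hn
  have h2n : (0 : ℝ) < 2 * n := by linarith only [hn']
  have hdet : ((2 * n : ℝ)⁻¹ • A).det = (2 * n : ℝ)⁻¹ ^ n * A.det := by
    rw [Matrix.det_smul]; simp only [mul_inv_rev, Fintype.card_fin]
  refine ⟨(2 * n : ℝ)⁻¹ • A, ?_, ?_, ?_⟩
  · rw [hdet]
    exact mul_ne_zero (pow_ne_zero _ (inv_ne_zero h2n.ne')) hA
  · refine (volume_le_of_normalized K A v hA hout).trans ?_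
    apply ENNReal.ofReal_le_ofReal
    rw [hdet, abs_mul, abs_of_nonneg (by positivity : (0 : ℝ) ≤ (2 * (n : ℝ))⁻¹ ^ n), ← mul_assoc,
      ← mul_pow]
    have : (4 * (n : ℝ)) * (2 * (n : ℝ))⁻¹ = 2 := by field_simp; norm_num
    rw [this]
  · intro y
    have hunit : IsUnit A.det := isUnit_iff_ne_zero.2 hA
    set q : Fin n → ℝ := A⁻¹.mulVec (y - v) with hq
    have hy2 : A.mulVec q + v = y := by
      rw [hq, Matrix.mulVec_mulVec, Matrix.mul_nonsing_inv _ hunit, Matrix.one_mulVec]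
      simp
    set k := ⌈c * n⌉₊ with hk
    have hkn : k ≤ n := by
      rw [hk]
      apply Nat.ceil_le.2
      nlinarith only [hc]
    set z0 : Fin n → ℤ := fun a => ⌈-(2 * n * q a)⌉ with hz0
    set z : Fin (k + 1) → Fin n → ℤ := Fin.cons z0 (fun i => z0 + Pi.single (Fin.castLE hkn i) 1) with hz
    have hlow : ∀ a, 0 ≤ q a + (2 * n : ℝ)⁻¹ * z0 a := by
      intro a
      have h1 := Int.le_ceil (-(2 * n * q a))
      have h2 : -(2 * n * q a) ≤ (z0 a : ℝ) := h1
      have h3 : q a + (2 * n : ℝ)⁻¹ * z0 a = (2 * n : ℝ)⁻¹ * (2 * n * q a + z0 a) := by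
        (clear * - hn; field_simp)
      rw [h3]
      apply mul_nonneg (by positivity)
      linarith only [h1]
    have hup : ∀ a, q a + (2 * n : ℝ)⁻¹ * z0 a ≤ (2 * n : ℝ)⁻¹ := by
      intro a
      have h1 := Int.ceil_lt_add_one (-(2 * n * q a))
      have h2 : (z0 a : ℝ) < -(2 * n * q a) + 1 := h1
      have h3 : q a + (2 * n : ℝ)⁻¹ * z0 a = (2 * n : ℝ)⁻¹ * (2 * n * q a + z0 a) := by
        field_simp
      rw [h3]
      calc (2 * n : ℝ)⁻¹ * (2 * n * q a + z0 a) ≤ (2 * n : ℝ)⁻¹ * 1 := by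
            apply mul_le_mul_of_nonneg_left _ (by positivity)
            linarith only [h1]
        _ = _ := mul_one _
    have hmem : ∀ w : Fin n → ℤ, (∀ a, z0 a ≤ w a) → (∑ a, (w a - z0 a) ≤ 1) →
        y + ((2 * n : ℝ)⁻¹ • A).mulVec (fun a => (w a : ℝ)) ∈ K := by
      intro w hw1 hw2
      have e : y + ((2 * n : ℝ)⁻¹ • A).mulVec (fun a => (w a : ℝ))
          = A.mulVec (fun a => q a + (2 * n : ℝ)⁻¹ * w a) + v := by
        have e1 : (fun a => q a + (2 * n : ℝ)⁻¹ * w a) = q + (2 * n : ℝ)⁻¹ • (fun a => (w a : ℝ)) := by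
          funext a
          simp only [mul_inv_rev, Pi.add_apply, Pi.smul_apply, smul_eq_mul]
        rw [e1, Matrix.mulVec_add, Matrix.mulVec_smul, Matrix.smul_mulVec, ← hy2]
        abel
      rw [e]
      apply hin
      · intro a
        have h1 := hlow a
        have h2 : (z0 a : ℝ) ≤ w a := by exact_mod_cast hw1 a
        have h3 : (2 * n : ℝ)⁻¹ * z0 a ≤ (2 * n : ℝ)⁻¹ * w a :=
          mul_le_mul_of_nonneg_left h2 (by positivity)
        linarith only [h1, h3]
      · have h1 : ∀ a, q a + (2 * n : ℝ)⁻¹ * w a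
            ≤ (2 * n : ℝ)⁻¹ + (2 * n : ℝ)⁻¹ * ((w a - z0 a : ℤ) : ℝ) := by
          intro a
          have := hup a
          push_cast
          linarith only [this]
        calc ∑ a, (q a + (2 * n : ℝ)⁻¹ * w a)
            ≤ ∑ a, ((2 * n : ℝ)⁻¹ + (2 * n : ℝ)⁻¹ * ((w a - z0 a : ℤ) : ℝ)) :=
              Finset.sum_le_sum (fun a _ => h1 a)
          _ = n * (2 * n : ℝ)⁻¹ + (2 * n : ℝ)⁻¹ * ((∑ a, (w a - z0 a) : ℤ) : ℝ) := by
              rw [Finset.sum_add_distrib, ← Finset.mul_sum]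
              push_cast
              simp only [mul_inv_rev, Finset.sum_const, Finset.card_univ, Fintype.card_fin, nsmul_eq_mul, Finset.sum_sub_distrib]
          _ ≤ n * (2 * n : ℝ)⁻¹ + (2 * n : ℝ)⁻¹ * 1 := by
              have : ((∑ a, (w a - z0 a) : ℤ) : ℝ) ≤ 1 := by exact_mod_cast hw2
              (clear * - this hn; gcongr)
          _ ≤ 1 := by
              have h4 : (n : ℝ) * (2 * n : ℝ)⁻¹ = 1 / 2 := by field_simp
              have h5 : (2 * n : ℝ)⁻¹ ≤ 1 / 2 := by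
                rw [inv_eq_one_div]
                apply one_div_le_one_div_of_le (by norm_num)
                have : (1 : ℝ) ≤ n := by exact_mod_cast hn
                linarith only [this]
              linarith only [h4, h5]
    refine ⟨z, ?_, ?_⟩
    · intro i
      refine Fin.cases ?_ (fun i => ?_) i
      · have : z 0 = z0 := by rw [hz]; rfl
        rw [this]
        apply hmem z0 (fun a => le_rfl)
        simp only [sub_self, Finset.sum_const_zero, zero_le_one]
      · have hzi : z i.succ = z0 + Pi.single (Fin.castLE hkn i) 1 := by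
          rw [hz, Fin.cons_succ]
        rw [hzi]
        apply hmem
        · intro a
          simp only [Pi.add_apply]
          have : (0 : ℤ) ≤ (Pi.single (Fin.castLE hkn i) (1 : ℤ) : Fin n → ℤ) a := by
            by_cases h : a = Fin.castLE hkn i
            · rw [h, Pi.single_eq_same]; norm_num
            · rw [Pi.single_eq_of_ne h]
          linarith only [this]
        · simp only [Pi.add_apply, add_sub_cancel_left]
          rw [Finset.sum_pi_single']
          simp only [Finset.mem_univ, ↓reduceIte, Std.le_refl]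
    · intro p hp _
      have : Fact p.Prime := ⟨hp⟩
      have e : (fun i : Fin k => fun a => ((z i.succ a - z 0 a : ℤ) : ZMod p))
          = (fun i : Fin k => Pi.basisFun (ZMod p) (Fin n) (Fin.castLE hkn i)) := by
        funext i a
        have hzi : z i.succ = z0 + Pi.single (Fin.castLE hkn i) 1 := by
          rw [hz, Fin.cons_succ]
        have hz00 : z 0 = z0 := by rw [hz]; rfl
        rw [hzi, hz00]
        simp only [Pi.add_apply, add_sub_cancel_left, Pi.basisFun_apply]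
        by_cases h : a = Fin.castLE hkn i
        · rw [h, Pi.single_eq_same, Pi.single_eq_same]; simp
        · rw [Pi.single_eq_of_ne h, Pi.single_eq_of_ne h]; simp
      rw [e]
      exact (Pi.basisFun (ZMod p) (Fin n)).linearIndependent.comp _ (Fin.castLE_injective hkn)

end Vale.Agent.P230
end
end
end

section

section

section

namespace Vale.Agent.P230

open MeasureTheory Finset
open scoped ENNReal

/-- choice of the number of extra dimensions -/
theorem choose_q (Q : ℝ) (hQ : 0 < Q) (L m₁ q₁ : ℕ) (hm₁ : 1 ≤ m₁) (M : ℝ) (hM : 1 ≤ M) :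
    ∃ q : ℕ, q₁ ≤ q ∧ M ≤ Real.exp (Q * (L + m₁ * q : ℕ)) ∧
      Real.exp (Q * (L + m₁ * q : ℕ)) ≤ (Real.exp (Q * m₁) + Real.exp (Q * (L + m₁ * q₁ : ℕ))) * M := by
  classical
  have hex : ∃ q : ℕ, q₁ ≤ q ∧ M ≤ Real.exp (Q * (L + m₁ * q : ℕ)) := by
    obtain ⟨k, hk⟩ := exists_nat_ge (Real.log M / Q)
    refine ⟨max q₁ k, le_max_left _ _, ?_⟩
    rw [← Real.log_le_iff_le_exp (by linarith only [hM])]
    rw [div_le_iff₀ hQ] at hk
    have h1 : (k : ℝ) ≤ ((L + m₁ * max q₁ k : ℕ) : ℝ) := by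
      have : k ≤ L + m₁ * max q₁ k := by
        calc k ≤ max q₁ k := le_max_right _ _
          _ = 1 * max q₁ k := (one_mul _).symm
          _ ≤ m₁ * max q₁ k := Nat.mul_le_mul_right _ hm₁
          _ ≤ _ := Nat.le_add_left _ _
      exact_mod_cast this
    calc Real.log M ≤ k * Q := hk
      _ ≤ ((L + m₁ * max q₁ k : ℕ) : ℝ) * Q := by gcongr
      _ = _ := mul_comm _ _
  refine ⟨Nat.find hex, (Nat.find_spec hex).1, (Nat.find_spec hex).2, ?_⟩
  set q := Nat.find hex with hq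
  rcases Nat.eq_or_lt_of_le (Nat.find_spec hex).1 with h | h
  · rw [← hq] at h
    rw [← h]
    have h1 : 0 < Real.exp (Q * m₁) := Real.exp_pos _
    have h2 : 0 < Real.exp (Q * (L + m₁ * q₁ : ℕ)) := Real.exp_pos _
    nlinarith only [h1, hM, h2]
  · rw [← hq] at h
    have h1 : ¬ (q₁ ≤ q - 1 ∧ M ≤ Real.exp (Q * (L + m₁ * (q - 1) : ℕ))) :=
      Nat.find_min hex (by omega)
    have h2 : Real.exp (Q * (L + m₁ * (q - 1) : ℕ)) < M := by
      by_contra hcon
      exact h1 ⟨by omega, not_lt.1 hcon⟩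
    have h3 : Real.exp (Q * (L + m₁ * q : ℕ)) =
        Real.exp (Q * m₁) * Real.exp (Q * (L + m₁ * (q - 1) : ℕ)) := by
      rw [← Real.exp_add]
      congr 1
      obtain ⟨k, hk⟩ : ∃ k, q = k + 1 := ⟨q - 1, by omega⟩
      rw [hk, Nat.add_sub_cancel]
      push_cast
      ring
    rw [h3]
    have h4 : 0 < Real.exp (Q * m₁) := Real.exp_pos _
    have h5 : 0 < Real.exp (Q * (L + m₁ * q₁ : ℕ)) := Real.exp_pos _
    calc Real.exp (Q * m₁) * Real.exp (Q * (L + m₁ * (q - 1) : ℕ))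
        ≤ Real.exp (Q * m₁) * M := by (clear * - h2; gcongr)
      _ ≤ _ := by
        apply mul_le_mul_of_nonneg_right _ (by linarith only [hM])
        linarith only [h5]

/-- cube of the logarithm against the square root -/
theorem log_cube_le (Q C x : ℝ) (hQ : 0 < Q) (hC : 0 < C) (hx : 0 < x)
    (hbig : (216 / Q ^ 3) ^ 2 * C ≤ x) (t : ℝ) (ht0 : 0 ≤ t) (ht : Q * t ≤ Real.log (C * x)) :
    t ^ 3 ≤ x := by
  have h1 : Real.log (C * x) ≤ (C * x) ^ (1 / 6 : ℝ) / (1 / 6) :=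
    Real.log_le_rpow_div (by positivity) (by norm_num)
  have h2 : Q * t ≤ 6 * (C * x) ^ (1 / 6 : ℝ) := by
    refine ht.trans (h1.trans (le_of_eq ?_))
    ring
  have h3 : (Q * t) ^ 3 ≤ 216 * (C * x) ^ (1 / 2 : ℝ) := by
    calc (Q * t) ^ 3 ≤ (6 * (C * x) ^ (1 / 6 : ℝ)) ^ 3 := by gcongr
      _ = 216 * ((C * x) ^ (1 / 6 : ℝ)) ^ 3 := by ring
      _ = 216 * (C * x) ^ (1 / 2 : ℝ) := by
        rw [← Real.rpow_natCast, ← Real.rpow_mul (by positivity)]
        norm_num
  have h4 : (C * x) ^ (1 / 2 : ℝ) = Real.sqrt (C * x) := (Real.sqrt_eq_rpow _).symm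
  rw [h4] at h3
  have h5 : t ^ 3 ≤ 216 / Q ^ 3 * Real.sqrt (C * x) := by
    rw [div_mul_eq_mul_div, le_div_iff₀ (by positivity)]
    calc t ^ 3 * Q ^ 3 = (Q * t) ^ 3 := by ring
      _ ≤ _ := h3
  have h6 : 216 / Q ^ 3 * Real.sqrt (C * x) ≤ x := by
    have h7 : Real.sqrt (C * x) ≤ x / (216 / Q ^ 3) := by
      apply Real.sqrt_le_iff.2
      constructor
      · positivity
      · rw [div_pow, le_div_iff₀ (by positivity)]
        calc C * x * (216 / Q ^ 3) ^ 2 = ((216 / Q ^ 3) ^ 2 * C) * x := by ring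
          _ ≤ x * x := by (clear * - hbig hx; gcongr)
          _ = x ^ 2 := by ring
    calc 216 / Q ^ 3 * Real.sqrt (C * x) ≤ 216 / Q ^ 3 * (x / (216 / Q ^ 3)) := by (clear * - h7 hQ; gcongr)
      _ = x := by (clear * - hQ hx; field_simp)
  exact h5.trans h6

theorem cov_tree : ∃ C : ℝ, 0 < C ∧ ∃ n₀ : ℕ, ∀ n ≥ n₀,
    Cov n 0 (C * n * (Real.log n) ^ (1.05 : ℝ)) := by
  obtain ⟨c₂, c₃, c₄, hc₂, hc₃, hc₄, hc₄1, N₀, hbase⟩ := baseAt_of_single
  obtain ⟨n₁, hnum⟩ := exists_stepNumT c₂ c₃ hc₂ hc₃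
  obtain ⟨Cb, hCb, t₀, hball⟩ := ball_shrink
  obtain ⟨Q, V, E, hQ, hVQ, hE1, hE2, L, m₁, q₀, hm₁, htree⟩ := tree_lattice
  set q₁ : ℕ := max (max q₀ t₀) 1 with hq₁
  set C₅ : ℝ := Real.exp (Q * m₁) + Real.exp (Q * (L + m₁ * q₁ : ℕ)) with hC₅
  have hC₅0 : 0 < C₅ := by positivity
  set C₇ : ℝ := C₅ * (28 / c₃ + 1) with hC₇
  have hC₇0 : 0 < C₇ := by (clear * - hc₃; positivity)
  have htend : Filter.Tendsto (fun n : ℕ => Real.log (n : ℝ)) Filter.atTop Filter.atTop :=
    Real.tendsto_log_atTop.comp tendsto_natCast_atTop_atTop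
  have hev := (htend.eventually_ge_atTop (max ((216 / Q ^ 3) ^ 2 * C₇) 1)).and
    (Filter.eventually_ge_atTop (max n₁ (2 * N₀ + 10)))
  obtain ⟨n₀, hn₀⟩ := Filter.eventually_atTop.1 hev
  refine ⟨3 * c₂ * Cb * (1000 / Q) * C₇ ^ (1.05 : ℝ), by positivity, n₀, ?_⟩
  intro n hn
  obtain ⟨hlogbig, hnbig⟩ := hn₀ n hn
  have hn1 : n₁ ≤ n := (le_max_left _ _).trans hnbig
  have hnN : 2 * N₀ + 10 ≤ n := (le_max_right _ _).trans hnbig
  have hlog1 : 1 ≤ Real.log n := (le_max_right _ _).trans hlogbig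
  have hlogC : (216 / Q ^ 3) ^ 2 * C₇ ≤ Real.log n := (le_max_left _ _).trans hlogbig
  have hnpos : (0 : ℝ) < n := by
    have : 0 < n := by (clear * - hnN; omega)
    exact_mod_cast this
  set x : ℝ := Real.log n with hx
  have hx0 : 0 < x := by linarith only [hlog1]
  obtain ⟨q, hqq, hqM, hqC⟩ := choose_q Q hQ L m₁ q₁ hm₁ (28 * x / c₃ + 1) (by
    have : 0 ≤ 28 * x / c₃ := by positivity
    linarith only [this])
  set t : ℕ := L + m₁ * q with ht
  have hq1 : 1 ≤ q := (le_max_right _ _).trans hqq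
  have hqt : q ≤ t := by
    rw [ht]
    calc q = 1 * q := (one_mul _).symm
      _ ≤ m₁ * q := Nat.mul_le_mul_right _ hm₁
      _ ≤ _ := Nat.le_add_left _ _
  have ht1 : 1 ≤ t := hq1.trans hqt
  have htr : (1 : ℝ) ≤ t := by exact_mod_cast ht1
  have hexpQ : Real.exp (Q * t) ≤ C₇ * x := by
    refine hqC.trans ?_
    rw [hC₇, mul_assoc]
    apply mul_le_mul_of_nonneg_left _ hC₅0.le
    calc 28 * x / c₃ + 1 ≤ 28 * x / c₃ + x := by linarith only [hlog1]
      _ = (28 / c₃ + 1) * x := by ring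
  have hQt : Q * t ≤ Real.log (C₇ * x) := by
    rw [Real.le_log_iff_exp_le (by (clear * - hc₃ hlog1; positivity))]
    exact hexpQ
  have ht3 : (t : ℝ) ^ 3 ≤ x := log_cube_le Q C₇ x hQ hC₇0 hx0 hlogC t (by linarith only []) hQt
  have htx : (t : ℝ) ≤ x := by
    refine le_trans ?_ ht3
    calc (t : ℝ) = t ^ 1 := (pow_one _).symm
      _ ≤ (t : ℝ) ^ 3 := pow_le_pow_right₀ htr (by norm_num)
  have hexp3 : Real.exp ((t : ℝ) ^ 3) ≤ n := by
    rw [← Real.le_log_iff_exp_le hnpos]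
    exact ht3
  have htn : 2 * t ≤ n := by
    have h1 : (t : ℝ) ≤ n / 2 := by
      have h2 : (2 : ℝ) * x ≤ n := by
        have h3 : Real.log (n / 2 : ℝ) ≤ n / 2 - 1 := Real.log_le_sub_one_of_pos (by (clear * - hnpos; positivity))
        rw [Real.log_div hnpos.ne' (by norm_num), ← hx] at h3
        have h4 := Real.log_two_lt_d9
        linarith only [h3, h4]
      linarith only [htx, h2]
    have h2 : (2 : ℝ) * t ≤ n := by linarith only [h1]
    exact_mod_cast h2
  obtain ⟨N, hN⟩ : ∃ N, N + t = n := ⟨n - t, by (clear * - ht1 htn; omega)⟩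
  have hNN₀ : N₀ ≤ N := by omega
  set m : ℕ := ⌈28 * x / c₃⌉₊ with hm
  have hm28 : 28 * Real.log n / c₃ ≤ m := Nat.le_ceil _
  have hs := hnum n hn1 t N m ht1 htx hN hm28
  obtain ⟨ML, hML, hdet, hP⟩ := htree q ((le_max_left _ _).trans ((le_max_left _ _).trans hqq)) t ht
  set ρ : ℝ := 1 / (8 * Real.sqrt t * (n : ℝ) ^ 2) with hρ
  set W : ℝ := Cb * t * (2 * Real.pi) ^ ((t : ℝ) / 2) * Real.exp (E * t / 2) with hW
  have hW0 : 0 ≤ W := by (clear * - hCb hm₁ hq1; positivity)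
  have hballdata : BallData N t n E ρ W := by
    intro K₀ h1 h2 h3
    have ht₀ : t₀ ≤ t := ((le_max_right _ _).trans ((le_max_left _ _).trans hqq)).trans hqt
    obtain ⟨A₀, v₀, T, g, hA₀, hg, hT, hvol, hkey⟩ :=
      hball t ht₀ N n hN hexp3 E hE1 hE2 K₀ h1 h2 h3
    exact ⟨A₀, v₀, T, g, hA₀, hg, hT, hvol, hkey⟩
  have htreedata : TreeData t m E ML := by
    intro y
    obtain ⟨z₀, P, h1, h2, h3⟩ := hP y
    refine ⟨z₀, P, ?_, h2, h3⟩
    have h4 : (m : ℝ) ≤ P.card := by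
      refine le_trans ?_ h1
      refine le_trans ?_ hqM
      exact (Nat.ceil_lt_add_one (by (clear * - hlog1 hc₃; positivity))).le
    exact_mod_cast h4
  have hcov := step_tree hs (hbase N hNN₀) hW0 hballdata ML hML htreedata
  refine hcov.mono ?_
  have hdetpos : 0 < |ML.det| := abs_pos.2 hML
  have hNn : (N : ℝ) ≤ n := by
    have : N ≤ n := by omega
    exact_mod_cast this
  rw [div_le_iff₀ hdetpos]
  have hexpV : Real.exp (V * t) ≤ (C₇ * x) ^ (1.049 : ℝ) := by
    calc Real.exp (V * t) ≤ Real.exp (Q * t * 1.049) := by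
          apply Real.exp_le_exp.2
          calc V * t ≤ (1.049 * Q) * t := by (clear * - hVQ hm₁ hq1; gcongr)
            _ = Q * t * 1.049 := by ring
      _ = (Real.exp (Q * t)) ^ (1.049 : ℝ) := Real.exp_mul _ _
      _ ≤ (C₇ * x) ^ (1.049 : ℝ) := Real.rpow_le_rpow (Real.exp_pos _).le hexpQ (by norm_num)
  have htlog : (t : ℝ) ≤ 1000 / Q * (C₇ * x) ^ (0.001 : ℝ) := by
    have h1 : Real.log (C₇ * x) ≤ (C₇ * x) ^ (0.001 : ℝ) / 0.001 :=
      Real.log_le_rpow_div (by (clear * - hc₃ hlog1; positivity)) (by norm_num)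
    rw [div_mul_eq_mul_div, le_div_iff₀ hQ]
    calc (t : ℝ) * Q = Q * t := mul_comm _ _
      _ ≤ Real.log (C₇ * x) := hQt
      _ ≤ (C₇ * x) ^ (0.001 : ℝ) / 0.001 := h1
      _ = 1000 * (C₇ * x) ^ (0.001 : ℝ) := by ring
  have hprod : (t : ℝ) * Real.exp (V * t) ≤ 1000 / Q * (C₇ ^ (1.05 : ℝ) * x ^ (1.05 : ℝ)) := by
    calc (t : ℝ) * Real.exp (V * t)
        ≤ (1000 / Q * (C₇ * x) ^ (0.001 : ℝ)) * (C₇ * x) ^ (1.049 : ℝ) := by (clear * - htlog hexpV hQ hc₃ hlog1; gcongr)
      _ = 1000 / Q * ((C₇ * x) ^ (0.001 : ℝ) * (C₇ * x) ^ (1.049 : ℝ)) := by ring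
      _ = 1000 / Q * (C₇ * x) ^ (1.05 : ℝ) := by
          rw [← Real.rpow_add (by positivity)]
          norm_num
      _ = _ := by
          rw [Real.mul_rpow hC₇0.le hx0.le]
  calc 3 * c₂ * N * W = 3 * c₂ * N * Cb * t *
        ((2 * Real.pi) ^ ((t : ℝ) / 2) * Real.exp (E * t / 2)) := by
        rw [hW]
        ring
    _ ≤ 3 * c₂ * n * Cb * t * (Real.exp (V * t) * |ML.det|) := by
        (clear * - hNn hc₂ hCb hm₁ hq1 hdet hnpos; gcongr)
    _ = 3 * c₂ * n * Cb * (t * Real.exp (V * t)) * |ML.det| := by ring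
    _ ≤ 3 * c₂ * n * Cb * (1000 / Q * (C₇ ^ (1.05 : ℝ) * x ^ (1.05 : ℝ))) * |ML.det| := by
        (clear * - hprod hc₂ hnpos hCb hML; gcongr)
    _ = 3 * c₂ * Cb * (1000 / Q) * C₇ ^ (1.05 : ℝ) * n * x ^ (1.05 : ℝ) * |ML.det| := by ring

theorem ThetaL_le_105 : ∃ C : ℝ, 0 < C ∧ ∀ n : ℕ, 2 ≤ n →
    ThetaL n ≤ ENNReal.ofReal (C * n * (Real.log n) ^ (1.05 : ℝ)) := by
  obtain ⟨C, hC, n₀, h⟩ := cov_tree
  have hlog2 : 0 < Real.log 2 := Real.log_pos (by norm_num)
  set B : ℝ := (4 * (n₀ + 1) : ℝ) ^ (n₀ + 1) / (Real.log 2) ^ (1.05 : ℝ) with hB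
  have hB0 : 0 < B := by positivity
  refine ⟨C + B, by positivity, fun n hn => ?_⟩
  have hn1 : (1 : ℝ) ≤ n := by
    have : 1 ≤ n := by omega
    exact_mod_cast this
  have hn2 : (2 : ℝ) ≤ n := by exact_mod_cast hn
  have hlogn : Real.log 2 ≤ Real.log n := Real.log_le_log (by norm_num) hn2
  have hp : 0 ≤ (Real.log n) ^ (1.05 : ℝ) := by (clear * -; positivity)
  rcases le_or_gt n₀ n with h1 | h1
  · refine (ThetaL_le_of_cov (by omega) (h n h1)).trans (ENNReal.ofReal_le_ofReal ?_)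
    calc C * n * (Real.log n) ^ (1.05 : ℝ) ≤ (C + B) * n * (Real.log n) ^ (1.05 : ℝ) := by
          gcongr
          linarith only [hB0]
      _ = _ := rfl
  · refine (ThetaL_le_of_cov (by omega) (cov_small n (by omega) 1 le_rfl)).trans
      (ENNReal.ofReal_le_ofReal ?_)
    have h2 : (n : ℝ) ≤ n₀ + 1 := by
      have : n ≤ n₀ + 1 := by (clear * - h1; omega)
      exact_mod_cast this
    calc (4 * n : ℝ) ^ n ≤ (4 * (n₀ + 1) : ℝ) ^ n := by gcongr
      _ ≤ (4 * (n₀ + 1) : ℝ) ^ (n₀ + 1) := by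
          apply pow_le_pow_right₀
          · have : (0 : ℝ) ≤ n₀ := Nat.cast_nonneg _
            linarith only []
          · omega
      _ = B * 1 * (Real.log 2) ^ (1.05 : ℝ) := by
          rw [hB]
          (clear * -; field_simp)
      _ ≤ (C + B) * n * (Real.log n) ^ (1.05 : ℝ) := by
          gcongr
          linarith only [hC]

end Vale.Agent.P230
end
end
end
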